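import Crest.Agent.R347.Defs

/-! Row 347: scalar lemmas for the soundness of the sector checker. -/

set_option autoImplicit false
open Matrix Finset

namespace Crest.Agent.R347.SecAux

/-! ### roundings -/

theorem le_rup (x : ℚ) : (x : ℝ) ≤ rup x := by
  have : x ≤ rup x := by
    rw [rup, le_div_iff₀ (by positivity)]
    exact Int.le_ceil _
  exact_mod_cast this

theorem rdn_le (x : ℚ) : (rdn x : ℝ) ≤ x := by
  have : rdn x ≤ x := by
    rw [rdn, div_le_iff₀ (by positivity)]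
    exact Int.floor_le _
  exact_mod_cast this

theorem rdn_nonneg {x : ℚ} (h : (0 : ℝ) ≤ x) : (0 : ℝ) ≤ rdn x := by
  have h' : 0 ≤ x := by exact_mod_cast h
  have : 0 ≤ rdn x :=
    div_nonneg (by exact_mod_cast Int.floor_nonneg.2 (by positivity)) (by positivity)
  exact_mod_cast this

theorem squ_step {x : ℚ} {t : ℝ} (h : Real.exp t ≤ x) : Real.exp (2 * t) ≤ squ x := by
  refine le_trans ?_ (le_rup _)
  rw [two_mul, Real.exp_add, Rat.cast_mul]
  exact mul_self_le_mul_self (Real.exp_pos t).le h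

theorem sqd_step {x : ℚ} {t : ℝ} (h : (0 : ℝ) ≤ x ∧ x ≤ Real.exp t) :
    (0 : ℝ) ≤ sqd x ∧ sqd x ≤ Real.exp (2 * t) := by
  refine ⟨rdn_nonneg (by rw [Rat.cast_mul]; exact mul_self_nonneg _), (rdn_le _).trans ?_⟩
  rw [two_mul, Real.exp_add, Rat.cast_mul]
  exact mul_self_le_mul_self h.1 h.2

theorem abs_exp_sub_tay {y : ℚ} (hy : |y| ≤ 64) :
    |(y : ℝ) / 64| ≤ 1 ∧ |Real.exp (y / 64) - tay (y / 64)| ≤ 1 / 2 ^ 36 := by
  have h1 : |(y : ℝ) / 64| ≤ 1 := by
    have : |(y : ℝ)| ≤ 64 := by exact_mod_cast hy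
    rw [abs_div, abs_of_pos (by norm_num : (0 : ℝ) < 64), div_le_one (by norm_num)]
    exact this
  refine ⟨h1, ?_⟩
  have h2 := Real.exp_bound h1 (n := 14) (by norm_num)
  have h3 : ∑ m ∈ range 14, ((y : ℝ) / 64) ^ m / m.factorial = tay (y / 64) := by
    simp only [tay, sum_range_succ, sum_range_zero, Nat.factorial]
    push_cast
    ring
  rw [h3] at h2
  refine h2.trans ((mul_le_of_le_one_left (by positivity)
    (pow_le_one₀ (abs_nonneg _) h1)).trans ?_)
  norm_num [Nat.factorial]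

/-! ### polynomials as lists -/

/-- Real evaluation. -/
def rev (p : List ℚ) (t : ℝ) : ℝ := p.foldr (fun c r => c + t * r) 0

@[simp] theorem rev_nil (t : ℝ) : rev [] t = 0 := rfl

@[simp] theorem rev_cons (c : ℚ) (p : List ℚ) (t : ℝ) : rev (c :: p) t = c + t * rev p t := rfl

theorem cast_pev (p : List ℚ) (t : ℚ) : (pev p t : ℝ) = rev p t := by
  induction p with
  | nil => simp [pev]
  | cons c p ih =>
    rw [rev_cons, ← ih]
    simp [pev]

theorem rev_padd (p q : List ℚ) (t : ℝ) : rev (padd p q) t = rev p t + rev q t := by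
  induction p generalizing q with
  | nil => simp [padd]
  | cons a p ih =>
    cases q with
    | nil => simp [padd]
    | cons b q =>
      simp only [padd, rev_cons, ih, Rat.cast_add]
      ring

theorem rev_map (a : ℚ) (q : List ℚ) (t : ℝ) : rev (q.map (a * ·)) t = a * rev q t := by
  induction q with
  | nil => simp
  | cons b q ih =>
    simp only [List.map_cons, rev_cons, ih, Rat.cast_mul]
    ring

theorem rev_pmul (p q : List ℚ) (t : ℝ) : rev (pmul p q) t = rev p t * rev q t := by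
  induction p with
  | nil => simp [pmul]
  | cons a p ih =>
    simp only [pmul, rev_padd, rev_map, rev_cons, ih, Rat.cast_zero]
    ring

theorem rev_psh (a : ℚ) (p : List ℚ) (t : ℝ) : rev (psh a p) t = rev p (a - t) := by
  induction p with
  | nil => simp [psh]
  | cons c p ih =>
    simp only [psh, rev_padd, rev_pmul, rev_cons, ih, rev_nil]
    push_cast
    ring

theorem rev_nonneg {p : List ℚ} (hp : ∀ c ∈ p, 0 ≤ c) {t : ℝ} (ht : 0 ≤ t) : 0 ≤ rev p t := by
  induction p with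
  | nil => exact le_rfl
  | cons c p ih =>
    exact add_nonneg (by exact_mod_cast hp c List.mem_cons_self)
      (mul_nonneg ht (ih fun c hc => hp c (List.mem_cons_of_mem _ hc)))

theorem rev_mono {p : List ℚ} (hp : ∀ c ∈ p, 0 ≤ c) {t t' : ℝ} (ht : 0 ≤ t) (h : t ≤ t') :
    rev p t ≤ rev p t' := by
  induction p with
  | nil => exact le_rfl
  | cons c p ih =>
    have hp' : ∀ c ∈ p, 0 ≤ c := fun c hc => hp c (List.mem_cons_of_mem _ hc)
    exact add_le_add le_rfl (mul_le_mul h (ih hp') (rev_nonneg hp' ht) (ht.trans h))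

theorem rev_pos {p : List ℚ} (hp : ∀ c ∈ p, 0 ≤ c) (h0 : 0 < p.headD 0) {t : ℝ} (ht : 0 ≤ t) :
    0 < rev p t := by
  cases p with
  | nil => simp at h0
  | cons c p =>
    exact add_pos_of_pos_of_nonneg (by exact_mod_cast h0)
      (mul_nonneg ht (rev_nonneg (fun c hc => hp c (List.mem_cons_of_mem _ hc)) ht))

theorem rev_eq_zero {p : List ℚ} (hp : ∀ c ∈ p, c = 0) (t : ℝ) : rev p t = 0 := by
  induction p with
  | nil => rfl
  | cons c p ih =>
    rw [rev_cons, ih fun c hc => hp c (List.mem_cons_of_mem _ hc), hp c List.mem_cons_self]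
    simp

variable {ι : Type}

theorem sum_rev (I : Finset ι) (ν : ι → ℝ) (q mom : List ℚ) (wt : ι → ℝ)
    (hm : ∀ j (hj : j < mom.length), ∑ i ∈ I, wt i * ν i ^ j = mom[j])
    (hq : ∀ c ∈ q.drop mom.length, c = 0) : ∑ i ∈ I, wt i * rev q (ν i) = pdot q mom := by
  induction q generalizing mom wt with
  | nil => simp [pdot]
  | cons a q ih =>
    cases mom with
    | nil => simp [pdot, rev_eq_zero (p := a :: q) hq]
    | cons b mom =>
      have h0 := hm 0 (by simp)
      have h1 := ih mom (fun i => wt i * ν i) (fun j hj => by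
        have := hm (j + 1) (by simpa using hj)
        simpa only [pow_succ', ← mul_assoc, List.getElem_cons_succ] using this) hq
      simp only [pow_zero, mul_one, List.getElem_cons_zero] at h0
      simp only [pdot, rev_cons, Rat.cast_add, Rat.cast_mul, ← h0, ← h1, mul_sum,
        ← sum_add_distrib]
      exact sum_congr rfl fun i _ => by ring

/-! ### clusters -/

/-- The atom `i` belongs to the cluster `c`. -/
def InCl (ν z : ι → ℝ) (c : Cl) (i : ι) : Prop := z i = c.ε ∧ |ν i - c.ρ| ≤ c.s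

open Classical in
theorem exists_rest (ν z : ι → ℝ) (cl : List Cl) (I : Finset ι)
    (hd : cl.Pairwise fun c c' => c.ρ + c.s < c'.ρ - c'.s)
    (hc : ∀ c ∈ cl, c.r ≤ (I.filter (InCl ν z c)).card) :
    ∃ Rm ⊆ I, ∀ (g : ι → ℝ) (T : Cl → ℚ),
      ((∀ c ∈ cl, ∃ b : ℝ, T c = c.r * b ∧ ∀ i, InCl ν z c i → b ≤ g i) →
        ((cl.map T).sum : ℚ) + ∑ i ∈ Rm, g i ≤ ∑ i ∈ I, g i) ∧
      ((∀ c ∈ cl, ∃ b : ℝ, T c = c.r * b ∧ ∀ i, InCl ν z c i → g i ≤ b) →
        ∑ i ∈ I, g i ≤ ((cl.map T).sum : ℚ) + ∑ i ∈ Rm, g i) := by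
  induction cl generalizing I with
  | nil => exact ⟨I, Subset.rfl, by simp⟩
  | cons c cl ih =>
    rw [List.pairwise_cons] at hd
    obtain ⟨S, hS, hcard⟩ := exists_subset_card_eq (hc c List.mem_cons_self)
    have hSI : S ⊆ I := hS.trans (filter_subset _ _)
    obtain ⟨Rm, h1, h2⟩ := ih (I \ S) hd.2 fun c' hc' => by
      refine (hc c' (List.mem_cons_of_mem _ hc')).trans (card_le_card fun i hi => ?_)
      rw [mem_filter] at hi ⊢
      refine ⟨mem_sdiff.2 ⟨hi.1, fun hiS => ?_⟩, hi.2⟩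
      have h3 := (abs_le.1 (mem_filter.1 (hS hiS)).2.2).2
      have h4 := (abs_le.1 hi.2.2).1
      have h5 : (c.ρ : ℝ) + c.s < c'.ρ - c'.s := by exact_mod_cast hd.1 c' hc'
      linarith
    refine ⟨Rm, h1.trans sdiff_subset, fun g T => ⟨fun h => ?_, fun h => ?_⟩⟩
    · obtain ⟨b, hb, hb'⟩ := h c List.mem_cons_self
      have h3 := (h2 g T).1 fun c hc => h c (List.mem_cons_of_mem _ hc)
      have h4 := card_nsmul_le_sum S g b fun i hi => hb' i (mem_filter.1 (hS hi)).2
      rw [hcard, nsmul_eq_mul] at h4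
      rw [List.map_cons, List.sum_cons, Rat.cast_add, hb, ← sum_sdiff hSI]
      linarith
    · obtain ⟨b, hb, hb'⟩ := h c List.mem_cons_self
      have h3 := (h2 g T).2 fun c hc => h c (List.mem_cons_of_mem _ hc)
      have h4 := sum_le_card_nsmul S g b fun i hi => hb' i (mem_filter.1 (hS hi)).2
      rw [hcard, nsmul_eq_mul] at h4
      rw [List.map_cons, List.sum_cons, Rat.cast_add, hb, ← sum_sdiff hSI]
      linarith

theorem re_star_dot [Fintype ι] (v : ι → ℂ) : (star v ⬝ᵥ v).re = ∑ i, ‖v i‖ ^ 2 := by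
  simp only [dotProduct, Pi.star_apply, Complex.re_sum]
  refine sum_congr rfl fun i _ => ?_
  rw [Complex.star_def, Complex.conj_mul', ← Complex.ofReal_pow, Complex.ofReal_re]

/-- Orthogonal approximate eigenvectors of a diagonal matrix. -/
theorem le_card_of_approx [Fintype ι] {r : ℕ} (y : Fin r → ι → ℂ) (d : ι → ℝ) {s : ℝ} (hs : 0 ≤ s)
    (G : Finset ι) (ho : ∀ k l, k ≠ l → star (y k) ⬝ᵥ y l = 0) (h0 : ∀ k, y k ≠ 0)
    (hG : ∀ i, i ∉ G → (∀ k, y k i = 0) ∨ s < |d i|)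
    (hr : ∀ k, r * ∑ i, d i ^ 2 * ‖y k i‖ ^ 2 ≤ s ^ 2 * ∑ i, ‖y k i‖ ^ 2) : r ≤ G.card := by
  by_contra hlt
  let φ : (Fin r → ℂ) →ₗ[ℂ] (G → ℂ) :=
    LinearMap.pi fun i => ∑ k, (y k i) • LinearMap.proj k
  obtain ⟨a, ha, ha0⟩ := (Submodule.ne_bot_iff _).1 (LinearMap.ker_ne_bot_of_finrank_lt (f := φ)
    (by simpa using hlt))
  set w : ι → ℂ := ∑ k, a k • y k with hw
  have hwi : ∀ i, w i = ∑ k, a k * y k i := fun i => by simp [hw]
  have hwG : ∀ i ∈ G, w i = 0 := fun i hi => by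
    have := congrFun (LinearMap.mem_ker.1 ha) ⟨i, hi⟩
    simpa [φ, hwi, mul_comm] using this
  have h1 : ∑ i, ‖w i‖ ^ 2 = ∑ k, ‖a k‖ ^ 2 * ∑ i, ‖y k i‖ ^ 2 := by
    rw [← re_star_dot, hw, star_sum, sum_dotProduct, Complex.re_sum]
    refine sum_congr rfl fun k _ => ?_
    rw [dotProduct_sum, sum_eq_single k (fun l _ hl => by
      rw [star_smul, smul_dotProduct, dotProduct_smul, ho k l hl.symm, smul_zero, smul_zero])
      (by simp), re_star_dot, mul_sum]
    exact sum_congr rfl fun i _ => by simp [mul_pow]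
  have h2 : ∑ i, d i ^ 2 * ‖w i‖ ^ 2 ≤ s ^ 2 * ∑ i, ‖w i‖ ^ 2 := by
    calc _ ≤ ∑ i, d i ^ 2 * (r * ∑ k, ‖a k‖ ^ 2 * ‖y k i‖ ^ 2) := by
          refine sum_le_sum fun i _ => mul_le_mul_of_nonneg_left ?_ (sq_nonneg _)
          have h3 := sq_sum_le_card_mul_sum_sq (s := univ) (f := fun k => ‖a k * y k i‖)
          simp only [card_univ, Fintype.card_fin, norm_mul, mul_pow] at h3
          refine le_trans (pow_le_pow_left₀ (norm_nonneg _) ?_ 2) h3
          rw [hwi]
          simpa using norm_sum_le univ fun k => a k * y k i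
      _ = ∑ k, ‖a k‖ ^ 2 * (r * ∑ i, d i ^ 2 * ‖y k i‖ ^ 2) := by
          simp only [mul_sum]
          rw [sum_comm]
          exact sum_congr rfl fun k _ => sum_congr rfl fun i _ => by ring
      _ ≤ ∑ k, ‖a k‖ ^ 2 * (s ^ 2 * ∑ i, ‖y k i‖ ^ 2) :=
          sum_le_sum fun k _ => mul_le_mul_of_nonneg_left (hr k) (sq_nonneg _)
      _ = _ := by
          rw [h1, mul_sum]
          exact sum_congr rfl fun k _ => by ring
  have h3 : ∀ i, w i ≠ 0 → s ^ 2 < d i ^ 2 := fun i hi => by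
    rcases hG i (fun h => hi (hwG i h)) with h | h
    · exact absurd (by simp [hwi, h]) hi
    · rw [← sq_abs (d i)]
      exact pow_lt_pow_left₀ h hs two_ne_zero
  obtain ⟨i, hi⟩ : ∃ i, w i ≠ 0 := by
    by_contra hc
    push Not at hc
    obtain ⟨k, hk⟩ := Function.ne_iff.1 ha0
    obtain ⟨i, hi⟩ := Function.ne_iff.1 (h0 k)
    have h4 : 0 < ∑ k, ‖a k‖ ^ 2 * ∑ i, ‖y k i‖ ^ 2 :=
      sum_pos' (fun _ _ => by positivity) ⟨k, mem_univ _, mul_pos (pow_pos (norm_pos_iff.2 hk) 2)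
        (sum_pos' (fun _ _ => by positivity) ⟨i, mem_univ _, pow_pos (norm_pos_iff.2 hi) 2⟩)⟩
    rw [← h1] at h4
    simp [hc] at h4
  refine h2.not_gt ?_
  rw [mul_sum]
  refine sum_lt_sum (fun j _ => ?_)
    ⟨i, mem_univ _, mul_lt_mul_of_pos_right (h3 i hi) (pow_pos (norm_pos_iff.2 hi) 2)⟩
  by_cases hj : w j = 0
  · simp [hj]
  · exact mul_le_mul_of_nonneg_right (h3 j hj).le (sq_nonneg _)

/-! ### Abel summation -/

open Classical in
theorem card_mul_le {Rm : Finset ι} {ν : ι → ℝ} {p : List ℚ} (hp : ∀ c ∈ p, 0 ≤ c) {A w t : ℝ}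
    (hw : ∑ i ∈ Rm, rev p (A - ν i) ^ 2 ≤ w) (ht : 0 ≤ t) :
    (Rm.filter fun i => ν i ≤ A - t).card * rev p t ^ 2 ≤ w := by
  rw [← nsmul_eq_mul]
  refine (card_nsmul_le_sum _ (fun i => rev p (A - ν i) ^ 2) _ fun i hi => ?_).trans
    ((sum_le_sum_of_subset_of_nonneg (filter_subset _ _) fun _ _ _ => sq_nonneg _).trans hw)
  exact pow_le_pow_left₀ (rev_nonneg hp ht) (rev_mono hp ht (by linarith [(mem_filter.1 hi).2])) 2

theorem sum_le_abel {Rm : Finset ι} {ν : ι → ℝ} {p : List ℚ} (hp : ∀ c ∈ p, 0 ≤ c)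
    (h0 : 0 < p.headD 0) {A β E : ℝ} {δ w d q : ℚ} (hβ : 0 ≤ β) (hδ : (0 : ℝ) ≤ δ)
    (hw : ∑ i ∈ Rm, rev p (A - ν i) ^ 2 ≤ w) (hd : (Rm.card : ℝ) ≤ d)
    (hq : Real.exp (-(β * δ)) ≤ q) (k : ℕ) (e : ℚ) (he : Real.exp (-(β * (A - k * δ + E))) ≤ e) :
    ∑ i ∈ Rm, min (e : ℝ) (Real.exp (-(β * (ν i + E)))) ≤ abel p δ w d q k e := by
  classical
  induction k generalizing e with
  | zero =>
    refine (sum_le_card_nsmul _ _ (e : ℝ) fun i _ => min_le_left _ _).trans ?_
    rw [nsmul_eq_mul, abel, Rat.cast_mul, mul_comm]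
    exact mul_le_mul_of_nonneg_left hd ((Real.exp_pos _).le.trans he)
  | succ k ih =>
    have he' : Real.exp (-(β * (A - k * δ + E))) ≤ rup (e * q) := by
      refine le_trans ?_ (le_rup _)
      rw [Rat.cast_mul]
      refine le_trans (le_of_eq ?_) (mul_le_mul he hq (Real.exp_pos _).le
        ((Real.exp_pos _).le.trans he))
      rw [← Real.exp_add]
      push_cast
      ring_nf
    have hk : (0 : ℝ) ≤ k * δ := by positivity
    have h1 := card_mul_le hp hw hk
    rw [← le_div_iff₀ (pow_pos (rev_pos hp h0 hk) 2)] at h1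
    have h2 := le_rup (max 0 (e - rup (e * q)) * w / pev p (k * δ) ^ 2)
    push_cast [cast_pev] at h2
    have h3 := mul_le_mul_of_nonneg_left h1 (le_max_left 0 ((e : ℝ) - rup (e * q)))
    rw [abel, Rat.cast_add]
    calc _ ≤ ∑ i ∈ Rm, ((if ν i ≤ A - k * δ then max 0 ((e : ℝ) - rup (e * q)) else 0) +
          min (rup (e * q) : ℝ) (Real.exp (-(β * (ν i + E))))) := by
          refine sum_le_sum fun i _ => ?_
          split_ifs with h
          · rw [add_min]
            refine le_min ((min_le_left _ _).trans ?_) ((min_le_right _ _).trans ?_)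
            · linarith [le_max_right 0 ((e : ℝ) - rup (e * q))]
            · linarith [le_max_left 0 ((e : ℝ) - rup (e * q))]
          · rw [zero_add]
            refine le_min ((min_le_right _ _).trans (le_trans (Real.exp_le_exp.2 ?_) he'))
              (min_le_right _ _)
            nlinarith [not_le.1 h]
      _ ≤ _ := by
          rw [sum_add_distrib, ← sum_filter, sum_const, nsmul_eq_mul]
          refine add_le_add ?_ (ih _ he')
          rw [mul_div_assoc] at h2
          linarith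

end Crest.Agent.R347.SecAux
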