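import Crest.Agent.R347.Spec
import Crest.Agent.R347.SectorAux

/-! Row 347: soundness of the sector checker. -/

set_option autoImplicit false
open Crest.MathPhysics.SpinChain Matrix

namespace Crest.Agent.R347

open SecAux in
theorem exp_le_expU (y : ℚ) (hy : |y| ≤ 64) : Real.exp y ≤ expU y := by
  have h0 : Real.exp (y / 64) ≤ rup (tay (y / 64) + 1 / 2 ^ 36) := by
    refine le_trans ?_ (le_rup _)
    push_cast
    linarith [(abs_le.1 (abs_exp_sub_tay hy).2).2]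
  have h := squ_step (squ_step (squ_step (squ_step (squ_step (squ_step h0)))))
  rwa [show 2 * (2 * (2 * (2 * (2 * (2 * ((y : ℝ) / 64)))))) = y by ring] at h

open SecAux in
theorem expL_le_exp (y : ℚ) (hy : |y| ≤ 64) : (expL y : ℝ) ≤ Real.exp y := by
  obtain ⟨h1, h2⟩ := abs_exp_sub_tay hy
  rw [abs_le] at h1 h2
  have h0 : (0 : ℝ) ≤ rdn (tay (y / 64) - 1 / 2 ^ 36) ∧
      rdn (tay (y / 64) - 1 / 2 ^ 36) ≤ Real.exp (y / 64) := by
    refine ⟨rdn_nonneg ?_, (rdn_le _).trans ?_⟩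
    · have h3 := Real.exp_le_exp.2 h1.1
      have h4 := Real.exp_neg_one_gt_d9
      have h5 : (1 : ℝ) / 2 ^ 36 ≤ 1 / 10 := by norm_num
      push_cast
      linarith [h2.2]
    · push_cast
      linarith [h2.1]
  have h := (sqd_step (sqd_step (sqd_step (sqd_step (sqd_step (sqd_step h0)))))).2
  rwa [show 2 * (2 * (2 * (2 * (2 * (2 * ((y : ℝ) / 64)))))) = y by ring] at h

namespace SecAux

open Finset

variable {ι : Type}

open Classical in
theorem atoms_sound (I : Finset ι) (ν z : ι → ℝ) (hz : ∀ i, z i = 1 ∨ z i = -1) (D : SecData)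
    (hm : ∀ j (hj : j < D.mom.length), ∑ i ∈ I, ν i ^ j = D.mom[j])
    (hc : ∀ c ∈ D.cl, 0 ≤ c.s → c.r ≤ (I.filter (InCl ν z c)).card) (hk : D.ok = true) :
    ((D.lo : ℝ) ≤ ∑ i ∈ I, Real.exp (-(D.β * (ν i + D.E))) ∧
      ∑ i ∈ I, Real.exp (-(D.β * (ν i + D.E))) ≤ D.hi) ∧
    ((D.flo : ℝ) ≤ ∑ i ∈ I, z i * Real.exp (-(D.β * (ν i + D.E))) ∧
      ∑ i ∈ I, z i * Real.exp (-(D.β * (ν i + D.E))) ≤ D.fhi) := by
  simp only [SecData.ok, Bool.and_eq_true, decide_eq_true_eq, List.all_eq_true] at hk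
  obtain ⟨⟨⟨⟨⟨⟨⟨⟨⟨⟨k1, k2⟩, k3⟩, k4⟩, k5⟩, k6⟩, k7⟩, k8⟩, k9⟩, k10⟩, k11⟩ := hk
  obtain ⟨Rm, hR, h⟩ := exists_rest ν z D.cl I k11 fun c hc' => hc c hc' (k10 c hc').1.1.1.1
  have hβ : (0 : ℝ) < D.β := by exact_mod_cast k1
  have hδ : (0 : ℝ) < D.δ := by exact_mod_cast k2
  have hA : (D.aJ : ℝ) = D.a0 + D.J * D.δ := by simp [SecData.aJ]
  have hw : ∑ i ∈ Rm, rev D.p (D.aJ - ν i) ^ 2 ≤ D.w := by
    have h1 := (h (fun i => rev D.p (D.aJ - ν i) ^ 2)
      fun c => (c.r : ℚ) * (pev D.p (D.aJ - (c.ρ + c.s))) ^ 2).1 fun c hc' => by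
        refine ⟨rev D.p (D.aJ - (c.ρ + c.s)) ^ 2, by push_cast [cast_pev]; rfl, fun i hi => ?_⟩
        have h2 : (c.ρ : ℝ) + c.s ≤ D.aJ := by exact_mod_cast (k10 c hc').1.1.1.2
        exact pow_le_pow_left₀ (rev_nonneg k8 (by linarith))
          (rev_mono k8 (by linarith) (by linarith [(abs_le.1 hi.2).2])) 2
    have h2 := sum_rev I ν _ D.mom (fun _ => 1) (by simpa using hm) k6
    simp only [one_mul, rev_pmul, rev_psh, ← sq] at h2
    rw [SecData.w, Rat.cast_sub]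
    linarith
  have hd : (Rm.card : ℝ) ≤ D.mom.headD 0 := by
    have h1 := hm 0 k4
    simp only [pow_zero, sum_const, nsmul_eq_mul, mul_one] at h1
    have h2 : D.mom.headD 0 = D.mom[0] := by
      simp [List.headD_eq_head?_getD, List.head?_eq_getElem?, List.getElem?_eq_getElem k4]
    rw [h2, ← h1]
    exact_mod_cast card_le_card hR
  have e0 : Real.exp (-(D.β * (D.a0 + D.E))) ≤ expU (-(D.β * (D.a0 + D.E))) := by
    exact_mod_cast exp_le_expU (-(D.β * (D.a0 + D.E))) (by rwa [abs_neg])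
  have hrest : ∑ i ∈ Rm, Real.exp (-(D.β * (ν i + D.E))) ≤ D.rest := by
    refine le_trans (sum_le_sum fun i hi => le_min ?_ le_rfl) (sum_le_abel k8 k7 hβ.le hδ.le hw hd
      (by exact_mod_cast exp_le_expU (-(D.β * D.δ)) (by rwa [abs_neg, abs_of_pos (mul_pos k1 k2)]))
      D.J _ (by rwa [hA, add_sub_cancel_right]))
    refine le_trans (Real.exp_le_exp.2 ?_) e0
    suffices (D.a0 : ℝ) ≤ ν i by nlinarith
    by_contra hlt
    have h1 := card_mul_le k8 hw (t := D.J * D.δ) (by positivity)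
    have h2 : (1 : ℝ) ≤ (Rm.filter fun i => ν i ≤ D.aJ - D.J * D.δ).card :=
      Nat.one_le_cast.2 (card_pos.2 ⟨i, mem_filter.2 ⟨hi, by linarith⟩⟩)
    have h3 := (Rat.cast_lt (K := ℝ)).2 k9
    push_cast [cast_pev] at h3
    nlinarith [sq_nonneg (rev D.p (D.J * D.δ))]
  have hlo : ∀ c ∈ D.cl, ∀ i, InCl ν z c i →
      (expL (-(D.β * (c.ρ + c.s + D.E))) : ℝ) ≤ Real.exp (-(D.β * (ν i + D.E))) := fun c hc' i hi => by
    refine (expL_le_exp _ (by rw [abs_neg]; exact (k10 c hc').1.2)).trans (Real.exp_le_exp.2 ?_)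
    push_cast
    nlinarith [(abs_le.1 hi.2).2]
  have hhi : ∀ c ∈ D.cl, ∀ i, InCl ν z c i →
      Real.exp (-(D.β * (ν i + D.E))) ≤ expU (-(D.β * (c.ρ - c.s + D.E))) := fun c hc' i hi => by
    refine (Real.exp_le_exp.2 ?_).trans (exp_le_expU _ (by rw [abs_neg]; exact (k10 c hc').2))
    push_cast
    nlinarith [(abs_le.1 hi.2).1]
  have hε : ∀ c ∈ D.cl, ∀ i, InCl ν z c i → c.ε ≠ 1 → z i = -1 := fun c hc' i hi h1 => by
    rw [hi.1, (k10 c hc').1.1.2.resolve_left h1]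
    simp
  have hzf : |∑ i ∈ Rm, z i * Real.exp (-(D.β * (ν i + D.E)))| ≤ D.rest := by
    refine (abs_sum_le_sum_abs _ _).trans (le_trans (sum_le_sum fun i _ => ?_) hrest)
    rcases hz i with h1 | h1 <;> simp [h1]
  rw [abs_le] at hzf
  refine ⟨⟨?_, ?_⟩, ?_, ?_⟩
  · have h1 := (h _ D.cLo).1 fun c hc' => ⟨_, by rw [SecData.cLo]; push_cast; rfl, hlo c hc'⟩
    have h2 := sum_nonneg fun i (_ : i ∈ Rm) => (Real.exp_pos (-(D.β * (ν i + D.E)))).le
    rw [SecData.lo]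
    linarith
  · have h1 := (h _ D.cHi).2 fun c hc' => ⟨_, by rw [SecData.cHi]; push_cast; rfl, hhi c hc'⟩
    rw [SecData.hi, Rat.cast_add]
    linarith
  · have h1 := (h (fun i => z i * Real.exp (-(D.β * (ν i + D.E))))
      fun c => if c.ε = 1 then D.cLo c else -D.cHi c).1 fun c hc' => by
        by_cases h1 : c.ε = 1
        · refine ⟨_, by rw [if_pos h1, SecData.cLo]; push_cast; rfl, fun i hi => ?_⟩
          rw [hi.1, h1, Int.cast_one, one_mul]
          exact hlo c hc' i hi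
        · refine ⟨-expU (-(D.β * (c.ρ - c.s + D.E))),
            by rw [if_neg h1, SecData.cHi]; push_cast; ring, fun i hi => ?_⟩
          rw [hε c hc' i hi h1]
          linarith [hhi c hc' i hi]
    rw [SecData.flo, Rat.cast_sub]
    linarith
  · have h1 := (h (fun i => z i * Real.exp (-(D.β * (ν i + D.E))))
      fun c => if c.ε = 1 then D.cHi c else -D.cLo c).2 fun c hc' => by
        by_cases h1 : c.ε = 1
        · refine ⟨_, by rw [if_pos h1, SecData.cHi]; push_cast; rfl, fun i hi => ?_⟩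
          rw [hi.1, h1, Int.cast_one, one_mul]
          exact hhi c hc' i hi
        · refine ⟨-expL (-(D.β * (c.ρ + c.s + D.E))),
            by rw [if_neg h1, SecData.cLo]; push_cast; ring, fun i hi => ?_⟩
          rw [hε c hc' i hi h1]
          linarith [hlo c hc' i hi]
    rw [SecData.fhi, Rat.cast_add]
    linarith

variable [Fintype ι] [DecidableEq ι]

/-- The matrix with eigenvalues `a` in the basis `U`. -/
noncomputable def cj (U : Matrix ι ι ℂ) (a : ι → ℝ) : Matrix ι ι ℂ :=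
  U * diagonal (fun i => (a i : ℂ)) * Uᴴ

variable {U : Matrix ι ι ℂ}

theorem cj_mul (h : Uᴴ * U = 1) (a b : ι → ℝ) : cj U a * cj U b = cj U fun i => a i * b i := by
  simp only [cj, Matrix.mul_assoc]
  rw [← Matrix.mul_assoc Uᴴ, h, Matrix.one_mul, ← Matrix.mul_assoc (diagonal _),
    diagonal_mul_diagonal]
  simp

theorem cj_one (h : U * Uᴴ = 1) : (cj U fun _ => 1) = 1 := by simp [cj, h]

theorem cj_pow (h : Uᴴ * U = 1) (h' : U * Uᴴ = 1) (a : ι → ℝ) (j : ℕ) :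
    cj U a ^ j = cj U fun i => a i ^ j := by
  induction j with
  | zero => simp [cj_one h']
  | succ j ih => simp only [pow_succ, ih, cj_mul h]

theorem rtr_cj (h : Uᴴ * U = 1) (a : ι → ℝ) : rtr (cj U a) = ∑ i, a i := by
  rw [rtr, cj, trace_mul_cycle, h, Matrix.one_mul, trace_diagonal, Complex.re_sum]
  simp

theorem coord_cj (h : Uᴴ * U = 1) (a : ι → ℝ) (v : ι → ℂ) (i : ι) :
    (Uᴴ *ᵥ (cj U a *ᵥ v)) i = a i * (Uᴴ *ᵥ v) i := by
  rw [mulVec_mulVec, cj, ← Matrix.mul_assoc, ← Matrix.mul_assoc, h, Matrix.one_mul,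
    ← mulVec_mulVec, mulVec_diagonal]

theorem dot_coord (h : U * Uᴴ = 1) (v w : ι → ℂ) :
    star (Uᴴ *ᵥ v) ⬝ᵥ (Uᴴ *ᵥ w) = star v ⬝ᵥ w := by
  rw [star_mulVec, conjTranspose_conjTranspose, ← dotProduct_mulVec, mulVec_mulVec, h, one_mulVec]

open Classical in
theorem le_card_of_clu (h : Uᴴ * U = 1) (h' : U * Uᴴ = 1) {ν z : ι → ℝ} {I : Finset ι} {c : Cl}
    (hs : 0 ≤ c.s)
    (hc : Clu (cj U ν) (cj U fun i => if i ∈ I then 1 else 0) (cj U z) c.ρ c.s c.r c.ε) :
    c.r ≤ (I.filter (InCl ν z c)).card := by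
  obtain ⟨v, h1, h2⟩ := hc
  refine le_card_of_approx (fun k => Uᴴ *ᵥ v k) (fun i => ν i - c.ρ) (s := c.s)
    (by exact_mod_cast hs) _ (fun k l hkl => by rw [dot_coord h', h1 k l hkl]) (fun k hk => ?_)
    (fun i hi => ?_) fun k => ?_
  · have := congrArg (U *ᵥ ·) hk
    simp only [mulVec_mulVec, h', one_mulVec, mulVec_zero] at this
    exact (h2 k).1 this
  · rw [or_iff_not_imp_left]
    intro hy
    obtain ⟨k, hk⟩ := not_forall.1 hy
    have e1 := coord_cj h (fun i => if i ∈ I then 1 else 0) (v k) i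
    have e2 := coord_cj h z (v k) i
    rw [(h2 k).2.1] at e1
    rw [(h2 k).2.2.1, mulVec_smul, Pi.smul_apply, smul_eq_mul] at e2
    have hI : i ∈ I := by
      by_contra hI
      simp [hI, hk] at e1
    have hz : z i = c.ε := by exact_mod_cast (mul_right_cancel₀ hk e2).symm
    by_contra hlt
    exact hi (mem_filter.2 ⟨hI, hz, not_lt.1 hlt⟩)
  · have := (h2 k).2.2.2
    rw [← dot_coord h', ← dot_coord h' (v k), re_star_dot, re_star_dot] at this
    refine le_trans (le_of_eq ?_) this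
    congr 1
    refine sum_congr rfl fun i _ => ?_
    rw [mulVec_sub, mulVec_smul, Pi.sub_apply, coord_cj h, Pi.smul_apply, smul_eq_mul, ← sub_mul,
      norm_mul, mul_pow, ← Complex.ofReal_sub, Complex.norm_real, Real.norm_eq_abs, sq_abs]

end SecAux

open SecAux in
theorem sec_sound {ι : Type} [Fintype ι] [DecidableEq ι] (H P F : Matrix ι ι ℂ)
    (hH : H.IsHermitian) (hP : P.IsHermitian) (hF : F.IsHermitian) (hPP : P * P = P)
    (hFF : F * F = 1) (hHP : H * P = P * H) (hHF : H * F = F * H) (hPF : P * F = F * P)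
    (D : SecData) (hm : ∀ j (hj : j < D.mom.length), rtr (P * H ^ j) = D.mom[j])
    (hc : ∀ c ∈ D.cl, Clu H P F c.ρ c.s c.r c.ε) (lo hi flo fhi : ℚ)
    (hk : D.check lo hi flo fhi = true) :
    ((lo : ℝ) ≤ rtr (P * ex D.β D.E H) ∧ rtr (P * ex D.β D.E H) ≤ hi) ∧
      ((flo : ℝ) ≤ rtr (F * P * ex D.β D.E H) ∧ rtr (F * P * ex D.β D.E H) ≤ fhi) := by
  obtain ⟨U, ν, x, z, h1, h2, hx, hz, eH, eX, eF⟩ := exists_joint H (P + P - 1) F hH
    ((hP.add hP).sub isHermitian_one) hF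
    (by simp only [mul_sub, sub_mul, mul_add, add_mul, hPP, mul_one, one_mul]; abel) hFF
    (by simp only [mul_sub, sub_mul, mul_add, add_mul, hHP, mul_one, one_mul]) hHF
    (by simp only [mul_sub, sub_mul, mul_add, add_mul, hPF, mul_one, one_mul])
  set I : Finset ι := Finset.univ.filter fun i => x i = 1
  have eP : P = cj U fun i => if i ∈ I then 1 else 0 := by
    have e : P = (1 / 2 : ℂ) • (P + P - 1 + 1) := by
      rw [sub_add_cancel, ← two_smul ℂ, smul_smul]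
      simp
    rw [e, eX, ← cj_one h2, cj, cj, ← add_mul, ← mul_add, ← smul_mul_assoc, ← mul_smul_comm,
      diagonal_add, ← diagonal_smul]
    congr 3
    funext i
    rcases hx i with h | h <;> norm_num [I, h]
  change H = cj U ν at eH
  change F = cj U z at eF
  have eE : ex D.β D.E (cj U ν) = cj U fun i => Real.exp (-(D.β * (ν i + D.E))) :=
    ex_conj U ν h1 h2 _ _
  have hsum : ∀ g : ι → ℝ, rtr (cj U fun i => (if i ∈ I then 1 else 0) * g i) = ∑ i ∈ I, g i :=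
    fun g => by simp [rtr_cj h1]
  rw [← hPF, eH, eF, eP, eE, cj_mul h1, cj_mul h1, cj_mul h1]
  simp only [mul_assoc, hsum]
  rw [eH, eP] at hm
  rw [eH, eP, eF] at hc
  simp only [cj_pow h1 h2, cj_mul h1, hsum] at hm
  simp only [SecData.check, Bool.and_eq_true, decide_eq_true_eq] at hk
  obtain ⟨⟨⟨⟨k0, k1⟩, k2⟩, k3⟩, k4⟩ := hk
  obtain ⟨⟨a1, a2⟩, a3, a4⟩ := atoms_sound I ν z hz D hm
    (fun c hc' hs => by convert le_card_of_clu h1 h2 hs (hc c hc')) k0
  exact ⟨⟨le_trans (by exact_mod_cast k1) a1, a2.trans (by exact_mod_cast k2)⟩,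
    le_trans (by exact_mod_cast k3) a3, a4.trans (by exact_mod_cast k4)⟩

end Crest.Agent.R347
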