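import Crest.Agent.R347.Defs

/-! Row 347: one-site operators, twisted bonds and their symmetries. -/

set_option autoImplicit false
open Crest.MathPhysics.SpinChain Matrix

namespace Crest.Agent.R347.Ham

variable {L : ℕ}

/-! ### one-site operators -/

theorem onSite_mulVec (A : M3) (j : Fin L) (x : Cfg L → ℂ) (σ : Cfg L) :
    (onSite A j *ᵥ x) σ = ∑ b, A (σ j) b * x (Function.update σ j b) := by
  have h : ∀ τ : Cfg L, onSite A j σ τ * x τ =
      ∑ b, if τ = Function.update σ j b then A (σ j) b * x (Function.update σ j b) else 0 := by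
    intro τ
    simp only [onSite, of_apply]
    split_ifs with h
    · have e : τ = Function.update σ j (τ j) := by
        funext k
        by_cases hk : k = j
        · subst hk; simp
        · rw [Function.update_of_ne hk, h k hk]
      rw [Finset.sum_eq_single (τ j) (fun b _ hb => if_neg fun e' => hb (by rw [e']; simp))
        (by simp), if_pos e, ← e]
    · rw [zero_mul]
      refine (Finset.sum_eq_zero fun b _ => if_neg fun e => h fun k hk => ?_).symm
      rw [e, Function.update_of_ne hk]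
  simp only [mulVec, dotProduct, h]
  rw [Finset.sum_comm]
  simp

theorem ext_mulVec {A B : Op L} (h : ∀ x σ, (A *ᵥ x) σ = (B *ᵥ x) σ) : A = B := by
  ext σ τ
  simpa using h (Pi.single τ 1) σ

theorem onSite_add (A B : M3) (j : Fin L) : onSite (A + B) j = onSite A j + onSite B j := by
  ext σ τ
  simp only [onSite, of_apply, Matrix.add_apply]
  split_ifs <;> simp

theorem onSite_sub (A B : M3) (j : Fin L) : onSite (A - B) j = onSite A j - onSite B j := by
  ext σ τ
  simp only [onSite, of_apply, Matrix.sub_apply]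
  split_ifs <;> simp

theorem onSite_neg (A : M3) (j : Fin L) : onSite (-A) j = -onSite A j := by
  ext σ τ
  simp only [onSite, of_apply, Matrix.neg_apply]
  split_ifs <;> simp

theorem onSite_smul (c : ℂ) (A : M3) (j : Fin L) : onSite (c • A) j = c • onSite A j := by
  ext σ τ
  simp only [onSite, of_apply, Matrix.smul_apply]
  split_ifs <;> simp

theorem onSite_transpose (A : M3) (j : Fin L) : (onSite A j)ᵀ = onSite Aᵀ j := by
  ext σ τ
  simp only [onSite, of_apply, transpose_apply, eq_comm]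

theorem onSite_conjTranspose (A : M3) (j : Fin L) : (onSite A j)ᴴ = onSite Aᴴ j := by
  ext σ τ
  simp only [onSite, of_apply, conjTranspose_apply, eq_comm (a := τ _)]
  split_ifs <;> simp

theorem onSite_comm (A B : M3) {j k : Fin L} (h : j ≠ k) :
    onSite A j * onSite B k = onSite B k * onSite A j := by
  refine ext_mulVec fun x σ => ?_
  simp only [← mulVec_mulVec, onSite_mulVec, Finset.mul_sum, Function.update_of_ne h,
    Function.update_of_ne h.symm]
  rw [Finset.sum_comm]
  refine Finset.sum_congr rfl fun a _ => Finset.sum_congr rfl fun b _ => ?_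
  rw [Function.update_comm h]
  ring

/-- the permutation of configurations induced by a permutation of the sites -/
def siteE (e : Fin L ≃ Fin L) : Cfg L ≃ Cfg L := (Equiv.arrowCongr e (Equiv.refl _)).symm

theorem siteE_apply (e : Fin L ≃ Fin L) (σ : Cfg L) (j : Fin L) : siteE e σ j = σ (e j) := rfl

theorem onSite_site (e : Fin L ≃ Fin L) (A : M3) (j : Fin L) :
    (onSite A j).submatrix (siteE e) (siteE e) = onSite A (e j) := by
  ext σ τ
  simp only [onSite, of_apply, submatrix_apply, siteE_apply]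
  have h : (∀ k, k ≠ j → σ (e k) = τ (e k)) ↔ ∀ k, k ≠ e j → σ k = τ k :=
    ⟨fun h k hk => by simpa using h (e.symm k) fun e' => hk (by rw [← e']; simp),
      fun h k hk => h _ (by simpa using hk)⟩
  simp only [h]
  congr

/-- the global spin flip -/
def flipE (L : ℕ) : Cfg L ≃ Cfg L :=
  Function.Involutive.toPerm flipC fun σ => by funext j; simp [flipC]

theorem flipE_apply (σ : Cfg L) : flipE L σ = flipC σ := rfl

theorem flip_flip (σ : Cfg L) : flipC (flipC σ) = σ := by funext j; simp [flipC]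

theorem onSite_flip (A : M3) (j : Fin L) :
    (onSite A j).submatrix (flipE L) (flipE L) = onSite (A.submatrix Fin.rev Fin.rev) j := by
  ext σ τ
  simp only [onSite, of_apply, submatrix_apply, flipE_apply, flipC, Fin.rev_inj]

/-- site dependent rotation about the z axis -/
noncomputable def gauge (w : Fin L → ℂ) : Op L :=
  diagonal fun σ => ∏ k, w k ^ magneticNumber (σ k)

theorem gauge_onSite (w : Fin L → ℂ) {A : M3} {j : Fin L} {c : ℂ}
    (h : ∀ a b, w j ^ magneticNumber a * A a b = c * A a b * w j ^ magneticNumber b) :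
    gauge w * onSite A j = c • (onSite A j * gauge w) := by
  ext σ τ
  simp only [gauge, diagonal_mul, mul_diagonal, Matrix.smul_apply, onSite, of_apply, smul_eq_mul]
  split_ifs with hk
  · rw [← Finset.mul_prod_erase _ _ (Finset.mem_univ j),
      ← Finset.mul_prod_erase _ (fun k => w k ^ magneticNumber (τ k)) (Finset.mem_univ j),
      Finset.prod_congr rfl fun k hk' => by rw [hk k (Finset.ne_of_mem_erase hk')]]
    linear_combination (∏ k ∈ Finset.univ.erase j, w k ^ magneticNumber (τ k)) * h (σ j) (τ j)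
  · simp

/-! ### spin matrices -/

theorem spinMinus_apply (i j : Fin 3) :
    spinMinus i j = if i.val = j.val + 1 then ((Real.sqrt 2 : ℝ) : ℂ) else 0 := by
  simp only [spinMinus, spinPlus, conjTranspose_apply, of_apply]
  split_ifs <;> simp

theorem P_transpose : spinPlusᵀ = spinMinus := by
  ext i j
  simp [spinMinus_apply, spinPlus]

theorem M_transpose : spinMinusᵀ = spinPlus := by rw [← P_transpose, transpose_transpose]

theorem Z_transpose : spinZᵀ = spinZ := by simp [spinZ]

theorem Z_conjTranspose : spinZᴴ = spinZ := by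
  simp [spinZ, diagonal_conjTranspose, Pi.star_def]

theorem spinOp_herm (a : Fin 3) : (spinOp a)ᴴ = spinOp a := by
  fin_cases a
  · simp [spinOp, spinX, spinMinus, add_comm]
  · simp only [spinOp, spinY, spinMinus, Fin.mk_one, cons_val_one, cons_val_zero,
      conjTranspose_smul, conjTranspose_sub, conjTranspose_conjTranspose]
    rw [← neg_sub, smul_neg, ← neg_smul]
    congr 1
    simp
  · exact Z_conjTranspose

theorem P_flip : spinPlus.submatrix Fin.rev Fin.rev = spinMinus := by
  ext i j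
  fin_cases i <;> fin_cases j <;> simp [spinMinus_apply, spinPlus, Fin.rev]

theorem M_flip : spinMinus.submatrix Fin.rev Fin.rev = spinPlus := by
  ext i j
  fin_cases i <;> fin_cases j <;> simp [spinMinus_apply, spinPlus, Fin.rev]

theorem Z_flip : spinZ.submatrix Fin.rev Fin.rev = -spinZ := by
  ext i j
  fin_cases i <;> fin_cases j <;> simp [spinZ, magneticNumber, Fin.rev] <;> norm_num

theorem gauge_P {w : Fin L → ℂ} {j : Fin L} (hw : w j ≠ 0) :
    gauge w * onSite spinPlus j = w j • (onSite spinPlus j * gauge w) :=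
  gauge_onSite w fun a b => by
    fin_cases a <;> fin_cases b <;> simp [spinPlus, magneticNumber]
    field_simp

theorem gauge_M {w : Fin L → ℂ} {j : Fin L} (hw : w j ≠ 0) :
    gauge w * onSite spinMinus j = (w j)⁻¹ • (onSite spinMinus j * gauge w) :=
  gauge_onSite w fun a b => by
    fin_cases a <;> fin_cases b <;> simp [spinMinus_apply, magneticNumber]
    field_simp

theorem gauge_Z (w : Fin L → ℂ) (j : Fin L) :
    gauge w * onSite spinZ j = onSite spinZ j * gauge w := by
  rw [gauge_onSite w (c := 1) fun a b => by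
    by_cases h : a = b
    · simp [h, mul_comm]
    · simp [spinZ, h], one_smul]

theorem P_mulVec (j : Fin L) (x : Cfg L → ℂ) (σ : Cfg L) : (onSite spinPlus j *ᵥ x) σ =
    if σ j ≠ 2 then (Real.sqrt 2 : ℂ) * x (Function.update σ j (up3 (σ j))) else 0 := by
  rw [onSite_mulVec, Fin.sum_univ_three]
  generalize σ j = a
  fin_cases a <;> simp [spinPlus, up3]

theorem M_mulVec (j : Fin L) (x : Cfg L → ℂ) (σ : Cfg L) : (onSite spinMinus j *ᵥ x) σ =
    if σ j ≠ 0 then (Real.sqrt 2 : ℂ) * x (Function.update σ j (dn3 (σ j))) else 0 := by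
  rw [onSite_mulVec, Fin.sum_univ_three]
  generalize σ j = a
  fin_cases a <;> simp [spinMinus_apply, dn3]

theorem Z_mulVec (j : Fin L) (x : Cfg L → ℂ) (σ : Cfg L) : (onSite spinZ j *ᵥ x) σ =
    (magneticNumber (σ j) : ℂ) * x σ := by
  rw [onSite_mulVec, Finset.sum_eq_single (σ j) (fun b _ hb => by simp [spinZ, hb.symm]) (by simp)]
  simp [spinZ]

/-! ### twisted bonds -/

/-- `S^z S^z + u S^+ S^- / 2 + v S^- S^+ / 2` -/
noncomputable def tb (u v : ℂ) (j k : Fin L) : Op L :=
  onSite spinZ j * onSite spinZ k + (u / 2) • (onSite spinPlus j * onSite spinMinus k) +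
    (v / 2) • (onSite spinMinus j * onSite spinPlus k)

theorem twist_eq (c s : ℝ) (j k : Fin L) :
    ∑ a, ∑ b, ((!![c, -s, 0; s, c, 0; 0, 0, 1] : R3) b a : ℂ) •
      (onSite (spinOp a) j * onSite (spinOp b) k) =
      tb (c + s * Complex.I) (c - s * Complex.I) j k := by
  have hI : (1 / (2 * Complex.I) : ℂ) = -Complex.I / 2 := by
    field_simp
    simp
  have e0 : spinOp 0 = spinX := rfl
  have e1 : spinOp 1 = spinY := rfl
  have e2 : spinOp 2 = spinZ := rfl
  simp only [Fin.sum_univ_three, e0, e1, e2, spinX, spinY, hI, tb, onSite_smul, onSite_add,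
    onSite_sub, smul_mul_assoc, mul_smul_comm, mul_add, add_mul, mul_sub, sub_mul]
  match_scalars <;> simp <;> ring_nf <;> simp only [Complex.I_sq] <;> ring

theorem bond_eq (j k : Fin L) : bond j k = tb 1 1 j k := by
  have h := twist_eq 1 0 j k
  simp only [Fin.sum_univ_three] at h
  rw [bond, Fin.sum_univ_three]
  simpa using h

theorem tb_swap (u v : ℂ) {j k : Fin L} (h : j ≠ k) : tb u v j k = tb v u k j := by
  rw [tb, tb, onSite_comm _ _ h, onSite_comm spinPlus _ h, onSite_comm spinMinus _ h]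
  abel

theorem tb_transpose (u v : ℂ) {j k : Fin L} (h : j ≠ k) : (tb u v j k)ᵀ = tb v u j k := by
  rw [tb_swap v u h]
  simp only [tb, transpose_add, transpose_smul, transpose_mul, onSite_transpose, P_transpose,
    M_transpose, Z_transpose]

theorem tb_site (e : Fin L ≃ Fin L) (u v : ℂ) (j k : Fin L) :
    (tb u v j k).submatrix (siteE e) (siteE e) = tb u v (e j) (e k) := by
  simp only [tb, submatrix_add, submatrix_smul, Pi.add_apply, Pi.smul_apply,
    ← submatrix_mul_equiv _ _ _ (siteE e), onSite_site]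

theorem tb_flip (u v : ℂ) (j k : Fin L) :
    (tb u v j k).submatrix (flipE L) (flipE L) = tb v u j k := by
  simp only [tb, submatrix_add, submatrix_smul, Pi.add_apply, Pi.smul_apply,
    ← submatrix_mul_equiv _ _ _ (flipE L), onSite_flip, P_flip, M_flip, Z_flip, onSite_neg,
    neg_mul_neg]
  abel

theorem gauge_tb {w : Fin L → ℂ} (hw : ∀ j, w j ≠ 0) (u v : ℂ) (j k : Fin L) :
    gauge w * tb u v j k = tb (u * w j / w k) (v * w k / w j) j k * gauge w := by
  simp only [tb, mul_add, add_mul, mul_smul_comm, smul_mul_assoc, ← mul_assoc, gauge_Z,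
    gauge_P (hw _), gauge_M (hw _)]
  simp only [mul_assoc, gauge_Z, gauge_P (hw _), gauge_M (hw _), mul_smul_comm, smul_smul]
  congr 2
  · congr 1
    ring
  · ring

theorem tb_mulVec (u v : ℂ) {j k : Fin L} (h : j ≠ k) (x : Cfg L → ℂ) (σ : Cfg L) :
    (tb u v j k *ᵥ x) σ = (magneticNumber (σ j) * magneticNumber (σ k) : ℂ) * x σ +
      u * (if σ j ≠ 2 ∧ σ k ≠ 0 then
        x (Function.update (Function.update σ j (up3 (σ j))) k (dn3 (σ k))) else 0) +
      v * (if σ j ≠ 0 ∧ σ k ≠ 2 then
        x (Function.update (Function.update σ j (dn3 (σ j))) k (up3 (σ k))) else 0) := by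
  have h2 : (Real.sqrt 2 : ℂ) * (Real.sqrt 2 : ℂ) = 2 := by
    rw [← Complex.ofReal_mul, Real.mul_self_sqrt (by norm_num)]
    norm_num
  simp only [tb, add_mulVec, smul_mulVec, ← mulVec_mulVec, Pi.add_apply, Pi.smul_apply, Z_mulVec,
    P_mulVec, M_mulVec, Function.update_of_ne h.symm, smul_eq_mul, ite_and]
  congr 1
  · congr 1
    · ring
    · split_ifs <;> first | simp | (rw [← mul_assoc (Real.sqrt 2 : ℂ), h2]; ring)
  · split_ifs <;> first | simp | (rw [← mul_assoc (Real.sqrt 2 : ℂ), h2]; ring)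

/-! ### the open chain -/

theorem cs_ne {n : ℕ} (j : Fin n) : j.castSucc ≠ j.succ := (Fin.castSucc_lt_succ (i := j)).ne

theorem zero_ne_last {n : ℕ} (hn : 1 ≤ n) : (0 : Fin (n + 1)) ≠ Fin.last n := by
  intro h
  have := congrArg Fin.val h
  simp at this
  omega

theorem Hopen_eq (n : ℕ) : Hopen n = ∑ j : Fin n, tb 1 1 j.castSucc j.succ := by
  simp only [Hopen, bond_eq]

theorem sum_diag (n : ℕ) (σ : Cfg (n + 1)) :
    ∑ j : Fin n, magneticNumber (σ j.castSucc) * magneticNumber (σ j.succ) = dOpen (n + 1) σ := by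
  induction n with
  | zero => rfl
  | succ n ih =>
    rw [Fin.sum_univ_succ, dOpen, ← ih]
    rfl

theorem upd01 {n : ℕ} (σ : Cfg (n + 2)) (a b : Fin 3) :
    Function.update (Function.update σ 0 a) 1 b = Fin.cons a (Fin.cons b (Fin.tail (Fin.tail σ))) := by
  funext k
  refine Fin.cases ?_ (fun k => Fin.cases ?_ (fun k => ?_) k) k
  · simp
  · simp
  · rw [Function.update_of_ne (by simp [Fin.ext_iff]), Function.update_of_ne (Fin.succ_ne_zero _)]
    rfl

theorem upd_succ {n : ℕ} (σ : Cfg (n + 1)) (p q : Fin n) (a b : Fin 3) :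
    Function.update (Function.update σ p.succ a) q.succ b =
      Fin.cons (σ 0) (Function.update (Function.update (Fin.tail σ) p a) q b) := by
  rw [Fin.cons_update, Fin.cons_update, Fin.cons_self_tail]

theorem sum_hop (n : ℕ) (x : Cfg (n + 1) → ℂ) (σ : Cfg (n + 1)) :
    ∑ j : Fin n, ((if σ j.castSucc ≠ 2 ∧ σ j.succ ≠ 0 then
        x (Function.update (Function.update σ j.castSucc (up3 (σ j.castSucc))) j.succ
          (dn3 (σ j.succ))) else 0) +
      (if σ j.castSucc ≠ 0 ∧ σ j.succ ≠ 2 then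
        x (Function.update (Function.update σ j.castSucc (dn3 (σ j.castSucc))) j.succ
          (up3 (σ j.succ))) else 0)) = hopO (n + 1) x σ := by
  induction n with
  | zero => rfl
  | succ n ih =>
    rw [Fin.sum_univ_succ, hopO, ← ih]
    simp only [Fin.castSucc_zero, Fin.succ_zero_eq_one, upd01, ← Fin.succ_castSucc, upd_succ]
    rfl

theorem Hopen_mulVec (n : ℕ) (x : Cfg (n + 1) → ℂ) (σ : Cfg (n + 1)) :
    (Hopen n *ᵥ x) σ = (dOpen (n + 1) σ : ℂ) * x σ + hopO (n + 1) x σ := by
  rw [Hopen_eq, sum_mulVec, Finset.sum_apply, ← sum_diag, ← sum_hop]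
  simp only [tb_mulVec _ _ (cs_ne _), one_mul, add_assoc]
  rw [Finset.sum_add_distrib, ← Finset.sum_mul]
  push_cast
  rfl

theorem Hopen_herm (n : ℕ) : (Hopen n).IsHermitian := by
  simp only [IsHermitian, Hopen, bond, conjTranspose_sum, conjTranspose_mul, onSite_conjTranspose,
    spinOp_herm, onSite_comm _ _ (cs_ne _)]

theorem submatrix_sum {ι : Type} (s : Finset ι) (A : ι → Op L) (e : Cfg L → Cfg L) :
    (∑ i ∈ s, A i).submatrix e e = ∑ i ∈ s, (A i).submatrix e e := by
  ext σ τ
  simp [Matrix.sum_apply]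

theorem Hopen_transpose (n : ℕ) : (Hopen n)ᵀ = Hopen n := by
  simp only [Hopen_eq, transpose_sum, tb_transpose _ _ (cs_ne _)]

theorem Hopen_flip (n : ℕ) : (Hopen n).submatrix (flipE _) (flipE _) = Hopen n := by
  simp only [Hopen_eq, submatrix_sum, tb_flip]

/-- reflection of the chain -/
def revE (L : ℕ) : Cfg L ≃ Cfg L := siteE Fin.revPerm

theorem revE_apply (σ : Cfg L) : revE L σ = revC σ := rfl

theorem Hopen_rev (n : ℕ) : (Hopen n).submatrix (revE _) (revE _) = Hopen n := by
  simp only [Hopen_eq, submatrix_sum, revE, tb_site, Fin.revPerm_apply, Fin.rev_castSucc,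
    Fin.rev_succ]
  rw [← Equiv.sum_comp Fin.revPerm]
  simp only [Fin.revPerm_apply, Fin.rev_rev, tb_swap 1 1 (cs_ne _)]

theorem gauge_Hopen (n : ℕ) {w : ℂ} (hw : w ≠ 0) :
    gauge (fun _ => w) * Hopen n = Hopen n * gauge fun _ => w := by
  simp only [Hopen_eq, Finset.mul_sum, Finset.sum_mul, gauge_tb fun _ => hw, one_mul, div_self hw]

/-! ### the twisted ring -/

/-- ring with phases `u`, `v` on the closing bond -/
noncomputable def HG (n : ℕ) (u v : ℂ) : Op (n + 1) := Hopen n + tb u v 0 (Fin.last n)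

theorem HG_mulVec {n : ℕ} (hn : 1 ≤ n) (u v : ℂ) (x : Cfg (n + 1) → ℂ) :
    HG n u v *ᵥ x = actR n u v x := by
  funext σ
  rw [HG, add_mulVec, Pi.add_apply, Hopen_mulVec, tb_mulVec _ _ (zero_ne_last hn), actR, perA, perB]
  push_cast
  ring

theorem Htw_one (n : ℕ) : Htw n 1 = HG n 1 1 := by
  have h := twist_eq 1 0 0 (Fin.last n)
  have e : (!![1, -0, 0; 0, 1, 0; 0, 0, 1] : R3) = 1 := by
    ext i j
    fin_cases i <;> fin_cases j <;> simp
  rw [e] at h
  rw [Htw, h, HG]
  simp

theorem Htw_RZ (n : ℕ) : Htw n RZ = HG n (-1) (-1) := by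
  have h := twist_eq (-1) 0 0 (Fin.last n)
  rw [neg_zero] at h
  rw [Htw, RZ, h, HG]
  simp

theorem om_sq : om ^ 2 = -1 / 2 - (Real.sqrt 3 / 2 : ℝ) * Complex.I := by
  have h : (Real.sqrt 3 : ℂ) ^ 2 = 3 := by
    rw [← Complex.ofReal_pow, Real.sq_sqrt (by norm_num)]
    norm_num
  rw [om]
  push_cast
  linear_combination (Complex.I ^ 2 / 4) * h + (3 / 4) * Complex.I_sq

theorem om_mul : om * om ^ 2 = 1 := by
  have h : (Real.sqrt 3 : ℂ) ^ 2 = 3 := by
    rw [← Complex.ofReal_pow, Real.sq_sqrt (by norm_num)]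
    norm_num
  rw [om_sq, om]
  push_cast
  linear_combination (-Complex.I ^ 2 / 4) * h - (3 / 4) * Complex.I_sq

theorem Htw_RW (n : ℕ) : Htw n RW = HG n om (om ^ 2) := by
  have h := twist_eq (-1 / 2) (Real.sqrt 3 / 2) 0 (Fin.last n)
  rw [← neg_div] at h
  rw [Htw, RW, h, HG, om_sq, om]
  simp

theorem HG_transpose {n : ℕ} (hn : 1 ≤ n) (u v : ℂ) : (HG n u v)ᵀ = HG n v u := by
  rw [HG, transpose_add, Hopen_transpose, tb_transpose _ _ (zero_ne_last hn), HG]

theorem HG_flip (n : ℕ) (u v : ℂ) : (HG n u v).submatrix (flipE _) (flipE _) = HG n v u := by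
  rw [HG, submatrix_add, Pi.add_apply, Pi.add_apply, Hopen_flip, tb_flip, HG]

theorem HG_rev {n : ℕ} (hn : 1 ≤ n) (u v : ℂ) :
    (HG n u v).submatrix (revE _) (revE _) = HG n v u := by
  rw [HG, submatrix_add, Pi.add_apply, Pi.add_apply, Hopen_rev, revE, tb_site, HG,
    tb_swap v u (zero_ne_last hn)]
  simp

theorem gauge_HG (n : ℕ) (u v : ℂ) {w : ℂ} (hw : w ≠ 0) :
    gauge (fun _ => w) * HG n u v = HG n u v * gauge fun _ => w := by
  rw [HG, mul_add, add_mul, gauge_Hopen n hw, gauge_tb fun _ => hw, mul_div_cancel_right₀ _ hw,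
    mul_div_cancel_right₀ _ hw]

/-- rotation of the ring -/
def rotE (n : ℕ) : Cfg (n + 1) ≃ Cfg (n + 1) := siteE (finRotate (n + 1))

theorem rotE_apply {n : ℕ} (σ : Cfg (n + 1)) : rotE n σ = rotC σ := by
  rw [rotC, Fin.snoc_eq_cons_rotate, Fin.cons_self_tail]
  rfl

theorem rot_castSucc {n : ℕ} (j : Fin n) : finRotate (n + 1) j.castSucc = j.succ := by
  rw [finRotate_apply, Fin.coeSucc_eq_succ]

theorem HG_rot (n : ℕ) {u v : ℂ} (h : u * v = 1) :
    gauge (Function.update 1 0 u) * (HG (n + 1) u v).submatrix (rotE _) (rotE _) =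
      HG (n + 1) u v * gauge (Function.update 1 0 u) := by
  have hu : u ≠ 0 := left_ne_zero_of_mul_eq_one h
  have hw : ∀ j : Fin (n + 2), Function.update (1 : Fin (n + 2) → ℂ) 0 u j ≠ 0 := fun j => by
    by_cases hj : j = 0 <;> simp [hj, hu]
  have hv : 1 / u = v := by field_simp; exact h.symm
  have e : (HG (n + 1) u v).submatrix (rotE _) (rotE _) =
      ∑ j : Fin n, tb 1 1 j.succ.castSucc j.succ.succ + tb 1 1 0 (Fin.last _) + tb v u 0 1 := by
    rw [HG, submatrix_add, Pi.add_apply, Pi.add_apply, Hopen_eq, submatrix_sum,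
      Fin.sum_univ_castSucc, tb_swap 1 1 (zero_ne_last (by omega)), tb_swap v u zero_ne_one]
    simp only [rotE, tb_site, Fin.succ_castSucc, rot_castSucc, Fin.succ_last, finRotate_last,
      finRotate_apply_zero]
  rw [e, HG, Hopen_eq, Fin.sum_univ_succ]
  simp only [mul_add, add_mul, Finset.mul_sum, Finset.sum_mul, gauge_tb hw, ← Fin.succ_castSucc,
    Function.update_of_ne (Fin.succ_ne_zero _), Function.update_self, Pi.one_apply,
    Function.update_of_ne (zero_ne_last (n := n + 1) (by omega)).symm,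
    Function.update_of_ne (one_ne_zero (α := Fin (n + 2))), mul_one, one_mul, div_one, hv,
    mul_comm v u, h, div_self hu, Fin.castSucc_zero, Fin.succ_zero_eq_one]
  abel

/-! ### consequences -/

theorem submatrix_pow (e : Cfg L ≃ Cfg L) (A : Op L) (j : ℕ) :
    (A ^ j).submatrix e e = A.submatrix e e ^ j :=
  map_pow (reindexAlgEquiv ℂ ℂ e.symm) A j

theorem diag_of_transpose {e : Cfg L ≃ Cfg L} {A : Op L} (h : A.submatrix e e = Aᵀ) (j : ℕ)
    (σ : Cfg L) : (A ^ j) (e σ) (e σ) = (A ^ j) σ σ := by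
  have := congrFun (congrFun (submatrix_pow e A j) σ) σ
  rwa [h, ← transpose_pow] at this

theorem diag_of_gauge {e : Cfg L ≃ Cfg L} {A : Op L} {w : Fin L → ℂ} (hw : ∀ j, w j ≠ 0)
    (h : gauge w * A.submatrix e e = A * gauge w) (j : ℕ) (σ : Cfg L) :
    (A ^ j) (e σ) (e σ) = (A ^ j) σ σ := by
  have h1 := congrFun (congrFun (SemiconjBy.pow_right h j).eq σ) σ
  rw [← submatrix_pow, gauge, diagonal_mul, mul_diagonal, mul_comm] at h1
  exact mul_right_cancel₀ (Finset.prod_ne_zero_iff.2 fun k _ => zpow_ne_zero _ (hw k)) h1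

theorem ex_submatrix (e : Cfg L ≃ Cfg L) (β E : ℝ) (A : Op L) :
    (ex β E A).submatrix e e = ex β E (A.submatrix e e) := by
  have h : ((-(β : ℂ)) • (A + (E : ℂ) • (1 : Op L))).submatrix e e =
      (-(β : ℂ)) • (A.submatrix e e + (E : ℂ) • (1 : Op L)) := by
    rw [submatrix_smul, Pi.smul_apply, Pi.smul_apply, submatrix_add, Pi.add_apply, Pi.add_apply,
      submatrix_smul, Pi.smul_apply, Pi.smul_apply, submatrix_one_equiv]
  rw [ex, ex, ← h]
  open scoped Matrix.Norms.Operator in
  exact NormedSpace.map_exp (reindexAlgEquiv ℂ ℂ e.symm)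
    (reindexAlgEquiv ℂ ℂ e.symm).toLinearMap.continuous_of_finiteDimensional _

theorem ex_transpose (β E : ℝ) (A : Op L) : ex β E Aᵀ = (ex β E A)ᵀ := by
  rw [ex, ex, ← exp_transpose, transpose_smul, transpose_add, transpose_smul, transpose_one]

theorem ex_diag {e : Cfg L ≃ Cfg L} {A : Op L} (h : A.submatrix e e = Aᵀ) (β E : ℝ) (σ : Cfg L) :
    ex β E A (e σ) (e σ) = ex β E A σ σ := by
  have := congrFun (congrFun (ex_submatrix e β E A) σ) σ
  rwa [h, ex_transpose] at this

theorem trace_diag_symm {e : Cfg L ≃ Cfg L} {A : Op L} (h : ∀ σ, A (e σ) (e σ) = A σ σ)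
    {f g : Cfg L → ℂ} (hfg : ∀ σ, f (e σ) = g σ) :
    trace (diagonal f * A) = trace (diagonal g * A) := by
  simp only [trace, diag, diagonal_mul]
  rw [← e.sum_comp]
  simp only [h, hfg]

theorem gauge_const (w : ℂ) (hw : w ≠ 0) :
    gauge (fun _ : Fin L => w) = diagonal fun σ => w ^ chg σ := by
  rw [gauge]
  congr 1
  funext σ
  rw [chg]
  induction (Finset.univ : Finset (Fin L)) using Finset.induction_on with
  | empty => simp
  | insert a s ha ih => rw [Finset.prod_insert ha, Finset.sum_insert ha, ih, zpow_add₀ hw]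

/-- `A` conserves the magnetisation -/
def Cons (A : Op L) : Prop := Commute (gauge fun _ => 2) A

theorem Cons.eq_zero {A : Op L} (h : Cons A) {σ τ : Cfg L} (hne : chg σ ≠ chg τ) : A σ τ = 0 := by
  have h1 := congrFun (congrFun h.eq σ) τ
  rw [gauge_const 2 two_ne_zero, diagonal_mul, mul_diagonal, mul_comm] at h1
  by_contra h2
  have h3 := mul_left_cancel₀ h2 h1
  have h4 : (2 : ℝ) ^ chg σ = 2 ^ chg τ := by simpa using congrArg norm h3
  exact hne (zpow_right_injective₀ (by norm_num) (by norm_num) h4)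

theorem Cons.comm {A : Op L} (h : Cons A) (f : ℤ → ℂ) :
    A * diagonal (fun σ => f (chg σ)) = diagonal (fun σ => f (chg σ)) * A := by
  ext σ τ
  rw [diagonal_mul, mul_diagonal]
  by_cases e : chg σ = chg τ
  · rw [e, mul_comm]
  · simp [h.eq_zero e]

theorem Cons.ex {A : Op L} (h : Cons A) (β E : ℝ) : Cons (ex β E A) :=
  ((Commute.add_right h ((Commute.one_right _).smul_right _)).smul_right _).exp_right

theorem cons_HG (n : ℕ) (u v : ℂ) : Cons (HG n u v) := gauge_HG n u v two_ne_zero

theorem cons_Hfld (n : ℕ) (h1 h2 : ℝ) : Cons (Hfld n h1 h2) :=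
  Commute.sub_right (gauge_Hopen n two_ne_zero)
    ((Commute.smul_right (gauge_Z _ _) _).add_right (Commute.smul_right (gauge_Z _ _) _))

theorem chg_flip (σ : Cfg L) : chg (flipC σ) = -chg σ := by
  rw [chg, chg, ← Finset.sum_neg_distrib]
  refine Finset.sum_congr rfl fun j _ => ?_
  rw [flipC]
  generalize σ j = a
  fin_cases a <;> rfl

theorem chg_rev (σ : Cfg L) : chg (revC σ) = chg σ :=
  Equiv.sum_comp Fin.revPerm fun j => magneticNumber (σ j)

theorem Hfld_transpose (n : ℕ) (h1 h2 : ℝ) : (Hfld n h1 h2)ᵀ = Hfld n h1 h2 := by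
  simp only [Hfld, transpose_sub, transpose_add, transpose_smul, Hopen_transpose, onSite_transpose,
    Z_transpose]

theorem Hfld_rev (n : ℕ) (h1 h2 : ℝ) :
    (Hfld n h1 h2).submatrix (revE _) (revE _) = Hfld n h2 h1 := by
  simp only [Hfld, submatrix_sub, submatrix_add, submatrix_smul, Pi.sub_apply, Pi.add_apply,
    Pi.smul_apply, Hopen_rev]
  simp only [revE, onSite_site, Fin.revPerm_apply, Fin.rev_zero, Fin.rev_last, add_comm]

theorem Hfld_flip (n : ℕ) (h1 h2 : ℝ) :
    (Hfld n h1 h2).submatrix (flipE _) (flipE _) = Hfld n (-h1) (-h2) := by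
  simp only [Hfld, submatrix_sub, submatrix_add, submatrix_smul, Pi.sub_apply, Pi.add_apply,
    Pi.smul_apply, Hopen_flip, onSite_flip, Z_flip, onSite_neg, Complex.ofReal_neg, neg_smul,
    smul_neg]

theorem HO_same (n : ℕ) (a : ℤ) : (HO n a a).submatrix (revE _) (revE _) = (HO n a a)ᵀ := by
  rw [HO, submatrix_smul, Pi.smul_apply, Pi.smul_apply, Hfld_rev, transpose_smul, Hfld_transpose]

theorem HO_opp (n : ℕ) (a : ℤ) :
    (HO n (-a) a).submatrix ((flipE _).trans (revE _)) ((flipE _).trans (revE _)) =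
      (HO n (-a) a)ᵀ := by
  rw [Equiv.coe_trans, ← submatrix_submatrix, HO, submatrix_smul, Pi.smul_apply, Pi.smul_apply,
    Hfld_rev, submatrix_smul, Pi.smul_apply, Pi.smul_apply, Hfld_flip, transpose_smul,
    Hfld_transpose, Int.cast_neg, neg_div, neg_neg]

/-! ### the global rotations -/

theorem kX_apply (σ τ : Cfg L) : kAll kX L σ τ = if τ = flipC σ then (-1) ^ L else 0 := by
  have h : ∀ a b : Fin 3, kX a b = if b = a.rev then -1 else 0 := fun a b => by
    fin_cases a <;> fin_cases b <;> simp [kX, Fin.rev]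
  simp only [kAll, of_apply, h]
  split_ifs with e
  · simp [e, flipC]
  · obtain ⟨j, hj⟩ := Function.ne_iff.1 e
    exact Finset.prod_eq_zero (Finset.mem_univ j) (if_neg hj)

theorem kX_mul (A : Op L) (σ τ : Cfg L) : (kAll kX L * A) σ τ = (-1) ^ L * A (flipC σ) τ := by
  simp [mul_apply, kX_apply]

theorem mul_kX (A : Op L) (σ τ : Cfg L) : (A * kAll kX L) σ τ = (-1) ^ L * A σ (flipC τ) := by
  have h : ∀ ρ : Cfg L, τ = flipC ρ ↔ ρ = flipC τ := fun ρ =>
    ⟨fun e => by rw [e, flip_flip], fun e => by rw [e, flip_flip]⟩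
  simp [mul_apply, kX_apply, h, mul_comm]

theorem comm_kX {A : Op L} (h : A.submatrix (flipE L) (flipE L) = A) :
    A * kAll kX L = kAll kX L * A := by
  ext σ τ
  rw [kX_mul, mul_kX, ← congrFun (congrFun h σ) (flipC τ), submatrix_apply, flipE_apply,
    flipE_apply, flip_flip]

end Crest.Agent.R347.Ham
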