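import Crest.Agent.R347.Exch
import Crest.Agent.R347.HamAux

/-! Row 347: the Hamiltonians in the product basis and their symmetries. -/

set_option autoImplicit false
open Crest.MathPhysics.SpinChain Matrix

namespace Crest.Agent.R347

open Ham

theorem Htw_one_mulVec (n : ℕ) (hn : 1 ≤ n) (x : Cfg (n + 1) → ℂ) :
    Htw n 1 *ᵥ x = actR n 1 1 x := by
  rw [Htw_one, HG_mulVec hn]

theorem Htw_RZ_mulVec (n : ℕ) (hn : 1 ≤ n) (x : Cfg (n + 1) → ℂ) :
    Htw n RZ *ᵥ x = actR n (-1) (-1) x := by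
  rw [Htw_RZ, HG_mulVec hn]

theorem Htw_RW_mulVec (n : ℕ) (hn : 1 ≤ n) (x : Cfg (n + 1) → ℂ) :
    Htw n RW *ᵥ x = actR n om (om ^ 2) x := by
  rw [Htw_RW, HG_mulVec hn]

theorem HO_mulVec (n : ℕ) (a b : ℤ) (x : Cfg (n + 1) → ℂ) : HO n a b *ᵥ x = actO n a b x := by
  funext σ
  simp only [HO, Hfld, smul_mulVec, sub_mulVec, add_mulVec, Pi.smul_apply, Pi.sub_apply,
    Pi.add_apply, Hopen_mulVec, Z_mulVec, smul_eq_mul, actO]
  push_cast
  ring

theorem Htw_herm (n : ℕ) (hn : 1 ≤ n) (R : R3) : (Htw n R).IsHermitian := by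
  refine (Hopen_herm n).add ?_
  simp only [IsHermitian, conjTranspose_sum, conjTranspose_smul, conjTranspose_mul,
    onSite_conjTranspose, spinOp_herm, onSite_comm _ _ (zero_ne_last hn), Complex.star_def,
    Complex.conj_ofReal]

theorem Hfld_herm (n : ℕ) (h1 h2 : ℝ) : (Hfld n h1 h2).IsHermitian := by
  refine (Hopen_herm n).sub ?_
  simp only [IsHermitian, conjTranspose_add, conjTranspose_smul, onSite_conjTranspose,
    Z_conjTranspose, Complex.star_def, Complex.conj_ofReal]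

theorem HO_herm (n : ℕ) (a b : ℤ) : (HO n a b).IsHermitian := by
  rw [IsHermitian, HO, conjTranspose_smul, (Hfld_herm _ _ _).eq]
  simp

theorem ring_eq (n : ℕ) (hn : 1 ≤ n) : heisenbergRing (n + 1) = Htw n 1 := by
  rw [Htw_one, HG, Hopen_eq, heisenbergRing, Fin.sum_univ_castSucc, tb_swap 1 1 (zero_ne_last hn)]
  simp only [bond_eq, rot_castSucc, finRotate_last]

theorem open_eq (n : ℕ) (h : ℝ) : openChainEndField n h = Hfld n h h := by
  rw [openChainEndField, Hfld, Hopen, smul_add]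

theorem ex_HO (n : ℕ) (a b : ℤ) (β E : ℝ) :
    ex (β / 5) (5 * E) (HO n a b) = ex β E (Hfld n (a / 5) (b / 5)) := by
  rw [ex, ex, HO]
  congr 1
  push_cast
  module

/-- the three twists used in the computation -/
def Tw (R : R3) : Prop := R = 1 ∨ R = RZ ∨ R = RW

theorem Tw.exists {R : R3} (hR : Tw R) (n : ℕ) : ∃ u v, u * v = 1 ∧ Htw n R = HG n u v := by
  rcases hR with rfl | rfl | rfl
  · exact ⟨1, 1, by simp, Htw_one n⟩
  · exact ⟨-1, -1, by simp, Htw_RZ n⟩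
  · exact ⟨om, om ^ 2, om_mul, Htw_RW n⟩

theorem Pj_herm (L : ℕ) (lo hi : ℤ) : (Pj L lo hi).IsHermitian := by
  rw [Pj, isHermitian_diagonal_iff]
  intro σ
  split_ifs <;> simp

theorem Pj_idem (L : ℕ) (lo hi : ℤ) : Pj L lo hi * Pj L lo hi = Pj L lo hi := by
  rw [Pj, diagonal_mul_diagonal]
  congr 1
  funext σ
  split_ifs <;> simp

theorem Pj_split (L : ℕ) (lo mid hi : ℤ) (h1 : lo ≤ mid + 1) (h2 : mid ≤ hi) :
    Pj L lo hi = Pj L lo mid + Pj L (mid + 1) hi := by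
  rw [Pj, Pj, Pj, diagonal_add]
  congr 1
  funext σ
  split_ifs <;> first | omega | simp

theorem Pj_all (L : ℕ) : Pj L (-(L : ℤ)) L = 1 := by
  rw [Pj, ← diagonal_one]
  congr 1
  funext σ
  have h : ∀ a : Fin 3, -1 ≤ magneticNumber a ∧ magneticNumber a ≤ 1 := by decide
  rw [if_pos]
  exact ⟨by simpa [chg] using Finset.sum_le_sum (s := Finset.univ) fun j _ => (h (σ j)).1,
    by simpa [chg] using Finset.sum_le_sum (s := Finset.univ) fun j _ => (h (σ j)).2⟩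

theorem Pj_comm_Htw (n : ℕ) (hn : 1 ≤ n) {R : R3} (hR : Tw R) (lo hi : ℤ) :
    Htw n R * Pj (n + 1) lo hi = Pj (n + 1) lo hi * Htw n R := by
  obtain ⟨u, v, -, e⟩ := hR.exists n
  rw [e]
  exact (cons_HG n u v).comm fun c => if lo ≤ c ∧ c ≤ hi then 1 else 0

theorem Pj_comm_HO (n : ℕ) (a b lo hi : ℤ) :
    HO n a b * Pj (n + 1) lo hi = Pj (n + 1) lo hi * HO n a b := by
  exact Cons.comm (Commute.smul_right (cons_Hfld n _ _) _) fun c => if lo ≤ c ∧ c ≤ hi then 1 else 0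

theorem kZ_diag (L : ℕ) : kAll kZ L = diagonal fun σ => ((-1 : ℂ) ^ (chg σ)) := by
  rw [← gauge_const (-1) (by norm_num), Ham.gauge]
  have h : ∀ a b : Fin 3, kZ a b = if a = b then (-1) ^ magneticNumber a else 0 := fun a b => by
    fin_cases a <;> fin_cases b <;> simp [kZ, magneticNumber]
  ext σ τ
  simp only [kAll, of_apply, h, diagonal_apply]
  split_ifs with e
  · simp [e]
  · obtain ⟨j, hj⟩ := Function.ne_iff.1 e
    exact Finset.prod_eq_zero (Finset.mem_univ j) (if_neg hj)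

theorem kX_mulVec (L : ℕ) (x : Cfg L → ℂ) :
    kAll kX L *ᵥ x = fun σ => (-1 : ℂ) ^ L * x (flipC σ) := by
  funext σ
  simp [mulVec, dotProduct, kX_apply]

theorem kZ_facts (n : ℕ) (hn : 1 ≤ n) {R : R3} (hR : Tw R) (lo hi : ℤ) :
    (kAll kZ (n + 1)).IsHermitian ∧ kAll kZ (n + 1) * kAll kZ (n + 1) = 1 ∧
      Htw n R * kAll kZ (n + 1) = kAll kZ (n + 1) * Htw n R ∧
      Pj (n + 1) lo hi * kAll kZ (n + 1) = kAll kZ (n + 1) * Pj (n + 1) lo hi := by
  obtain ⟨u, v, -, e⟩ := hR.exists n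
  rw [e, kZ_diag]
  refine ⟨isHermitian_diagonal_iff.2 fun σ => ?_, ?_, (cons_HG n u v).comm fun c => (-1) ^ c, ?_⟩
  · simp [IsSelfAdjoint]
  · rw [diagonal_mul_diagonal, ← diagonal_one]
    congr 1
    funext σ
    rw [← mul_zpow]
    simp
  · rw [Pj, diagonal_mul_diagonal, diagonal_mul_diagonal]
    simp only [mul_comm]

theorem kX_facts (n : ℕ) (hn : 1 ≤ n) :
    (kAll kX (n + 1)).IsHermitian ∧ kAll kX (n + 1) * kAll kX (n + 1) = 1 ∧
      Htw n RZ * kAll kX (n + 1) = kAll kX (n + 1) * Htw n RZ ∧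
      Pj (n + 1) 0 0 * kAll kX (n + 1) = kAll kX (n + 1) * Pj (n + 1) 0 0 := by
  refine ⟨?_, ?_, comm_kX (by rw [Htw_RZ, HG_flip]), comm_kX ?_⟩
  · ext σ τ
    have h : σ = flipC τ ↔ τ = flipC σ :=
      ⟨fun e => by rw [e, Ham.flip_flip], fun e => by rw [e, Ham.flip_flip]⟩
    simp only [conjTranspose_apply, kX_apply, h]
    split_ifs <;> simp
  · ext σ τ
    rw [kX_mul, kX_apply, Ham.flip_flip, one_apply]
    simp only [eq_comm (a := τ)]
    split_ifs
    · rw [← mul_pow]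
      simp
    · simp
  · rw [Pj, submatrix_diagonal_equiv]
    congr 1
    funext σ
    simp only [Function.comp, flipE_apply, chg_flip, Left.nonneg_neg_iff, Left.neg_nonpos_iff,
      and_comm]

/-- only the sector `M = 0` contributes to the flip-twisted trace -/
theorem rtr_kX (n : ℕ) (hn : 1 ≤ n) (β E : ℝ) :
    rtr (kAll kX (n + 1) * ex β E (Htw n RZ))
      = rtr (kAll kX (n + 1) * Pj (n + 1) 0 0 * ex β E (Htw n RZ)) := by
  have h := (cons_HG n (-1) (-1)).ex β E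
  rw [Htw_RZ, mul_assoc, rtr, rtr]
  congr 1
  refine Finset.sum_congr rfl fun σ _ => ?_
  simp only [diag, kX_mul, Pj, diagonal_mul]
  split_ifs with e
  · rw [one_mul]
  · rw [h.eq_zero (by rw [chg_flip] at e ⊢; omega), mul_zero, zero_mul, mul_zero]

theorem rtr_neg_ring (n : ℕ) (hn : 1 ≤ n) {R : R3} (hR : Tw R) (lo hi : ℤ) (β E : ℝ) :
    rtr (Pj (n + 1) (-hi) (-lo) * ex β E (Htw n R)) = rtr (Pj (n + 1) lo hi * ex β E (Htw n R)) ∧
    rtr (kAll kZ (n + 1) * Pj (n + 1) (-hi) (-lo) * ex β E (Htw n R))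
      = rtr (kAll kZ (n + 1) * Pj (n + 1) lo hi * ex β E (Htw n R)) := by
  obtain ⟨u, v, -, e⟩ := hR.exists n
  have h := ex_diag ((HG_flip n u v).trans (HG_transpose hn u v).symm) β E
  have h1 : ∀ σ : Cfg (n + 1), (-hi ≤ chg (flipE _ σ) ∧ chg (flipE _ σ) ≤ -lo) ↔
      (lo ≤ chg σ ∧ chg σ ≤ hi) := fun σ => by
    rw [flipE_apply, chg_flip]
    omega
  rw [e, kZ_diag]
  simp only [rtr, Pj, diagonal_mul_diagonal]
  refine ⟨congrArg _ (trace_diag_symm h fun σ => by simp only [h1]),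
    congrArg _ (trace_diag_symm h fun σ => ?_)⟩
  simp only [h1]
  rw [flipE_apply, chg_flip, _root_.zpow_neg, ← _root_.inv_zpow, inv_neg, inv_one]

theorem rtr_neg_open (n : ℕ) (a : ℤ) (lo hi : ℤ) (β E : ℝ) :
    rtr (Pj (n + 1) (-hi) (-lo) * ex β E (HO n (-a) a))
      = rtr (Pj (n + 1) lo hi * ex β E (HO n (-a) a)) := by
  refine congrArg Complex.re (trace_diag_symm (ex_diag (HO_opp n a) β E) fun σ => ?_)
  have h : (-hi ≤ -chg σ ∧ -chg σ ≤ -lo) ↔ (lo ≤ chg σ ∧ chg σ ≤ hi) := by omega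
  simp only [Equiv.trans_apply, revE_apply, flipE_apply, chg_rev, chg_flip, h]

theorem diag_ring (n : ℕ) (hn : 1 ≤ n) {R : R3} (hR : Tw R) (j : ℕ) (σ : Cfg (n + 1)) :
    ((Htw n R ^ j) (rotC σ) (rotC σ)).re = ((Htw n R ^ j) σ σ).re ∧
    ((Htw n R ^ j) (revC σ) (revC σ)).re = ((Htw n R ^ j) σ σ).re ∧
    ((Htw n R ^ j) (flipC σ) (flipC σ)).re = ((Htw n R ^ j) σ σ).re := by
  obtain ⟨u, v, huv, e⟩ := hR.exists n
  rw [e]
  refine ⟨?_, congrArg _ (diag_of_transpose ((HG_rev hn u v).trans (HG_transpose hn u v).symm) j σ),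
    congrArg _ (diag_of_transpose ((HG_flip n u v).trans (HG_transpose hn u v).symm) j σ)⟩
  obtain ⟨m, rfl⟩ : ∃ m, n = m + 1 := ⟨n - 1, by omega⟩
  rw [← rotE_apply, diag_of_gauge (fun k => ?_) (HG_rot m huv)]
  by_cases hk : k = 0 <;> simp [hk, left_ne_zero_of_mul_eq_one huv]

theorem diag_open_same (n : ℕ) (a : ℤ) (j : ℕ) (σ : Cfg (n + 1)) :
    ((HO n a a ^ j) (revC σ) (revC σ)).re = ((HO n a a ^ j) σ σ).re := by
  exact congrArg _ (diag_of_transpose (HO_same n a) j σ)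

theorem diag_open_opp (n : ℕ) (a : ℤ) (j : ℕ) (σ : Cfg (n + 1)) :
    ((HO n (-a) a ^ j) (revC (flipC σ)) (revC (flipC σ))).re = ((HO n (-a) a ^ j) σ σ).re := by
  exact congrArg _ (diag_of_transpose (HO_opp n a) j σ)

end Crest.Agent.R347
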