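import Crest.Agent.R347.TBase
import Crest.Agent.R347.Ham

/-! Row 347: approximate-eigenvector certificates. -/

set_option autoImplicit false
open Crest.MathPhysics.SpinChain Matrix

namespace Crest.Agent.R347

theorem oneStep_eq {step : ℕ → T → T} {bld : (ℕ → ℕ) → T} (a : Acc step bld) (chk : T → T → Bool)
    (f : ℕ → ℕ) : oneStep a chk f = b2t (chk (bld f) (step 1208925819614629174706176 (bld f))) := by
  have h1 := congrFun (congrFun (congrFun a.hF fun t u => b2t (chk t u)) fun u => u)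
    1208925819614629174706176
  have h2 := congrFun (congrFun a.happ f)
    fun t => b2t (chk t (step 1208925819614629174706176 t))
  exact (congrArg (a.app f) h1.symm).trans h2

theorem vdat_lt (dd : ℕ) (c : T) (i : ℕ) : vdat dd c i < 2 ^ 64 := by
  exact Nat.mod_lt _ (by norm_num)

theorem vdatC_lt (dd : ℕ) (c c' : T) (i : ℕ) : vdatC dd c c' i < 2 ^ 64 := by
  unfold vdatC
  cases Nat.beq (Nat.mod i 2) 0
  · exact vdat_lt dd c' _
  · exact vdat_lt dd c _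

/-- a cluster certified with `F = 1` in a single-charge sector is one for `F = (-1)^M` -/
theorem Clu.toZ {L lo : ℕ} {H : Op L} {ρ s : ℝ} {r : ℕ} (h : Clu H (Pd L lo lo) 1 ρ s r 1) :
    Clu H (Pd L lo lo) (kAll kZ L) ρ s r ((-1) ^ (L + lo)) := by
  obtain ⟨v, h1, h2⟩ := h
  refine ⟨v, h1, fun i => ⟨(h2 i).1, (h2 i).2.1, ?_, (h2 i).2.2.2⟩⟩
  funext σ
  have h3 := congrFun (h2 i).2.1 σ
  rw [Pd_eq, mulVec_diagonal] at h3
  rw [kZ_diag, mulVec_diagonal, Pi.smul_apply, smul_eq_mul]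
  split_ifs at h3 with h4
  · rw [chg_eq, le_antisymm h4.2 h4.1, zpow_sub₀ (by norm_num), zpow_natCast, zpow_natCast]
    push_cast
    rw [pow_add]
    rcases neg_one_pow_eq_or ℂ lo with h5 | h5 <;> rw [h5] <;> ring
  · rw [← h3]
    simp

namespace TC

/-! ### residues -/

theorem dec_def (N : ℕ) :
    dec N = ((N : ℤ) + 9223372036854775808) % 18446744073709551616 - 9223372036854775808 := by
  have h : ∀ a b : ℕ, Int.subNatNat (Nat.mod (Nat.add N a) b) a = ((N : ℤ) + a) % b - a := by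
    intro a b
    rw [Int.subNatNat_eq_coe]
    rfl
  exact h _ _

theorem dec_zero : dec 0 = 0 := by rw [dec_def]; norm_num

theorem dec_zmod (N : ℕ) : ((dec N : ℤ) : ZMod (2 ^ 64)) = (N : ZMod (2 ^ 64)) := by
  rw [← Int.cast_natCast, ZMod.intCast_eq_intCast_iff', dec_def]
  push_cast
  omega

theorem dec_eq {N : ℕ} {z : ℤ} (h : (N : ZMod (2 ^ 64)) = (z : ZMod (2 ^ 64)))
    (hz : |z| < 2 ^ 63) : dec N = z := by
  rw [← Int.cast_natCast, ZMod.intCast_eq_intCast_iff'] at h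
  push_cast at h
  rw [abs_lt] at hz
  rw [dec_def]
  omega

theorem abs_dec_le {a : ℕ} (h : Nat.mod (Nat.add a 4294967296) 18446744073709551616 ≤ 8589934592) :
    |dec a| ≤ 2 ^ 32 := by
  change (a + 4294967296) % 18446744073709551616 ≤ 8589934592 at h
  rw [dec_def, abs_le]
  omega

/-! ### trees -/

theorem ch_map (g : ℕ → ℕ) (t : T) (k : Fin 3) : (T.map g t).ch k = T.map g (t.ch k) := by
  cases t <;> fin_cases k <;> rfl

theorem get_map_or (g : ℕ → ℕ) (L : ℕ) (t : T) (σ : Cfg L) :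
    get L (T.map g t) σ = g (get L t σ) ∨ (get L t σ = 0 ∧ get L (T.map g t) σ = 0) := by
  induction L generalizing t with
  | zero =>
    cases t
    · exact Or.inr ⟨rfl, rfl⟩
    · exact Or.inl rfl
    · exact Or.inr ⟨rfl, rfl⟩
  | succ L ih =>
    simp only [get, ch_map]
    exact ih _ _

theorem get_map {g : ℕ → ℕ} (hg : g 0 = 0) (L : ℕ) (t : T) (σ : Cfg L) :
    get L (T.map g t) σ = g (get L t σ) := by
  rcases get_map_or g L t σ with h | ⟨h1, h2⟩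
  · exact h
  · rw [h1, h2, hg]

theorem dep_map (g : ℕ → ℕ) {L : ℕ} {t : T} (h : Dep L t) : Dep L (T.map g t) := by
  induction t generalizing L with
  | nil => cases L <;> trivial
  | leaf a => cases L <;> exact h
  | node a b c ha hb hc =>
    cases L with
    | zero => exact h
    | succ L => exact ⟨ha h.1, hb h.2.1, hc h.2.2⟩

theorem add_nil (x : T) : x.add T.nil = x := by cases x <;> rfl

theorem dep_nil (L : ℕ) : Dep L T.nil := by cases L <;> trivial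

theorem get_nil (L : ℕ) (σ : Cfg L) : get L T.nil σ = 0 := by
  induction L with
  | zero => rfl
  | succ L ih => exact ih _

theorem dep_add {L : ℕ} {x y : T} (hx : Dep L x) (hy : Dep L y) : Dep L (x.add y) := by
  induction x generalizing L y with
  | nil => exact hy
  | leaf a => cases y <;> cases L <;> exact hx
  | node a b c ha hb hc =>
    cases y with
    | nil => exact hx
    | leaf _ => exact hx
    | node a' b' c' =>
      cases L with
      | zero => exact absurd hx id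
      | succ L => exact ⟨ha hx.1 hy.1, hb hx.2.1 hy.2.1, hc hx.2.2 hy.2.2⟩

theorem get_add {L : ℕ} {x y : T} (hx : Dep L x) (hy : Dep L y) (σ : Cfg L) :
    get L (x.add y) σ = get L x σ + get L y σ := by
  induction L generalizing x y with
  | zero =>
    cases x with
    | nil => exact (zero_add _).symm
    | leaf a =>
      cases y with
      | nil => rfl
      | leaf b => rfl
      | node _ _ _ => exact absurd hy id
    | node _ _ _ => exact absurd hx id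
  | succ L ih =>
    cases x with
    | nil => rw [get_nil, zero_add]; rfl
    | leaf a => exact absurd hx id
    | node a b c =>
      cases y with
      | nil => rw [add_nil, get_nil, add_zero]
      | leaf _ => exact absurd hy id
      | node a' b' c' =>
        simp only [get]
        generalize σ 0 = k
        fin_cases k
        · exact ih hx.1 hy.1 _
        · exact ih hx.2.1 hy.2.1 _
        · exact ih hx.2.2 hy.2.2 _

/-- the signed entries of a tree -/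
noncomputable def vz (L : ℕ) (t : T) (σ : Cfg L) : ℤ := dec (get L t σ)

theorem abs_vz_le {L : ℕ} {t : T} (h : Bd 8589934592
    (T.map (fun a => Nat.mod (Nat.add a 4294967296) 18446744073709551616) t)) (σ : Cfg L) :
    |vz L t σ| ≤ 2 ^ 32 := by
  have h1 := get_le_of_bd L _ _ h σ
  rcases get_map_or (fun a => Nat.mod (Nat.add a 4294967296) 18446744073709551616) L t σ with
    h2 | ⟨h2, -⟩
  · rw [h2] at h1
    exact abs_dec_le h1
  · rw [vz, h2, dec_zero]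
    norm_num

theorem vz_buildR {L lo hi : ℕ} (f : ℕ → ℕ) {σ : Cfg L} (h : ¬(lo ≤ dsm σ ∧ dsm σ ≤ hi)) :
    vz L (buildR L lo hi f) σ = 0 := by
  rw [vz, get_buildR, if_neg h, dec_zero]

theorem fold_mul {L : ℕ} {x y : T} (hx : Dep L x) (hy : Dep L y) :
    fold2 (fun a b => Int.mul (dec a) (dec b)) L x y = ∑ σ, vz L x σ * vz L y σ :=
  fold2_eq _ (by rw [dec_zero]; rfl) L x y hx hy

theorem nrmC_eq {L : ℕ} {x y : T} (hx : Dep L x) (hy : Dep L y) :
    nrmC L x y = ∑ σ, (vz L x σ * vz L x σ + vz L y σ * vz L y σ - vz L x σ * vz L y σ) :=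
  fold2_eq _ (by rw [dec_zero]; rfl) L x y hx hy

theorem chk_of_oneStep {step : ℕ → T → T} {bld : (ℕ → ℕ) → T} {a : Acc step bld}
    {chk : T → T → Bool} {f : ℕ → ℕ} (h : oneStep a chk f = T.leaf 1) :
    chk (bld f) (step 1208925819614629174706176 (bld f)) = true := by
  rw [oneStep_eq] at h
  by_contra h'
  rw [Bool.not_eq_true] at h'
  rw [h'] at h
  exact T.noConfusion h

theorem abs_row_le {ι : Type} [Fintype ι] {m v : ι → ℤ} {B : ℤ} (hv : ∀ i, |v i| ≤ B) :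
    |∑ i, m i * v i| ≤ (∑ i, |m i|) * B := by
  rw [Finset.sum_mul]
  refine (Finset.abs_sum_le_sum_abs _ _).trans (Finset.sum_le_sum fun i _ => ?_)
  rw [abs_mul]
  exact mul_le_mul_of_nonneg_left (hv i) (abs_nonneg _)

/-! ### vectors -/

variable {ι : Type} [Fintype ι] [DecidableEq ι]

/-- one member of a cluster -/
def Good (H P F : Matrix ι ι ℂ) (ρ s : ℝ) (r : ℕ) (ε : ℤ) (v : ι → ℂ) : Prop :=
  v ≠ 0 ∧ P *ᵥ v = v ∧ F *ᵥ v = (ε : ℂ) • v ∧
    r * (star (H *ᵥ v - (ρ : ℂ) • v) ⬝ᵥ (H *ᵥ v - (ρ : ℂ) • v)).re ≤ s ^ 2 * (star v ⬝ᵥ v).re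

theorem clu1 {H P F : Matrix ι ι ℂ} {ρ s : ℝ} {ε : ℤ} {v : ι → ℂ} (h : Good H P F ρ s 1 ε v) :
    Clu H P F ρ s 1 ε :=
  ⟨fun _ => v, fun i j hij => absurd (Subsingleton.elim i j) hij, fun _ => h⟩

theorem clu2 {H P F : Matrix ι ι ℂ} {ρ s : ℝ} {ε : ℤ} {v w : ι → ℂ} (h : Good H P F ρ s 2 ε v)
    (h' : Good H P F ρ s 2 ε w) (ho : star v ⬝ᵥ w = 0) : Clu H P F ρ s 2 ε := by
  have ho' : star w ⬝ᵥ v = 0 := by rw [star_dotProduct, ho, star_zero]
  refine ⟨![v, w], fun i j hij => ?_, fun i => ?_⟩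
  · fin_cases i <;> fin_cases j
    · exact absurd rfl hij
    · exact ho
    · exact ho'
    · exact absurd rfl hij
  · fin_cases i
    · exact h
    · exact h'

theorem Good.flip {H P F : Matrix ι ι ℂ} {ρ s : ℝ} {r : ℕ} {ε : ℤ} {v : ι → ℂ}
    (h : Good H P 1 ρ s r 1 v) (hF : F *ᵥ v = (ε : ℂ) • v) : Good H P F ρ s r ε v :=
  ⟨h.1, h.2.1, hF, h.2.2.2⟩

theorem good_of {H P : Matrix ι ι ℂ} {v w : ι → ℂ} {D sn sd r : ℕ} {ρ A B : ℤ} (hD : 0 < D)
    (hsd : 0 < sd) (hP : P *ᵥ v = v) (hw : w = (D : ℂ) • (H *ᵥ v) - (ρ : ℂ) • v)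
    (hA : star w ⬝ᵥ w = A) (hB : star v ⬝ᵥ v = B) (h0 : 0 < B)
    (h : (r : ℤ) * (sd : ℤ) ^ 2 * A ≤ (sn : ℤ) ^ 2 * (D : ℤ) ^ 2 * B) :
    Good H P 1 ((ρ : ℝ) / D) ((sn : ℝ) / sd) r 1 v := by
  have hD' : (0 : ℝ) < D := by exact_mod_cast hD
  have hsd' : (0 : ℝ) < sd := by exact_mod_cast hsd
  have hDc : (D : ℂ) ≠ 0 := by exact_mod_cast hD.ne'
  refine ⟨?_, hP, by simp, ?_⟩
  · rintro rfl
    rw [dotProduct_zero] at hB
    exact h0.ne (by exact_mod_cast hB)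
  · have h1 : H *ᵥ v - (((ρ : ℝ) / D : ℝ) : ℂ) • v = (((D : ℝ)⁻¹ : ℝ) : ℂ) • w := by
      rw [hw, smul_sub, smul_smul, smul_smul]
      push_cast
      rw [inv_mul_cancel₀ hDc, one_smul, div_eq_inv_mul]
    have h2 : (star (H *ᵥ v - (((ρ : ℝ) / D : ℝ) : ℂ) • v) ⬝ᵥ
        (H *ᵥ v - (((ρ : ℝ) / D : ℝ) : ℂ) • v)).re = (D : ℝ)⁻¹ * ((D : ℝ)⁻¹ * A) := by
      rw [h1, star_smul, smul_dotProduct, dotProduct_smul, hA, Complex.star_def, Complex.conj_ofReal,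
        smul_eq_mul, smul_eq_mul, Complex.re_ofReal_mul, Complex.re_ofReal_mul, Complex.intCast_re]
    have h3 : (r : ℝ) * (sd : ℝ) ^ 2 * A ≤ (sn : ℝ) ^ 2 * (D : ℝ) ^ 2 * B := by exact_mod_cast h
    rw [h2, hB, Complex.intCast_re]
    calc (r : ℝ) * ((D : ℝ)⁻¹ * ((D : ℝ)⁻¹ * A)) =
          ((r : ℝ) * (sd : ℝ) ^ 2 * A) / ((sd : ℝ) ^ 2 * (D : ℝ) ^ 2) := by field_simp
      _ ≤ ((sn : ℝ) ^ 2 * (D : ℝ) ^ 2 * B) / ((sd : ℝ) ^ 2 * (D : ℝ) ^ 2) := by gcongr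
      _ = _ := by field_simp

/-- an integer vector -/
def vr (a : ι → ℤ) : ι → ℂ := fun σ => (a σ : ℂ)

/-- a vector with entries in `ℤ[om]` -/
noncomputable def vc (a b : ι → ℤ) : ι → ℂ := fun σ => (a σ : ℂ) + om * (b σ : ℂ)

omit [DecidableEq ι] in
theorem dot_vr (a a' : ι → ℤ) : star (vr a) ⬝ᵥ vr a' = ((∑ σ, a σ * a' σ : ℤ) : ℂ) := by
  simp [vr, dotProduct]

theorem om_sq : om * om = -1 - om := by
  have h : ((Real.sqrt 3 : ℝ) : ℂ) * (Real.sqrt 3 : ℝ) = 3 := by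
    rw [← Complex.ofReal_mul, Real.mul_self_sqrt (by norm_num)]
    norm_num
  unfold om
  push_cast
  linear_combination (-1 / 4 : ℂ) * h + ((Real.sqrt 3 : ℝ) : ℂ) ^ 2 / 4 * Complex.I_mul_I

theorem star_om : star om = -1 - om := by
  unfold om
  apply Complex.ext <;> simp
  norm_num

omit [DecidableEq ι] in
theorem dot_vc (a b a' b' : ι → ℤ) : star (vc a b) ⬝ᵥ vc a' b' =
    ((∑ σ, a σ * a' σ + ∑ σ, b σ * b' σ - ∑ σ, b σ * a' σ : ℤ) : ℂ) +
      om * ((∑ σ, a σ * b' σ - ∑ σ, b σ * a' σ : ℤ) : ℂ) := by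
  simp only [dotProduct, ← Finset.sum_add_distrib, ← Finset.sum_sub_distrib, Int.cast_sum,
    Finset.mul_sum]
  refine Finset.sum_congr rfl fun σ _ => ?_
  simp only [vc, Pi.star_apply, star_add, star_mul', star_om, star_intCast]
  push_cast
  linear_combination (-(b σ : ℂ) * b' σ) * om_sq

omit [DecidableEq ι] in
theorem dot_vc_self (a b : ι → ℤ) : star (vc a b) ⬝ᵥ vc a b =
    ((∑ σ, (a σ * a σ + b σ * b σ - a σ * b σ) : ℤ) : ℂ) := by
  rw [dot_vc]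
  simp [Finset.sum_add_distrib, Finset.sum_sub_distrib, mul_comm]

theorem Pd_mulVec {L lo hi : ℕ} {v : Cfg L → ℂ} (h : ∀ σ, ¬(lo ≤ dsm σ ∧ dsm σ ≤ hi) → v σ = 0) :
    Pd L lo hi *ᵥ v = v := by
  funext σ
  rw [Pd_eq, mulVec_diagonal]
  split_ifs with h1
  · exact one_mul _
  · rw [h σ h1, mul_zero]

/-! ### the two kinds of certificates -/

theorem good_real {L lo hi G : ℕ} {step : ℕ → T → T} {H : Op L} (hk : RealKind L step H G)
    {a : Acc step (buildR L lo hi)} (hG : G ≤ 2 ^ 20) {r D sn sd : ℕ} {ρ : ℤ} (hD : 0 < D)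
    (hsd : 0 < sd) {f : ℕ → ℕ} (hf : ∀ i, f i < 2 ^ 64)
    (h : oneStep a (certR L r D sn sd ρ) f = T.leaf 1) :
    Good H (Pd L lo hi) 1 ((ρ : ℝ) / D) ((sn : ℝ) / sd) r 1 (vr (vz L (buildR L lo hi f))) := by
  obtain ⟨M, rfl, hM, hs⟩ := hk
  have h1 := chk_of_oneStep h
  have ht := dep_buildR L lo hi f
  have hP : Pd L lo hi *ᵥ vr (vz L (buildR L lo hi f)) = vr (vz L (buildR L lo hi f)) :=
    Pd_mulVec fun σ hσ => by rw [vr, vz_buildR f hσ, Int.cast_zero]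
  obtain ⟨hu, -, hu'⟩ := hs 1208925819614629174706176 (2 ^ 64) (2 ^ 64) _ ht
    (bd_buildR L lo hi _ f fun i _ => (hf i).le) (by norm_num) (by norm_num)
  generalize buildR L lo hi f = t at *
  generalize step 1208925819614629174706176 t = u at *
  simp only [certR, Bool.and_eq_true, decide_eq_true_eq, allLe_iff] at h1
  obtain ⟨⟨h2, h3⟩, h4⟩ := h1
  have e1 : fold2 (fun a _ => isq (dec a)) L t t = ∑ σ, vz L t σ * vz L t σ :=
    fold2_eq _ (by rw [dec_zero]; rfl) L t t ht ht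
  have e2 : fold2 (fun a b => isq (Int.sub (Int.mul D (dec b)) (Int.mul ρ (dec a)))) L t u =
      ∑ σ, (D * vz L u σ - ρ * vz L t σ) * (D * vz L u σ - ρ * vz L t σ) :=
    fold2_eq _ (by
      change ((D : ℤ) * dec 0 - ρ * dec 0) * ((D : ℤ) * dec 0 - ρ * dec 0) = 0
      simp [dec_zero]) L t u ht hu
  have e3 : ∀ σ, vz L u σ = ∑ τ, M σ τ * vz L t τ := by
    intro σ
    refine dec_eq ?_ ((abs_row_le (abs_vz_le h3)).trans_lt ?_)
    · rw [hu' σ]
      simp only [Int.cast_sum, Int.cast_mul, vz, dec_zmod]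
    · have := hM σ
      have h5 : (G : ℤ) ≤ 2 ^ 20 := by exact_mod_cast hG
      omega
  rw [e1] at h2 h4
  rw [e2] at h4
  refine good_of (w := vr fun σ => D * vz L u σ - ρ * vz L t σ) hD hsd hP ?_ (dot_vr _ _)
    (dot_vr _ _) h2 h4
  funext σ
  simp [vr, e3, mulVec, dotProduct]

theorem flip_real {L : ℕ} {ε : ℤ} {t : T} (ht : Dep L t) (hp : parR L ε t = true) :
    kAll kX L *ᵥ vr (vz L t) = (((-1) ^ L * ε : ℤ) : ℂ) • vr (vz L t) := by
  simp only [parR, decide_eq_true_eq] at hp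
  have e1 : fold2 (fun a b => isq (Int.sub (dec b) (Int.mul ε (dec a)))) L t t.flip =
      ∑ σ, (vz L t.flip σ - ε * vz L t σ) * (vz L t.flip σ - ε * vz L t σ) :=
    fold2_eq _ (by
      change (dec 0 - ε * dec 0) * (dec 0 - ε * dec 0) = 0
      simp [dec_zero]) L t t.flip ht (dep_flip L t ht)
  rw [e1, Finset.sum_eq_zero_iff_of_nonneg fun σ _ => mul_self_nonneg _] at hp
  funext σ
  have h1 := sub_eq_zero.1 (mul_self_eq_zero.1 (hp σ (Finset.mem_univ σ)))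
  rw [vz, get_flip, ← vz] at h1
  simp [kX_mulVec, vr, h1, mul_assoc]

theorem orth_real {L : ℕ} {t t' : T} (ht : Dep L t) (ht' : Dep L t') (ho : orthR L t t' = true) :
    star (vr (vz L t)) ⬝ᵥ vr (vz L t') = 0 := by
  simp only [orthR, decide_eq_true_eq, fold_mul ht ht'] at ho
  rw [dot_vr, ho, Int.cast_zero]

theorem vz_resT {L D ρp ρm : ℕ} {t u : T} (ht : Dep L t) (hu : Dep L u) (hD' : D ≤ 2 ^ 20)
    (hρp : ρp ≤ 2 ^ 25) (hρm : ρm ≤ 2 ^ 25) {σ : Cfg L} {U : ℤ}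
    (hU : ((get L u σ : ℕ) : ZMod (2 ^ 64)) = (U : ZMod (2 ^ 64))) (hU' : |U| ≤ 2 ^ 40)
    (hv : |vz L t σ| ≤ 2 ^ 32) :
    vz L (resT D ρp ρm t u) σ = D * U - ((ρp : ℤ) - ρm) * vz L t σ := by
  refine dec_eq ?_ ?_
  · rw [resT, get_add (dep_map _ hu) (dep_map _ ht), get_map rfl,
      get_map (g := fun a => Nat.mul a (Nat.sub (Nat.add 18446744073709551616 ρm) ρp))
        (Nat.zero_mul _)]
    change ((D * (get L u σ % 2 ^ 64) + get L t σ * (2 ^ 64 + ρm - ρp) : ℕ) : ZMod (2 ^ 64)) = _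
    rw [Nat.cast_add, Nat.cast_mul, Nat.cast_mul, ZMod.natCast_mod, Nat.cast_sub (by omega),
      Nat.cast_add, ZMod.natCast_self, hU]
    simp only [Int.cast_sub, Int.cast_mul, Int.cast_natCast, vz, dec_zmod]
    ring
  · have h1 : |(D : ℤ) * U| ≤ 2 ^ 20 * 2 ^ 40 := by
      rw [abs_mul]
      exact mul_le_mul (by rw [Nat.abs_cast]; exact_mod_cast hD') hU' (abs_nonneg _) (by norm_num)
    have h2 : |((ρp : ℤ) - ρm) * vz L t σ| ≤ 2 ^ 25 * 2 ^ 32 := by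
      rw [abs_mul]
      exact mul_le_mul (by rw [abs_le]; omega) hv (abs_nonneg _) (by norm_num)
    refine (abs_sub _ _).trans_lt ?_
    omega

theorem good_cplx {L lo hi G : ℕ} {step : ℕ → T → T} {H : Op L} (hk : CplxKind L step H G)
    {a : Acc step (buildC L lo hi)} (hG : G ≤ 2 ^ 8) {r D sn sd ρp ρm : ℕ} (hD : 0 < D)
    (hsd : 0 < sd) (hD' : D ≤ 2 ^ 20) (hρp : ρp ≤ 2 ^ 25) (hρm : ρm ≤ 2 ^ 25) {f : ℕ → ℕ}
    (hf : ∀ i, f i < 2 ^ 64) (h : oneStep a (certC L r D sn sd ρp ρm) f = T.leaf 1) :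
    Good H (Pd L lo hi) 1 (((ρp : ℝ) - ρm) / D) ((sn : ℝ) / sd) r 1
      (vc (vz L (buildC L lo hi f).c0) (vz L (buildC L lo hi f).c1)) := by
  obtain ⟨-, M11, M12, M21, M22, hH, hM1, hM2, hs⟩ := hk
  have h1 := chk_of_oneStep h
  have ht0 : Dep L (buildC L lo hi f).c0 := dep_buildR L lo hi _
  have ht1 : Dep L (buildC L lo hi f).c1 := dep_buildR L lo hi _
  have hP : Pd L lo hi *ᵥ vc (vz L (buildC L lo hi f).c0) (vz L (buildC L lo hi f).c1) = _ :=
    Pd_mulVec fun σ hσ => by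
      have e0 : vz L (buildC L lo hi f).c0 σ = 0 := vz_buildR _ hσ
      have e1 : vz L (buildC L lo hi f).c1 σ = 0 := vz_buildR _ hσ
      simp [vc, e0, e1]
  obtain ⟨hu0, hu1, -, -, hu0', hu1'⟩ := hs 1208925819614629174706176 (2 ^ 64) (2 ^ 64) _ ht0 ht1
    (bd_buildR L lo hi _ _ fun i _ => (hf _).le) (bd_buildR L lo hi _ _ fun i _ => (hf _).le)
    (by norm_num) (by norm_num)
  simp only [certC, Bool.and_eq_true, decide_eq_true_eq, allLe_iff] at h1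
  obtain ⟨⟨h2, h3⟩, h4⟩ := h1
  have b0 : ∀ σ, |vz L (buildC L lo hi f).c0 σ| ≤ 2 ^ 32 := abs_vz_le h3.1
  have b1 : ∀ σ, |vz L (buildC L lo hi f).c1 σ| ≤ 2 ^ 32 := abs_vz_le h3.2.1
  clear h3
  generalize buildC L lo hi f = t at *
  generalize step 1208925819614629174706176 t = u at *
  have hG' : (G : ℤ) ≤ 2 ^ 8 := by exact_mod_cast hG
  have key : ∀ (A B : Matrix (Cfg L) (Cfg L) ℤ) (x y : T), Dep L x → Dep L y →
      (∀ σ, ∑ τ, (|A σ τ| + |B σ τ|) ≤ G) → (∀ σ, |vz L x σ| ≤ 2 ^ 32) →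
      (∀ σ, ((get L y σ : ℕ) : ZMod (2 ^ 64)) =
        ∑ τ, ((A σ τ : ZMod (2 ^ 64)) * ((get L t.c0 τ : ℕ) : ZMod (2 ^ 64))
          + (B σ τ : ZMod (2 ^ 64)) * ((get L t.c1 τ : ℕ) : ZMod (2 ^ 64)))) →
      ∀ σ, vz L (resT D ρp ρm x y) σ =
        D * (A *ᵥ vz L t.c0 + B *ᵥ vz L t.c1) σ - ((ρp : ℤ) - ρm) * vz L x σ := by
    intro A B x y hx hy hAB hb hy' σ
    refine vz_resT hx hy hD' hρp hρm ?_ ?_ (hb σ)
    · rw [hy' σ]
      simp only [Pi.add_apply, mulVec, dotProduct, Int.cast_add, Int.cast_sum, Int.cast_mul, vz,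
        dec_zmod, Finset.sum_add_distrib]
    · have h5 := abs_row_le (m := A σ) b0
      have h6 := abs_row_le (m := B σ) b1
      have h7 := hAB σ
      rw [Finset.sum_add_distrib] at h7
      refine (abs_add_le _ _).trans ((add_le_add h5 h6).trans ?_)
      omega
  have e0 := key M11 M12 t.c0 u.c0 ht0 hu0 hM1 b0 hu0'
  have e1 := key M21 M22 t.c1 u.c1 ht1 hu1 hM2 b1 hu1'
  rw [nrmC_eq ht0 ht1] at h2 h4
  rw [nrmC_eq (x := resT D ρp ρm t.c0 u.c0) (y := resT D ρp ρm t.c1 u.c1)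
    (dep_add (dep_map _ hu0) (dep_map _ ht0)) (dep_add (dep_map _ hu1) (dep_map _ ht1))] at h4
  have := good_of (H := H) (ρ := (ρp : ℤ) - ρm)
    (w := vc (vz L (resT D ρp ρm t.c0 u.c0)) (vz L (resT D ρp ρm t.c1 u.c1))) hD hsd hP (by
      have h5 := hH (vz L t.c0) (vz L t.c1)
      funext σ
      change _ = (D : ℂ) • (H *ᵥ fun τ => (vz L t.c0 τ : ℂ) + om * (vz L t.c1 τ : ℂ)) σ - _
      rw [h5]
      simp only [vc, e0, e1, Pi.smul_apply, smul_eq_mul]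
      push_cast
      ring) (dot_vc_self _ _) (dot_vc_self _ _) h2 h4
  simpa using this

theorem orth_cplx {L : ℕ} {t t' : T} (h0 : Dep L t.c0) (h1 : Dep L t.c1) (h0' : Dep L t'.c0)
    (h1' : Dep L t'.c1) (ho : orthC L t t' = true) :
    star (vc (vz L t.c0) (vz L t.c1)) ⬝ᵥ vc (vz L t'.c0) (vz L t'.c1) = 0 := by
  simp only [orthC, Bool.and_eq_true, decide_eq_true_eq, fold_mul h0 h0', fold_mul h1 h1',
    fold_mul h1 h0', fold_mul h0 h1'] at ho
  rw [dot_vc, ho.1, ho.2]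
  simp

end TC

section real
variable {L lo hi G : ℕ} {step : ℕ → T → T} {H : Op L} (hk : RealKind L step H G)
  (a : Acc step (buildR L lo hi)) (hG : G ≤ 2 ^ 20) (D sn sd : ℕ) (ρ : ℤ) (hD : 0 < D) (hsd : 0 < sd)
include hk hG hD hsd

theorem cert1_real (f : ℕ → ℕ) (hf : ∀ i, f i < 2 ^ 64)
    (h : oneStep a (certR L 1 D sn sd ρ) f = T.leaf 1) :
    Clu H (Pd L lo hi) 1 ((ρ : ℝ) / D) ((sn : ℝ) / sd) 1 1 := by
  exact TC.clu1 (TC.good_real hk hG hD hsd hf h)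

theorem cert2_real (f f' : ℕ → ℕ) (hf : ∀ i, f i < 2 ^ 64) (hf' : ∀ i, f' i < 2 ^ 64)
    (h : oneStep a (certR L 2 D sn sd ρ) f = T.leaf 1)
    (h' : oneStep a (certR L 2 D sn sd ρ) f' = T.leaf 1)
    (ho : orthR L (buildR L lo hi f) (buildR L lo hi f') = true) :
    Clu H (Pd L lo hi) 1 ((ρ : ℝ) / D) ((sn : ℝ) / sd) 2 1 := by
  exact TC.clu2 (TC.good_real hk hG hD hsd hf h) (TC.good_real hk hG hD hsd hf' h')
    (TC.orth_real (dep_buildR _ _ _ _) (dep_buildR _ _ _ _) ho)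

theorem cert1_realX (ε : ℤ) (f : ℕ → ℕ) (hf : ∀ i, f i < 2 ^ 64)
    (h : oneStep a (certR L 1 D sn sd ρ) f = T.leaf 1)
    (hp : parR L ε (buildR L lo hi f) = true) :
    Clu H (Pd L lo hi) (kAll kX L) ((ρ : ℝ) / D) ((sn : ℝ) / sd) 1 ((-1) ^ L * ε) := by
  exact TC.clu1 ((TC.good_real hk hG hD hsd hf h).flip (TC.flip_real (dep_buildR _ _ _ _) hp))

theorem cert2_realX (ε : ℤ) (f f' : ℕ → ℕ) (hf : ∀ i, f i < 2 ^ 64) (hf' : ∀ i, f' i < 2 ^ 64)
    (h : oneStep a (certR L 2 D sn sd ρ) f = T.leaf 1)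
    (h' : oneStep a (certR L 2 D sn sd ρ) f' = T.leaf 1)
    (ho : orthR L (buildR L lo hi f) (buildR L lo hi f') = true)
    (hp : parR L ε (buildR L lo hi f) = true) (hp' : parR L ε (buildR L lo hi f') = true) :
    Clu H (Pd L lo hi) (kAll kX L) ((ρ : ℝ) / D) ((sn : ℝ) / sd) 2 ((-1) ^ L * ε) := by
  exact TC.clu2 ((TC.good_real hk hG hD hsd hf h).flip (TC.flip_real (dep_buildR _ _ _ _) hp))
    ((TC.good_real hk hG hD hsd hf' h').flip (TC.flip_real (dep_buildR _ _ _ _) hp'))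
    (TC.orth_real (dep_buildR _ _ _ _) (dep_buildR _ _ _ _) ho)

end real

section cplx
variable {L lo hi G : ℕ} {step : ℕ → T → T} {H : Op L} (hk : CplxKind L step H G)
  (a : Acc step (buildC L lo hi)) (hG : G ≤ 2 ^ 8) (D sn sd ρp ρm : ℕ) (hD : 0 < D) (hsd : 0 < sd)
  (hD' : D ≤ 2 ^ 20) (hρp : ρp ≤ 2 ^ 25) (hρm : ρm ≤ 2 ^ 25)
include hk hG hD hsd hD' hρp hρm

theorem cert1_cplx (f : ℕ → ℕ) (hf : ∀ i, f i < 2 ^ 64)
    (h : oneStep a (certC L 1 D sn sd ρp ρm) f = T.leaf 1) :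
    Clu H (Pd L lo hi) 1 (((ρp : ℝ) - ρm) / D) ((sn : ℝ) / sd) 1 1 := by
  exact TC.clu1 (TC.good_cplx hk hG hD hsd hD' hρp hρm hf h)

theorem cert2_cplx (f f' : ℕ → ℕ) (hf : ∀ i, f i < 2 ^ 64) (hf' : ∀ i, f' i < 2 ^ 64)
    (h : oneStep a (certC L 2 D sn sd ρp ρm) f = T.leaf 1)
    (h' : oneStep a (certC L 2 D sn sd ρp ρm) f' = T.leaf 1)
    (ho : orthC L (buildC L lo hi f) (buildC L lo hi f') = true) :
    Clu H (Pd L lo hi) 1 (((ρp : ℝ) - ρm) / D) ((sn : ℝ) / sd) 2 1 := by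
  exact TC.clu2 (TC.good_cplx hk hG hD hsd hD' hρp hρm hf h)
    (TC.good_cplx hk hG hD hsd hD' hρp hρm hf' h')
    (TC.orth_cplx (dep_buildR _ _ _ _) (dep_buildR _ _ _ _) (dep_buildR _ _ _ _)
      (dep_buildR _ _ _ _) ho)

end cplx

end Crest.Agent.R347
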