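import Crest.Agent.R347.TBase

/-! Row 347: exact moments of a sector from packed block computations. -/

set_option autoImplicit false
open Crest.MathPhysics.SpinChain Matrix

namespace Crest.Agent.R347

theorem tmom_chain_eq {step : ℕ → T → T} {bld : (ℕ → ℕ) → T} (a : Acc step bld) (ψ : T → ℕ)
    (J : ℕ) : ∀ e : ℕ, chain a.tr a.F ψ J e = a.tr (run step ψ J e) := by
  induction J with
  | zero => intro e; rfl
  | succ J ih =>
    intro e
    have h1 : chain a.tr a.F ψ (J + 1) e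
        = a.F (fun t r => T.node (T.leaf (ψ t)) r T.nil) (Nat.shiftLeft 1 (Nat.add e 8))
          (chain a.tr a.F ψ J (Nat.add e 10)) := rfl
    have h2 := congrFun (congrFun (congrFun a.hF (fun t r => T.node (T.leaf (ψ t)) r T.nil))
      (run step ψ J (Nat.add e 10))) (Nat.shiftLeft 1 (Nat.add e 8))
    rw [h1, ih]
    exact h2.symm

theorem app_chain {step : ℕ → T → T} {bld : (ℕ → ℕ) → T} (a : Acc step bld) (ψ : T → ℕ)
    (f : ℕ → ℕ) (J e : ℕ) : a.app f (chain a.tr a.F ψ J e) = run step ψ J e (bld f) := by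
  rw [tmom_chain_eq]
  exact congrFun (congrFun a.happ f) (run step ψ J e)

/-- the iterates computed by `run` -/
noncomputable def tmomIt (step : ℕ → T → T) : ℕ → ℕ → T → T
  | 0, _, t => t
  | j + 1, e, t => tmomIt step j (e + 10) (step (2 ^ (e + 8)) t)

theorem tmom_shl (n : ℕ) : Nat.shiftLeft 1 n = 2 ^ n := by
  show 1 <<< n = 2 ^ n
  rw [Nat.shiftLeft_eq, one_mul]

theorem tmom_run (step : ℕ → T → T) (ψ : T → ℕ) (J : ℕ) : ∀ (e : ℕ) (t : T) (o : List ℕ),
    run step ψ J e t = ofL o → ∀ j, j ≤ J → o.getD j 0 = ψ (tmomIt step j e t) := by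
  induction J with
  | zero =>
    intro e t o h j hj
    obtain rfl : j = 0 := by omega
    cases o with
    | nil => exact absurd h (by intro h; cases h)
    | cons x o =>
      have h' : T.node (T.leaf (ψ t)) T.nil T.nil = T.node (T.leaf x) (ofL o) T.nil := h
      injection h' with h1 _ _
      injection h1 with h1
      simp [tmomIt, h1]
  | succ J ih =>
    intro e t o h j hj
    cases o with
    | nil => exact absurd h (by intro h; cases h)
    | cons x o =>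
      have h' : T.node (T.leaf (ψ t))
          (run step ψ J (e + 10) (step (Nat.shiftLeft 1 (e + 8)) t)) T.nil
          = T.node (T.leaf x) (ofL o) T.nil := h
      injection h' with h1 h2 _
      injection h1 with h1
      rw [tmom_shl] at h2
      cases j with
      | zero => simp [tmomIt, h1]
      | succ j =>
        have := ih _ _ _ h2 j (by omega)
        simpa [tmomIt] using this

theorem tmom_rowsum {ι : Type} [Fintype ι] [DecidableEq ι] (M : Matrix ι ι ℤ) (G : ℕ)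
    (hM : ∀ σ, ∑ τ, |M σ τ| ≤ G) (j : ℕ) : ∀ σ, ∑ τ, |(M ^ j) σ τ| ≤ (G : ℤ) ^ j := by
  induction j with
  | zero =>
    intro σ
    simp [Matrix.one_apply, apply_ite abs]
  | succ j ih =>
    intro σ
    rw [pow_succ, pow_succ]
    calc ∑ τ, |(M ^ j * M) σ τ| ≤ ∑ τ, ∑ ρ, |(M ^ j) σ ρ| * |M ρ τ| := by
          refine Finset.sum_le_sum fun τ _ => ?_
          rw [Matrix.mul_apply]
          refine (Finset.abs_sum_le_sum_abs _ _).trans (le_of_eq ?_)
          simp [abs_mul]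
      _ = ∑ ρ, |(M ^ j) σ ρ| * ∑ τ, |M ρ τ| := by
          rw [Finset.sum_comm]; simp [Finset.mul_sum]
      _ ≤ ∑ ρ, |(M ^ j) σ ρ| * G :=
          Finset.sum_le_sum fun ρ _ => mul_le_mul_of_nonneg_left (hM ρ) (abs_nonneg _)
      _ = (∑ ρ, |(M ^ j) σ ρ|) * G := by rw [Finset.sum_mul]
      _ ≤ (G : ℤ) ^ j * G := mul_le_mul_of_nonneg_right (ih σ) (by positivity)

theorem tmom_it_mod {ι : Type} [Fintype ι] [DecidableEq ι] (step : ℕ → T → T) (M : Matrix ι ι ℤ)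
    (rd : T → ι → ℕ) (Inv : ℕ → T → Prop)
    (hs : ∀ (K B N : ℕ) (t : T), Inv B t → 256 * B ≤ K → N ∣ K → Inv (4 * K) (step K t) ∧
      ∀ σ, ((rd (step K t) σ : ℕ) : ZMod N) = ∑ τ, (M σ τ : ZMod N) * ((rd t τ : ℕ) : ZMod N))
    (N j : ℕ) : ∀ (e : ℕ) (t : T), Inv (2 ^ e) t → N ∣ 2 ^ e → ∀ σ,
      ((rd (tmomIt step j e t) σ : ℕ) : ZMod N)
        = ∑ τ, (((M ^ j) σ τ : ℤ) : ZMod N) * ((rd t τ : ℕ) : ZMod N) := by
  induction j with
  | zero =>
    intro e t _ _ σ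
    simp [tmomIt, Matrix.one_apply]
  | succ j ih =>
    intro e t hI hN σ
    have h1 := hs (2 ^ (e + 8)) (2 ^ e) N t hI (by rw [pow_add]; omega)
      (hN.trans (pow_dvd_pow 2 (by omega)))
    have h2 : 4 * 2 ^ (e + 8) = 2 ^ (e + 10) := by ring
    rw [h2] at h1
    have h3 := ih (e + 10) _ h1.1 (hN.trans (pow_dvd_pow 2 (by omega))) σ
    show ((rd (tmomIt step j (e + 10) (step (2 ^ (e + 8)) t)) σ : ℕ) : ZMod N) = _
    rw [h3, pow_succ M j]
    simp only [h1.2, Matrix.mul_apply, Finset.mul_sum, Int.cast_sum, Int.cast_mul,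
      Finset.sum_mul]
    rw [Finset.sum_comm]
    simp only [mul_assoc]

theorem tmom_ext (w X c : ℕ) (hw : 1 ≤ w) (hc : 1 ≤ c) (D y u : ℤ)
    (hX : (X : ℤ) = D + 2 ^ (w * c) * y + 2 ^ (w * (c + 1)) * u) (hD : 2 * |D| < 2 ^ (w * c))
    (hy : 4 * |y| ≤ 2 ^ w) : (ext w X c : ℤ) = y + 2 ^ (w - 1) := by
  have h0 : ext w X c = ((X + 2 ^ (w * c - 1)) / 2 ^ (w * c) + 2 ^ (w - 1)) % 2 ^ w := by
    unfold ext
    simp only [tmom_shl]
    show ((X + 2 ^ (w * c - 1)) >>> (w * c) + 2 ^ (w - 1)) % 2 ^ w = _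
    rw [Nat.shiftRight_eq_div_pow]
  have hwc : 1 ≤ w * c := Nat.mul_pos hw hc
  have e1 : (2 : ℤ) ^ (w * c) = 2 * 2 ^ (w * c - 1) := by
    rw [← pow_succ']; congr 1; omega
  have e2 : (2 : ℤ) ^ w = 2 * 2 ^ (w - 1) := by
    rw [← pow_succ']; congr 1; omega
  have e3 : (2 : ℤ) ^ (w * (c + 1)) = 2 ^ (w * c) * 2 ^ w := by
    rw [← pow_add]; congr 1
  have hD' := abs_lt.mp (show |D| < 2 ^ (w * c - 1) by omega)
  have hp : (0 : ℤ) < 2 ^ (w - 1) := by positivity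
  have hy' := abs_lt.mp (show |y| < 2 ^ (w - 1) by omega)
  have h1 : ((X : ℤ) + 2 ^ (w * c - 1)) / 2 ^ (w * c) = y + 2 ^ w * u := by
    have : (X : ℤ) + 2 ^ (w * c - 1) = (D + 2 ^ (w * c - 1)) + 2 ^ (w * c) * (y + 2 ^ w * u) := by
      rw [hX, e3]; ring
    rw [this, Int.add_mul_ediv_left _ _ (by positivity),
      Int.ediv_eq_zero_of_lt (by omega) (by omega), zero_add]
  rw [h0]
  push_cast
  rw [h1]
  have : y + 2 ^ w * u + 2 ^ (w - 1) = (y + 2 ^ (w - 1)) + 2 ^ w * u := by ring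
  rw [this, Int.add_mul_emod_self_left, Int.emod_eq_of_lt (by omega) (by omega)]

/-- packed columns -/
def tmomPk (w : ℕ) (y : ℕ → ℤ) : List (ℕ × ℕ) → ℕ → ℤ
  | [], _ => 0
  | q :: l, c => 2 ^ (w * c) * y q.1 + tmomPk w y l (c + 1)

theorem tmom_pk_dvd (w : ℕ) (y : ℕ → ℤ) (l : List (ℕ × ℕ)) :
    ∀ c, (2 : ℤ) ^ (w * c) ∣ tmomPk w y l c := by
  induction l with
  | nil => intro c; simp [tmomPk]
  | cons q l ih =>
    intro c
    exact dvd_add (dvd_mul_right _ _)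
      ((pow_dvd_pow 2 (Nat.mul_le_mul_left w (Nat.le_succ c))).trans (ih (c + 1)))

theorem tmom_extSum (w : ℕ) (hw : 1 ≤ w) (g : ℕ → ℕ) (Y : ℕ → ℕ → ℤ)
    (hY : ∀ p p', 4 * |Y p p'| ≤ 2 ^ w) (l : List (ℕ × ℕ)) : ∀ (c : ℕ) (D : ℕ → ℤ), 1 ≤ c →
    (∀ q ∈ l, 2 * |D q.1| < 2 ^ (w * c)) →
    (∀ q ∈ l, (2 : ℤ) ^ (w * (c + l.length)) ∣ g q.1 - (D q.1 + tmomPk w (Y q.1) l c)) →
    (extSum w g l c : ℤ) = (l.map fun q => (q.2 : ℤ) * (Y q.1 q.1 + 2 ^ (w - 1))).sum := by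
  induction l with
  | nil => intro c D _ _ _; rfl
  | cons q l ih =>
    intro c D hc hD hX
    have h0 : extSum w g (q :: l) c = q.2 * ext w (g q.1) c + extSum w g l (c + 1) := rfl
    rw [h0, List.map_cons, List.sum_cons]
    push_cast
    congr 1
    · congr 1
      obtain ⟨u, hu⟩ := hX q (List.mem_cons_self ..)
      obtain ⟨v, hv⟩ := tmom_pk_dvd w (Y q.1) l (c + 1)
      refine tmom_ext w _ c hw hc (D q.1) _ (v + 2 ^ (w * l.length) * u) ?_
        (hD q (List.mem_cons_self ..)) (hY _ _)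
      have e1 : (2 : ℤ) ^ (w * (c + (q :: l).length)) = 2 ^ (w * (c + 1)) * 2 ^ (w * l.length) := by
        rw [← pow_add, List.length_cons]; congr 1; ring
      rw [e1, tmomPk, hv] at hu
      linear_combination hu
    · refine ih (c + 1) (fun p => D p + 2 ^ (w * c) * Y p q.1) (by omega) ?_ ?_
      · intro q' hq'
        have h1 := hD q' (List.mem_cons_of_mem _ hq')
        have h2 := hY q'.1 q.1
        have e3 : (2 : ℤ) ^ (w * (c + 1)) = 2 ^ (w * c) * 2 ^ w := by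
          rw [← pow_add]; congr 1
        have e2 : (2 : ℤ) ≤ 2 ^ w := by
          calc (2 : ℤ) = 2 ^ 1 := by norm_num
            _ ≤ 2 ^ w := pow_le_pow_right₀ (by norm_num) hw
        have hp : (0 : ℤ) < 2 ^ (w * c) := by positivity
        have h3 : |D q'.1 + 2 ^ (w * c) * Y q'.1 q.1| ≤ |D q'.1| + 2 ^ (w * c) * |Y q'.1 q.1| := by
          refine (abs_add_le _ _).trans (le_of_eq ?_)
          rw [abs_mul, abs_of_pos hp]
        rw [e3]
        nlinarith
      · intro q' hq'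
        have h1 := hX q' (List.mem_cons_of_mem _ hq')
        have e1 : c + (q :: l).length = c + 1 + l.length := by rw [List.length_cons]; ring
        rw [e1, tmomPk] at h1
        convert h1 using 1
        ring

theorem tmom_beq_ne {a b : ℕ} (h : a ≠ b) : Nat.beq a b = false := by
  cases hb : Nat.beq a b with
  | false => rfl
  | true => exact absurd (Nat.eq_of_beq_eq_true hb) h

theorem tmom_colFind_cons (w i : ℕ) (q : ℕ × ℕ) (l : List (ℕ × ℕ)) (c : ℕ) :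
    colFind w i (q :: l) c = (if i = q.1 then 2 ^ (w * c) else 0) + colFind w i l (c + 1) := by
  have h0 : colFind w i (q :: l) c = Bool.rec (colFind w i l (c + 1))
      (Nat.shiftLeft 1 (w * c) + colFind w i l (c + 1)) (Nat.beq i q.1) := rfl
  rw [h0, tmom_shl]
  by_cases h : i = q.1
  · rw [if_pos h, h, Nat.beq_refl]
  · rw [if_neg h, tmom_beq_ne h, zero_add]

theorem tmom_colFind_zero (w i : ℕ) (l : List (ℕ × ℕ)) (h : ∀ q ∈ l, i ≠ q.1) :
    ∀ c, colFind w i l c = 0 := by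
  induction l with
  | nil => intro c; rfl
  | cons q l ih =>
    intro c
    rw [tmom_colFind_cons, if_neg (h q (List.mem_cons_self ..)),
      ih (fun q' hq' => h q' (List.mem_cons_of_mem _ hq'))]

theorem tmom_colFind_le (w i : ℕ) (hw : 1 ≤ w) (l : List (ℕ × ℕ)) :
    ∀ c, colFind w i l c + 2 ^ (w * c) ≤ 2 ^ (w * (c + l.length)) := by
  induction l with
  | nil => intro c; show 0 + _ ≤ _; simp
  | cons q l ih =>
    intro c
    have h1 := ih (c + 1)
    have e1 : c + (q :: l).length = c + 1 + l.length := by rw [List.length_cons]; ring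
    have e2 : 2 * 2 ^ (w * c) ≤ 2 ^ (w * (c + 1)) := by
      rw [← pow_succ']
      exact Nat.pow_le_pow_right (by norm_num) (by rw [mul_add]; omega)
    rw [tmom_colFind_cons, e1]
    split_ifs <;> omega

theorem tmom_mask (i : ℕ) (l : List (ℕ × ℕ)) (h : (colMask l).testBit i = false) :
    ∀ q ∈ l, i ≠ q.1 := by
  induction l with
  | nil => intro q hq; cases hq
  | cons q l ih =>
    have h0 : colMask (q :: l) = Nat.shiftLeft 1 q.1 ||| colMask l := rfl
    rw [h0, tmom_shl, Nat.testBit_or, Bool.or_eq_false_iff] at h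
    intro q' hq'
    rcases List.mem_cons.mp hq' with rfl | hq'
    · rintro rfl
      rw [Nat.testBit_two_pow_self] at h
      exact absurd h.1 (by simp)
    · exact ih h.2 q' hq'

theorem tmom_ini (w : ℕ) (l : List (ℕ × ℕ)) (i : ℕ) :
    ini w (colMask l) l i = i * 40503 + colFind w i l 2 := by
  have h0 : ini w (colMask l) l i = i * 40503 +
      Bool.rec (colFind w i l 2) 0 (Nat.beq ((colMask l >>> i) &&& 1) 0) := rfl
  rw [h0]
  by_cases h : (colMask l >>> i) &&& 1 = 0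
  · rw [h, Nat.beq_refl, tmom_colFind_zero w i l (tmom_mask i l ?_)]
    unfold Nat.testBit
    rw [Nat.and_comm, h]; rfl
  · rw [tmom_beq_ne h]

theorem tmom_col_sum {L : ℕ} (w : ℕ) (r : Cfg L → ℤ) (l : List (ℕ × ℕ))
    (hl : ∀ q ∈ l, q.1 < 3 ^ L) : ∀ c, ∑ τ, r τ * (colFind w (idx L τ) l c : ℤ)
      = tmomPk w (fun p => r (cfg L p)) l c := by
  induction l with
  | nil => intro c; show ∑ τ, r τ * ((0 : ℕ) : ℤ) = 0; simp
  | cons q l ih =>
    intro c
    have hq := hl q (List.mem_cons_self ..)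
    simp only [tmom_colFind_cons, tmomPk, Nat.cast_add, mul_add, Finset.sum_add_distrib]
    rw [ih (fun q' hq' => hl q' (List.mem_cons_of_mem _ hq'))]
    congr 1
    rw [Finset.sum_eq_single (cfg L q.1)]
    · rw [if_pos (idx_cfg L _ hq)]; push_cast; ring
    · intro τ _ hτ
      rw [if_neg]; · simp
      intro h; apply hτ; rw [← h, cfg_idx]
    · simp

theorem tmom_extSum_congr (w : ℕ) (g g' : ℕ → ℕ) (l : List (ℕ × ℕ)) (h : ∀ q ∈ l, g q.1 = g' q.1) :
    ∀ c, extSum w g l c = extSum w g' l c := by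
  induction l with
  | nil => intro c; rfl
  | cons q l ih =>
    intro c
    have h0 : ∀ g, extSum w g (q :: l) c = q.2 * ext w (g q.1) c + extSum w g l (c + 1) :=
      fun _ => rfl
    rw [h0, h0, h q (List.mem_cons_self ..), ih (fun q' hq' => h q' (List.mem_cons_of_mem _ hq'))]

/-- the generic block lemma -/
theorem tmom_block {ι : Type} [Fintype ι] [DecidableEq ι] (step : ℕ → T → T) (M : Matrix ι ι ℤ)
    (G : ℕ) (hM : ∀ σ, ∑ τ, |M σ τ| ≤ G) (hG : 1 ≤ G)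
    (rd : T → ι → ℕ) (Inv : ℕ → T → Prop)
    (hs : ∀ (K B N : ℕ) (t : T), Inv B t → 256 * B ≤ K → N ∣ K → Inv (4 * K) (step K t) ∧
      ∀ σ, ((rd (step K t) σ : ℕ) : ZMod N) = ∑ τ, (M σ τ : ZMod N) * ((rd t τ : ℕ) : ZMod N))
    (w J Dm : ℕ) (hw : 4 * G ^ J ≤ 2 ^ w) (hw2 : 2 * Dm * G ^ J < 2 ^ (2 * w))
    (l : List (ℕ × ℕ)) (o : List ℕ) (e : ℕ → ι) (rdN : T → ℕ → ℕ)
    (hrd : ∀ t, ∀ q ∈ l, rdN t q.1 = rd t (e q.1)) (t0 : T) (d col : ι → ℕ)
    (hI : Inv (2 ^ (w * (l.length + 2))) t0) (hd : ∀ τ, d τ ≤ Dm)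
    (h0 : ∀ τ, rd t0 τ = d τ + col τ)
    (hcol : ∀ r : ι → ℤ, ∑ τ, r τ * (col τ : ℤ) = tmomPk w (fun p => r (e p)) l 2)
    (hrun : run step (fun t => extSum w (rdN t) l 2) J (w * (l.length + 2)) t0 = ofL o) :
    ∀ j, j ≤ J → ((o.getD j 0 : ℤ) - ((l.map Prod.snd).sum : ℕ) * 2 ^ (w - 1) : ℤ)
      = (l.map fun q => (q.2 : ℤ) * (M ^ j) (e q.1) (e q.1)).sum := by
  intro j hj
  have hw1 : 1 ≤ w := by
    rcases Nat.eq_zero_or_pos w with rfl | h
    · have : 1 ≤ G ^ J := Nat.one_le_pow _ _ hG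
      omega
    · exact h
  have hGj : (G : ℤ) ^ j ≤ (G : ℤ) ^ J := pow_le_pow_right₀ (by exact_mod_cast hG) hj
  have hrow := tmom_rowsum M G hM j
  rw [tmom_run step _ J _ _ _ hrun j hj, tmom_extSum_congr w _ (fun p => rd _ (e p)) l (hrd _),
    tmom_extSum w hw1 (fun p => rd _ (e p)) (fun p p' => (M ^ j) (e p) (e p')) ?_ l 2
      (fun p => ∑ τ, (M ^ j) (e p) τ * (d τ : ℤ)) (by norm_num) ?_ ?_]
  · clear hrun hcol hI hrd
    induction l with
    | nil => simp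
    | cons q l ih =>
      simp only [List.map_cons, List.sum_cons, Nat.cast_add] at ih ⊢
      linear_combination ih
  · intro p p'
    have h1 : |(M ^ j) (e p) (e p')| ≤ ∑ τ, |(M ^ j) (e p) τ| :=
      Finset.single_le_sum (f := fun τ => |(M ^ j) (e p) τ|) (fun _ _ => abs_nonneg _)
        (Finset.mem_univ _)
    have h2 : (4 : ℤ) * (G : ℤ) ^ J ≤ 2 ^ w := by exact_mod_cast hw
    have := hrow (e p)
    omega
  · intro q _
    have h1 : |∑ τ, (M ^ j) (e q.1) τ * (d τ : ℤ)| ≤ (G : ℤ) ^ J * Dm := by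
      calc |∑ τ, (M ^ j) (e q.1) τ * (d τ : ℤ)| ≤ ∑ τ, |(M ^ j) (e q.1) τ| * (Dm : ℤ) := by
            refine (Finset.abs_sum_le_sum_abs _ _).trans (Finset.sum_le_sum fun τ _ => ?_)
            rw [abs_mul, Nat.abs_cast]
            exact mul_le_mul_of_nonneg_left (by exact_mod_cast hd τ) (abs_nonneg _)
        _ = (∑ τ, |(M ^ j) (e q.1) τ|) * (Dm : ℤ) := by rw [Finset.sum_mul]
        _ ≤ (G : ℤ) ^ J * Dm :=
            mul_le_mul_of_nonneg_right ((hrow _).trans hGj) (by positivity)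
    have h2 : (2 : ℤ) * Dm * (G : ℤ) ^ J < 2 ^ (2 * w) := by exact_mod_cast hw2
    rw [mul_comm w 2]
    linarith
  · intro q _
    have h1 := tmom_it_mod step M rd Inv hs (2 ^ (w * (l.length + 2))) j _ t0 hI dvd_rfl (e q.1)
    have h2 : (((rd (tmomIt step j (w * (l.length + 2)) t0) (e q.1) : ℕ) : ℤ)
        : ZMod (2 ^ (w * (l.length + 2)))) =
        ((∑ τ, (M ^ j) (e q.1) τ * (d τ : ℤ) + tmomPk w (fun p' => (M ^ j) (e q.1) (e p')) l 2 : ℤ)
          : ZMod (2 ^ (w * (l.length + 2)))) := by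
      rw [← hcol ((M ^ j) (e q.1)), ← Finset.sum_add_distrib, Int.cast_natCast, h1]
      simp only [h0]
      push_cast
      exact Finset.sum_congr rfl fun τ _ => by ring
    have h3 := (ZMod.intCast_eq_intCast_iff_dvd_sub _ _ _).mp h2.symm
    rw [add_comm 2 l.length]
    exact_mod_cast h3

theorem tmom_final {L lo hi : ℕ} (H : Op L) (w J : ℕ) (bl : List (List (ℕ × ℕ) × List ℕ))
    (Y : ℕ → ℕ → ℤ) (hY : ∀ j p, ((H ^ j) (cfg L p) (cfg L p)).re = Y j p)
    (hb : ∀ b ∈ bl, ∀ j, j ≤ J →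
      ((b.2.getD j 0 : ℤ) - ((b.1.map Prod.snd).sum : ℕ) * 2 ^ (w - 1) : ℤ)
        = (b.1.map fun q => (q.2 : ℤ) * Y j q.1).sum)
    (hc : ∀ j, Covers L lo hi (bl.map Prod.fst).flatten fun σ => ((H ^ j) σ σ).re) :
    ∀ j (hj : j < (momOf w J bl).length), rtr (Pd L lo hi * H ^ j) = (momOf w J bl)[j] := by
  intro j hj
  have hjJ : j ≤ J := by
    simp only [momOf, List.length_map, List.length_range] at hj
    omega
  have h1 : rtr (Pd L lo hi * H ^ j)
      = ∑ σ : Cfg L, (if lo ≤ dsm σ ∧ dsm σ ≤ hi then ((H ^ j) σ σ).re else 0) := by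
    rw [rtr, Pd_eq, Matrix.trace, Complex.re_sum]
    refine Finset.sum_congr rfl fun σ _ => ?_
    rw [Matrix.diag_apply, Matrix.diagonal_mul]
    split_ifs <;> simp
  rw [h1, (hc j).2]
  simp only [momOf, List.getElem_map, List.getElem_range, hY]
  clear hc hj
  induction bl with
  | nil => simp
  | cons b bl ih =>
    simp only [List.map_cons, List.flatten_cons, List.map_append, List.sum_append, List.sum_cons]
    rw [ih (fun b' hb' => hb b' (List.mem_cons_of_mem _ hb')), hb b (List.mem_cons_self ..) j hjJ]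
    rw [Int.cast_add, Rat.cast_add]
    congr 1
    rw [Rat.cast_intCast, Int.cast_list_sum, List.map_map]
    congr 1
    refine List.map_congr_left fun q _ => ?_
    simp

theorem tmom_Dm {L G w J : ℕ} (hw2 : 16 * 40503 * 3 ^ L * G ^ J ≤ 2 ^ (2 * w)) (hG : 1 ≤ G) :
    2 * (2 * 40503 * 3 ^ L) * G ^ J < 2 ^ (2 * w) ∧ 2 * 40503 * 3 ^ L ≤ 2 ^ (w * 2) ∧ 1 ≤ w := by
  have h1 : 1 ≤ G ^ J := Nat.one_le_pow _ _ hG
  have h2 : 1 ≤ 3 ^ L := Nat.one_le_pow _ _ (by norm_num)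
  have h3 : 3 ^ L ≤ 3 ^ L * G ^ J := Nat.le_mul_of_pos_right _ h1
  rw [mul_comm w 2]
  have e1 : 16 * 40503 * 3 ^ L * G ^ J = 16 * 40503 * (3 ^ L * G ^ J) := by ring
  have e2 : 2 * (2 * 40503 * 3 ^ L) * G ^ J = 4 * 40503 * (3 ^ L * G ^ J) := by ring
  refine ⟨by omega, by omega, ?_⟩
  rcases Nat.eq_zero_or_pos w with rfl | h
  · omega
  · exact h

theorem tmom_sector_col {L lo hi : ℕ} (w : ℕ) (l : List (ℕ × ℕ))
    (hl : ∀ q ∈ l, q.1 < 3 ^ L ∧ lo ≤ dsm (cfg L q.1) ∧ dsm (cfg L q.1) ≤ hi) (τ : Cfg L)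
    (hτ : ¬ (lo ≤ dsm τ ∧ dsm τ ≤ hi)) : colFind w (idx L τ) l 2 = 0 := by
  refine tmom_colFind_zero w _ l (fun q hq h => hτ ?_) 2
  have := (hl q hq).2
  rwa [← h, cfg_idx] at this

theorem tmom_getN {L : ℕ} (t : T) (p : ℕ) (hp : p < 3 ^ L) : getN L t p = get L t (cfg L p) := by
  rw [← getN_idx, idx_cfg L p hp]

theorem mom_real {L lo hi G : ℕ} {step : ℕ → T → T} {H : Op L} (hk : RealKind L step H G)
    (a : Acc step (buildR L lo hi)) (w J : ℕ) (bl : List (List (ℕ × ℕ) × List ℕ))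
    (hw : 4 * G ^ J ≤ 2 ^ w) (hw2 : 16 * 40503 * 3 ^ L * G ^ J ≤ 2 ^ (2 * w)) (hG : 1 ≤ G)
    (hb : ∀ b ∈ bl, blockR a L w J b.1 = ofL b.2)
    (hc : ∀ j, Covers L lo hi (bl.map Prod.fst).flatten fun σ => ((H ^ j) σ σ).re) :
    ∀ j (hj : j < (momOf w J bl).length), rtr (Pd L lo hi * H ^ j) = (momOf w J bl)[j] := by
  obtain ⟨M, hH, hM, hs⟩ := hk
  obtain ⟨hD1, hD2, hw1⟩ := tmom_Dm hw2 hG
  refine tmom_final H w J bl (fun j p => (M ^ j) (cfg L p) (cfg L p)) ?_ ?_ hc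
  · intro j p
    have : H ^ j = (M ^ j).map (fun z => (z : ℂ)) := by
      rw [hH]
      exact (Matrix.map_pow M (Int.castRingHom ℂ) j).symm
    rw [this]
    simp
  · intro b hbm
    have hl : ∀ q ∈ b.1, q.1 < 3 ^ L ∧ lo ≤ dsm (cfg L q.1) ∧ dsm (cfg L q.1) ≤ hi :=
      fun q hq => (hc 0).1 q (List.mem_flatten.mpr ⟨b.1, List.mem_map.mpr ⟨b, hbm, rfl⟩, hq⟩)
    have hrun := hb b hbm
    rw [blockR, app_chain] at hrun
    refine tmom_block step M G hM hG (get L) (fun B t => Dep L t ∧ Bd B t) ?_ w J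
      (2 * 40503 * 3 ^ L) hw hD1 b.1 b.2 (cfg L) (getN L)
      (fun t q hq => tmom_getN t q.1 (hl q hq).1) _
      (fun τ => if lo ≤ dsm τ ∧ dsm τ ≤ hi then idx L τ * 40503 else 0)
      (fun τ => colFind w (idx L τ) b.1 2) ?_ ?_ ?_ ?_ hrun
    · intro K B N t ht hK hN
      obtain ⟨h1, h2, h3⟩ := hs K B N t ht.1 ht.2 hK hN
      exact ⟨⟨h1, h2⟩, h3⟩
    · refine ⟨dep_buildR _ _ _ _, bd_buildR _ _ _ _ _ fun i hi => ?_⟩
      have := tmom_colFind_le w i hw1 b.1 2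
      rw [tmom_ini, add_comm b.1.length 2]
      omega
    · intro τ
      have := idx_lt L τ
      split_ifs <;> omega
    · intro τ
      rw [get_buildR, tmom_ini]
      split_ifs with h
      · rfl
      · rw [tmom_sector_col w b.1 hl τ h]
    · intro r
      exact tmom_col_sum w r b.1 (fun q hq => (hl q hq).1) 2

theorem tmom_cpow {L : ℕ} (H : Op L) (M11 M12 M21 M22 : Matrix (Cfg L) (Cfg L) ℤ)
    (h : ∀ a b : Cfg L → ℤ, H *ᵥ (fun τ => (a τ : ℂ) + om * (b τ : ℂ)) =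
      fun σ => (((M11 *ᵥ a + M12 *ᵥ b) σ : ℤ) : ℂ) + om * (((M21 *ᵥ a + M22 *ᵥ b) σ : ℤ) : ℂ))
    (j : ℕ) : ∀ v : Cfg L ⊕ Cfg L → ℤ,
      (H ^ j) *ᵥ (fun τ => (v (Sum.inl τ) : ℂ) + om * (v (Sum.inr τ) : ℂ)) =
      fun σ => ((((Matrix.fromBlocks M11 M12 M21 M22 ^ j) *ᵥ v) (Sum.inl σ) : ℤ) : ℂ)
        + om * ((((Matrix.fromBlocks M11 M12 M21 M22 ^ j) *ᵥ v) (Sum.inr σ) : ℤ) : ℂ) := by
  induction j with
  | zero => intro v; simp
  | succ j ih =>
    intro v
    rw [pow_succ, pow_succ, ← Matrix.mulVec_mulVec, ← Matrix.mulVec_mulVec,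
      h (fun τ => v (Sum.inl τ)) (fun τ => v (Sum.inr τ)),
      ← ih (Matrix.fromBlocks M11 M12 M21 M22 *ᵥ v), Matrix.fromBlocks_mulVec]
    rfl

theorem mom_cplx {L lo hi G : ℕ} {step : ℕ → T → T} {H : Op L} (hk : CplxKind L step H G)
    (a : Acc step (buildC L lo hi)) (w J : ℕ) (bl : List (List (ℕ × ℕ) × List ℕ))
    (hw : 4 * G ^ J ≤ 2 ^ w) (hw2 : 16 * 40503 * 3 ^ L * G ^ J ≤ 2 ^ (2 * w)) (hG : 1 ≤ G)
    (hb : ∀ b ∈ bl, blockC a L w J b.1 = ofL b.2)
    (hc : ∀ j, Covers L lo hi (bl.map Prod.fst).flatten fun σ => ((H ^ j) σ σ).re) :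
    ∀ j (hj : j < (momOf w J bl).length), rtr (Pd L lo hi * H ^ j) = (momOf w J bl)[j] := by
  obtain ⟨hHerm, M11, M12, M21, M22, hH, hM1, hM2, hs⟩ := hk
  obtain ⟨hD1, hD2, hw1⟩ := tmom_Dm hw2 hG
  set M := Matrix.fromBlocks M11 M12 M21 M22 with hMdef
  refine tmom_final H w J bl (fun j p => (M ^ j) (Sum.inl (cfg L p)) (Sum.inl (cfg L p))) ?_ ?_ hc
  · intro j p
    generalize cfg L p = σ
    have h1 := congrFun (tmom_cpow H M11 M12 M21 M22 hH j (Pi.single (Sum.inl σ) 1)) σ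
    have h2 : (fun τ => ((Pi.single (Sum.inl σ) 1 : Cfg L ⊕ Cfg L → ℤ) (Sum.inl τ) : ℂ)
        + om * ((Pi.single (Sum.inl σ) 1 : Cfg L ⊕ Cfg L → ℤ) (Sum.inr τ) : ℂ))
        = Pi.single σ 1 := by
      funext τ
      by_cases h : τ = σ
      · subst h; simp
      · simp [h]
    rw [h2, ← hMdef] at h1
    simp only [Matrix.mulVec_single_one, Matrix.col_apply] at h1
    have h3 : ((H ^ j) σ σ).im = 0 := by
      have := (hHerm.pow j).apply σ σ
      exact Complex.conj_eq_iff_im.mp this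
    have h4 : (M ^ j) (Sum.inr σ) (Sum.inl σ) = 0 := by
      rw [h1] at h3
      have h5 : Real.sqrt 3 ≠ 0 := by positivity
      simpa [om, h5] using h3
    rw [h1, h4]
    simp
  · intro b hbm
    have hl : ∀ q ∈ b.1, q.1 < 3 ^ L ∧ lo ≤ dsm (cfg L q.1) ∧ dsm (cfg L q.1) ≤ hi :=
      fun q hq => (hc 0).1 q (List.mem_flatten.mpr ⟨b.1, List.mem_map.mpr ⟨b, hbm, rfl⟩, hq⟩)
    have hrun := hb b hbm
    rw [blockC, app_chain] at hrun
    have hi0 : ∀ i, iniC w (colMask b.1) b.1 (Nat.mul 2 i) = i * 40503 + colFind w i b.1 2 := by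
      intro i
      have h0 : iniC w (colMask b.1) b.1 (Nat.mul 2 i) = Bool.rec (2 * i * 40503)
          (ini w (colMask b.1) b.1 (2 * i / 2)) (Nat.beq (2 * i % 2) 0) := rfl
      rw [h0, Nat.mul_mod_right, Nat.beq_refl, Nat.mul_div_cancel_left _ (by norm_num), tmom_ini]
    have hi1 : ∀ i, iniC w (colMask b.1) b.1 (Nat.add (Nat.mul 2 i) 1) = (2 * i + 1) * 40503 := by
      intro i
      have h0 : iniC w (colMask b.1) b.1 (Nat.add (Nat.mul 2 i) 1) = Bool.rec ((2 * i + 1) * 40503)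
          (ini w (colMask b.1) b.1 ((2 * i + 1) / 2)) (Nat.beq ((2 * i + 1) % 2) 0) := rfl
      rw [h0, tmom_beq_ne (by omega)]
    have hc0 : (buildC L lo hi (iniC w (colMask b.1) b.1)).c0
        = buildR L lo hi (fun i => i * 40503 + colFind w i b.1 2) := by
      rw [← funext hi0]; rfl
    have hc1 : (buildC L lo hi (iniC w (colMask b.1) b.1)).c1
        = buildR L lo hi (fun i => (2 * i + 1) * 40503) := by
      rw [← funext hi1]; rfl
    refine tmom_block step M G ?_ hG (fun t => Sum.elim (get L t.c0) (get L t.c1))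
      (fun B t => Dep L t.c0 ∧ Dep L t.c1 ∧ Bd B t.c0 ∧ Bd B t.c1) ?_ w J
      (2 * 40503 * 3 ^ L) hw hD1 b.1 b.2 (fun p => Sum.inl (cfg L p)) (fun t => getN L t.c0)
      (fun t q hq => tmom_getN t.c0 q.1 (hl q hq).1) _
      (Sum.elim (fun τ => if lo ≤ dsm τ ∧ dsm τ ≤ hi then idx L τ * 40503 else 0)
        (fun τ => if lo ≤ dsm τ ∧ dsm τ ≤ hi then (2 * idx L τ + 1) * 40503 else 0))
      (Sum.elim (fun τ => colFind w (idx L τ) b.1 2) (fun _ => 0)) ?_ ?_ ?_ ?_ hrun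
    · rintro (σ | σ)
      · rw [Fintype.sum_sum_type, ← Finset.sum_add_distrib]
        exact hM1 σ
      · rw [Fintype.sum_sum_type, ← Finset.sum_add_distrib]
        exact hM2 σ
    · intro K B N t ht hK hN
      obtain ⟨h1, h2, h3, h4, h5, h6⟩ := hs K B N t ht.1 ht.2.1 ht.2.2.1 ht.2.2.2 hK hN
      refine ⟨⟨h1, h2, h3, h4⟩, ?_⟩
      rintro (σ | σ)
      · rw [Fintype.sum_sum_type, ← Finset.sum_add_distrib]
        exact h5 σ
      · rw [Fintype.sum_sum_type, ← Finset.sum_add_distrib]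
        exact h6 σ
    · rw [hc0, hc1]
      refine ⟨dep_buildR _ _ _ _, dep_buildR _ _ _ _, bd_buildR _ _ _ _ _ fun i hi => ?_,
        bd_buildR _ _ _ _ _ fun i hi => ?_⟩
      · have := tmom_colFind_le w i hw1 b.1 2
        rw [add_comm b.1.length 2]
        omega
      · have := tmom_colFind_le w i hw1 b.1 2
        rw [add_comm b.1.length 2]
        omega
    · rintro (τ | τ)
      · have := idx_lt L τ
        simp only [Sum.elim_inl]
        split_ifs <;> omega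
      · have := idx_lt L τ
        simp only [Sum.elim_inr]
        split_ifs <;> omega
    · rintro (τ | τ)
      · simp only [Sum.elim_inl]
        rw [hc0, get_buildR]
        split_ifs with h
        · rfl
        · rw [tmom_sector_col w b.1 hl τ h]
      · simp only [Sum.elim_inr]
        rw [hc1, get_buildR, add_zero]
    · intro r
      rw [Fintype.sum_sum_type]
      simp only [Sum.elim_inl, Sum.elim_inr, Nat.cast_zero, mul_zero, Finset.sum_const_zero,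
        add_zero]
      exact tmom_col_sum w (fun τ => r (Sum.inl τ)) b.1 (fun q hq => (hl q hq).1) 2

end Crest.Agent.R347
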