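import Crest.Agent.R347.TStepAux
import Crest.Agent.R347.Ham

/-! Row 347: correctness of the tree step functions. -/

set_option autoImplicit false
open Crest.MathPhysics.SpinChain Matrix

namespace Crest.Agent.R347

namespace TS

/-! ### the integer matrices -/

/-- unit vectors -/
def un {L : ℕ} (ρ : Cfg L) : Cfg L → ℕ := Pi.single ρ 1

/-- pairing with a vector -/
def pr {R : Type} [CommRing R] {L : ℕ} (x : Cfg L → R) : (Cfg L → ℕ) →+ R where
  toFun v := ∑ τ, (v τ : R) * x τ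
  map_zero' := by simp
  map_add' v w := by simp [add_mul, Finset.sum_add_distrib]

theorem pr_un {R : Type} [CommRing R] {L : ℕ} (x : Cfg L → R) (ρ : Cfg L) : pr x (un ρ) = x ρ := by
  simp [pr, un, Pi.single_apply]

theorem map_perA {R S : Type} [AddCommMonoid R] [AddCommMonoid S] (f : R →+ S) (n : ℕ)
    (x : Cfg (n + 1) → R) (σ : Cfg (n + 1)) : f (perA n x σ) = perA n (fun τ => f (x τ)) σ := by
  simp only [perA, apply_ite f, map_zero]

theorem map_perB {R S : Type} [AddCommMonoid R] [AddCommMonoid S] (f : R →+ S) (n : ℕ)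
    (x : Cfg (n + 1) → R) (σ : Cfg (n + 1)) : f (perB n x σ) = perB n (fun τ => f (x τ)) σ := by
  simp only [perB, apply_ite f, map_zero]

def MH (L : ℕ) : Matrix (Cfg L) (Cfg L) ℤ := Matrix.of fun σ τ => (hopO L un σ τ : ℕ)
def MA (n : ℕ) : Matrix (Cfg (n + 1)) (Cfg (n + 1)) ℤ := Matrix.of fun σ τ => (perA n un σ τ : ℕ)
def MB (n : ℕ) : Matrix (Cfg (n + 1)) (Cfg (n + 1)) ℤ := Matrix.of fun σ τ => (perB n un σ τ : ℕ)

/-- action of an integer matrix -/
def act {R : Type} [CommRing R] {L : ℕ} (M : Matrix (Cfg L) (Cfg L) ℤ) (x : Cfg L → R)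
    (σ : Cfg L) : R := ∑ τ, (M σ τ : R) * x τ

/-- absolute row sum -/
def row {L : ℕ} (M : Matrix (Cfg L) (Cfg L) ℤ) (σ : Cfg L) : ℤ := ∑ τ, |M σ τ|

section act
variable {R : Type} [CommRing R] {L : ℕ} (M M' : Matrix (Cfg L) (Cfg L) ℤ) (x : Cfg L → R)
  (σ : Cfg L)

theorem act_add : act (M + M') x σ = act M x σ + act M' x σ := by
  simp [act, add_mul, Finset.sum_add_distrib]

theorem act_sub : act (M - M') x σ = act M x σ - act M' x σ := by
  simp [act, sub_mul, Finset.sum_sub_distrib]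

theorem act_smul (c : ℤ) : act (c • M) x σ = c * act M x σ := by
  simp [act, Finset.mul_sum, mul_assoc]

theorem act_diag (f : Cfg L → ℤ) : act (diagonal f) x σ = f σ * x σ := by
  simp [act, diagonal_apply, apply_ite (Int.cast : ℤ → R)]

theorem act_MH : act (MH L) x σ = hopO L x σ := by
  have := map_hopO (pr x) L un σ
  simp only [pr_un] at this
  rw [← this]
  simp [act, MH, pr]

theorem row_add : row (M + M') σ ≤ row M σ + row M' σ := by
  rw [row, row, row, ← Finset.sum_add_distrib]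
  exact Finset.sum_le_sum fun τ _ => abs_add_le _ _

theorem row_sub : row (M - M') σ ≤ row M σ + row M' σ := by
  rw [row, row, row, ← Finset.sum_add_distrib]
  exact Finset.sum_le_sum fun τ _ => abs_sub _ _

theorem row_smul (c : ℤ) : row (c • M) σ = |c| * row M σ := by
  simp [row, abs_mul, Finset.mul_sum]

theorem row_diag (f : Cfg L → ℤ) : row (diagonal f) σ = |f σ| := by
  simp [row, diagonal_apply, apply_ite (abs : ℤ → ℤ)]

theorem row_MH : row (MH L) σ = hopO L (fun _ => 1) σ := by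
  rw [← act_MH]
  simp [row, act, MH]

theorem act_lin (y : Cfg L → R) (c : R) :
    act M (fun τ => x τ + c * y τ) σ = act M x σ + c * act M y σ := by
  simp only [act, mul_add, Finset.sum_add_distrib, Finset.mul_sum, mul_left_comm]

theorem cast_mulVec (a : Cfg L → ℤ) : ((M *ᵥ a) σ : R) = act M (fun τ => (a τ : R)) σ := by
  simp [act, mulVec, dotProduct]

end act

section per
variable {R : Type} [CommRing R] {n : ℕ} (x : Cfg (n + 1) → R) (σ : Cfg (n + 1))

theorem act_MA : act (MA n) x σ = perA n x σ := by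
  have := map_perA (pr x) n un σ
  simp only [pr_un] at this
  rw [← this]
  simp [act, MA, pr]

theorem act_MB : act (MB n) x σ = perB n x σ := by
  have := map_perB (pr x) n un σ
  simp only [pr_un] at this
  rw [← this]
  simp [act, MB, pr]

theorem row_MA : row (MA n) σ = perA n (fun _ => 1) σ := by
  rw [← act_MA]
  simp [row, act, MA]

theorem row_MB : row (MB n) σ = perB n (fun _ => 1) σ := by
  rw [← act_MB]
  simp [row, act, MB]

end per

theorem open_bound : ∀ (n : ℕ) (σ : Cfg (n + 1)),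
    |dOpen (n + 1) σ| + hopO (n + 1) (fun _ => (1 : ℤ)) σ ≤ 2 * n
  | 0, _ => le_refl _
  | n + 1, σ => by
    obtain ⟨i, j, ρ, rfl⟩ := exists_cons2 σ
    have h1 := open_bound n (Fin.cons j ρ)
    have h2 := abs_add_le (magneticNumber i * magneticNumber j) (dOpen (n + 1) (Fin.cons j ρ))
    have h3 : |magneticNumber i * magneticNumber j| + (if i ≠ 2 ∧ j ≠ 0 then (1 : ℤ) else 0) +
        (if i ≠ 0 ∧ j ≠ 2 then (1 : ℤ) else 0) ≤ 2 := by
      clear h1 h2
      revert i j; decide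
    rw [hopO_cons, dOpen_cons]
    push_cast
    linarith

theorem close_bound (n : ℕ) (σ : Cfg (n + 1)) :
    |magneticNumber (σ 0) * magneticNumber (σ (Fin.last n))| + perA n (fun _ => (1 : ℤ)) σ +
      perB n (fun _ => (1 : ℤ)) σ ≤ 2 ∧ perA n (fun _ => (1 : ℤ)) σ ≤ 1 ∧
      perB n (fun _ => (1 : ℤ)) σ ≤ 1 := by
  simp only [perA, perB]
  generalize σ (Fin.last n) = j
  generalize σ 0 = i
  revert i j; decide

/-- diagonal part and open hops of the ring -/
def M0 (n : ℕ) : Matrix (Cfg (n + 1)) (Cfg (n + 1)) ℤ :=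
  diagonal (fun σ => dOpen (n + 1) σ + magneticNumber (σ 0) * magneticNumber (σ (Fin.last n))) +
    MH (n + 1)

theorem actR_eq {R : Type} [CommRing R] (n : ℕ) (u v : R) (x : Cfg (n + 1) → R)
    (σ : Cfg (n + 1)) :
    actR n u v x σ = act (M0 n) x σ + u * act (MA n) x σ + v * act (MB n) x σ := by
  rw [M0, act_add, act_diag, act_MH, act_MA, act_MB, actR]

theorem row_M0 (n : ℕ) (σ : Cfg (n + 1)) :
    row (M0 n) σ + row (MA n) σ + row (MB n) σ ≤ 2 * (n + 1) ∧ row (MA n) σ ≤ 1 ∧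
      row (MB n) σ ≤ 1 := by
  have h1 := row_add (diagonal fun σ : Cfg (n + 1) =>
    dOpen (n + 1) σ + magneticNumber (σ 0) * magneticNumber (σ (Fin.last n))) (MH (n + 1)) σ
  rw [row_diag, row_MH] at h1
  have h2 := open_bound n σ
  have h3 := close_bound n σ
  have h4 := abs_add_le (dOpen (n + 1) σ) (magneticNumber (σ 0) * magneticNumber (σ (Fin.last n)))
  rw [row_MA, row_MB, M0]
  exact ⟨by linarith [h3.1], h3.2⟩

/-- the open chain -/
def MO (n : ℕ) (a b : ℤ) : Matrix (Cfg (n + 1)) (Cfg (n + 1)) ℤ :=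
  diagonal (fun σ => 5 * dOpen (n + 1) σ - a * magneticNumber (σ 0) -
    b * magneticNumber (σ (Fin.last n))) + (5 : ℤ) • MH (n + 1)

theorem actO_eq {R : Type} [CommRing R] (n : ℕ) (a b : ℤ) (x : Cfg (n + 1) → R)
    (σ : Cfg (n + 1)) : actO n a b x σ = act (MO n a b) x σ := by
  rw [MO, act_add, act_diag, act_smul, act_MH, actO, Int.cast_ofNat]

theorem eq_map {L : ℕ} {H : Op L} {M : Matrix (Cfg L) (Cfg L) ℤ}
    (h : ∀ x σ, (H *ᵥ x) σ = act M x σ) : H = M.map (fun z => (z : ℂ)) :=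
  ext_iff_mulVec.2 fun x => funext fun σ => h x σ

/-! ### the pieces of the steps -/

variable {d K B N : ℕ} {t : T}

/-- the vector of a tree modulo `N` -/
def vec (N L : ℕ) (t : T) (τ : Cfg L) : ZMod N := get L t τ

theorem cast_hopO (L : ℕ) (t : T) (σ : Cfg L) :
    ((hopO L (get L t) σ : ℕ) : ZMod N) = act (MH L) (vec N L t) σ := by
  rw [act_MH]
  exact map_hopO (Nat.castAddMonoidHom (ZMod N)) L _ σ

theorem vec_PA (d : ℕ) (t : T) (σ : Cfg (d + 2)) :
    vec N (d + 2) (PA d t) σ = act (MA (d + 1)) (vec N (d + 2) t) σ := by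
  rw [act_MA, vec, get_PA]
  exact map_perA (Nat.castAddMonoidHom (ZMod N)) _ _ σ

theorem vec_PB (d : ℕ) (t : T) (σ : Cfg (d + 2)) :
    vec N (d + 2) (PB d t) σ = act (MB (d + 1)) (vec N (d + 2) t) σ := by
  rw [act_MB, vec, get_PB]
  exact map_perB (Nat.castAddMonoidHom (ZMod N)) _ _ σ

/-- `t` has depth `L`, leaves at most `B` and represents `x` modulo `N` -/
structure Rep (N L B : ℕ) (t : T) (x : Cfg L → ZMod N) : Prop where
  dep : Dep L t
  bd : Bd B t
  val : ∀ σ, vec N L t σ = x σ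

theorem Rep.add {L A : ℕ} {t' : T} {x y : Cfg L → ZMod N} (h : Rep N L A t x) (h' : Rep N L B t' y) :
    Rep N L (A + B) (t.add t') (fun σ => x σ + y σ) :=
  ⟨dep_add h.dep h'.dep, bd_add h.bd h'.bd, fun σ => by
    rw [← h.val, ← h'.val, vec, get_add h.dep h'.dep, Nat.cast_add]; rfl⟩

theorem Rep.neg {L : ℕ} {x : Cfg L → ZMod N} (h : Rep N L B t x) (hK : 256 * B ≤ K) (hN : N ∣ K) :
    Rep N L K (t.neg K) (fun σ => -x σ) :=
  ⟨dep_map _ h.dep, bd_neg h.bd, fun σ => by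
    rw [← h.val]; exact get_neg (by omega) hN h.bd σ⟩

theorem rep_PA (h : Dep (d + 2) t) (hB : Bd B t) :
    Rep N (d + 2) B (PA d t) (act (MA (d + 1)) (vec N (d + 2) t)) :=
  ⟨dep_PA h, bd_PA d hB, vec_PA d t⟩

theorem rep_PB (h : Dep (d + 2) t) (hB : Bd B t) :
    Rep N (d + 2) B (PB d t) (act (MB (d + 1)) (vec N (d + 2) t)) :=
  ⟨dep_PB h, bd_PB d hB, vec_PB d t⟩

theorem rep_base (hd : d ≤ 14) (h : Dep (d + 2) t) (hB : Bd B t) (hK : 256 * B ≤ K) (hN : N ∣ K) :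
    Rep N (d + 2) (K + 50 * B) (baseR d K t) (act (M0 (d + 1)) (vec N (d + 2) t)) := by
  rw [baseR, c0_eq, c1_eq, c2_eq]
  have h1 := hop_spec (d + 1) h (dep_mk (dep_diag K 1 1 0 0 1 0 0 0 (dep_ch h 0))
    (dep_diag K 1 0 0 0 0 1 0 0 (dep_ch h 1)) (dep_diag K 1 0 1 1 0 2 0 0 (dep_ch h 2)))
  refine ⟨h1.1, bd_mono ?_ (bd_hop (d + 1) (A := K + 20 * B) hB (bd_mk
    (bd_diag _ _ _ _ _ _ _ _ _ (dep_ch h 0) (bd_ch hB 0) (by omega))
    (bd_diag _ _ _ _ _ _ _ _ _ (dep_ch h 1) (bd_ch hB 1) (by omega))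
    (bd_diag _ _ _ _ _ _ _ _ _ (dep_ch h 2) (bd_ch hB 2) (by omega)))), fun σ => ?_⟩
  · have : 2 * (d + 1) * B ≤ 30 * B := Nat.mul_le_mul_right B (by omega)
    omega
  · rw [vec, h1.2, Nat.cast_add, cast_hopO, M0, act_add, act_diag]
    congr 1
    obtain ⟨i, ρ, rfl⟩ : ∃ i ρ, σ = Fin.cons i ρ := ⟨_, _, (Fin.cons_self_tail σ).symm⟩
    rw [vec, get_cons, get_cons, ch_mk, Fin.cons_zero]
    rcases fin3 i with rfl | rfl | rfl
    · refine (get_diag K 1 1 0 0 1 hK hN 0 0 0 (dep_ch h 0) (bd_ch hB 0) (by omega) ρ).trans ?_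
      generalize (Fin.cons 0 ρ : Cfg (d + 2)) (Fin.last (d + 1)) = j
      rcases fin3 j with rfl | rfl | rfl <;> simp [endT, magneticNumber]
    · refine (get_diag K 1 0 0 0 0 hK hN 1 0 0 (dep_ch h 1) (bd_ch hB 1) (by omega) ρ).trans ?_
      generalize (Fin.cons 1 ρ : Cfg (d + 2)) (Fin.last (d + 1)) = j
      rcases fin3 j with rfl | rfl | rfl <;> simp [endT, magneticNumber]
    · refine (get_diag K 1 0 1 1 0 hK hN 2 0 0 (dep_ch h 2) (bd_ch hB 2) (by omega) ρ).trans ?_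
      generalize (Fin.cons 2 ρ : Cfg (d + 2)) (Fin.last (d + 1)) = j
      rcases fin3 j with rfl | rfl | rfl <;> simp [endT, magneticNumber]

theorem rep_O {ap am bp bm : ℕ} (hd : d ≤ 14) (ha : ap ≤ 8 ∧ am ≤ 8 ∧ bp ≤ 8 ∧ bm ≤ 8)
    (h : Dep (d + 2) t) (hB : Bd B t) (hK : 256 * B ≤ K) (hN : N ∣ K) :
    Rep N (d + 2) (4 * K) (stepO d ap am bp bm K t)
      (act (MO (d + 1) ((ap : ℤ) - am) ((bp : ℤ) - bm)) (vec N (d + 2) t)) := by
  rw [stepO, c0_eq, c1_eq, c2_eq]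
  have h0 := dep_mk (dep_diag K 5 bm bp bp bm 0 am ap (dep_ch h 0))
    (dep_diag K 5 bm bp bp bm 1 0 0 (dep_ch h 1)) (dep_diag K 5 bm bp bp bm 2 ap am (dep_ch h 2))
  have h1 := hop_spec (d + 1) h (dep_nil _)
  have h2 : Bd (30 * B) (hop (d + 1) t T.nil) :=
    bd_mono (by
      have : 2 * (d + 1) * B ≤ 30 * B := Nat.mul_le_mul_right B (by omega)
      omega) (bd_hop (d + 1) (A := 0) (acc := T.nil) hB trivial)
  refine ⟨dep_add h0 (dep_map _ h1.1), bd_mono (by omega) (bd_add (A := K + 100 * B) (bd_mk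
    (bd_diag _ _ _ _ _ _ _ _ _ (dep_ch h 0) (bd_ch hB 0) (by omega))
    (bd_diag _ _ _ _ _ _ _ _ _ (dep_ch h 1) (bd_ch hB 1) (by omega))
    (bd_diag _ _ _ _ _ _ _ _ _ (dep_ch h 2) (bd_ch hB 2) (by omega)))
    (bd_map (C := 5 * (30 * B)) (fun x hx => Nat.mul_le_mul_left 5 hx) h2)), fun σ => ?_⟩
  rw [vec, get_add h0 (dep_map _ h1.1), Nat.cast_add,
    get_map (c := 5) (fun x _ => by simp) _ h2, h1.2, get_nil, Nat.zero_add, cast_hopO, MO, act_add,
    act_diag, act_smul, Int.cast_ofNat]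
  congr 1
  obtain ⟨i, ρ, rfl⟩ : ∃ i ρ, σ = Fin.cons i ρ := ⟨_, _, (Fin.cons_self_tail σ).symm⟩
  rw [vec, get_cons, get_cons, ch_mk, Fin.cons_zero]
  rcases fin3 i with rfl | rfl | rfl
  · refine (get_diag K 5 bm bp bp bm hK hN 0 am ap (dep_ch h 0) (bd_ch hB 0) (by omega) ρ).trans ?_
    generalize (Fin.cons 0 ρ : Cfg (d + 2)) (Fin.last (d + 1)) = j
    rcases fin3 j with rfl | rfl | rfl <;> simp [endT, magneticNumber] <;> ring
  · refine (get_diag K 5 bm bp bp bm hK hN 1 0 0 (dep_ch h 1) (bd_ch hB 1) (by omega) ρ).trans ?_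
    generalize (Fin.cons 1 ρ : Cfg (d + 2)) (Fin.last (d + 1)) = j
    rcases fin3 j with rfl | rfl | rfl <;> simp [endT, magneticNumber] <;> ring
  · refine (get_diag K 5 bm bp bp bm hK hN 2 ap am (dep_ch h 2) (bd_ch hB 2) (by omega) ρ).trans ?_
    generalize (Fin.cons 2 ρ : Cfg (d + 2)) (Fin.last (d + 1)) = j
    rcases fin3 j with rfl | rfl | rfl <;> simp [endT, magneticNumber] <;> ring

theorem om_sq : om ^ 2 = -1 - om := by
  have h : ((Real.sqrt 3 : ℝ) : ℂ) ^ 2 = 3 := by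
    rw [← Complex.ofReal_pow, Real.sq_sqrt (by norm_num)]; norm_num
  unfold om
  push_cast
  linear_combination (Complex.I ^ 2 / 4) * h + (3 / 4) * Complex.I_sq

end TS

open TS

theorem real_kind0 (d : ℕ) (hd : d ≤ 14) :
    RealKind (d + 2) (step0 d) (Htw (d + 1) 1) (2 * (d + 2)) := by
  refine ⟨M0 (d + 1) + MA (d + 1) + MB (d + 1), eq_map fun x σ => ?_, fun σ => ?_,
    fun K B N t h hB hK hN => ?_⟩
  · rw [Htw_one_mulVec _ (by omega), actR_eq, act_add, act_add, one_mul, one_mul]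
  · have h1 := row_add (M0 (d + 1) + MA (d + 1)) (MB (d + 1)) σ
    have h2 := row_add (M0 (d + 1)) (MA (d + 1)) σ
    have h3 := (row_M0 (d + 1) σ).1
    change TS.row _ σ ≤ _
    push_cast at h3 ⊢
    linarith
  · have h1 := ((rep_base hd h hB hK hN).add (rep_PA h hB)).add (rep_PB h hB)
    refine ⟨h1.dep, bd_mono (by omega) h1.bd, fun σ => (h1.val σ).trans ?_⟩
    rw [← act_add, ← act_add]
    rfl

theorem real_kindP (d : ℕ) (hd : d ≤ 14) :
    RealKind (d + 2) (stepP d) (Htw (d + 1) RZ) (2 * (d + 2)) := by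
  refine ⟨M0 (d + 1) - MA (d + 1) - MB (d + 1), eq_map fun x σ => ?_, fun σ => ?_,
    fun K B N t h hB hK hN => ?_⟩
  · rw [Htw_RZ_mulVec _ (by omega), actR_eq, act_sub, act_sub]
    ring
  · have h1 := row_sub (M0 (d + 1) - MA (d + 1)) (MB (d + 1)) σ
    have h2 := row_sub (M0 (d + 1)) (MA (d + 1)) σ
    have h3 := (row_M0 (d + 1) σ).1
    change TS.row _ σ ≤ _
    push_cast at h3 ⊢
    linarith
  · have h1 := ((rep_base hd h hB hK hN).add ((rep_PA h hB).neg hK hN)).add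
      ((rep_PB h hB).neg hK hN)
    refine ⟨h1.dep, bd_mono (by omega) h1.bd, fun σ => (h1.val σ).trans ?_⟩
    rw [← sub_eq_add_neg, ← sub_eq_add_neg, ← act_sub, ← act_sub]
    rfl

theorem real_kindO (d ap am bp bm : ℕ) (hd : d ≤ 14) (h : ap ≤ 8 ∧ am ≤ 8 ∧ bp ≤ 8 ∧ bm ≤ 8) :
    RealKind (d + 2) (stepO d ap am bp bm) (HO (d + 1) ((ap : ℤ) - am) ((bp : ℤ) - bm))
      (10 * (d + 1) + ap + am + bp + bm) := by
  refine ⟨MO (d + 1) ((ap : ℤ) - am) ((bp : ℤ) - bm), eq_map fun x σ => ?_, fun σ => ?_,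
    fun K B N t ht hB hK hN => ?_⟩
  · rw [HO_mulVec, actO_eq]
  · refine (row_add _ _ σ).trans ?_
    rw [row_diag, row_smul, row_MH]
    have h1 := open_bound (d + 1) σ
    have h2 : ∀ (p m : ℕ) (i : Fin 3), |((p : ℤ) - m) * magneticNumber i| ≤ p + m := by
      intro p m i
      rcases fin3 i with rfl | rfl | rfl <;> simp [magneticNumber, abs_le] <;> omega
    have h3 := h2 ap am (σ 0)
    have h4 := h2 bp bm (σ (Fin.last (d + 1)))
    have h5 := abs_sub (5 * dOpen (d + 1 + 1) σ - ((ap : ℤ) - am) * magneticNumber (σ 0))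
      (((bp : ℤ) - bm) * magneticNumber (σ (Fin.last (d + 1))))
    have h6 := abs_sub (5 * dOpen (d + 1 + 1) σ) (((ap : ℤ) - am) * magneticNumber (σ 0))
    rw [abs_mul 5, show |(5 : ℤ)| = 5 from rfl] at h6
    rw [show |(5 : ℤ)| = 5 from rfl]
    push_cast at h1 ⊢
    linarith
  · have h1 := rep_O hd h ht hB hK hN
    exact ⟨h1.dep, h1.bd, h1.val⟩

theorem cplx_kindW (d : ℕ) (hd : d ≤ 14) :
    CplxKind (d + 2) (stepW d) (Htw (d + 1) RW) (2 * (d + 2) + 1) := by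
  refine ⟨Htw_herm _ (by omega) _, M0 (d + 1) - MB (d + 1), MB (d + 1) - MA (d + 1),
    MA (d + 1) - MB (d + 1), M0 (d + 1) - MA (d + 1), fun a b => ?_, fun σ => ?_, fun σ => ?_,
    fun K B N t h0 h1 b0 b1 hK hN => ?_⟩
  · funext σ
    rw [Htw_RW_mulVec _ (by omega), actR_eq]
    simp only [act_lin, Pi.add_apply, Int.cast_add, cast_mulVec, act_sub]
    linear_combination (act (MA (d + 1)) (fun τ => (b τ : ℂ)) σ +
      act (MB (d + 1)) (fun τ => (a τ : ℂ)) σ +
      (om - 1) * act (MB (d + 1)) (fun τ => (b τ : ℂ)) σ) * om_sq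
  · have h1 := row_sub (M0 (d + 1)) (MB (d + 1)) σ
    have h2 := row_sub (MB (d + 1)) (MA (d + 1)) σ
    have h3 := row_M0 (d + 1) σ
    rw [Finset.sum_add_distrib]
    change TS.row _ σ + TS.row _ σ ≤ _
    push_cast at h3 ⊢
    linarith [h3.1, h3.2.2]
  · have h1 := row_sub (M0 (d + 1)) (MA (d + 1)) σ
    have h2 := row_sub (MA (d + 1)) (MB (d + 1)) σ
    have h3 := row_M0 (d + 1) σ
    rw [Finset.sum_add_distrib]
    change TS.row _ σ + TS.row _ σ ≤ _
    push_cast at h3 ⊢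
    linarith [h3.1, h3.2.1]
  · have k0 := (((rep_base hd h0 b0 hK hN).add ((rep_PA h1 b1).neg hK hN)).add
      (rep_PB h1 b1)).add ((rep_PB h0 b0).neg hK hN)
    have k1 := (((rep_base hd h1 b1 hK hN).add (rep_PA h0 b0)).add
      ((rep_PA h1 b1).neg hK hN)).add ((rep_PB h0 b0).neg hK hN)
    refine ⟨k0.dep, k1.dep, bd_mono (by omega) k0.bd, bd_mono (by omega) k1.bd,
      fun σ => (k0.val σ).trans ?_, fun σ => (k1.val σ).trans ?_⟩
    · rw [Finset.sum_add_distrib]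
      change _ = act _ (vec N (d + 2) t.c0) σ + act _ (vec N (d + 2) t.c1) σ
      rw [act_sub, act_sub]
      ring
    · rw [Finset.sum_add_distrib]
      change _ = act _ (vec N (d + 2) t.c0) σ + act _ (vec N (d + 2) t.c1) σ
      rw [act_sub, act_sub]
      ring

end Crest.Agent.R347
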