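import Crest.Agent.R347.TFast
import Crest.Agent.R347.TStep
import Crest.Agent.R347.TMom
import Crest.Agent.R347.TCert
import Crest.Agent.R347.Sector

/-! Row 347: wrappers that turn kernel computations into bounds on sector traces. -/

set_option autoImplicit false
open Crest.MathPhysics.SpinChain Matrix

namespace Crest.Agent.R347

def bQ : ℚ := 19 / 2
def eQ (L : ℕ) : ℚ := 1401475 / 1000000 * L

/-- sector trace of a ring of `d+2` sites with insertion `g` -/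
noncomputable def tF (g : M3) (d : ℕ) (R : R3) (lo hi : ℕ) : ℝ :=
  rtr (kAll g (d + 2) * Pd (d + 2) lo hi * ex (bQ : ℝ) (eQ (d + 2) : ℝ) (Htw (d + 1) R))
/-- sector trace of an open chain of `d+2` sites -/
noncomputable def tO (d : ℕ) (a b : ℤ) (lo hi : ℕ) : ℝ :=
  rtr (Pd (d + 2) lo hi * ex ((bQ / 5 : ℚ) : ℝ) ((5 * eQ (d + 2) : ℚ) : ℝ) (HO (d + 1) a b))

def mkCl (ρp ρm sn r : ℕ) (ε : ℤ) : Cl := ⟨((ρp : ℚ) - ρm) / (1048576 : ℕ), (sn : ℚ) / (4294967296 : ℕ), r, ε⟩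

def CluQ {L : ℕ} (H P F : Op L) (c : Cl) : Prop := Clu H P F c.ρ c.s c.r c.ε

theorem cluQ_mk {L : ℕ} {H P F : Op L} {ρp ρm sn r : ℕ} {ε : ℤ}
    (h : Clu H P F (((ρp : ℝ) - ρm) / (1048576 : ℕ)) ((sn : ℝ) / (4294967296 : ℕ)) r ε) :
    CluQ H P F (mkCl ρp ρm sn r ε) := by
  unfold CluQ mkCl
  convert h using 1 <;> push_cast <;> rfl

def wOK (G L w J : ℕ) : Bool :=
  decide (4 * G ^ J ≤ 2 ^ w) && decide (16 * 40503 * 3 ^ L * G ^ J ≤ 2 ^ (2 * w)) && decide (1 ≤ G)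

section clusters
variable {L lo hi G : ℕ} {step : ℕ → T → T} {H : Op L}

theorem clR1 (hk : RealKind L step H G) (a : Acc step (buildR L lo hi)) (hG : G ≤ 2 ^ 20)
    {sn ρp ρm B : ℕ} (h : oneStep a (certRN L 1 1048576 sn 4294967296 ρp ρm) (vd1 B) = T.leaf 1) :
    CluQ H (Pd L lo hi) 1 (mkCl ρp ρm sn 1 1) := by
  rw [certRN_eq] at h
  have := cert1_real hk a hG 1048576 sn 4294967296 _ (by norm_num) (by norm_num) _ (vd1_lt B) h
  apply cluQ_mk; convert this using 2; push_cast; rfl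

theorem clR2 (hk : RealKind L step H G) (a : Acc step (buildR L lo hi)) (hG : G ≤ 2 ^ 20)
    {sn ρp ρm B B' : ℕ} (h : oneStep a (certRN L 2 1048576 sn 4294967296 ρp ρm) (vd1 B) = T.leaf 1)
    (h' : oneStep a (certRN L 2 1048576 sn 4294967296 ρp ρm) (vd1 B') = T.leaf 1)
    (ho : orthR L (buildR L lo hi (vd1 B)) (buildR L lo hi (vd1 B')) = true) :
    CluQ H (Pd L lo hi) 1 (mkCl ρp ρm sn 2 1) := by
  rw [certRN_eq] at h h'
  have := cert2_real hk a hG 1048576 sn 4294967296 _ (by norm_num) (by norm_num) _ _ (vd1_lt B)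
    (vd1_lt B') h h' ho
  apply cluQ_mk; convert this using 2; push_cast; rfl

theorem clX1 (hk : RealKind L step H G) (a : Acc step (buildR L lo hi)) (hG : G ≤ 2 ^ 20) (ε : ℤ)
    {sn ρp ρm B : ℕ} (h : oneStep a (certRN L 1 1048576 sn 4294967296 ρp ρm) (vd1 B) = T.leaf 1)
    (hp : parR L ε (buildR L lo hi (vd1 B)) = true) :
    CluQ H (Pd L lo hi) (kAll kX L) (mkCl ρp ρm sn 1 ((-1) ^ L * ε)) := by
  rw [certRN_eq] at h
  have := cert1_realX hk a hG 1048576 sn 4294967296 _ (by norm_num) (by norm_num) ε _ (vd1_lt B) h hp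
  apply cluQ_mk; convert this using 2; push_cast; rfl

theorem clX2 (hk : RealKind L step H G) (a : Acc step (buildR L lo hi)) (hG : G ≤ 2 ^ 20) (ε : ℤ)
    {sn ρp ρm B B' : ℕ} (h : oneStep a (certRN L 2 1048576 sn 4294967296 ρp ρm) (vd1 B) = T.leaf 1)
    (h' : oneStep a (certRN L 2 1048576 sn 4294967296 ρp ρm) (vd1 B') = T.leaf 1)
    (ho : orthR L (buildR L lo hi (vd1 B)) (buildR L lo hi (vd1 B')) = true)
    (hp : parR L ε (buildR L lo hi (vd1 B)) = true) (hp' : parR L ε (buildR L lo hi (vd1 B')) = true) :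
    CluQ H (Pd L lo hi) (kAll kX L) (mkCl ρp ρm sn 2 ((-1) ^ L * ε)) := by
  rw [certRN_eq] at h h'
  have := cert2_realX hk a hG 1048576 sn 4294967296 _ (by norm_num) (by norm_num) ε _ _ (vd1_lt B)
    (vd1_lt B') h h' ho hp hp'
  apply cluQ_mk; convert this using 2; push_cast; rfl

theorem clC1 (hk : CplxKind L step H G) (a : Acc step (buildC L lo hi)) (hG : G ≤ 2 ^ 8)
    {sn ρp ρm B B' : ℕ} (hp : ρp ≤ 2 ^ 25) (hm : ρm ≤ 2 ^ 25)
    (h : oneStep a (certCN L 1 1048576 sn 4294967296 ρp ρm) (vd2 B B') = T.leaf 1) :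
    CluQ H (Pd L lo hi) 1 (mkCl ρp ρm sn 1 1) := by
  rw [certCN_eq] at h
  exact cluQ_mk (cert1_cplx hk a hG 1048576 sn 4294967296 ρp ρm (by norm_num) (by norm_num)
    (by norm_num) hp hm _ (vd2_lt B B') h)

theorem clC2 (hk : CplxKind L step H G) (a : Acc step (buildC L lo hi)) (hG : G ≤ 2 ^ 8)
    {sn ρp ρm B B' C C' : ℕ} (hp : ρp ≤ 2 ^ 25) (hm : ρm ≤ 2 ^ 25)
    (h : oneStep a (certCN L 2 1048576 sn 4294967296 ρp ρm) (vd2 B B') = T.leaf 1)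
    (h' : oneStep a (certCN L 2 1048576 sn 4294967296 ρp ρm) (vd2 C C') = T.leaf 1)
    (ho : orthC L (buildC L lo hi (vd2 B B')) (buildC L lo hi (vd2 C C')) = true) :
    CluQ H (Pd L lo hi) 1 (mkCl ρp ρm sn 2 1) := by
  rw [certCN_eq] at h h'
  exact cluQ_mk (cert2_cplx hk a hG 1048576 sn 4294967296 ρp ρm (by norm_num) (by norm_num)
    (by norm_num) hp hm _ _ (vd2_lt B B') (vd2_lt C C') h h' ho)

theorem CluQ.toZ {sn ρp ρm r : ℕ} (h : CluQ H (Pd L lo lo) 1 (mkCl ρp ρm sn r 1)) :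
    CluQ H (Pd L lo lo) (kAll kZ L) (mkCl ρp ρm sn r ((-1) ^ (L + lo))) :=
  Clu.toZ h

end clusters

/-- the moments of a sector are those computed from the blocks -/
def Mom {L : ℕ} (H : Op L) (lo hi : ℕ) (m : List ℚ) : Prop :=
  ∀ j (hj : j < m.length), rtr (Pd L lo hi * H ^ j) = m[j]

theorem wOK_iff {G L w J : ℕ} (h : wOK G L w J = true) :
    4 * G ^ J ≤ 2 ^ w ∧ 16 * 40503 * 3 ^ L * G ^ J ≤ 2 ^ (2 * w) ∧ 1 ≤ G := by
  simpa [wOK, and_assoc] using h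

section moments
variable {d lo hi G w J : ℕ} {step : ℕ → T → T} {bl : List (List (ℕ × ℕ) × List ℕ)}

theorem momRA {R : R3} (hR : Tw R) (hk : RealKind (d + 2) step (Htw (d + 1) R) G)
    (a : Acc step (buildR (d + 2) lo hi)) (hw : wOK G (d + 2) w J = true)
    (hb : ∀ b ∈ bl, blockR a (d + 2) w J b.1 = ofL b.2)
    (hc : cover (d + 1 + 1) lo hi (orbA (d + 1)) (bl.map Prod.fst).flatten 0 = true) :
    Mom (Htw (d + 1) R) lo hi (momOf w J bl) :=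
  mom_real hk a w J bl (wOK_iff hw).1 (wOK_iff hw).2.1 (wOK_iff hw).2.2 hb fun j =>
    covers_A (d + 1) lo hi _ hc _ (fun σ => (diag_ring (d + 1) (by omega) hR j σ).1)
      (fun σ => (diag_ring (d + 1) (by omega) hR j σ).2.1)

theorem momRB {R : R3} (hR : Tw R) (hk : RealKind (d + 2) step (Htw (d + 1) R) G)
    (a : Acc step (buildR (d + 2) lo hi)) (hw : wOK G (d + 2) w J = true)
    (hb : ∀ b ∈ bl, blockR a (d + 2) w J b.1 = ofL b.2) (hs : lo + hi = 2 * (d + 1 + 1))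
    (hc : cover (d + 1 + 1) lo hi (orbB (d + 1)) (bl.map Prod.fst).flatten 0 = true) :
    Mom (Htw (d + 1) R) lo hi (momOf w J bl) :=
  mom_real hk a w J bl (wOK_iff hw).1 (wOK_iff hw).2.1 (wOK_iff hw).2.2 hb fun j =>
    covers_B (d + 1) lo hi hs _ hc _ (fun σ => (diag_ring (d + 1) (by omega) hR j σ).1)
      (fun σ => (diag_ring (d + 1) (by omega) hR j σ).2.1)
      (fun σ => (diag_ring (d + 1) (by omega) hR j σ).2.2)

theorem momCA {R : R3} (hR : Tw R) (hk : CplxKind (d + 2) step (Htw (d + 1) R) G)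
    (a : Acc step (buildC (d + 2) lo hi)) (hw : wOK G (d + 2) w J = true)
    (hb : ∀ b ∈ bl, blockC a (d + 2) w J b.1 = ofL b.2)
    (hc : cover (d + 1 + 1) lo hi (orbA (d + 1)) (bl.map Prod.fst).flatten 0 = true) :
    Mom (Htw (d + 1) R) lo hi (momOf w J bl) :=
  mom_cplx hk a w J bl (wOK_iff hw).1 (wOK_iff hw).2.1 (wOK_iff hw).2.2 hb fun j =>
    covers_A (d + 1) lo hi _ hc _ (fun σ => (diag_ring (d + 1) (by omega) hR j σ).1)
      (fun σ => (diag_ring (d + 1) (by omega) hR j σ).2.1)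

theorem momCB {R : R3} (hR : Tw R) (hk : CplxKind (d + 2) step (Htw (d + 1) R) G)
    (a : Acc step (buildC (d + 2) lo hi)) (hw : wOK G (d + 2) w J = true)
    (hb : ∀ b ∈ bl, blockC a (d + 2) w J b.1 = ofL b.2) (hs : lo + hi = 2 * (d + 1 + 1))
    (hc : cover (d + 1 + 1) lo hi (orbB (d + 1)) (bl.map Prod.fst).flatten 0 = true) :
    Mom (Htw (d + 1) R) lo hi (momOf w J bl) :=
  mom_cplx hk a w J bl (wOK_iff hw).1 (wOK_iff hw).2.1 (wOK_iff hw).2.2 hb fun j =>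
    covers_B (d + 1) lo hi hs _ hc _ (fun σ => (diag_ring (d + 1) (by omega) hR j σ).1)
      (fun σ => (diag_ring (d + 1) (by omega) hR j σ).2.1)
      (fun σ => (diag_ring (d + 1) (by omega) hR j σ).2.2)

theorem kindP (d : ℕ) (hd : d ≤ 14) :
    RealKind (d + 2) (stepO d 3 0 3 0) (HO (d + 1) 3 3) (10 * (d + 1) + 6) := by
  simpa using real_kindO d 3 0 3 0 hd (by norm_num)

theorem kindM (d : ℕ) (hd : d ≤ 14) :
    RealKind (d + 2) (stepO d 0 3 3 0) (HO (d + 1) (-3) 3) (10 * (d + 1) + 6) := by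
  simpa using real_kindO d 0 3 3 0 hd (by norm_num)

theorem momOC {x : ℤ} (hk : RealKind (d + 2) step (HO (d + 1) x x) G)
    (a : Acc step (buildR (d + 2) lo hi)) (hw : wOK G (d + 2) w J = true)
    (hb : ∀ b ∈ bl, blockR a (d + 2) w J b.1 = ofL b.2)
    (hc : cover (d + 1 + 1) lo hi (orbC (d + 1)) (bl.map Prod.fst).flatten 0 = true) :
    Mom (HO (d + 1) x x) lo hi (momOf w J bl) :=
  mom_real hk a w J bl (wOK_iff hw).1 (wOK_iff hw).2.1 (wOK_iff hw).2.2 hb fun j =>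
    covers_C (d + 1) lo hi _ hc _ (fun σ => diag_open_same (d + 1) x j σ)

theorem momOD {x : ℤ} (hk : RealKind (d + 2) step (HO (d + 1) (-x) x) G)
    (a : Acc step (buildR (d + 2) lo hi)) (hw : wOK G (d + 2) w J = true)
    (hb : ∀ b ∈ bl, blockR a (d + 2) w J b.1 = ofL b.2) (hs : lo + hi = 2 * (d + 1 + 1))
    (hc : cover (d + 1 + 1) lo hi (orbD (d + 1)) (bl.map Prod.fst).flatten 0 = true) :
    Mom (HO (d + 1) (-x) x) lo hi (momOf w J bl) :=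
  mom_real hk a w J bl (wOK_iff hw).1 (wOK_iff hw).2.1 (wOK_iff hw).2.2 hb fun j =>
    covers_D (d + 1) lo hi hs _ hc _ (fun σ => diag_open_opp (d + 1) x j σ)

theorem momOE {H : Op (d + 2)} (hk : RealKind (d + 2) step H G)
    (a : Acc step (buildR (d + 2) lo hi)) (hw : wOK G (d + 2) w J = true)
    (hb : ∀ b ∈ bl, blockR a (d + 2) w J b.1 = ofL b.2)
    (hc : cover (d + 1 + 1) lo hi (orbE (d + 1)) (bl.map Prod.fst).flatten 0 = true) :
    Mom H lo hi (momOf w J bl) :=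
  mom_real hk a w J bl (wOK_iff hw).1 (wOK_iff hw).2.1 (wOK_iff hw).2.2 hb fun _ =>
    covers_E (d + 1) lo hi _ hc _

end moments

/-- `x ∈ [a, b]` -/
def In (x : ℝ) (a b : ℚ) : Prop := (a : ℝ) ≤ x ∧ x ≤ b

def mkD (β E : ℚ) (mom : List ℚ) (cl : List Cl) (p : List ℚ) (a0 δ : ℚ) (J : ℕ) : SecData :=
  ⟨β, E, mom, cl, p, a0, δ, J⟩

section results
variable {d lo hi J : ℕ} {m p : List ℚ} {cl : List Cl} {a0 δ x1 x2 y1 y2 : ℚ}

theorem resZ {R : R3} (hR : Tw R) (hm : Mom (Htw (d + 1) R) lo hi m)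
    (hc : ∀ c ∈ cl, CluQ (Htw (d + 1) R) (Pd (d + 2) lo hi) (kAll kZ (d + 2)) c)
    (hk : (mkD bQ (eQ (d + 2)) m cl p a0 δ J).check x1 x2 y1 y2 = true) :
    In (tF 1 d R lo hi) x1 x2 ∧ In (tF kZ d R lo hi) y1 y2 := by
  obtain ⟨h1, h2, h3, h4⟩ := kZ_facts (d + 1) (by omega) hR ((d + 2 : ℕ) - (hi : ℤ)) ((d + 2 : ℕ) - (lo : ℤ))
  have := sec_sound _ (Pd (d + 2) lo hi) _ (Htw_herm (d + 1) (by omega) R) (Pj_herm _ _ _) h1
    (Pj_idem _ _ _) h2 (Pj_comm_Htw (d + 1) (by omega) hR _ _) h3 h4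
    (mkD bQ (eQ (d + 2)) m cl p a0 δ J) hm hc x1 x2 y1 y2 hk
  unfold In tF
  rw [kAll_one, Matrix.one_mul]
  exact this

theorem Pd_mid (L : ℕ) : Pd L L L = Pj L 0 0 := by
  unfold Pd; rw [sub_self]

theorem resX (hm : Mom (Htw (d + 1) RZ) (d + 2) (d + 2) m)
    (hc : ∀ c ∈ cl, CluQ (Htw (d + 1) RZ) (Pd (d + 2) (d + 2) (d + 2)) (kAll kX (d + 2)) c)
    (hk : (mkD bQ (eQ (d + 2)) m cl p a0 δ J).check x1 x2 y1 y2 = true) :
    In (tF 1 d RZ (d + 2) (d + 2)) x1 x2 ∧ In (tF kX d RZ (d + 2) (d + 2)) y1 y2 := by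
  obtain ⟨h1, h2, h3, h4⟩ := kX_facts (d + 1) (by omega)
  have := sec_sound _ (Pd (d + 2) (d + 2) (d + 2)) _ (Htw_herm (d + 1) (by omega) RZ) (Pj_herm _ _ _) h1
    (Pj_idem _ _ _) h2 (Pj_comm_Htw (d + 1) (by omega) (Or.inr (Or.inl rfl)) _ _) h3
    (by rw [Pd_mid]; exact h4) (mkD bQ (eQ (d + 2)) m cl p a0 δ J) hm hc x1 x2 y1 y2 hk
  unfold In tF
  rw [kAll_one, Matrix.one_mul]
  exact this

theorem resO {a b : ℤ} (hm : Mom (HO (d + 1) a b) lo hi m)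
    (hc : ∀ c ∈ cl, CluQ (HO (d + 1) a b) (Pd (d + 2) lo hi) 1 c)
    (hk : (mkD (bQ / 5) (5 * eQ (d + 2)) m cl p a0 δ J).check x1 x2 y1 y2 = true) :
    In (tO d a b lo hi) x1 x2 :=
  (sec_sound _ (Pd (d + 2) lo hi) 1 (HO_herm (d + 1) a b) (Pj_herm _ _ _) isHermitian_one
    (Pj_idem _ _ _) (Matrix.one_mul _) (Pj_comm_HO (d + 1) a b _ _) (by simp) (by simp)
    (mkD (bQ / 5) (5 * eQ (d + 2)) m cl p a0 δ J) hm hc x1 x2 y1 y2 hk).1

end results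

/-! ### from sectors to full traces -/

theorem rtr_add {ι : Type} [Fintype ι] (A B : Matrix ι ι ℂ) : rtr (A + B) = rtr A + rtr B := by
  simp [rtr, Matrix.trace_add]

theorem Pd_split (L lo mid hi : ℕ) (h1 : lo ≤ mid + 1) (h2 : mid ≤ hi) :
    Pd L lo hi = Pd L lo mid + Pd L (mid + 1) hi := by
  unfold Pd
  rw [Pj_split L ((L : ℤ) - hi) ((L : ℤ) - (mid + 1 : ℕ)) ((L : ℤ) - lo) (by push_cast; omega)
    (by push_cast; omega), add_comm]
  congr 2; push_cast; ring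

theorem tF_split (g : M3) (d : ℕ) (R : R3) (lo mid hi : ℕ) (h1 : lo ≤ mid + 1) (h2 : mid ≤ hi) :
    tF g d R lo hi = tF g d R lo mid + tF g d R (mid + 1) hi := by
  unfold tF
  rw [Pd_split _ lo mid hi h1 h2, Matrix.mul_add, Matrix.add_mul, rtr_add]

theorem tO_split (d : ℕ) (a b : ℤ) (lo mid hi : ℕ) (h1 : lo ≤ mid + 1) (h2 : mid ≤ hi) :
    tO d a b lo hi = tO d a b lo mid + tO d a b (mid + 1) hi := by
  unfold tO
  rw [Pd_split _ lo mid hi h1 h2, Matrix.add_mul, rtr_add]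

theorem Pd_all (L : ℕ) : Pd L 0 (2 * L) = 1 := by
  unfold Pd
  rw [← Pj_all L]; congr 1 <;> push_cast <;> ring

theorem Pd_lo (n : ℕ) : Pd (n + 1) 0 n = Pj (n + 1) 1 (n + 1) := by
  unfold Pd; congr 1 <;> push_cast <;> ring

theorem Pd_hi (n : ℕ) : Pd (n + 1) (n + 1 + 1) (2 * (n + 1)) = Pj (n + 1) (-(n + 1)) (-1) := by
  unfold Pd; congr 1 <;> push_cast <;> ring

/-- full trace of the ring of `n+1` sites at `β₀` -/
noncomputable def Zc (g : M3) (R : R3) (n : ℕ) : ℝ :=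
  rtr (kAll g (n + 1) * ex (19 / 2) (1401475 / 1000000 * (n + 1)) (Htw n R))
/-- full trace of the open chain of `n+1` sites at `β₀` -/
noncomputable def Oc (h1 h2 : ℝ) (n : ℕ) : ℝ :=
  rtr (ex (19 / 2) (1401475 / 1000000 * (n + 1)) (Hfld n h1 h2))

theorem Zc_eq (g : M3) (R : R3) (d : ℕ) : Zc g R (d + 1) = tF g d R 0 (2 * (d + 2)) := by
  unfold Zc tF bQ eQ
  rw [Pd_all, Matrix.mul_one]
  congr 3 <;> push_cast <;> ring

theorem Zc_one {R : R3} (hR : Tw R) (d : ℕ) :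
    Zc 1 R (d + 1) = tF 1 d R (d + 2) (d + 2) + 2 * tF 1 d R 0 (d + 1) := by
  rw [Zc_eq, tF_split 1 d R 0 (d + 1) _ (by omega) (by omega),
    tF_split 1 d R (d + 1 + 1) (d + 2) _ (by omega) (by omega)]
  have h := (rtr_neg_ring (d + 1) (by omega) hR 1 ((d + 1 : ℕ) + 1) bQ (eQ (d + 2))).1
  have e1 : tF 1 d R (d + 2 + 1) (2 * (d + 2)) = tF 1 d R 0 (d + 1) := by
    unfold tF
    rw [kAll_one, Matrix.one_mul, Matrix.one_mul, Pd_lo (d + 1), Pd_hi (d + 1)]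
    exact h
  rw [e1]; ring

theorem Zc_kZ {R : R3} (hR : Tw R) (d : ℕ) :
    Zc kZ R (d + 1) = tF kZ d R (d + 2) (d + 2) + 2 * tF kZ d R 0 (d + 1) := by
  rw [Zc_eq, tF_split kZ d R 0 (d + 1) _ (by omega) (by omega),
    tF_split kZ d R (d + 1 + 1) (d + 2) _ (by omega) (by omega)]
  have h := (rtr_neg_ring (d + 1) (by omega) hR 1 ((d + 1 : ℕ) + 1) bQ (eQ (d + 2))).2
  have e1 : tF kZ d R (d + 2 + 1) (2 * (d + 2)) = tF kZ d R 0 (d + 1) := by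
    unfold tF
    rw [Pd_lo (d + 1), Pd_hi (d + 1)]
    exact h
  rw [e1]; ring

theorem Zc_kX (d : ℕ) : Zc kX RZ (d + 1) = tF kX d RZ (d + 2) (d + 2) := by
  rw [Zc_eq]
  unfold tF
  rw [Pd_all, Matrix.mul_one, Pd_mid]
  exact rtr_kX (d + 1) (by omega) _ _

theorem Oc_eq (a b : ℤ) (d : ℕ) : Oc (a / 5) (b / 5) (d + 1) = tO d a b 0 (2 * (d + 2)) := by
  unfold Oc tO bQ eQ
  rw [Pd_all, Matrix.one_mul, ← ex_HO]
  congr 2 <;> push_cast <;> ring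

theorem Oc_same (d : ℕ) : Oc (3 / 5) (3 / 5) (d + 1) = tO d 3 3 0 (2 * (d + 2)) := by
  simpa using Oc_eq 3 3 d

theorem Oc_opp (d : ℕ) :
    Oc (-(3 / 5)) (3 / 5) (d + 1) = tO d (-3) 3 (d + 2) (d + 2) + 2 * tO d (-3) 3 0 (d + 1) := by
  have h0 := Oc_eq (-3) 3 d
  rw [show (((-3 : ℤ) : ℝ) / 5) = -(3 / 5) by push_cast; ring,
    show (((3 : ℤ) : ℝ) / 5) = 3 / 5 by push_cast; ring] at h0
  rw [h0, tO_split d _ _ 0 (d + 1) _ (by omega) (by omega),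
    tO_split d _ _ (d + 1 + 1) (d + 2) _ (by omega) (by omega)]
  have h := rtr_neg_open (d + 1) 3 1 ((d + 1 : ℕ) + 1) ((bQ / 5 : ℚ) : ℝ) ((5 * eQ (d + 2) : ℚ) : ℝ)
  have e1 : tO d (-3) 3 (d + 2 + 1) (2 * (d + 2)) = tO d (-3) 3 0 (d + 1) := by
    unfold tO
    rw [Pd_lo (d + 1), Pd_hi (d + 1)]
    exact h
  rw [e1]; ring

end Crest.Agent.R347
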