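import Crest.Agent.R347.Gen

/-! Row 347: kernel computations (generated). -/

set_option autoImplicit false
set_option Elab.async false
set_option maxRecDepth 100000

namespace Crest.Agent.R347

namespace OPL4S0T1
noncomputable def A : Type := by r347_A 3 4 0 1
noncomputable def tr : (T → T) → A := by r347_tr 3 4 0 1
noncomputable def F : (T → T → T) → Nat → A → A := by r347_F 3 4 0 1 3 0 3 0 A
noncomputable def app : (Nat → Nat) → A → T := by r347_app 3 4 0 1 A
theorem hF : (fun (cmb : T → T → T) (φ : T → T) (K : Nat) => tr (fun t => cmb t (φ (stepO 2 3 0 3 0 K t))))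
    = fun cmb φ K => F cmb K (tr φ) := by krfl
theorem happ : (fun (f : Nat → Nat) (φ : T → T) => app f (tr φ)) = fun f φ => φ (buildR 4 0 1 f) := by krfl
noncomputable def acc : Acc (stepO 2 3 0 3 0) (buildR 4 0 1) := ⟨A, tr, F, app, hF, happ⟩
def l0 : List (Nat × Nat) := [(0, 1), (1, 2), (3, 2)]
def o0 : List Nat := [655365, 655381, 655691]
theorem b0 : blockR acc 4 18 2 l0 = ofL o0 := by krfl
def bl : List (List (Nat × Nat) × List Nat) := [(l0, o0)]
theorem hb : ∀ b ∈ bl, blockR acc 4 18 2 b.1 = ofL b.2 :=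
  List.forall_mem_cons.2 ⟨b0, List.forall_mem_nil _⟩
theorem cov : cover (3 + 1) 0 1 (orbC 3) (bl.map Prod.fst).flatten 0 = true := by krfl
end OPL4S0T1

namespace OPL4S2T2
noncomputable def A : Type := by r347_A 3 4 2 2
noncomputable def tr : (T → T) → A := by r347_tr 3 4 2 2
noncomputable def F : (T → T → T) → Nat → A → A := by r347_F 3 4 2 2 3 0 3 0 A
noncomputable def app : (Nat → Nat) → A → T := by r347_app 3 4 2 2 A
theorem hF : (fun (cmb : T → T → T) (φ : T → T) (K : Nat) => tr (fun t => cmb t (φ (stepO 2 3 0 3 0 K t))))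
    = fun cmb φ K => F cmb K (tr φ) := by krfl
theorem happ : (fun (f : Nat → Nat) (φ : T → T) => app f (tr φ)) = fun f φ => φ (buildR 4 2 2 f) := by krfl
noncomputable def acc : Acc (stepO 2 3 0 3 0) (buildR 4 2 2) := ⟨A, tr, F, app, hF, happ⟩
def l0 : List (Nat × Nat) := [(2, 2), (4, 2), (6, 2), (10, 2), (12, 1), (28, 1)]
def o0 : List Nat := [83886090, 83886065, 83887059, 83879489, 84092027]
theorem b0 : blockR acc 4 24 4 l0 = ofL o0 := by krfl
def bl : List (List (Nat × Nat) × List Nat) := [(l0, o0)]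
theorem hb : ∀ b ∈ bl, blockR acc 4 24 4 b.1 = ofL b.2 :=
  List.forall_mem_cons.2 ⟨b0, List.forall_mem_nil _⟩
theorem cov : cover (3 + 1) 2 2 (orbC 3) (bl.map Prod.fst).flatten 0 = true := by krfl
end OPL4S2T2

namespace OPL4S3T3
noncomputable def A : Type := by r347_A 3 4 3 3
noncomputable def tr : (T → T) → A := by r347_tr 3 4 3 3
noncomputable def F : (T → T → T) → Nat → A → A := by r347_F 3 4 3 3 3 0 3 0 A
noncomputable def app : (Nat → Nat) → A → T := by r347_app 3 4 3 3 A
theorem hF : (fun (cmb : T → T → T) (φ : T → T) (K : Nat) => tr (fun t => cmb t (φ (stepO 2 3 0 3 0 K t))))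
    = fun cmb φ K => F cmb K (tr φ) := by krfl
theorem happ : (fun (f : Nat → Nat) (φ : T → T) => app f (tr φ)) = fun f φ => φ (buildR 4 3 3 f) := by krfl
noncomputable def acc : Acc (stepO 2 3 0 3 0) (buildR 4 3 3) := ⟨A, tr, F, app, hF, happ⟩
def l0 : List (Nat × Nat) := [(5, 2), (7, 2), (11, 2), (13, 2), (15, 2), (19, 2), (29, 2), (31, 2)]
def o0 : List Nat := [134217744, 134217674, 134219662, 134196818, 134791218]
theorem b0 : blockR acc 4 24 4 l0 = ofL o0 := by krfl
def bl : List (List (Nat × Nat) × List Nat) := [(l0, o0)]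
theorem hb : ∀ b ∈ bl, blockR acc 4 24 4 b.1 = ofL b.2 :=
  List.forall_mem_cons.2 ⟨b0, List.forall_mem_nil _⟩
theorem cov : cover (3 + 1) 3 3 (orbC 3) (bl.map Prod.fst).flatten 0 = true := by krfl
noncomputable def v0_0a : Nat := cat [0x88c6d0d0000000632db59901c9b70000000000000069b9bf70000000d543086457770305ab6e5ba888fd6fe364900000000000003fa5491bffffffd2abcf7a9cd24a7964640977392f30000000]
theorem c0_0 : oneStep acc (certRN 4 1 1048576 2014 4294967296 0 25280192) (vd1 v0_0a) = T.leaf 1 := by krfl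
end OPL4S3T3

namespace OPL4S4T4
noncomputable def A : Type := by r347_A 3 4 4 4
noncomputable def tr : (T → T) → A := by r347_tr 3 4 4 4
noncomputable def F : (T → T → T) → Nat → A → A := by r347_F 3 4 4 4 3 0 3 0 A
noncomputable def app : (Nat → Nat) → A → T := by r347_app 3 4 4 4 A
theorem hF : (fun (cmb : T → T → T) (φ : T → T) (K : Nat) => tr (fun t => cmb t (φ (stepO 2 3 0 3 0 K t))))
    = fun cmb φ K => F cmb K (tr φ) := by krfl
theorem happ : (fun (f : Nat → Nat) (φ : T → T) => app f (tr φ)) = fun f φ => φ (buildR 4 4 4 f) := by krfl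
noncomputable def acc : Acc (stepO 2 3 0 3 0) (buildR 4 4 4) := ⟨A, tr, F, app, hF, happ⟩
def l0 : List (Nat × Nat) := [(8, 2), (14, 2), (16, 2), (20, 2), (22, 2), (24, 1), (32, 2), (34, 2), (38, 2), (40, 1), (56, 1)]
def o0 : List Nat := [163208757267, 163208757188, 163208759592, 163208732378, 163209479588, 163196865598, 163512511392]
theorem b0 : blockR acc 4 34 6 l0 = ofL o0 := by krfl
def bl : List (List (Nat × Nat) × List Nat) := [(l0, o0)]
theorem hb : ∀ b ∈ bl, blockR acc 4 34 6 b.1 = ofL b.2 :=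
  List.forall_mem_cons.2 ⟨b0, List.forall_mem_nil _⟩
theorem cov : cover (3 + 1) 4 4 (orbC 3) (bl.map Prod.fst).flatten 0 = true := by krfl
noncomputable def v0_0a : Nat := cat [0x7824f730000000ad2d9ea62fc2bb0000003bfcd254663a30300000004e39aedae48245f3289ca212ed2abfcd254ae4824562fc2bb000000025b7bcbf3289ca00000034e39aedad2d9ea00000007824f7300000000000000]
theorem c0_0 : oneStep acc (certRN 4 1 1048576 1939 4294967296 0 24909341) (vd1 v0_0a) = T.leaf 1 := by krfl
end OPL4S4T4

namespace OPL4S5T5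
noncomputable def A : Type := by r347_A 3 4 5 5
noncomputable def tr : (T → T) → A := by r347_tr 3 4 5 5
noncomputable def F : (T → T → T) → Nat → A → A := by r347_F 3 4 5 5 3 0 3 0 A
noncomputable def app : (Nat → Nat) → A → T := by r347_app 3 4 5 5 A
theorem hF : (fun (cmb : T → T → T) (φ : T → T) (K : Nat) => tr (fun t => cmb t (φ (stepO 2 3 0 3 0 K t))))
    = fun cmb φ K => F cmb K (tr φ) := by krfl
theorem happ : (fun (f : Nat → Nat) (φ : T → T) => app f (tr φ)) = fun f φ => φ (buildR 4 5 5 f) := by krfl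
noncomputable def acc : Acc (stepO 2 3 0 3 0) (buildR 4 5 5) := ⟨A, tr, F, app, hF, happ⟩
def l0 : List (Nat × Nat) := [(17, 2), (23, 2), (25, 2), (35, 2), (41, 2), (43, 2), (47, 2), (59, 2)]
def o0 : List Nat := [134217744, 134217722, 134219182, 134215898, 134511618]
theorem b0 : blockR acc 4 24 4 l0 = ofL o0 := by krfl
def bl : List (List (Nat × Nat) × List Nat) := [(l0, o0)]
theorem hb : ∀ b ∈ bl, blockR acc 4 24 4 b.1 = ofL b.2 :=
  List.forall_mem_cons.2 ⟨b0, List.forall_mem_nil _⟩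
theorem cov : cover (3 + 1) 5 5 (orbC 3) (bl.map Prod.fst).flatten 0 = true := by krfl
end OPL4S5T5

namespace OPL4S6T8
noncomputable def A : Type := by r347_A 3 4 6 8
noncomputable def tr : (T → T) → A := by r347_tr 3 4 6 8
noncomputable def F : (T → T → T) → Nat → A → A := by r347_F 3 4 6 8 3 0 3 0 A
noncomputable def app : (Nat → Nat) → A → T := by r347_app 3 4 6 8 A
theorem hF : (fun (cmb : T → T → T) (φ : T → T) (K : Nat) => tr (fun t => cmb t (φ (stepO 2 3 0 3 0 K t))))
    = fun cmb φ K => F cmb K (tr φ) := by krfl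
theorem happ : (fun (f : Nat → Nat) (φ : T → T) => app f (tr φ)) = fun f φ => φ (buildR 4 6 8 f) := by krfl
noncomputable def acc : Acc (stepO 2 3 0 3 0) (buildR 4 6 8) := ⟨A, tr, F, app, hF, happ⟩
def l0 : List (Nat × Nat) := [(26, 2), (44, 2), (50, 2), (52, 1), (53, 2), (62, 2), (68, 1), (71, 2), (80, 1)]
def o0 : List Nat := [125829135, 125829234, 125831150, 125860908, 126426482]
theorem b0 : blockR acc 4 24 4 l0 = ofL o0 := by krfl
def bl : List (List (Nat × Nat) × List Nat) := [(l0, o0)]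
theorem hb : ∀ b ∈ bl, blockR acc 4 24 4 b.1 = ofL b.2 :=
  List.forall_mem_cons.2 ⟨b0, List.forall_mem_nil _⟩
theorem cov : cover (3 + 1) 6 8 (orbC 3) (bl.map Prod.fst).flatten 0 = true := by krfl
end OPL4S6T8

namespace OML4S4T4
noncomputable def A : Type := by r347_A 3 4 4 4
noncomputable def tr : (T → T) → A := by r347_tr 3 4 4 4
noncomputable def F : (T → T → T) → Nat → A → A := by r347_F 3 4 4 4 0 3 3 0 A
noncomputable def app : (Nat → Nat) → A → T := by r347_app 3 4 4 4 A
theorem hF : (fun (cmb : T → T → T) (φ : T → T) (K : Nat) => tr (fun t => cmb t (φ (stepO 2 0 3 3 0 K t))))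
    = fun cmb φ K => F cmb K (tr φ) := by krfl
theorem happ : (fun (f : Nat → Nat) (φ : T → T) => app f (tr φ)) = fun f φ => φ (buildR 4 4 4 f) := by krfl
noncomputable def acc : Acc (stepO 2 0 3 3 0) (buildR 4 4 4) := ⟨A, tr, F, app, hF, happ⟩
def l0 : List (Nat × Nat) := [(8, 1), (14, 1), (16, 2), (20, 1), (22, 2), (24, 2), (34, 1), (40, 1), (42, 2), (46, 1), (48, 2), (60, 1), (66, 1), (72, 1)]
def o0 : List Nat := [163208757267, 163208757188, 163208759736, 163208731298, 163209646772, 163193290798, 163675967016]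
theorem b0 : blockR acc 4 34 6 l0 = ofL o0 := by krfl
def bl : List (List (Nat × Nat) × List Nat) := [(l0, o0)]
theorem hb : ∀ b ∈ bl, blockR acc 4 34 6 b.1 = ofL b.2 :=
  List.forall_mem_cons.2 ⟨b0, List.forall_mem_nil _⟩
theorem cov : cover (3 + 1) 4 4 (orbD 3) (bl.map Prod.fst).flatten 0 = true := by krfl
noncomputable def v0_0a : Nat := cat [0x776475f0000000ac5e89f682239a0000003b3b6ffe71b32910000000682239a91647bab3b6ffe63fe69c8a8ec8c8806ca27c86d18000000071b32918a8ec8c79782df7c86d18821937f00000007fb8e3b00000000000000]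
theorem c0_0 : oneStep acc (certRN 4 1 1048576 1332 4294967296 0 28073942) (vd1 v0_0a) = T.leaf 1 := by krfl
end OML4S4T4

namespace OML4S3T3
noncomputable def A : Type := by r347_A 3 4 3 3
noncomputable def tr : (T → T) → A := by r347_tr 3 4 3 3
noncomputable def F : (T → T → T) → Nat → A → A := by r347_F 3 4 3 3 0 3 3 0 A
noncomputable def app : (Nat → Nat) → A → T := by r347_app 3 4 3 3 A
theorem hF : (fun (cmb : T → T → T) (φ : T → T) (K : Nat) => tr (fun t => cmb t (φ (stepO 2 0 3 3 0 K t))))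
    = fun cmb φ K => F cmb K (tr φ) := by krfl
theorem happ : (fun (f : Nat → Nat) (φ : T → T) => app f (tr φ)) = fun f φ => φ (buildR 4 3 3 f) := by krfl
noncomputable def acc : Acc (stepO 2 0 3 3 0) (buildR 4 3 3) := ⟨A, tr, F, app, hF, happ⟩
def l0 : List (Nat × Nat) := [(5, 1), (7, 1), (11, 1), (13, 1), (15, 1), (19, 1), (21, 1), (29, 1), (31, 1), (33, 1), (37, 1), (39, 1), (45, 1), (55, 1), (57, 1), (63, 1)]
def o0 : List Nat := [134217744, 134217698, 134219494, 134207438, 134686410]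
theorem b0 : blockR acc 4 24 4 l0 = ofL o0 := by krfl
def bl : List (List (Nat × Nat) × List Nat) := [(l0, o0)]
theorem hb : ∀ b ∈ bl, blockR acc 4 24 4 b.1 = ofL b.2 :=
  List.forall_mem_cons.2 ⟨b0, List.forall_mem_nil _⟩
theorem cov : cover (3 + 1) 3 3 (orbE 3) (bl.map Prod.fst).flatten 0 = true := by krfl
noncomputable def v0_0a : Nat := cat [0x99820fd000000037103f1a27843b000000000000005f97e080000000df5cda5485ef9a0000003b7275907230c5e00000003d49bdbb7e0624c6e605856a23d98ceca1489130eb7ca18a90000000]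
theorem c0_0 : oneStep acc (certRN 4 1 1048576 1264 4294967296 0 22700644) (vd1 v0_0a) = T.leaf 1 := by krfl
end OML4S3T3

namespace OML4S2T2
noncomputable def A : Type := by r347_A 3 4 2 2
noncomputable def tr : (T → T) → A := by r347_tr 3 4 2 2
noncomputable def F : (T → T → T) → Nat → A → A := by r347_F 3 4 2 2 0 3 3 0 A
noncomputable def app : (Nat → Nat) → A → T := by r347_app 3 4 2 2 A
theorem hF : (fun (cmb : T → T → T) (φ : T → T) (K : Nat) => tr (fun t => cmb t (φ (stepO 2 0 3 3 0 K t))))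
    = fun cmb φ K => F cmb K (tr φ) := by krfl
theorem happ : (fun (f : Nat → Nat) (φ : T → T) => app f (tr φ)) = fun f φ => φ (buildR 4 2 2 f) := by krfl
noncomputable def acc : Acc (stepO 2 0 3 3 0) (buildR 4 2 2) := ⟨A, tr, F, app, hF, happ⟩
def l0 : List (Nat × Nat) := [(2, 1), (4, 1), (6, 1), (10, 1), (12, 1), (18, 1), (28, 1), (30, 1), (36, 1), (54, 1)]
def o0 : List Nat := [83886090, 83886095, 83886963, 83890055, 84047771]
theorem b0 : blockR acc 4 24 4 l0 = ofL o0 := by krfl
def bl : List (List (Nat × Nat) × List Nat) := [(l0, o0)]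
theorem hb : ∀ b ∈ bl, blockR acc 4 24 4 b.1 = ofL b.2 :=
  List.forall_mem_cons.2 ⟨b0, List.forall_mem_nil _⟩
theorem cov : cover (3 + 1) 2 2 (orbE 3) (bl.map Prod.fst).flatten 0 = true := by krfl
end OML4S2T2

namespace OML4S0T1
noncomputable def A : Type := by r347_A 3 4 0 1
noncomputable def tr : (T → T) → A := by r347_tr 3 4 0 1
noncomputable def F : (T → T → T) → Nat → A → A := by r347_F 3 4 0 1 0 3 3 0 A
noncomputable def app : (Nat → Nat) → A → T := by r347_app 3 4 0 1 A
theorem hF : (fun (cmb : T → T → T) (φ : T → T) (K : Nat) => tr (fun t => cmb t (φ (stepO 2 0 3 3 0 K t))))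
    = fun cmb φ K => F cmb K (tr φ) := by krfl
theorem happ : (fun (f : Nat → Nat) (φ : T → T) => app f (tr φ)) = fun f φ => φ (buildR 4 0 1 f) := by krfl
noncomputable def acc : Acc (stepO 2 0 3 3 0) (buildR 4 0 1) := ⟨A, tr, F, app, hF, happ⟩
def l0 : List (Nat × Nat) := [(0, 1), (1, 1), (3, 1), (9, 1), (27, 1)]
def o0 : List Nat := [655365, 655405, 656003]
theorem b0 : blockR acc 4 18 2 l0 = ofL o0 := by krfl
def bl : List (List (Nat × Nat) × List Nat) := [(l0, o0)]
theorem hb : ∀ b ∈ bl, blockR acc 4 18 2 b.1 = ofL b.2 :=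
  List.forall_mem_cons.2 ⟨b0, List.forall_mem_nil _⟩
theorem cov : cover (3 + 1) 0 1 (orbE 3) (bl.map Prod.fst).flatten 0 = true := by krfl
end OML4S0T1

end Crest.Agent.R347
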