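import Crest.Agent.R347.Asm
import Crest.Agent.R347.HO4

/-! Row 347: enclosures of partition functions (generated). -/

set_option autoImplicit false
set_option Elab.async false
set_option maxRecDepth 100000

namespace Crest.Agent.R347

theorem OPL4S0T1.chk : (mkD (bQ / 5) (5 * eQ (2 + 2)) (momOf 18 2 OPL4S0T1.bl) []
    [(19034786358923490481052008755 / 39614081257132168796771975168 : ℚ), (1172008365978055768952805653 / 19807040628566084398385987584 : ℚ)]
    (-39 / 4 : ℚ) (1 / 4 : ℚ) 38).check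
    (0 : ℚ) (1 / 1000000000000 : ℚ) (-1 / 1000000000000 : ℚ) (1 / 1000000000000 : ℚ) = true := by krfl
theorem OPL4S0T1.res : In (tO 2 3 3 0 1) (0 : ℚ) (1 / 1000000000000 : ℚ) :=
  resO (momOC (kindP 2 (by norm_num)) OPL4S0T1.acc (by decide) OPL4S0T1.hb OPL4S0T1.cov)
    (List.forall_mem_nil _) OPL4S0T1.chk

theorem OPL4S2T2.chk : (mkD (bQ / 5) (5 * eQ (2 + 2)) (momOf 24 4 OPL4S2T2.bl) []
    [(28112786866353819792288455063 / 79228162514264337593543950336 : ℚ), (2905754777812081513885776125 / 39614081257132168796771975168 : ℚ), (207702193224795516130951981 / 79228162514264337593543950336 : ℚ)]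
    (-81 / 4 : ℚ) (1 / 4 : ℚ) 31).check
    (0 : ℚ) (21999 / 50000000000 : ℚ) (-21999 / 50000000000 : ℚ) (21999 / 50000000000 : ℚ) = true := by krfl
theorem OPL4S2T2.res : In (tO 2 3 3 2 2) (0 : ℚ) (21999 / 50000000000 : ℚ) :=
  resO (momOC (kindP 2 (by norm_num)) OPL4S2T2.acc (by decide) OPL4S2T2.hb OPL4S2T2.cov)
    (List.forall_mem_nil _) OPL4S2T2.chk

theorem OPL4S3T3.chk : (mkD (bQ / 5) (5 * eQ (2 + 2)) (momOf 24 4 OPL4S3T3.bl) [mkCl 0 25280192 2014 1 1]
    [(5499323387395630735773545819 / 19807040628566084398385987584 : ℚ), (5664403288857091240905576373 / 79228162514264337593543950336 : ℚ), (108761637972622105256008305 / 39614081257132168796771975168 : ℚ)]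
    (-81 / 4 : ℚ) (1 / 4 : ℚ) 34).check
    (11642583 / 20000000000 : ℚ) (23303007 / 40000000000 : ℚ) (116336833 / 200000000000 : ℚ) (23303007 / 40000000000 : ℚ) = true := by krfl
theorem OPL4S3T3.res : In (tO 2 3 3 3 3) (11642583 / 20000000000 : ℚ) (23303007 / 40000000000 : ℚ) :=
  resO (momOC (kindP 2 (by norm_num)) OPL4S3T3.acc (by decide) OPL4S3T3.hb OPL4S3T3.cov)
    (List.forall_mem_cons.2 ⟨clR1 (kindP 2 (by norm_num)) OPL4S3T3.acc (by norm_num) OPL4S3T3.c0_0,
      List.forall_mem_nil _⟩) OPL4S3T3.chk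

theorem OPL4S4T4.chk : (mkD (bQ / 5) (5 * eQ (2 + 2)) (momOf 34 6 OPL4S4T4.bl) [mkCl 0 24909341 1939 1 1]
    [(11067307643704306448800016561 / 39614081257132168796771975168 : ℚ), (3564990199705426046750307593 / 39614081257132168796771975168 : ℚ), (260085472584402108664500433 / 39614081257132168796771975168 : ℚ), (10433180223563027356821805 / 79228162514264337593543950336 : ℚ)]
    (-43 / 2 : ℚ) (1 / 4 : ℚ) 26).check
    (37161593 / 125000000000 : ℚ) (75560883 / 250000000000 : ℚ) (292342467 / 1000000000000 : ℚ) (75560883 / 250000000000 : ℚ) = true := by krfl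
theorem OPL4S4T4.res : In (tO 2 3 3 4 4) (37161593 / 125000000000 : ℚ) (75560883 / 250000000000 : ℚ) :=
  resO (momOC (kindP 2 (by norm_num)) OPL4S4T4.acc (by decide) OPL4S4T4.hb OPL4S4T4.cov)
    (List.forall_mem_cons.2 ⟨clR1 (kindP 2 (by norm_num)) OPL4S4T4.acc (by norm_num) OPL4S4T4.c0_0,
      List.forall_mem_nil _⟩) OPL4S4T4.chk

theorem OPL4S5T5.chk : (mkD (bQ / 5) (5 * eQ (2 + 2)) (momOf 24 4 OPL4S5T5.bl) []
    [(11209703125759847460131628705 / 39614081257132168796771975168 : ℚ), (2389661430901273626187357961 / 39614081257132168796771975168 : ℚ), (167466543331238645501295013 / 79228162514264337593543950336 : ℚ)]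
    (-21 : ℚ) (1 / 4 : ℚ) 40).check
    (0 : ℚ) (1740341 / 1000000000000 : ℚ) (-1740341 / 1000000000000 : ℚ) (1740341 / 1000000000000 : ℚ) = true := by krfl
theorem OPL4S5T5.res : In (tO 2 3 3 5 5) (0 : ℚ) (1740341 / 1000000000000 : ℚ) :=
  resO (momOC (kindP 2 (by norm_num)) OPL4S5T5.acc (by decide) OPL4S5T5.hb OPL4S5T5.cov)
    (List.forall_mem_nil _) OPL4S5T5.chk

theorem OPL4S6T8.chk : (mkD (bQ / 5) (5 * eQ (2 + 2)) (momOf 24 4 OPL4S6T8.bl) []
    [(2821502579278225782075177777 / 9903520314283042199192993792 : ℚ), (1390474516857500428926529791 / 19807040628566084398385987584 : ℚ), (221203216509779181192601295 / 79228162514264337593543950336 : ℚ)]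
    (-11 : ℚ) (1 / 4 : ℚ) 35).check
    (0 : ℚ) (1 / 1000000000000 : ℚ) (-1 / 1000000000000 : ℚ) (1 / 1000000000000 : ℚ) = true := by krfl
theorem OPL4S6T8.res : In (tO 2 3 3 6 8) (0 : ℚ) (1 / 1000000000000 : ℚ) :=
  resO (momOC (kindP 2 (by norm_num)) OPL4S6T8.acc (by decide) OPL4S6T8.hb OPL4S6T8.cov)
    (List.forall_mem_nil _) OPL4S6T8.chk

theorem OML4S4T4.chk : (mkD (bQ / 5) (5 * eQ (2 + 2)) (momOf 34 6 OML4S4T4.bl) [mkCl 0 28073942 1332 1 1]
    [(20874199032288861793467077549 / 79228162514264337593543950336 : ℚ), (8127024126088610229081735583 / 79228162514264337593543950336 : ℚ), (626927821080990412578521259 / 79228162514264337593543950336 : ℚ), (3184129380643838737366245 / 19807040628566084398385987584 : ℚ)]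
    (-79 / 4 : ℚ) (1 / 4 : ℚ) 23).check
    (91942173963 / 1000000000000 : ℚ) (1838849219 / 20000000000 : ℚ) (91941995509 / 1000000000000 : ℚ) (1838849219 / 20000000000 : ℚ) = true := by krfl
theorem OML4S4T4.res : In (tO 2 (-3) 3 4 4) (91942173963 / 1000000000000 : ℚ) (1838849219 / 20000000000 : ℚ) :=
  resO (momOD (kindM 2 (by norm_num)) OML4S4T4.acc (by decide) OML4S4T4.hb rfl OML4S4T4.cov)
    (List.forall_mem_cons.2 ⟨clR1 (kindM 2 (by norm_num)) OML4S4T4.acc (by norm_num) OML4S4T4.c0_0,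
      List.forall_mem_nil _⟩) OML4S4T4.chk

theorem OML4S3T3.chk : (mkD (bQ / 5) (5 * eQ (2 + 2)) (momOf 24 4 OML4S3T3.bl) [mkCl 0 22700644 1264 1 1]
    [(11085182276135876389316324987 / 39614081257132168796771975168 : ℚ), (1277717491396668794943607253 / 19807040628566084398385987584 : ℚ), (11567176904556804807927145 / 4951760157141521099596496896 : ℚ)]
    (-39 / 2 : ℚ) (1 / 4 : ℚ) 38).check
    (543359 / 100000000000 : ℚ) (5537919 / 1000000000000 : ℚ) (5329269 / 1000000000000 : ℚ) (5537919 / 1000000000000 : ℚ) = true := by krfl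
theorem OML4S3T3.res : In (tO 2 (-3) 3 3 3) (543359 / 100000000000 : ℚ) (5537919 / 1000000000000 : ℚ) :=
  resO (momOE (kindM 2 (by norm_num)) OML4S3T3.acc (by decide) OML4S3T3.hb OML4S3T3.cov)
    (List.forall_mem_cons.2 ⟨clR1 (kindM 2 (by norm_num)) OML4S3T3.acc (by norm_num) OML4S3T3.c0_0,
      List.forall_mem_nil _⟩) OML4S3T3.chk

theorem OML4S2T2.chk : (mkD (bQ / 5) (5 * eQ (2 + 2)) (momOf 24 4 OML4S2T2.bl) []
    [(27819151747425408300525921077 / 79228162514264337593543950336 : ℚ), (6073619740023840949723992375 / 79228162514264337593543950336 : ℚ), (111320115388527270724314029 / 39614081257132168796771975168 : ℚ)]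
    (-63 / 4 : ℚ) (1 / 4 : ℚ) 30).check
    (0 : ℚ) (83 / 1000000000000 : ℚ) (-83 / 1000000000000 : ℚ) (83 / 1000000000000 : ℚ) = true := by krfl
theorem OML4S2T2.res : In (tO 2 (-3) 3 2 2) (0 : ℚ) (83 / 1000000000000 : ℚ) :=
  resO (momOE (kindM 2 (by norm_num)) OML4S2T2.acc (by decide) OML4S2T2.hb OML4S2T2.cov)
    (List.forall_mem_nil _) OML4S2T2.chk

theorem OML4S0T1.chk : (mkD (bQ / 5) (5 * eQ (2 + 2)) (momOf 18 2 OML4S0T1.bl) []
    [(10337333779669124080653261369 / 19807040628566084398385987584 : ℚ), (2040995064151509288098879933 / 39614081257132168796771975168 : ℚ)]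
    (-5 : ℚ) (1 / 4 : ℚ) 27).check
    (0 : ℚ) (1 / 1000000000000 : ℚ) (-1 / 1000000000000 : ℚ) (1 / 1000000000000 : ℚ) = true := by krfl
theorem OML4S0T1.res : In (tO 2 (-3) 3 0 1) (0 : ℚ) (1 / 1000000000000 : ℚ) :=
  resO (momOE (kindM 2 (by norm_num)) OML4S0T1.acc (by decide) OML4S0T1.hb OML4S0T1.cov)
    (List.forall_mem_nil _) OML4S0T1.chk

theorem bd_Wp_4 : (43971 / 50000000 : ℝ) ≤ Oc (3 / 5) (3 / 5) 3 ∧ Oc (3 / 5) (3 / 5) 3 ≤ (887 / 1000000 : ℝ) := by
  have h0 := OPL4S0T1.res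
  have h1 := OPL4S2T2.res
  have h2 := OPL4S3T3.res
  have h3 := OPL4S4T4.res
  have h4 := OPL4S5T5.res
  have h5 := OPL4S6T8.res
  have e0 : Oc (3 / 5) (3 / 5) 3 = tO 2 3 3 0 8 := Oc_same 2
  have e1 := tO_split 2 3 3 0 1 8 (by norm_num) (by norm_num)
  have e2 := tO_split 2 3 3 2 2 8 (by norm_num) (by norm_num)
  have e3 := tO_split 2 3 3 3 3 8 (by norm_num) (by norm_num)
  have e4 := tO_split 2 3 3 4 4 8 (by norm_num) (by norm_num)
  have e5 := tO_split 2 3 3 5 5 8 (by norm_num) (by norm_num)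
  simp only [In] at h0 h1 h2 h3 h4 h5
  push_cast at h0 h1 h2 h3 h4 h5
  norm_num only at e1 e2 e3 e4 e5
  constructor <;> linarith [h0.1, h0.2, h1.1, h1.2, h2.1, h2.2, h3.1, h3.2, h4.1, h4.2, h5.1, h5.2]

theorem bd_Wm_4 : (1149413 / 12500000 : ℝ) ≤ Oc (-(3 / 5)) (3 / 5) 3 ∧ Oc (-(3 / 5)) (3 / 5) 3 ≤ (4597677 / 50000000 : ℝ) := by
  have h0 := OML4S4T4.res
  have h1 := OML4S3T3.res
  have h2 := OML4S2T2.res
  have h3 := OML4S0T1.res
  have e0 : Oc (-(3 / 5)) (3 / 5) 3 = tO 2 (-3) 3 4 4 + 2 * tO 2 (-3) 3 0 3 := Oc_opp 2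
  have e1 := tO_split 2 (-3) 3 0 1 3 (by norm_num) (by norm_num)
  have e2 := tO_split 2 (-3) 3 2 2 3 (by norm_num) (by norm_num)
  simp only [In] at h0 h1 h2 h3
  push_cast at h0 h1 h2 h3
  norm_num only at e1 e2
  constructor <;> linarith [h0.1, h0.2, h1.1, h1.2, h2.1, h2.2, h3.1, h3.2]

end Crest.Agent.R347
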