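import Crest.Agent.R347.Gen

/-! Row 347: kernel computations (generated). -/

set_option autoImplicit false
set_option Elab.async false
set_option maxRecDepth 100000

namespace Crest.Agent.R347

namespace OPL5S0T2
noncomputable def A : Type := by r347_A 3 5 0 2
noncomputable def tr : (T → T) → A := by r347_tr 3 5 0 2
noncomputable def F : (T → T → T) → Nat → A → A := by r347_F 3 5 0 2 3 0 3 0 A
noncomputable def app : (Nat → Nat) → A → T := by r347_app 3 5 0 2 A
theorem hF : (fun (cmb : T → T → T) (φ : T → T) (K : Nat) => tr (fun t => cmb t (φ (stepO 3 3 0 3 0 K t))))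
    = fun cmb φ K => F cmb K (tr φ) := by krfl
theorem happ : (fun (f : Nat → Nat) (φ : T → T) => app f (tr φ)) = fun f φ => φ (buildR 5 0 2 f) := by krfl
noncomputable def acc : Acc (stepO 3 3 0 3 0) (buildR 5 0 2) := ⟨A, tr, F, app, hF, happ⟩
def l0 : List (Nat × Nat) := [(0, 1), (1, 2), (2, 2), (3, 2), (4, 2), (6, 2), (9, 1), (10, 2), (12, 2), (18, 1), (28, 2), (30, 1), (82, 1)]
def o0 : List Nat := [352321557, 352321612, 352323828, 352337230, 352785944]
theorem b0 : blockR acc 5 25 4 l0 = ofL o0 := by krfl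
def bl : List (List (Nat × Nat) × List Nat) := [(l0, o0)]
theorem hb : ∀ b ∈ bl, blockR acc 5 25 4 b.1 = ofL b.2 :=
  List.forall_mem_cons.2 ⟨b0, List.forall_mem_nil _⟩
theorem cov : cover (4 + 1) 0 2 (orbC 4) (bl.map Prod.fst).flatten 0 = true := by krfl
end OPL5S0T2

namespace OPL5S3T3
noncomputable def A : Type := by r347_A 3 5 3 3
noncomputable def tr : (T → T) → A := by r347_tr 3 5 3 3
noncomputable def F : (T → T → T) → Nat → A → A := by r347_F 3 5 3 3 3 0 3 0 A
noncomputable def app : (Nat → Nat) → A → T := by r347_app 3 5 3 3 A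
theorem hF : (fun (cmb : T → T → T) (φ : T → T) (K : Nat) => tr (fun t => cmb t (φ (stepO 3 3 0 3 0 K t))))
    = fun cmb φ K => F cmb K (tr φ) := by krfl
theorem happ : (fun (f : Nat → Nat) (φ : T → T) => app f (tr φ)) = fun f φ => φ (buildR 5 3 3 f) := by krfl
noncomputable def acc : Acc (stepO 3 3 0 3 0) (buildR 5 3 3) := ⟨A, tr, F, app, hF, happ⟩
def l0 : List (Nat × Nat) := [(5, 2), (7, 2), (11, 2), (13, 2), (15, 2), (19, 2), (21, 2), (29, 2), (31, 2), (33, 2), (37, 2), (39, 1), (55, 2), (83, 2), (85, 2), (91, 1)]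
def o0 : List Nat := [1030792151070, 1030792150988, 1030792155018, 1030792124018, 1030793465506, 1030774539378, 1031412787188]
theorem b0 : blockR acc 5 36 6 l0 = ofL o0 := by krfl
def bl : List (List (Nat × Nat) × List Nat) := [(l0, o0)]
theorem hb : ∀ b ∈ bl, blockR acc 5 36 6 b.1 = ofL b.2 :=
  List.forall_mem_cons.2 ⟨b0, List.forall_mem_nil _⟩
theorem cov : cover (4 + 1) 3 3 (orbC 4) (bl.map Prod.fst).flatten 0 = true := by krfl
end OPL5S3T3

namespace OPL5S4T4
noncomputable def A : Type := by r347_A 3 5 4 4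
noncomputable def tr : (T → T) → A := by r347_tr 3 5 4 4
noncomputable def F : (T → T → T) → Nat → A → A := by r347_F 3 5 4 4 3 0 3 0 A
noncomputable def app : (Nat → Nat) → A → T := by r347_app 3 5 4 4 A
theorem hF : (fun (cmb : T → T → T) (φ : T → T) (K : Nat) => tr (fun t => cmb t (φ (stepO 3 3 0 3 0 K t))))
    = fun cmb φ K => F cmb K (tr φ) := by krfl
theorem happ : (fun (f : Nat → Nat) (φ : T → T) => app f (tr φ)) = fun f φ => φ (buildR 5 4 4 f) := by krfl
noncomputable def acc : Acc (stepO 3 3 0 3 0) (buildR 5 4 4) := ⟨A, tr, F, app, hF, happ⟩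
def l0 : List (Nat × Nat) := [(8, 2), (14, 2), (16, 2), (20, 2), (22, 2), (24, 2), (32, 2), (34, 2), (38, 2), (40, 2), (42, 2), (46, 2), (48, 1), (56, 2), (58, 2), (60, 1), (64, 2), (86, 2), (88, 2), (92, 2), (94, 2), (100, 1), (110, 2), (112, 1), (164, 1)]
def o0 : List Nat := [1546188226605, 1546188226406, 1546188233742, 1546188142394, 1546191362142, 1546123226386, 1548376767582]
theorem b0 : blockR acc 5 36 6 l0 = ofL o0 := by krfl
def bl : List (List (Nat × Nat) × List Nat) := [(l0, o0)]
theorem hb : ∀ b ∈ bl, blockR acc 5 36 6 b.1 = ofL b.2 :=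
  List.forall_mem_cons.2 ⟨b0, List.forall_mem_nil _⟩
theorem cov : cover (4 + 1) 4 4 (orbC 4) (bl.map Prod.fst).flatten 0 = true := by krfl
noncomputable def v0_0a : Nat := cat [0x801dffe000000000000000000000000000000000007efa3ca00000008283e047ec7dc000000000000000835bc68000000077871ac8488e708dd698f7a71c388166e630000000000000000000000000000000000081e89cd000000079cc61b8319f6400000000000000799fbff00000009842f61728fee34ca26c694ec4237a71c3800000006f81dad8caae3f98e35f7728fee38488e708319f647ec7dc00000000000000000000008987136000000051bb06598e35f7ffffffd4ca26c68dd698f000000096b793c6f81dad51bb0659842f6177871ac79cc61b8283e0400000008987136799fbff835bc6881e89cd7efa3ca0000000801dffe00000000000000]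
theorem c0_0 : oneStep acc (certRN 5 1 1048576 1696 4294967296 0 35261233) (vd1 v0_0a) = T.leaf 1 := by krfl
end OPL5S4T4

namespace OPL5S5T5
noncomputable def A : Type := by r347_A 3 5 5 5
noncomputable def tr : (T → T) → A := by r347_tr 3 5 5 5
noncomputable def F : (T → T → T) → Nat → A → A := by r347_F 3 5 5 5 3 0 3 0 A
noncomputable def app : (Nat → Nat) → A → T := by r347_app 3 5 5 5 A
theorem hF : (fun (cmb : T → T → T) (φ : T → T) (K : Nat) => tr (fun t => cmb t (φ (stepO 3 3 0 3 0 K t))))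
    = fun cmb φ K => F cmb K (tr φ) := by krfl
theorem happ : (fun (f : Nat → Nat) (φ : T → T) => app f (tr φ)) = fun f φ => φ (buildR 5 5 5 f) := by krfl
noncomputable def acc : Acc (stepO 3 3 0 3 0) (buildR 5 5 5) := ⟨A, tr, F, app, hF, happ⟩
def l0 : List (Nat × Nat) := [(17, 2), (23, 2), (25, 2), (35, 2), (41, 2), (43, 2), (47, 2), (49, 2), (51, 2), (59, 2), (61, 2), (65, 2), (67, 2), (69, 1), (73, 2), (89, 2), (95, 2), (97, 2), (101, 2), (103, 2), (113, 2), (115, 2), (119, 2), (121, 1), (137, 2), (167, 2), (173, 1)]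
def o0 : List Nat := [3588805953060915, 3588805953060704, 3588805953068796, 3588805952979044, 3588805956210684, 3588805898833864, 3588807750816096, 3588765906154784, 3590040603345724]
theorem b0 : blockR acc 5 47 8 l0 = ofL o0 := by krfl
def bl : List (List (Nat × Nat) × List Nat) := [(l0, o0)]
theorem hb : ∀ b ∈ bl, blockR acc 5 47 8 b.1 = ofL b.2 :=
  List.forall_mem_cons.2 ⟨b0, List.forall_mem_nil _⟩
theorem cov : cover (4 + 1) 5 5 (orbC 4) (bl.map Prod.fst).flatten 0 = true := by krfl
noncomputable def v0_0a : Nat := cat [0x81d9f1e000000078fdc6a842fa7200000000000000782f6dc0000000a40fff3672a5893b3d4c7a254a8f7444e23000000045d2ab3b8045d3cd1e55546ddf499a738e497c2ba47444e23000000000000000000000890724f00000004df9780a17b3ffffffffd3fa45b397c2ba40000000bfe85104219cf60311f3fe6a812046ddf493fa45b3a254a8f0000000b5db23c4219cf6b8045d3a17b3ff672a5890000000842fa720000000000000000000004d7eb0ab5db23cfd018210311f3fcd1e555ffffffd3b3d4c700000004d7eb0abfe851045d2ab34df9780a40fff3000000078fdc6a00000000000000890724f782f6dc000000081d9f1e00000000000000000000000000000000000]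
theorem c0_0 : oneStep acc (certRN 5 1 1048576 679 4294967296 0 31493076) (vd1 v0_0a) = T.leaf 1 := by krfl
end OPL5S5T5

namespace OPL5S6T6
noncomputable def A : Type := by r347_A 3 5 6 6
noncomputable def tr : (T → T) → A := by r347_tr 3 5 6 6
noncomputable def F : (T → T → T) → Nat → A → A := by r347_F 3 5 6 6 3 0 3 0 A
noncomputable def app : (Nat → Nat) → A → T := by r347_app 3 5 6 6 A
theorem hF : (fun (cmb : T → T → T) (φ : T → T) (K : Nat) => tr (fun t => cmb t (φ (stepO 3 3 0 3 0 K t))))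
    = fun cmb φ K => F cmb K (tr φ) := by krfl
theorem happ : (fun (f : Nat → Nat) (φ : T → T) => app f (tr φ)) = fun f φ => φ (buildR 5 6 6 f) := by krfl
noncomputable def acc : Acc (stepO 3 3 0 3 0) (buildR 5 6 6) := ⟨A, tr, F, app, hF, happ⟩
def l0 : List (Nat × Nat) := [(26, 2), (44, 2), (50, 2), (52, 2), (62, 2), (68, 2), (70, 2), (74, 2), (76, 2), (78, 1), (98, 2), (104, 2), (106, 2), (116, 2), (122, 2), (124, 2), (128, 2), (130, 1), (140, 2), (142, 1), (146, 2), (170, 2), (176, 2), (182, 1), (194, 1)]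
def o0 : List Nat := [1546188226605, 1546188226514, 1546188232542, 1546188202586, 1546190089662, 1546174398034, 1546979517582]
theorem b0 : blockR acc 5 36 6 l0 = ofL o0 := by krfl
def bl : List (List (Nat × Nat) × List Nat) := [(l0, o0)]
theorem hb : ∀ b ∈ bl, blockR acc 5 36 6 b.1 = ofL b.2 :=
  List.forall_mem_cons.2 ⟨b0, List.forall_mem_nil _⟩
theorem cov : cover (4 + 1) 6 6 (orbC 4) (bl.map Prod.fst).flatten 0 = true := by krfl
end OPL5S6T6

namespace OPL5S7T10
noncomputable def A : Type := by r347_A 3 5 7 10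
noncomputable def tr : (T → T) → A := by r347_tr 3 5 7 10
noncomputable def F : (T → T → T) → Nat → A → A := by r347_F 3 5 7 10 3 0 3 0 A
noncomputable def app : (Nat → Nat) → A → T := by r347_app 3 5 7 10 A
theorem hF : (fun (cmb : T → T → T) (φ : T → T) (K : Nat) => tr (fun t => cmb t (φ (stepO 3 3 0 3 0 K t))))
    = fun cmb φ K => F cmb K (tr φ) := by krfl
theorem happ : (fun (f : Nat → Nat) (φ : T → T) => app f (tr φ)) = fun f φ => φ (buildR 5 7 10 f) := by krfl
noncomputable def acc : Acc (stepO 3 3 0 3 0) (buildR 5 7 10) := ⟨A, tr, F, app, hF, happ⟩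
def l0 : List (Nat × Nat) := [(53, 2), (71, 2), (77, 2), (79, 2), (80, 2), (107, 2), (125, 2), (131, 2), (133, 2), (134, 2), (143, 2), (149, 2), (151, 1), (152, 2), (155, 2), (158, 2), (160, 1), (161, 2), (179, 2), (185, 2), (188, 2), (197, 2), (203, 1), (206, 2), (212, 1), (215, 2), (224, 1), (233, 1), (242, 1)]
def o0 : List Nat := [855638067, 855638352, 855645966, 855758304, 858554970]
theorem b0 : blockR acc 5 25 4 l0 = ofL o0 := by krfl
def bl : List (List (Nat × Nat) × List Nat) := [(l0, o0)]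
theorem hb : ∀ b ∈ bl, blockR acc 5 25 4 b.1 = ofL b.2 :=
  List.forall_mem_cons.2 ⟨b0, List.forall_mem_nil _⟩
theorem cov : cover (4 + 1) 7 10 (orbC 4) (bl.map Prod.fst).flatten 0 = true := by krfl
end OPL5S7T10

namespace OML5S5T5
noncomputable def A : Type := by r347_A 3 5 5 5
noncomputable def tr : (T → T) → A := by r347_tr 3 5 5 5
noncomputable def F : (T → T → T) → Nat → A → A := by r347_F 3 5 5 5 0 3 3 0 A
noncomputable def app : (Nat → Nat) → A → T := by r347_app 3 5 5 5 A
theorem hF : (fun (cmb : T → T → T) (φ : T → T) (K : Nat) => tr (fun t => cmb t (φ (stepO 3 0 3 3 0 K t))))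
    = fun cmb φ K => F cmb K (tr φ) := by krfl
theorem happ : (fun (f : Nat → Nat) (φ : T → T) => app f (tr φ)) = fun f φ => φ (buildR 5 5 5 f) := by krfl
noncomputable def acc : Acc (stepO 3 0 3 3 0) (buildR 5 5 5) := ⟨A, tr, F, app, hF, happ⟩
def l0 : List (Nat × Nat) := [(17, 1), (23, 2), (25, 2), (41, 1), (43, 2), (47, 2), (49, 2), (51, 2), (61, 2), (65, 1), (67, 2), (69, 2), (73, 2), (75, 2), (97, 1), (103, 2), (105, 2), (121, 1), (123, 2), (127, 2), (129, 2), (141, 2), (145, 1), (147, 2), (153, 2), (177, 1), (183, 2), (201, 1), (207, 2), (225, 1)]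
def o0 : List Nat := [3588805953060915, 3588805953060704, 3588805953069084, 3588805952976884, 3588805956523452, 3588805895284264, 3588808067683344, 3588759653928944, 3590384519670652]
theorem b0 : blockR acc 5 47 8 l0 = ofL o0 := by krfl
def bl : List (List (Nat × Nat) × List Nat) := [(l0, o0)]
theorem hb : ∀ b ∈ bl, blockR acc 5 47 8 b.1 = ofL b.2 :=
  List.forall_mem_cons.2 ⟨b0, List.forall_mem_nil _⟩
theorem cov : cover (4 + 1) 5 5 (orbD 4) (bl.map Prod.fst).flatten 0 = true := by krfl
noncomputable def v0_0a : Nat := cat [0x849504b00000006fa65ca898541b000000000000006fa65ca0000000c5e15f05036fe20caa05cb6ce479701290700000000caa05ced1163affffffd2a991cf9f1beb398b9e0075a8f9c000000000000000000000898541b00000005036fe29ed8af9ed1163a4e0e3968f029600000000b6ce4794e0e3962a991cfb8ccb4168c39866aa048e89af262000000098b9e006aa048e8e70109886a2ab7ab6bf4000000080bcb2000000000000000000000070129078f029609f1beb368c39868ae67258e70109790fb69000000075a8f9c89af262790fb697ab6bf48364cd200000007f6faae0000000000000080bcb207f6faae0000000801e44f00000000000000000000000000000000000]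
theorem c0_0 : oneStep acc (certRN 5 1 1048576 748 4294967296 0 33221653) (vd1 v0_0a) = T.leaf 1 := by krfl
end OML5S5T5

namespace OML5S4T4
noncomputable def A : Type := by r347_A 3 5 4 4
noncomputable def tr : (T → T) → A := by r347_tr 3 5 4 4
noncomputable def F : (T → T → T) → Nat → A → A := by r347_F 3 5 4 4 0 3 3 0 A
noncomputable def app : (Nat → Nat) → A → T := by r347_app 3 5 4 4 A
theorem hF : (fun (cmb : T → T → T) (φ : T → T) (K : Nat) => tr (fun t => cmb t (φ (stepO 3 0 3 3 0 K t))))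
    = fun cmb φ K => F cmb K (tr φ) := by krfl
theorem happ : (fun (f : Nat → Nat) (φ : T → T) => app f (tr φ)) = fun f φ => φ (buildR 5 4 4 f) := by krfl
noncomputable def acc : Acc (stepO 3 0 3 3 0) (buildR 5 4 4) := ⟨A, tr, F, app, hF, happ⟩
def l0 : List (Nat × Nat) := [(8, 1), (14, 1), (16, 1), (20, 1), (22, 1), (24, 1), (32, 1), (34, 1), (38, 1), (40, 1), (42, 1), (46, 1), (48, 1), (56, 1), (58, 1), (60, 1), (64, 1), (66, 1), (72, 1), (86, 1), (88, 1), (92, 1), (94, 1), (96, 1), (100, 1), (102, 1), (110, 1), (112, 1), (114, 1), (118, 1), (120, 1), (126, 1), (136, 1), (138, 1), (144, 1), (164, 1), (166, 1), (168, 1), (172, 1), (174, 1), (180, 1), (190, 1), (192, 1), (198, 1), (216, 1)]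
def o0 : List Nat := [1546188226605, 1546188226460, 1546188233322, 1546188173570, 1546190872782, 1546151937010, 1547677025862]
theorem b0 : blockR acc 5 36 6 l0 = ofL o0 := by krfl
def bl : List (List (Nat × Nat) × List Nat) := [(l0, o0)]
theorem hb : ∀ b ∈ bl, blockR acc 5 36 6 b.1 = ofL b.2 :=
  List.forall_mem_cons.2 ⟨b0, List.forall_mem_nil _⟩
theorem cov : cover (4 + 1) 4 4 (orbE 4) (bl.map Prod.fst).flatten 0 = true := by krfl
noncomputable def v0_0a : Nat := cat [0x8190d100000000000000000000000000000000000075646ce000000094557be76ab474000000000000009ee0bed0000000499de739c37bedc1fb4dc657c2f8863d5fe00000000000000000000000000000000000887bb2400000006939a308aef223000000000000006b4d22a0000000bbe42a65ec5f4419cab09aa14d31753b53b00000005a677b09d7e5bab102805651d61288b66b785f2fec7dbab7c0000000000000000000008c015f500000004cf720d9bea54affffffd4c29a808dc4cf300000009a174de6c77af35044218996550f7759bde799bd728289dcb000000088fc11d7a0cb3582fee1681bf98b7f18de30000000801930f00000000000000]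
theorem c0_0 : oneStep acc (certRN 5 1 1048576 2105 4294967296 0 31326783) (vd1 v0_0a) = T.leaf 1 := by krfl
end OML5S4T4

namespace OML5S3T3
noncomputable def A : Type := by r347_A 3 5 3 3
noncomputable def tr : (T → T) → A := by r347_tr 3 5 3 3
noncomputable def F : (T → T → T) → Nat → A → A := by r347_F 3 5 3 3 0 3 3 0 A
noncomputable def app : (Nat → Nat) → A → T := by r347_app 3 5 3 3 A
theorem hF : (fun (cmb : T → T → T) (φ : T → T) (K : Nat) => tr (fun t => cmb t (φ (stepO 3 0 3 3 0 K t))))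
    = fun cmb φ K => F cmb K (tr φ) := by krfl
theorem happ : (fun (f : Nat → Nat) (φ : T → T) => app f (tr φ)) = fun f φ => φ (buildR 5 3 3 f) := by krfl
noncomputable def acc : Acc (stepO 3 0 3 3 0) (buildR 5 3 3) := ⟨A, tr, F, app, hF, happ⟩
def l0 : List (Nat × Nat) := [(5, 1), (7, 1), (11, 1), (13, 1), (15, 1), (19, 1), (21, 1), (29, 1), (31, 1), (33, 1), (37, 1), (39, 1), (45, 1), (55, 1), (57, 1), (63, 1), (83, 1), (85, 1), (87, 1), (91, 1), (93, 1), (99, 1), (109, 1), (111, 1), (117, 1), (135, 1), (163, 1), (165, 1), (171, 1), (189, 1)]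
def o0 : List Nat := [503316510, 503316500, 503320122, 503321660, 504374290]
theorem b0 : blockR acc 5 25 4 l0 = ofL o0 := by krfl
def bl : List (List (Nat × Nat) × List Nat) := [(l0, o0)]
theorem hb : ∀ b ∈ bl, blockR acc 5 25 4 b.1 = ofL b.2 :=
  List.forall_mem_cons.2 ⟨b0, List.forall_mem_nil _⟩
theorem cov : cover (4 + 1) 3 3 (orbE 4) (bl.map Prod.fst).flatten 0 = true := by krfl
end OML5S3T3

namespace OML5S0T2
noncomputable def A : Type := by r347_A 3 5 0 2
noncomputable def tr : (T → T) → A := by r347_tr 3 5 0 2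
noncomputable def F : (T → T → T) → Nat → A → A := by r347_F 3 5 0 2 0 3 3 0 A
noncomputable def app : (Nat → Nat) → A → T := by r347_app 3 5 0 2 A
theorem hF : (fun (cmb : T → T → T) (φ : T → T) (K : Nat) => tr (fun t => cmb t (φ (stepO 3 0 3 3 0 K t))))
    = fun cmb φ K => F cmb K (tr φ) := by krfl
theorem happ : (fun (f : Nat → Nat) (φ : T → T) => app f (tr φ)) = fun f φ => φ (buildR 5 0 2 f) := by krfl
noncomputable def acc : Acc (stepO 3 0 3 3 0) (buildR 5 0 2) := ⟨A, tr, F, app, hF, happ⟩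
def l0 : List (Nat × Nat) := [(0, 1), (1, 1), (2, 1), (3, 1), (4, 1), (6, 1), (9, 1), (10, 1), (12, 1), (18, 1), (27, 1), (28, 1), (30, 1), (36, 1), (54, 1), (81, 1), (82, 1), (84, 1), (90, 1), (108, 1), (162, 1)]
def o0 : List Nat := [352321557, 352321696, 352324680, 352370836, 353308376]
theorem b0 : blockR acc 5 25 4 l0 = ofL o0 := by krfl
def bl : List (List (Nat × Nat) × List Nat) := [(l0, o0)]
theorem hb : ∀ b ∈ bl, blockR acc 5 25 4 b.1 = ofL b.2 :=
  List.forall_mem_cons.2 ⟨b0, List.forall_mem_nil _⟩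
theorem cov : cover (4 + 1) 0 2 (orbE 4) (bl.map Prod.fst).flatten 0 = true := by krfl
end OML5S0T2

end Crest.Agent.R347
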