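import Crest.Agent.R347.Asm
import Crest.Agent.R347.HO5

/-! Row 347: enclosures of partition functions (generated). -/

set_option autoImplicit false
set_option Elab.async false
set_option maxRecDepth 100000

namespace Crest.Agent.R347

theorem OPL5S0T2.chk : (mkD (bQ / 5) (5 * eQ (3 + 2)) (momOf 25 4 OPL5S0T2.bl) []
    [(2288645243138043786409037917 / 9903520314283042199192993792 : ℚ), (4306279255652660697277108203 / 79228162514264337593543950336 : ℚ), (157067435212023425231885525 / 79228162514264337593543950336 : ℚ)]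
    (-79 / 4 : ℚ) (1 / 4 : ℚ) 44).check
    (0 : ℚ) (1 / 1000000000000 : ℚ) (-1 / 1000000000000 : ℚ) (1 / 1000000000000 : ℚ) = true := by krfl
theorem OPL5S0T2.res : In (tO 3 3 3 0 2) (0 : ℚ) (1 / 1000000000000 : ℚ) :=
  resO (momOC (kindP 3 (by norm_num)) OPL5S0T2.acc (by decide) OPL5S0T2.hb OPL5S0T2.cov)
    (List.forall_mem_nil _) OPL5S0T2.chk

theorem OPL5S3T3.chk : (mkD (bQ / 5) (5 * eQ (3 + 2)) (momOf 36 6 OPL5S3T3.bl) []
    [(17092464532598728743576627107 / 79228162514264337593543950336 : ℚ), (2453782235564061762430894821 / 39614081257132168796771975168 : ℚ), (309022733129165669064267109 / 79228162514264337593543950336 : ℚ), (2633356227860519972694501 / 39614081257132168796771975168 : ℚ)]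
    (-28 : ℚ) (1 / 4 : ℚ) 36).check
    (0 : ℚ) (446423 / 250000000000 : ℚ) (-446423 / 250000000000 : ℚ) (446423 / 250000000000 : ℚ) = true := by krfl
theorem OPL5S3T3.res : In (tO 3 3 3 3 3) (0 : ℚ) (446423 / 250000000000 : ℚ) :=
  resO (momOC (kindP 3 (by norm_num)) OPL5S3T3.acc (by decide) OPL5S3T3.hb OPL5S3T3.cov)
    (List.forall_mem_nil _) OPL5S3T3.chk

theorem OPL5S4T4.chk : (mkD (bQ / 5) (5 * eQ (3 + 2)) (momOf 36 6 OPL5S4T4.bl) [mkCl 0 35261233 1696 1 1]
    [(7164662587791598607823239081 / 39614081257132168796771975168 : ℚ), (653915351480305323812631359 / 9903520314283042199192993792 : ℚ), (350737834975243561179225533 / 79228162514264337593543950336 : ℚ), (6133600912425111531893899 / 79228162514264337593543950336 : ℚ)]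
    (-55 / 2 : ℚ) (1 / 4 : ℚ) 35).check
    (68743580241 / 1000000000000 : ℚ) (68744420611 / 1000000000000 : ℚ) (68742843159 / 1000000000000 : ℚ) (68744420611 / 1000000000000 : ℚ) = true := by krfl
theorem OPL5S4T4.res : In (tO 3 3 3 4 4) (68743580241 / 1000000000000 : ℚ) (68744420611 / 1000000000000 : ℚ) :=
  resO (momOC (kindP 3 (by norm_num)) OPL5S4T4.acc (by decide) OPL5S4T4.hb OPL5S4T4.cov)
    (List.forall_mem_cons.2 ⟨clR1 (kindP 3 (by norm_num)) OPL5S4T4.acc (by norm_num) OPL5S4T4.c0_0,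
      List.forall_mem_nil _⟩) OPL5S4T4.chk

theorem OPL5S5T5.chk : (mkD (bQ / 5) (5 * eQ (3 + 2)) (momOf 47 8 OPL5S5T5.bl) [mkCl 0 31493076 679 1 1]
    [(13691673820281621685859056767 / 79228162514264337593543950336 : ℚ), (6569146115595031047297371243 / 79228162514264337593543950336 : ℚ), (10521644785061232014254839 / 1237940039285380274899124224 : ℚ), (6011326623636365787484373 / 19807040628566084398385987584 : ℚ), (138945242929029082151469 / 39614081257132168796771975168 : ℚ)]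
    (-28 : ℚ) (1 / 4 : ℚ) 27).check
    (74463527 / 1000000000000 : ℚ) (76441311 / 1000000000000 : ℚ) (18121447 / 250000000000 : ℚ) (76441311 / 1000000000000 : ℚ) = true := by krfl
theorem OPL5S5T5.res : In (tO 3 3 3 5 5) (74463527 / 1000000000000 : ℚ) (76441311 / 1000000000000 : ℚ) :=
  resO (momOC (kindP 3 (by norm_num)) OPL5S5T5.acc (by decide) OPL5S5T5.hb OPL5S5T5.cov)
    (List.forall_mem_cons.2 ⟨clR1 (kindP 3 (by norm_num)) OPL5S5T5.acc (by norm_num) OPL5S5T5.c0_0,
      List.forall_mem_nil _⟩) OPL5S5T5.chk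

theorem OPL5S6T6.chk : (mkD (bQ / 5) (5 * eQ (3 + 2)) (momOf 36 6 OPL5S6T6.bl) []
    [(847812882375820768318338321 / 4951760157141521099596496896 : ℚ), (4391143834085126362804607929 / 79228162514264337593543950336 : ℚ), (34557424576657778929861873 / 9903520314283042199192993792 : ℚ), (576535151417735259534319 / 9903520314283042199192993792 : ℚ)]
    (-28 : ℚ) (1 / 4 : ℚ) 40).check
    (0 : ℚ) (1821701 / 1000000000000 : ℚ) (-1821701 / 1000000000000 : ℚ) (1821701 / 1000000000000 : ℚ) = true := by krfl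
theorem OPL5S6T6.res : In (tO 3 3 3 6 6) (0 : ℚ) (1821701 / 1000000000000 : ℚ) :=
  resO (momOC (kindP 3 (by norm_num)) OPL5S6T6.acc (by decide) OPL5S6T6.hb OPL5S6T6.cov)
    (List.forall_mem_nil _) OPL5S6T6.chk

theorem OPL5S7T10.chk : (mkD (bQ / 5) (5 * eQ (3 + 2)) (momOf 25 4 OPL5S7T10.bl) []
    [(12006195870173412729638065675 / 79228162514264337593543950336 : ℚ), (2466734556528528787215874675 / 79228162514264337593543950336 : ℚ), (38959153961257963954400159 / 39614081257132168796771975168 : ℚ)]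
    (-25 : ℚ) (1 / 4 : ℚ) 72).check
    (0 : ℚ) (2837 / 500000000000 : ℚ) (-2837 / 500000000000 : ℚ) (2837 / 500000000000 : ℚ) = true := by krfl
theorem OPL5S7T10.res : In (tO 3 3 3 7 10) (0 : ℚ) (2837 / 500000000000 : ℚ) :=
  resO (momOC (kindP 3 (by norm_num)) OPL5S7T10.acc (by decide) OPL5S7T10.hb OPL5S7T10.cov)
    (List.forall_mem_nil _) OPL5S7T10.chk

theorem OML5S5T5.chk : (mkD (bQ / 5) (5 * eQ (3 + 2)) (momOf 47 8 OML5S5T5.bl) [mkCl 0 33221653 748 1 1]
    [(3261541017123352566052509503 / 19807040628566084398385987584 : ℚ), (7069433950380953416190723089 / 79228162514264337593543950336 : ℚ), (182663894313562920589463501 / 19807040628566084398385987584 : ℚ), (25727810491618328787768527 / 79228162514264337593543950336 : ℚ), (290036212830476108000867 / 79228162514264337593543950336 : ℚ)]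
    (-109 / 4 : ℚ) (1 / 4 : ℚ) 25).check
    (1706941469 / 1000000000000 : ℚ) (1707442021 / 1000000000000 : ℚ) (426610513 / 250000000000 : ℚ) (1707442021 / 1000000000000 : ℚ) = true := by krfl
theorem OML5S5T5.res : In (tO 3 (-3) 3 5 5) (1706941469 / 1000000000000 : ℚ) (1707442021 / 1000000000000 : ℚ) :=
  resO (momOD (kindM 3 (by norm_num)) OML5S5T5.acc (by decide) OML5S5T5.hb rfl OML5S5T5.cov)
    (List.forall_mem_cons.2 ⟨clR1 (kindM 3 (by norm_num)) OML5S5T5.acc (by norm_num) OML5S5T5.c0_0,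
      List.forall_mem_nil _⟩) OML5S5T5.chk

theorem OML5S4T4.chk : (mkD (bQ / 5) (5 * eQ (3 + 2)) (momOf 36 6 OML5S4T4.bl) [mkCl 0 31326783 2105 1 1]
    [(13171348129781216625003846021 / 79228162514264337593543950336 : ℚ), (275868822251831191971707525 / 4951760157141521099596496896 : ℚ), (278759386824016403853902853 / 79228162514264337593543950336 : ℚ), (576564616540038583517891 / 9903520314283042199192993792 : ℚ)]
    (-111 / 4 : ℚ) (1 / 4 : ℚ) 39).check
    (27545573 / 500000000000 : ℚ) (56193541 / 1000000000000 : ℚ) (26994427 / 500000000000 : ℚ) (56193541 / 1000000000000 : ℚ) = true := by krfl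
theorem OML5S4T4.res : In (tO 3 (-3) 3 4 4) (27545573 / 500000000000 : ℚ) (56193541 / 1000000000000 : ℚ) :=
  resO (momOE (kindM 3 (by norm_num)) OML5S4T4.acc (by decide) OML5S4T4.hb OML5S4T4.cov)
    (List.forall_mem_cons.2 ⟨clR1 (kindM 3 (by norm_num)) OML5S4T4.acc (by norm_num) OML5S4T4.c0_0,
      List.forall_mem_nil _⟩) OML5S4T4.chk

theorem OML5S3T3.chk : (mkD (bQ / 5) (5 * eQ (3 + 2)) (momOf 25 4 OML5S3T3.bl) []
    [(3991320560306508422731495481 / 19807040628566084398385987584 : ℚ), (3026287383994837194555539853 / 79228162514264337593543950336 : ℚ), (45594481959379795558135097 / 39614081257132168796771975168 : ℚ)]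
    (-28 : ℚ) (1 / 4 : ℚ) 62).check
    (0 : ℚ) (1681131 / 1000000000000 : ℚ) (-1681131 / 1000000000000 : ℚ) (1681131 / 1000000000000 : ℚ) = true := by krfl
theorem OML5S3T3.res : In (tO 3 (-3) 3 3 3) (0 : ℚ) (1681131 / 1000000000000 : ℚ) :=
  resO (momOE (kindM 3 (by norm_num)) OML5S3T3.acc (by decide) OML5S3T3.hb OML5S3T3.cov)
    (List.forall_mem_nil _) OML5S3T3.chk

theorem OML5S0T2.chk : (mkD (bQ / 5) (5 * eQ (3 + 2)) (momOf 25 4 OML5S0T2.bl) []
    [(11532599530024498438920395907 / 39614081257132168796771975168 : ℚ), (2301817337411898056610838721 / 39614081257132168796771975168 : ℚ), (155480559499284497994269705 / 79228162514264337593543950336 : ℚ)]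
    (-59 / 4 : ℚ) (1 / 4 : ℚ) 38).check
    (0 : ℚ) (1 / 1000000000000 : ℚ) (-1 / 1000000000000 : ℚ) (1 / 1000000000000 : ℚ) = true := by krfl
theorem OML5S0T2.res : In (tO 3 (-3) 3 0 2) (0 : ℚ) (1 / 1000000000000 : ℚ) :=
  resO (momOE (kindM 3 (by norm_num)) OML5S0T2.acc (by decide) OML5S0T2.hb OML5S0T2.cov)
    (List.forall_mem_nil _) OML5S0T2.chk

theorem bd_Wp_5 : (1720451 / 25000000 : ℝ) ≤ Oc (3 / 5) (3 / 5) 4 ∧ Oc (3 / 5) (3 / 5) 4 ≤ (430153 / 6250000 : ℝ) := by
  have h0 := OPL5S0T2.res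
  have h1 := OPL5S3T3.res
  have h2 := OPL5S4T4.res
  have h3 := OPL5S5T5.res
  have h4 := OPL5S6T6.res
  have h5 := OPL5S7T10.res
  have e0 : Oc (3 / 5) (3 / 5) 4 = tO 3 3 3 0 10 := Oc_same 3
  have e1 := tO_split 3 3 3 0 2 10 (by norm_num) (by norm_num)
  have e2 := tO_split 3 3 3 3 3 10 (by norm_num) (by norm_num)
  have e3 := tO_split 3 3 3 4 4 10 (by norm_num) (by norm_num)
  have e4 := tO_split 3 3 3 5 5 10 (by norm_num) (by norm_num)
  have e5 := tO_split 3 3 3 6 6 10 (by norm_num) (by norm_num)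
  simp only [In] at h0 h1 h2 h3 h4 h5
  push_cast at h0 h1 h2 h3 h4 h5
  norm_num only at e1 e2 e3 e4 e5
  constructor <;> linarith [h0.1, h0.2, h1.1, h1.2, h2.1, h2.2, h3.1, h3.2, h4.1, h4.2, h5.1, h5.2]

theorem bd_Wm_5 : (11357 / 6250000 : ℝ) ≤ Oc (-(3 / 5)) (3 / 5) 4 ∧ Oc (-(3 / 5)) (3 / 5) 4 ≤ (2279 / 1250000 : ℝ) := by
  have h0 := OML5S5T5.res
  have h1 := OML5S4T4.res
  have h2 := OML5S3T3.res
  have h3 := OML5S0T2.res
  have e0 : Oc (-(3 / 5)) (3 / 5) 4 = tO 3 (-3) 3 5 5 + 2 * tO 3 (-3) 3 0 4 := Oc_opp 3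
  have e1 := tO_split 3 (-3) 3 0 2 4 (by norm_num) (by norm_num)
  have e2 := tO_split 3 (-3) 3 3 3 4 (by norm_num) (by norm_num)
  simp only [In] at h0 h1 h2 h3
  push_cast at h0 h1 h2 h3
  norm_num only at e1 e2
  constructor <;> linarith [h0.1, h0.2, h1.1, h1.2, h2.1, h2.2, h3.1, h3.2]

end Crest.Agent.R347
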