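import Crest.Agent.R347.Asm
import Crest.Agent.R347.HO6

/-! Row 347: enclosures of partition functions (generated). -/

set_option autoImplicit false
set_option Elab.async false
set_option maxRecDepth 100000

namespace Crest.Agent.R347

theorem OPL6S0T3.chk : (mkD (bQ / 5) (5 * eQ (4 + 2)) (momOf 27 4 OPL6S0T3.bl) []
    [(1507532587624481358223469449 / 9903520314283042199192993792 : ℚ), (999388851393670905145690555 / 39614081257132168796771975168 : ℚ), (54263306924639614596014995 / 79228162514264337593543950336 : ℚ)]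
    (-143 / 4 : ℚ) (1 / 4 : ℚ) 88).check
    (0 : ℚ) (3423541 / 500000000000 : ℚ) (-3423541 / 500000000000 : ℚ) (3423541 / 500000000000 : ℚ) = true := by krfl
theorem OPL6S0T3.res : In (tO 4 3 3 0 3) (0 : ℚ) (3423541 / 500000000000 : ℚ) :=
  resO (momOC (kindP 4 (by norm_num)) OPL6S0T3.acc (by decide) OPL6S0T3.hb OPL6S0T3.cov)
    (List.forall_mem_nil _) OPL6S0T3.chk

theorem OPL6S4T4.chk : (mkD (bQ / 5) (5 * eQ (4 + 2)) (momOf 49 8 OPL6S4T4.bl) []
    [(4789976462615102123309051791 / 39614081257132168796771975168 : ℚ), (1996476026220492627934267265 / 39614081257132168796771975168 : ℚ), (346548842476097125341706013 / 79228162514264337593543950336 : ℚ), (10467834025544241872629933 / 79228162514264337593543950336 : ℚ), (25577502150744133555561 / 19807040628566084398385987584 : ℚ)]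
    (-143 / 4 : ℚ) (1 / 4 : ℚ) 38).check
    (0 : ℚ) (783487 / 100000000000 : ℚ) (-783487 / 100000000000 : ℚ) (783487 / 100000000000 : ℚ) = true := by krfl
theorem OPL6S4T4.res : In (tO 4 3 3 4 4) (0 : ℚ) (783487 / 100000000000 : ℚ) :=
  resO (momOC (kindP 4 (by norm_num)) OPL6S4T4.acc (by decide) OPL6S4T4.hb OPL6S4T4.cov)
    (List.forall_mem_nil _) OPL6S4T4.chk

theorem OPL6S5T5.chk : (mkD (bQ / 5) (5 * eQ (4 + 2)) (momOf 49 8 OPL6S5T5.bl) [mkCl 0 40839474 1991 1 1]
    [(4383133407023595864820574367 / 39614081257132168796771975168 : ℚ), (2174406795669469261188983723 / 39614081257132168796771975168 : ℚ), (392162141787948205871062585 / 79228162514264337593543950336 : ℚ), (12013377369347613920903167 / 79228162514264337593543950336 : ℚ), (117964670584205469624267 / 79228162514264337593543950336 : ℚ)]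
    (-71 / 2 : ℚ) (1 / 4 : ℚ) 37).check
    (2784417097 / 1000000000000 : ℚ) (2789322723 / 1000000000000 : ℚ) (86859887 / 31250000000 : ℚ) (2789322723 / 1000000000000 : ℚ) = true := by krfl
theorem OPL6S5T5.res : In (tO 4 3 3 5 5) (2784417097 / 1000000000000 : ℚ) (2789322723 / 1000000000000 : ℚ) :=
  resO (momOC (kindP 4 (by norm_num)) OPL6S5T5.acc (by decide) OPL6S5T5.hb OPL6S5T5.cov)
    (List.forall_mem_cons.2 ⟨clR1 (kindP 4 (by norm_num)) OPL6S5T5.acc (by norm_num) OPL6S5T5.c0_0,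
      List.forall_mem_nil _⟩) OPL6S5T5.chk

theorem OPL6S6T6.chk : (mkD (bQ / 5) (5 * eQ (4 + 2)) (momOf 49 8 OPL6S6T6.bl) [mkCl 0 39531081 1679 1 1, mkCl 0 37425108 2310 1 1]
    [(1970274100239097778086669603 / 19807040628566084398385987584 : ℚ), (4135434293561182558979297825 / 79228162514264337593543950336 : ℚ), (382588778767356125105212253 / 79228162514264337593543950336 : ℚ), (11939677488688449642115017 / 79228162514264337593543950336 : ℚ), (29773426513663705094695 / 19807040628566084398385987584 : ℚ)]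
    (-69 / 2 : ℚ) (1 / 4 : ℚ) 38).check
    (6645289 / 25000000000 : ℚ) (266544219 / 1000000000000 : ℚ) (265079301 / 1000000000000 : ℚ) (266544219 / 1000000000000 : ℚ) = true := by krfl
theorem OPL6S6T6.res : In (tO 4 3 3 6 6) (6645289 / 25000000000 : ℚ) (266544219 / 1000000000000 : ℚ) :=
  resO (momOC (kindP 4 (by norm_num)) OPL6S6T6.acc (by decide) OPL6S6T6.hb OPL6S6T6.cov)
    (List.forall_mem_cons.2 ⟨clR1 (kindP 4 (by norm_num)) OPL6S6T6.acc (by norm_num) OPL6S6T6.c0_0,
      List.forall_mem_cons.2 ⟨clR1 (kindP 4 (by norm_num)) OPL6S6T6.acc (by norm_num) OPL6S6T6.c1_0,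
      List.forall_mem_nil _⟩⟩) OPL6S6T6.chk

theorem OPL6S7T7.chk : (mkD (bQ / 5) (5 * eQ (4 + 2)) (momOf 49 8 OPL6S7T7.bl) []
    [(4241496103346015414303828987 / 39614081257132168796771975168 : ℚ), (3859007870331382457779551349 / 79228162514264337593543950336 : ℚ), (84551760116642514118062391 / 19807040628566084398385987584 : ℚ), (10165434465876818752224249 / 79228162514264337593543950336 : ℚ), (24588206586536103609091 / 19807040628566084398385987584 : ℚ)]
    (-139 / 4 : ℚ) (1 / 4 : ℚ) 39).check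
    (0 : ℚ) (75089 / 62500000000 : ℚ) (-75089 / 62500000000 : ℚ) (75089 / 62500000000 : ℚ) = true := by krfl
theorem OPL6S7T7.res : In (tO 4 3 3 7 7) (0 : ℚ) (75089 / 62500000000 : ℚ) :=
  resO (momOC (kindP 4 (by norm_num)) OPL6S7T7.acc (by decide) OPL6S7T7.hb OPL6S7T7.cov)
    (List.forall_mem_nil _) OPL6S7T7.chk

theorem OPL6S8T12.chk : (mkD (bQ / 5) (5 * eQ (4 + 2)) (momOf 37 6 OPL6S8T12.bl) []
    [(13637835280445649349791715 / 154742504910672534362390528 : ℚ), (2258004188926740419046373969 / 79228162514264337593543950336 : ℚ), (2046156321167874265539753 / 1237940039285380274899124224 : ℚ), (494692125420735219153559 / 19807040628566084398385987584 : ℚ)]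
    (-31 : ℚ) (1 / 4 : ℚ) 65).check
    (0 : ℚ) (171 / 200000000000 : ℚ) (-171 / 200000000000 : ℚ) (171 / 200000000000 : ℚ) = true := by krfl
theorem OPL6S8T12.res : In (tO 4 3 3 8 12) (0 : ℚ) (171 / 200000000000 : ℚ) :=
  resO (momOC (kindP 4 (by norm_num)) OPL6S8T12.acc (by decide) OPL6S8T12.hb OPL6S8T12.cov)
    (List.forall_mem_nil _) OPL6S8T12.chk

theorem OML6S6T6.chk : (mkD (bQ / 5) (5 * eQ (4 + 2)) (momOf 61 10 OML6S6T6.bl) [mkCl 0 42535037 3273 1 1]
    [(9023225174327629680718583229 / 79228162514264337593543950336 : ℚ), (2929928822901801204862947905 / 39614081257132168796771975168 : ℚ), (722901647462332791378179103 / 79228162514264337593543950336 : ℚ), (33728422466915454986791997 / 79228162514264337593543950336 : ℚ), (166892434043305778030707 / 19807040628566084398385987584 : ℚ), (4718170849034562590855 / 79228162514264337593543950336 : ℚ)]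
    (-139 / 4 : ℚ) (1 / 4 : ℚ) 27).check
    (60121424883 / 1000000000000 : ℚ) (751536811 / 12500000000 : ℚ) (234844059 / 3906250000 : ℚ) (751536811 / 12500000000 : ℚ) = true := by krfl
theorem OML6S6T6.res : In (tO 4 (-3) 3 6 6) (60121424883 / 1000000000000 : ℚ) (751536811 / 12500000000 : ℚ) :=
  resO (momOD (kindM 4 (by norm_num)) OML6S6T6.acc (by decide) OML6S6T6.hb rfl OML6S6T6.cov)
    (List.forall_mem_cons.2 ⟨clR1 (kindM 4 (by norm_num)) OML6S6T6.acc (by norm_num) OML6S6T6.c0_0,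
      List.forall_mem_nil _⟩) OML6S6T6.chk

theorem OML6S5T5.chk : (mkD (bQ / 5) (5 * eQ (4 + 2)) (momOf 49 8 OML6S5T5.bl) [mkCl 0 38212601 1374 1 1]
    [(4083865978066270482132285633 / 39614081257132168796771975168 : ℚ), (3869672759826614492010344691 / 79228162514264337593543950336 : ℚ), (340718209175969038905102203 / 79228162514264337593543950336 : ℚ), (10190545596215425409566245 / 79228162514264337593543950336 : ℚ), (24394559464152102883535 / 19807040628566084398385987584 : ℚ)]
    (-35 : ℚ) (1 / 4 : ℚ) 40).check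
    (2981743 / 125000000000 : ℚ) (12828827 / 500000000000 : ℚ) (4410053 / 200000000000 : ℚ) (12828827 / 500000000000 : ℚ) = true := by krfl
theorem OML6S5T5.res : In (tO 4 (-3) 3 5 5) (2981743 / 125000000000 : ℚ) (12828827 / 500000000000 : ℚ) :=
  resO (momOE (kindM 4 (by norm_num)) OML6S5T5.acc (by decide) OML6S5T5.hb OML6S5T5.cov)
    (List.forall_mem_cons.2 ⟨clR1 (kindM 4 (by norm_num)) OML6S5T5.acc (by norm_num) OML6S5T5.c0_0,
      List.forall_mem_nil _⟩) OML6S5T5.chk

theorem OML6S4T4.chk : (mkD (bQ / 5) (5 * eQ (4 + 2)) (momOf 37 6 OML6S4T4.bl) []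
    [(4448409202346529568165325241 / 39614081257132168796771975168 : ℚ), (2721943561640952749230874703 / 79228162514264337593543950336 : ℚ), (152297309400875834071367199 / 79228162514264337593543950336 : ℚ), (2224145955538056657884463 / 79228162514264337593543950336 : ℚ)]
    (-137 / 4 : ℚ) (1 / 4 : ℚ) 57).check
    (0 : ℚ) (415967 / 1000000000000 : ℚ) (-415967 / 1000000000000 : ℚ) (415967 / 1000000000000 : ℚ) = true := by krfl
theorem OML6S4T4.res : In (tO 4 (-3) 3 4 4) (0 : ℚ) (415967 / 1000000000000 : ℚ) :=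
  resO (momOE (kindM 4 (by norm_num)) OML6S4T4.acc (by decide) OML6S4T4.hb OML6S4T4.cov)
    (List.forall_mem_nil _) OML6S4T4.chk

theorem OML6S0T3.chk : (mkD (bQ / 5) (5 * eQ (4 + 2)) (momOf 27 4 OML6S0T3.bl) []
    [(8670183840943579808330501591 / 39614081257132168796771975168 : ℚ), (1133876974096949546156394261 / 39614081257132168796771975168 : ℚ), (27273159945757189419234215 / 39614081257132168796771975168 : ℚ)]
    (-63 / 2 : ℚ) (1 / 4 : ℚ) 77).check
    (0 : ℚ) (261 / 125000000000 : ℚ) (-261 / 125000000000 : ℚ) (261 / 125000000000 : ℚ) = true := by krfl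
theorem OML6S0T3.res : In (tO 4 (-3) 3 0 3) (0 : ℚ) (261 / 125000000000 : ℚ) :=
  resO (momOE (kindM 4 (by norm_num)) OML6S0T3.acc (by decide) OML6S0T3.hb OML6S0T3.cov)
    (List.forall_mem_nil _) OML6S0T3.chk

theorem bd_Wp_6 : (152511 / 50000000 : ℝ) ≤ Oc (3 / 5) (3 / 5) 5 ∧ Oc (3 / 5) (3 / 5) 5 ≤ (38397 / 12500000 : ℝ) := by
  have h0 := OPL6S0T3.res
  have h1 := OPL6S4T4.res
  have h2 := OPL6S5T5.res
  have h3 := OPL6S6T6.res
  have h4 := OPL6S7T7.res
  have h5 := OPL6S8T12.res
  have e0 : Oc (3 / 5) (3 / 5) 5 = tO 4 3 3 0 12 := Oc_same 4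
  have e1 := tO_split 4 3 3 0 3 12 (by norm_num) (by norm_num)
  have e2 := tO_split 4 3 3 4 4 12 (by norm_num) (by norm_num)
  have e3 := tO_split 4 3 3 5 5 12 (by norm_num) (by norm_num)
  have e4 := tO_split 4 3 3 6 6 12 (by norm_num) (by norm_num)
  have e5 := tO_split 4 3 3 7 7 12 (by norm_num) (by norm_num)
  simp only [In] at h0 h1 h2 h3 h4 h5
  push_cast at h0 h1 h2 h3 h4 h5
  norm_num only at e1 e2 e3 e4 e5
  constructor <;> linarith [h0.1, h0.2, h1.1, h1.2, h2.1, h2.2, h3.1, h3.2, h4.1, h4.2, h5.1, h5.2]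

theorem bd_Wm_6 : (6016913 / 100000000 : ℝ) ≤ Oc (-(3 / 5)) (3 / 5) 5 ∧ Oc (-(3 / 5)) (3 / 5) 5 ≤ (601751 / 10000000 : ℝ) := by
  have h0 := OML6S6T6.res
  have h1 := OML6S5T5.res
  have h2 := OML6S4T4.res
  have h3 := OML6S0T3.res
  have e0 : Oc (-(3 / 5)) (3 / 5) 5 = tO 4 (-3) 3 6 6 + 2 * tO 4 (-3) 3 0 5 := Oc_opp 4
  have e1 := tO_split 4 (-3) 3 0 3 5 (by norm_num) (by norm_num)
  have e2 := tO_split 4 (-3) 3 4 4 5 (by norm_num) (by norm_num)
  simp only [In] at h0 h1 h2 h3
  push_cast at h0 h1 h2 h3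
  norm_num only at e1 e2
  constructor <;> linarith [h0.1, h0.2, h1.1, h1.2, h2.1, h2.2, h3.1, h3.2]

end Crest.Agent.R347
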