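import Crest.Agent.R347.Asm
import Crest.Agent.R347.HO7

/-! Row 347: enclosures of partition functions (generated). -/

set_option autoImplicit false
set_option Elab.async false
set_option maxRecDepth 100000

namespace Crest.Agent.R347

theorem OPL7S0T4.chk : (mkD (bQ / 5) (5 * eQ (5 + 2)) (momOf 39 6 OPL7S0T4.bl) []
    [(5424378959191273906425696075 / 79228162514264337593543950336 : ℚ), (1654483819372979089982790367 / 79228162514264337593543950336 : ℚ), (44298161761973691601170917 / 39614081257132168796771975168 : ℚ), (308125149264244429963289 / 19807040628566084398385987584 : ℚ)]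
    (-41 : ℚ) (1 / 4 : ℚ) 81).check
    (0 : ℚ) (123407 / 500000000000 : ℚ) (-123407 / 500000000000 : ℚ) (123407 / 500000000000 : ℚ) = true := by krfl
theorem OPL7S0T4.res : In (tO 5 3 3 0 4) (0 : ℚ) (123407 / 500000000000 : ℚ) :=
  resO (momOC (kindP 5 (by norm_num)) OPL7S0T4.acc (by decide) OPL7S0T4.hb OPL7S0T4.cov)
    (List.forall_mem_nil _) OPL7S0T4.chk

theorem OPL7S5T5.chk : (mkD (bQ / 5) (5 * eQ (5 + 2)) (momOf 75 12 OPL7S5T5.bl) []
    [(1510641404519010467978046843 / 19807040628566084398385987584 : ℚ), (3929281197300125935811208027 / 79228162514264337593543950336 : ℚ), (137891097049557318598440115 / 19807040628566084398385987584 : ℚ), (31725462903682943117642577 / 79228162514264337593543950336 : ℚ), (876287043096663362440503 / 79228162514264337593543950336 : ℚ), (5780559153233793752939 / 39614081257132168796771975168 : ℚ), (14621271543691031003 / 19807040628566084398385987584 : ℚ)]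
    (-85 / 2 : ℚ) (1 / 4 : ℚ) 33).check
    (0 : ℚ) (5409909 / 1000000000000 : ℚ) (-5409909 / 1000000000000 : ℚ) (5409909 / 1000000000000 : ℚ) = true := by krfl
theorem OPL7S5T5.res : In (tO 5 3 3 5 5) (0 : ℚ) (5409909 / 1000000000000 : ℚ) :=
  resO (momOC (kindP 5 (by norm_num)) OPL7S5T5.acc (by decide) OPL7S5T5.hb OPL7S5T5.cov)
    (List.forall_mem_nil _) OPL7S5T5.chk

theorem OPL7S6T6.chk : (mkD (bQ / 5) (5 * eQ (5 + 2)) (momOf 63 10 OPL7S6T6.bl) [mkCl 0 49789503 5157 1 1]
    [(5779287039164292386393218709 / 79228162514264337593543950336 : ℚ), (3845789926376691643074326793 / 79228162514264337593543950336 : ℚ), (215110877973754626498455519 / 39614081257132168796771975168 : ℚ), (17975886410751432754039365 / 79228162514264337593543950336 : ℚ), (158907252868593132864035 / 39614081257132168796771975168 : ℚ), (501498965638764336191 / 19807040628566084398385987584 : ℚ)]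
    (-85 / 2 : ℚ) (1 / 4 : ℚ) 37).check
    (2030806741 / 40000000000 : ℚ) (50775521137 / 1000000000000 : ℚ) (50765047663 / 1000000000000 : ℚ) (50775521137 / 1000000000000 : ℚ) = true := by krfl
theorem OPL7S6T6.res : In (tO 5 3 3 6 6) (2030806741 / 40000000000 : ℚ) (50775521137 / 1000000000000 : ℚ) :=
  resO (momOC (kindP 5 (by norm_num)) OPL7S6T6.acc (by decide) OPL7S6T6.hb OPL7S6T6.cov)
    (List.forall_mem_cons.2 ⟨clR1 (kindP 5 (by norm_num)) OPL7S6T6.acc (by norm_num) OPL7S6T6.c0_0,
      List.forall_mem_nil _⟩) OPL7S6T6.chk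

theorem OPL7S7T7.chk : (mkD (bQ / 5) (5 * eQ (5 + 2)) (momOf 63 10 OPL7S7T7.bl) [mkCl 0 46452306 1585 1 1, mkCl 0 44295549 2180 1 1]
    [(5221178918799823098902406591 / 79228162514264337593543950336 : ℚ), (909260293097201246787841189 / 19807040628566084398385987584 : ℚ), (206725653009522837164956905 / 39614081257132168796771975168 : ℚ), (8726881174661561940847165 / 39614081257132168796771975168 : ℚ), (77736893771740928118991 / 19807040628566084398385987584 : ℚ), (987379550903358076983 / 39614081257132168796771975168 : ℚ)]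
    (-42 : ℚ) (1 / 4 : ℚ) 38).check
    (122487523 / 1000000000000 : ℚ) (124348001 / 1000000000000 : ℚ) (120627219 / 1000000000000 : ℚ) (124348001 / 1000000000000 : ℚ) = true := by krfl
theorem OPL7S7T7.res : In (tO 5 3 3 7 7) (122487523 / 1000000000000 : ℚ) (124348001 / 1000000000000 : ℚ) :=
  resO (momOC (kindP 5 (by norm_num)) OPL7S7T7.acc (by decide) OPL7S7T7.hb OPL7S7T7.cov)
    (List.forall_mem_cons.2 ⟨clR1 (kindP 5 (by norm_num)) OPL7S7T7.acc (by norm_num) OPL7S7T7.c0_0,
      List.forall_mem_cons.2 ⟨clR1 (kindP 5 (by norm_num)) OPL7S7T7.acc (by norm_num) OPL7S7T7.c1_0,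
      List.forall_mem_nil _⟩⟩) OPL7S7T7.chk

theorem OPL7S8T8.chk : (mkD (bQ / 5) (5 * eQ (5 + 2)) (momOf 63 10 OPL7S8T8.bl) []
    [(2542908625435771003747416507 / 39614081257132168796771975168 : ℚ), (3213771570600480037208414375 / 79228162514264337593543950336 : ℚ), (44104742010422421350494771 / 9903520314283042199192993792 : ℚ), (1818321266487811030323775 / 9903520314283042199192993792 : ℚ), (254344133465513647119157 / 79228162514264337593543950336 : ℚ), (1589871885566799212965 / 79228162514264337593543950336 : ℚ)]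
    (-169 / 4 : ℚ) (1 / 4 : ℚ) 40).check
    (0 : ℚ) (743897 / 250000000000 : ℚ) (-743897 / 250000000000 : ℚ) (743897 / 250000000000 : ℚ) = true := by krfl
theorem OPL7S8T8.res : In (tO 5 3 3 8 8) (0 : ℚ) (743897 / 250000000000 : ℚ) :=
  resO (momOC (kindP 5 (by norm_num)) OPL7S8T8.acc (by decide) OPL7S8T8.hb OPL7S8T8.cov)
    (List.forall_mem_nil _) OPL7S8T8.chk

theorem OPL7S9T14.chk : (mkD (bQ / 5) (5 * eQ (5 + 2)) (momOf 51 8 OPL7S9T14.bl) []
    [(4027522856855786772474912677 / 79228162514264337593543950336 : ℚ), (1900623640170208596264060135 / 79228162514264337593543950336 : ℚ), (19338074369815428892228113 / 9903520314283042199192993792 : ℚ), (4253376691897811816722849 / 79228162514264337593543950336 : ℚ), (37442972329838415936445 / 79228162514264337593543950336 : ℚ)]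
    (-151 / 4 : ℚ) (1 / 4 : ℚ) 61).check
    (0 : ℚ) (559 / 1000000000000 : ℚ) (-559 / 1000000000000 : ℚ) (559 / 1000000000000 : ℚ) = true := by krfl
theorem OPL7S9T14.res : In (tO 5 3 3 9 14) (0 : ℚ) (559 / 1000000000000 : ℚ) :=
  resO (momOC (kindP 5 (by norm_num)) OPL7S9T14.acc (by decide) OPL7S9T14.hb OPL7S9T14.cov)
    (List.forall_mem_nil _) OPL7S9T14.chk

theorem OML7S7T7.chk : (mkD (bQ / 5) (5 * eQ (5 + 2)) (momOf 75 12 OML7S7T7.bl) [mkCl 0 48459844 2461 1 1]
    [(3060654138050153061999496129 / 39614081257132168796771975168 : ℚ), (5087546944425344797945095775 / 79228162514264337593543950336 : ℚ), (363691535346791085147853735 / 39614081257132168796771975168 : ℚ), (41105576183953781728168599 / 79228162514264337593543950336 : ℚ), (274814944745569462296339 / 19807040628566084398385987584 : ℚ), (870294706352474148617 / 4951760157141521099596496896 : ℚ), (4203192603119716735 / 4951760157141521099596496896 : ℚ)]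
    (-85 / 2 : ℚ) (1 / 4 : ℚ) 29).check
    (4563058073 / 1000000000000 : ℚ) (4568468303 / 1000000000000 : ℚ) (455765779 / 100000000000 : ℚ) (4568468303 / 1000000000000 : ℚ) = true := by krfl
theorem OML7S7T7.res : In (tO 5 (-3) 3 7 7) (4563058073 / 1000000000000 : ℚ) (4568468303 / 1000000000000 : ℚ) :=
  resO (momOD (kindM 5 (by norm_num)) OML7S7T7.acc (by decide) OML7S7T7.hb rfl OML7S7T7.cov)
    (List.forall_mem_cons.2 ⟨clR1 (kindM 5 (by norm_num)) OML7S7T7.acc (by norm_num) OML7S7T7.c0_0,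
      List.forall_mem_nil _⟩) OML7S7T7.chk

theorem OML7S6T6.chk : (mkD (bQ / 5) (5 * eQ (5 + 2)) (momOf 63 10 OML7S6T6.bl) [mkCl 0 46264930 3127 1 1, mkCl 0 42820065 2684 1 1]
    [(4943202187893223392718593597 / 79228162514264337593543950336 : ℚ), (908549663183633701060268861 / 19807040628566084398385987584 : ℚ), (416222701558707568505669193 / 79228162514264337593543950336 : ℚ), (17594926181286617955391599 / 79228162514264337593543950336 : ℚ), (313011187951490316451813 / 79228162514264337593543950336 : ℚ), (990596114765864248797 / 39614081257132168796771975168 : ℚ)]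
    (-161 / 4 : ℚ) (1 / 4 : ℚ) 37).check
    (10709247 / 125000000000 : ℚ) (17149231 / 200000000000 : ℚ) (42801017 / 500000000000 : ℚ) (17149231 / 200000000000 : ℚ) = true := by krfl
theorem OML7S6T6.res : In (tO 5 (-3) 3 6 6) (10709247 / 125000000000 : ℚ) (17149231 / 200000000000 : ℚ) :=
  resO (momOE (kindM 5 (by norm_num)) OML7S6T6.acc (by decide) OML7S6T6.hb OML7S6T6.cov)
    (List.forall_mem_cons.2 ⟨clR1 (kindM 5 (by norm_num)) OML7S6T6.acc (by norm_num) OML7S6T6.c0_0,
      List.forall_mem_cons.2 ⟨clR1 (kindM 5 (by norm_num)) OML7S6T6.acc (by norm_num) OML7S6T6.c1_0,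
      List.forall_mem_nil _⟩⟩) OML7S6T6.chk

theorem OML7S5T5.chk : (mkD (bQ / 5) (5 * eQ (5 + 2)) (momOf 51 8 OML7S5T5.bl) []
    [(5202939171279167982334415697 / 79228162514264337593543950336 : ℚ), (1165729254109090282655157911 / 39614081257132168796771975168 : ℚ), (92190953241244043035404221 / 39614081257132168796771975168 : ℚ), (4930989427663935823349691 / 79228162514264337593543950336 : ℚ), (5274513366194879940161 / 9903520314283042199192993792 : ℚ)]
    (-165 / 4 : ℚ) (1 / 4 : ℚ) 55).check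
    (0 : ℚ) (25601 / 62500000000 : ℚ) (-25601 / 62500000000 : ℚ) (25601 / 62500000000 : ℚ) = true := by krfl
theorem OML7S5T5.res : In (tO 5 (-3) 3 5 5) (0 : ℚ) (25601 / 62500000000 : ℚ) :=
  resO (momOE (kindM 5 (by norm_num)) OML7S5T5.acc (by decide) OML7S5T5.hb OML7S5T5.cov)
    (List.forall_mem_nil _) OML7S5T5.chk

theorem OML7S0T4.chk : (mkD (bQ / 5) (5 * eQ (5 + 2)) (momOf 39 6 OML7S0T4.bl) []
    [(10056636067349124294600410717 / 79228162514264337593543950336 : ℚ), (2113885116611902081514529125 / 79228162514264337593543950336 : ℚ), (98262590820751628974914835 / 79228162514264337593543950336 : ℚ), (623636132188521511276715 / 39614081257132168796771975168 : ℚ)]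
    (-147 / 4 : ℚ) (1 / 4 : ℚ) 70).check
    (0 : ℚ) (19 / 250000000000 : ℚ) (-19 / 250000000000 : ℚ) (19 / 250000000000 : ℚ) = true := by krfl
theorem OML7S0T4.res : In (tO 5 (-3) 3 0 4) (0 : ℚ) (19 / 250000000000 : ℚ) :=
  resO (momOE (kindM 5 (by norm_num)) OML7S0T4.acc (by decide) OML7S0T4.hb OML7S0T4.cov)
    (List.forall_mem_nil _) OML7S0T4.chk

theorem bd_Wp_7 : (1017853 / 20000000 : ℝ) ≤ Oc (3 / 5) (3 / 5) 6 ∧ Oc (3 / 5) (3 / 5) 6 ≤ (5090851 / 100000000 : ℝ) := by
  have h0 := OPL7S0T4.res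
  have h1 := OPL7S5T5.res
  have h2 := OPL7S6T6.res
  have h3 := OPL7S7T7.res
  have h4 := OPL7S8T8.res
  have h5 := OPL7S9T14.res
  have e0 : Oc (3 / 5) (3 / 5) 6 = tO 5 3 3 0 14 := Oc_same 5
  have e1 := tO_split 5 3 3 0 4 14 (by norm_num) (by norm_num)
  have e2 := tO_split 5 3 3 5 5 14 (by norm_num) (by norm_num)
  have e3 := tO_split 5 3 3 6 6 14 (by norm_num) (by norm_num)
  have e4 := tO_split 5 3 3 7 7 14 (by norm_num) (by norm_num)
  have e5 := tO_split 5 3 3 8 8 14 (by norm_num) (by norm_num)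
  simp only [In] at h0 h1 h2 h3 h4 h5
  push_cast at h0 h1 h2 h3 h4 h5
  norm_num only at e1 e2 e3 e4 e5
  constructor <;> linarith [h0.1, h0.2, h1.1, h1.2, h2.1, h2.2, h3.1, h3.2, h4.1, h4.2, h5.1, h5.2]

theorem bd_Wm_7 : (2959 / 625000 : ℝ) ≤ Oc (-(3 / 5)) (3 / 5) 6 ∧ Oc (-(3 / 5)) (3 / 5) 6 ≤ (237039 / 50000000 : ℝ) := by
  have h0 := OML7S7T7.res
  have h1 := OML7S6T6.res
  have h2 := OML7S5T5.res
  have h3 := OML7S0T4.res
  have e0 : Oc (-(3 / 5)) (3 / 5) 6 = tO 5 (-3) 3 7 7 + 2 * tO 5 (-3) 3 0 6 := Oc_opp 5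
  have e1 := tO_split 5 (-3) 3 0 4 6 (by norm_num) (by norm_num)
  have e2 := tO_split 5 (-3) 3 5 5 6 (by norm_num) (by norm_num)
  simp only [In] at h0 h1 h2 h3
  push_cast at h0 h1 h2 h3
  norm_num only at e1 e2
  constructor <;> linarith [h0.1, h0.2, h1.1, h1.2, h2.1, h2.2, h3.1, h3.2]

end Crest.Agent.R347
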