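import Crest.Agent.R347.Asm
import Crest.Agent.R347.HO8M
import Crest.Agent.R347.HO8P

/-! Row 347: enclosures of partition functions (generated). -/

set_option autoImplicit false
set_option Elab.async false
set_option maxRecDepth 100000

namespace Crest.Agent.R347

theorem OPL8S0T5.chk : (mkD (bQ / 5) (5 * eQ (6 + 2)) (momOf 52 8 OPL8S0T5.bl) []
    [(3161098516213351579564392119 / 79228162514264337593543950336 : ℚ), (44061484341719396932107705 / 2475880078570760549798248448 : ℚ), (26479981290096517204946129 / 19807040628566084398385987584 : ℚ), (671397632934276118405805 / 19807040628566084398385987584 : ℚ), (21814007630630875184373 / 79228162514264337593543950336 : ℚ)]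
    (-95 / 2 : ℚ) (1 / 4 : ℚ) 75).check
    (0 : ℚ) (98473 / 1000000000000 : ℚ) (-98473 / 1000000000000 : ℚ) (98473 / 1000000000000 : ℚ) = true := by krfl
theorem OPL8S0T5.res : In (tO 6 3 3 0 5) (0 : ℚ) (98473 / 1000000000000 : ℚ) :=
  resO (momOC (kindP 6 (by norm_num)) OPL8S0T5.acc (by decide) OPL8S0T5.hb OPL8S0T5.cov)
    (List.forall_mem_nil _) OPL8S0T5.chk

theorem OPL8S6T6.chk : (mkD (bQ / 5) (5 * eQ (6 + 2)) (momOf 65 10 OPL8S6T6.bl) [mkCl 0 52124619 4048 1 1]
    [(231891140160772067670105909 / 4951760157141521099596496896 : ℚ), (293988915340339924500242337 / 9903520314283042199192993792 : ℚ), (118986698628916387205636753 / 39614081257132168796771975168 : ℚ), (8953548902549304751585313 / 79228162514264337593543950336 : ℚ), (71192259654117788138767 / 39614081257132168796771975168 : ℚ), (807925199004530469105 / 79228162514264337593543950336 : ℚ)]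
    (-49 : ℚ) (1 / 4 : ℚ) 50).check
    (2883749 / 500000000000 : ℚ) (1511059 / 200000000000 : ℚ) (3979723 / 1000000000000 : ℚ) (1511059 / 200000000000 : ℚ) = true := by krfl
theorem OPL8S6T6.res : In (tO 6 3 3 6 6) (2883749 / 500000000000 : ℚ) (1511059 / 200000000000 : ℚ) :=
  resO (momOC (kindP 6 (by norm_num)) OPL8S6T6.acc (by decide) OPL8S6T6.hb OPL8S6T6.cov)
    (List.forall_mem_cons.2 ⟨clR1 (kindP 6 (by norm_num)) OPL8S6T6.acc (by norm_num) OPL8S6T6.c0_0,
      List.forall_mem_nil _⟩) OPL8S6T6.chk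

theorem OPL8S7T7.chk : (mkD (bQ / 5) (5 * eQ (6 + 2)) (momOf 77 12 OPL8S7T7.bl) [mkCl 0 55968941 3931 1 1, mkCl 0 50836329 5094 1 1]
    [(1678208965283274116679402639 / 39614081257132168796771975168 : ℚ), (3356484705401517664515867067 / 79228162514264337593543950336 : ℚ), (226809078705749596733067441 / 39614081257132168796771975168 : ℚ), (23716982034349645273379675 / 79228162514264337593543950336 : ℚ), (72937554559832216773095 / 9903520314283042199192993792 : ℚ), (424198364415649901863 / 4951760157141521099596496896 : ℚ), (30081643109189672103 / 79228162514264337593543950336 : ℚ)]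
    (-195 / 4 : ℚ) (1 / 4 : ℚ) 36).check
    (6112976963 / 1000000000000 : ℚ) (47767321 / 7812500000 : ℚ) (190992441 / 31250000000 : ℚ) (47767321 / 7812500000 : ℚ) = true := by krfl
theorem OPL8S7T7.res : In (tO 6 3 3 7 7) (6112976963 / 1000000000000 : ℚ) (47767321 / 7812500000 : ℚ) :=
  resO (momOC (kindP 6 (by norm_num)) OPL8S7T7.acc (by decide) OPL8S7T7.hb OPL8S7T7.cov)
    (List.forall_mem_cons.2 ⟨clR1 (kindP 6 (by norm_num)) OPL8S7T7.acc (by norm_num) OPL8S7T7.c0_0,
      List.forall_mem_cons.2 ⟨clR1 (kindP 6 (by norm_num)) OPL8S7T7.acc (by norm_num) OPL8S7T7.c1_0,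
      List.forall_mem_nil _⟩⟩) OPL8S7T7.chk

theorem OPL8S8T8.chk : (mkD (bQ / 5) (5 * eQ (6 + 2)) (momOf 77 12 OPL8S8T8.bl) [mkCl 0 54210317 3304 1 1, mkCl 0 52600588 4732 1 1]
    [(746502926118682246994256637 / 19807040628566084398385987584 : ℚ), (1510343874091752147638743557 / 39614081257132168796771975168 : ℚ), (407770358738125709589894279 / 79228162514264337593543950336 : ℚ), (21248371214493633793409931 / 79228162514264337593543950336 : ℚ), (65058057759255519051181 / 9903520314283042199192993792 : ℚ), (1505893852361017483459 / 19807040628566084398385987584 : ℚ), (6638245396100160751 / 19807040628566084398385987584 : ℚ)]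
    (-99 / 2 : ℚ) (1 / 4 : ℚ) 39).check
    (133090693 / 500000000000 : ℚ) (135489993 / 500000000000 : ℚ) (8168237 / 31250000000 : ℚ) (135489993 / 500000000000 : ℚ) = true := by krfl
theorem OPL8S8T8.res : In (tO 6 3 3 8 8) (133090693 / 500000000000 : ℚ) (135489993 / 500000000000 : ℚ) :=
  resO (momOC (kindP 6 (by norm_num)) OPL8S8T8.acc (by decide) OPL8S8T8.hb OPL8S8T8.cov)
    (List.forall_mem_cons.2 ⟨clR1 (kindP 6 (by norm_num)) OPL8S8T8.acc (by norm_num) OPL8S8T8.c0_0,
      List.forall_mem_cons.2 ⟨clR1 (kindP 6 (by norm_num)) OPL8S8T8.acc (by norm_num) OPL8S8T8.c1_0,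
      List.forall_mem_nil _⟩⟩) OPL8S8T8.chk

theorem OPL8S9T9.chk : (mkD (bQ / 5) (5 * eQ (6 + 2)) (momOf 65 10 OPL8S9T9.bl) [mkCl 0 50042129 2368 1 1]
    [(177209151725829672905557389 / 4951760157141521099596496896 : ℚ), (1040112550298809842603312569 / 39614081257132168796771975168 : ℚ), (214462240316403589771778361 / 79228162514264337593543950336 : ℚ), (2027551542497553810545701 / 19807040628566084398385987584 : ℚ), (129036416315735485049721 / 79228162514264337593543950336 : ℚ), (365478289507478758031 / 39614081257132168796771975168 : ℚ)]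
    (-49 : ℚ) (1 / 4 : ℚ) 53).check
    (132497 / 1000000000000 : ℚ) (1944549 / 1000000000000 : ℚ) (-839777 / 500000000000 : ℚ) (1944549 / 1000000000000 : ℚ) = true := by krfl
theorem OPL8S9T9.res : In (tO 6 3 3 9 9) (132497 / 1000000000000 : ℚ) (1944549 / 1000000000000 : ℚ) :=
  resO (momOC (kindP 6 (by norm_num)) OPL8S9T9.acc (by decide) OPL8S9T9.hb OPL8S9T9.cov)
    (List.forall_mem_cons.2 ⟨clR1 (kindP 6 (by norm_num)) OPL8S9T9.acc (by norm_num) OPL8S9T9.c0_0,
      List.forall_mem_nil _⟩) OPL8S9T9.chk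

theorem OPL8S10T16.chk : (mkD (bQ / 5) (5 * eQ (6 + 2)) (momOf 52 8 OPL8S10T16.bl) []
    [(625531814194814986884447077 / 19807040628566084398385987584 : ℚ), (1048465395347561199017899789 / 79228162514264337593543950336 : ℚ), (9363907810315297576109307 / 9903520314283042199192993792 : ℚ), (451882722382478281224087 / 19807040628566084398385987584 : ℚ), (13966579341011656274341 / 79228162514264337593543950336 : ℚ)]
    (-99 / 2 : ℚ) (1 / 4 : ℚ) 89).check
    (0 : ℚ) (1052277 / 250000000000 : ℚ) (-1052277 / 250000000000 : ℚ) (1052277 / 250000000000 : ℚ) = true := by krfl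
theorem OPL8S10T16.res : In (tO 6 3 3 10 16) (0 : ℚ) (1052277 / 250000000000 : ℚ) :=
  resO (momOC (kindP 6 (by norm_num)) OPL8S10T16.acc (by decide) OPL8S10T16.hb OPL8S10T16.cov)
    (List.forall_mem_nil _) OPL8S10T16.chk

theorem OML8S8T8.chk : (mkD (bQ / 5) (5 * eQ (6 + 2)) (momOf 77 12 OML8S8T8.bl) [mkCl 0 57077479 8857 1 1, mkCl 0 50666880 5415 1 1]
    [(3159580174950029356868018765 / 79228162514264337593543950336 : ℚ), (1539896153797501426315102745 / 39614081257132168796771975168 : ℚ), (202988180947498390121450905 / 39614081257132168796771975168 : ℚ), (10344073950107516957525083 / 39614081257132168796771975168 : ℚ), (247852971678232144944755 / 39614081257132168796771975168 : ℚ), (701410307657136741999 / 9903520314283042199192993792 : ℚ), (6046222195561701089 / 19807040628566084398385987584 : ℚ)]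
    (-99 / 2 : ℚ) (1 / 4 : ℚ) 39).check
    (1423677677 / 31250000000 : ℚ) (1822512821 / 40000000000 : ℚ) (5694113487 / 125000000000 : ℚ) (1822512821 / 40000000000 : ℚ) = true := by krfl
theorem OML8S8T8.res : In (tO 6 (-3) 3 8 8) (1423677677 / 31250000000 : ℚ) (1822512821 / 40000000000 : ℚ) :=
  resO (momOD (kindM 6 (by norm_num)) OML8S8T8.acc (by decide) OML8S8T8.hb rfl OML8S8T8.cov)
    (List.forall_mem_cons.2 ⟨clR1 (kindM 6 (by norm_num)) OML8S8T8.acc (by norm_num) OML8S8T8.c0_0,
      List.forall_mem_cons.2 ⟨clR1 (kindM 6 (by norm_num)) OML8S8T8.acc (by norm_num) OML8S8T8.c1_0,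
      List.forall_mem_nil _⟩⟩) OML8S8T8.chk

theorem OML8S7T7.chk : (mkD (bQ / 5) (5 * eQ (6 + 2)) (momOf 65 10 OML8S7T7.bl) [mkCl 0 53346791 3525 1 1, mkCl 0 50296953 3967 1 1, mkCl 0 47648776 4501 1 1]
    [(1482673736620429049397160791 / 39614081257132168796771975168 : ℚ), (2096286843946280046022809283 / 79228162514264337593543950336 : ℚ), (26743363122027238148376215 / 9903520314283042199192993792 : ℚ), (4007337667517027133216229 / 39614081257132168796771975168 : ℚ), (126217612122776624510381 / 79228162514264337593543950336 : ℚ), (353520867016050285959 / 39614081257132168796771975168 : ℚ)]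
    (-49 : ℚ) (1 / 4 : ℚ) 53).check
    (53026781 / 1000000000000 : ℚ) (13715087 / 250000000000 : ℚ) (51193381 / 1000000000000 : ℚ) (13715087 / 250000000000 : ℚ) = true := by krfl
theorem OML8S7T7.res : In (tO 6 (-3) 3 7 7) (53026781 / 1000000000000 : ℚ) (13715087 / 250000000000 : ℚ) :=
  resO (momOE (kindM 6 (by norm_num)) OML8S7T7.acc (by decide) OML8S7T7.hb OML8S7T7.cov)
    (List.forall_mem_cons.2 ⟨clR1 (kindM 6 (by norm_num)) OML8S7T7.acc (by norm_num) OML8S7T7.c0_0,
      List.forall_mem_cons.2 ⟨clR1 (kindM 6 (by norm_num)) OML8S7T7.acc (by norm_num) OML8S7T7.c1_0,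
      List.forall_mem_cons.2 ⟨clR1 (kindM 6 (by norm_num)) OML8S7T7.acc (by norm_num) OML8S7T7.c2_0,
      List.forall_mem_nil _⟩⟩⟩) OML8S7T7.chk

theorem OML8S6T6.chk : (mkD (bQ / 5) (5 * eQ (6 + 2)) (momOf 65 10 OML8S6T6.bl) []
    [(3106476974003986976679719035 / 79228162514264337593543950336 : ℚ), (2035359014887974610436092577 / 79228162514264337593543950336 : ℚ), (204632263163010400702268835 / 79228162514264337593543950336 : ℚ), (3809901211938353655271887 / 39614081257132168796771975168 : ℚ), (119760248964464590946111 / 79228162514264337593543950336 : ℚ), (2621568256982527553 / 309485009821345068724781056 : ℚ)]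
    (-193 / 4 : ℚ) (1 / 4 : ℚ) 53).check
    (0 : ℚ) (108391 / 250000000000 : ℚ) (-108391 / 250000000000 : ℚ) (108391 / 250000000000 : ℚ) = true := by krfl
theorem OML8S6T6.res : In (tO 6 (-3) 3 6 6) (0 : ℚ) (108391 / 250000000000 : ℚ) :=
  resO (momOE (kindM 6 (by norm_num)) OML8S6T6.acc (by decide) OML8S6T6.hb OML8S6T6.cov)
    (List.forall_mem_nil _) OML8S6T6.chk

theorem OML8S0T5.chk : (mkD (bQ / 5) (5 * eQ (6 + 2)) (momOf 52 8 OML8S0T5.bl) []
    [(1331971249542781474838923389 / 19807040628566084398385987584 : ℚ), (864206348177653586029205331 / 39614081257132168796771975168 : ℚ), (119036904905682729065537365 / 79228162514264337593543950336 : ℚ), (2871873291495295696688161 / 79228162514264337593543950336 : ℚ), (22499469491821712935635 / 79228162514264337593543950336 : ℚ)]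
    (-87 / 2 : ℚ) (1 / 4 : ℚ) 69).check
    (0 : ℚ) (3 / 62500000000 : ℚ) (-3 / 62500000000 : ℚ) (3 / 62500000000 : ℚ) = true := by krfl
theorem OML8S0T5.res : In (tO 6 (-3) 3 0 5) (0 : ℚ) (3 / 62500000000 : ℚ) :=
  resO (momOE (kindM 6 (by norm_num)) OML8S0T5.acc (by decide) OML8S0T5.hb OML8S0T5.cov)
    (List.forall_mem_nil _) OML8S0T5.chk

theorem bd_Wp_8 : (127701 / 20000000 : ℝ) ≤ Oc (3 / 5) (3 / 5) 7 ∧ Oc (3 / 5) (3 / 5) 7 ≤ (639901 / 100000000 : ℝ) := by
  have h0 := OPL8S0T5.res
  have h1 := OPL8S6T6.res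
  have h2 := OPL8S7T7.res
  have h3 := OPL8S8T8.res
  have h4 := OPL8S9T9.res
  have h5 := OPL8S10T16.res
  have e0 : Oc (3 / 5) (3 / 5) 7 = tO 6 3 3 0 16 := Oc_same 6
  have e1 := tO_split 6 3 3 0 5 16 (by norm_num) (by norm_num)
  have e2 := tO_split 6 3 3 6 6 16 (by norm_num) (by norm_num)
  have e3 := tO_split 6 3 3 7 7 16 (by norm_num) (by norm_num)
  have e4 := tO_split 6 3 3 8 8 16 (by norm_num) (by norm_num)
  have e5 := tO_split 6 3 3 9 9 16 (by norm_num) (by norm_num)
  simp only [In] at h0 h1 h2 h3 h4 h5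
  push_cast at h0 h1 h2 h3 h4 h5
  norm_num only at e1 e2 e3 e4 e5
  constructor <;> linarith [h0.1, h0.2, h1.1, h1.2, h2.1, h2.2, h3.1, h3.2, h4.1, h4.2, h5.1, h5.2]

theorem bd_Wm_8 : (4566373 / 100000000 : ℝ) ≤ Oc (-(3 / 5)) (3 / 5) 7 ∧ Oc (-(3 / 5)) (3 / 5) 7 ≤ (4567341 / 100000000 : ℝ) := by
  have h0 := OML8S8T8.res
  have h1 := OML8S7T7.res
  have h2 := OML8S6T6.res
  have h3 := OML8S0T5.res
  have e0 : Oc (-(3 / 5)) (3 / 5) 7 = tO 6 (-3) 3 8 8 + 2 * tO 6 (-3) 3 0 7 := Oc_opp 6
  have e1 := tO_split 6 (-3) 3 0 5 7 (by norm_num) (by norm_num)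
  have e2 := tO_split 6 (-3) 3 6 6 7 (by norm_num) (by norm_num)
  simp only [In] at h0 h1 h2 h3
  push_cast at h0 h1 h2 h3
  norm_num only at e1 e2
  constructor <;> linarith [h0.1, h0.2, h1.1, h1.2, h2.1, h2.2, h3.1, h3.2]

end Crest.Agent.R347
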