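import Crest.Agent.R347.Gen

/-! Row 347: kernel computations (generated). -/

set_option autoImplicit false
set_option Elab.async false
set_option maxRecDepth 100000

namespace Crest.Agent.R347

namespace R2L10S7T7
noncomputable def A : Type := by r347_A 2 10 7 7
noncomputable def tr : (T → T) → A := by r347_tr 2 10 7 7
noncomputable def F : (T → T → T) → Nat → A → A := by r347_F 2 10 7 7 0 0 0 0 A
noncomputable def app : (Nat → Nat) → A → T := by r347_app 2 10 7 7 A
theorem hF : (fun (cmb : T → T → T) (φ : T → T) (K : Nat) => tr (fun t => cmb t (φ (stepW 8 K t))))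
    = fun cmb φ K => F cmb K (tr φ) := by krfl
theorem happ : (fun (f : Nat → Nat) (φ : T → T) => app f (tr φ)) = fun f φ => φ (buildC 10 7 7 f) := by krfl
noncomputable def acc : Acc (stepW 8) (buildC 10 7 7) := ⟨A, tr, F, app, hF, happ⟩
def l0 : List (Nat × Nat) := [(53, 20), (71, 20), (107, 20), (125, 20), (131, 20), (133, 20), (143, 20), (149, 20), (151, 10), (155, 20), (179, 20), (185, 20), (197, 20), (203, 10), (269, 20), (287, 20), (293, 20), (295, 20), (305, 20), (311, 20), (313, 20), (317, 20), (319, 20), (341, 20), (347, 20), (349, 20), (359, 20), (365, 20), (367, 20), (371, 20), (373, 20), (383, 20), (385, 20), (389, 20), (413, 20), (419, 20), (421, 20), (425, 20), (437, 20), (443, 20), (461, 20), (503, 20), (509, 20), (521, 20), (527, 20), (533, 20), (545, 20), (575, 20), (581, 20), (755, 10), (773, 20), (779, 20), (781, 20), (791, 20), (797, 20), (799, 20), (803, 20), (805, 20), (827, 20), (833, 20), (835, 20), (845, 20), (851, 20), (853, 20), (857, 20), (859, 20), (869, 20), (871, 20), (875, 20), (877, 20), (883, 20), (899, 20),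 (905, 20), (907, 20), (911, 20), (913, 20), (923, 20), (925, 20), (929, 20), (931, 20), (937, 10), (947, 20), (949, 20), (989, 20), (995, 20), (997, 20), (1007, 20), (1013, 20), (1015, 20), (1019, 20), (1021, 20), (1031, 20), (1033, 20), (1037, 20), (1039, 20), (1061, 20), (1067, 20), (1069, 20), (1073, 20), (1075, 20), (1085, 20), (1087, 20), (1091, 20), (1093, 10), (1109, 20), (1139, 20), (1141, 20), (1145, 20), (1163, 20), (1223, 20), (1229, 20), (1231, 20), (1235, 20), (1247, 20), (1249, 10), (1253, 20), (1271, 20), (1301, 20), (1307, 20), (1325, 20), (1379, 20), (1481, 10), (1493, 20), (1499, 20), (1505, 20), (1517, 20), (1523, 20), (1547, 20), (1553, 20), (1559, 20), (1571, 20), (1577, 10), (1625, 20), (1715, 20), (1733, 10), (2285, 20), (2291, 20), (2293, 20), (2303, 20), (2309, 20), (2311, 20), (2315, 20), (2317, 10), (2327, 20), (2329, 10), (2333, 20), (2357, 20), (2363, 20), (2369, 10), (2381, 10), (2447, 20), (2453, 10), (2465, 20), (2471, 20), (2473, 20), (2477, 20), (2479, 20), (2489, 20), (2491, 20), (2495, 20), (2497, 20), (2503,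 20), (2519, 20), (2525, 20), (2527, 20), (2531, 20), (2533, 20), (2543, 20), (2545, 20), (2549, 20), (2551, 20), (2557, 20), (2567, 20), (2569, 20), (2575, 20), (2597, 20), (2599, 20), (2603, 20), (2605, 20), (2611, 20), (2621, 20), (2623, 20), (2687, 20), (2689, 20), (2693, 20), (2695, 20), (2705, 20), (2707, 20), (2711, 20), (2713, 20), (2719, 20), (2729, 20), (2731, 20), (2759, 20), (2761, 20), (2765, 20), (2767, 20), (2783, 20), (2785, 20), (2839, 20), (2957, 20), (2959, 20), (2963, 20), (2975, 20), (3011, 20), (3013, 20), (3017, 20), (3019, 20), (3029, 20), (3031, 20), (3035, 20), (3037, 20), (3053, 20), (3055, 20), (3083, 20), (3085, 20), (3089, 20), (3091, 20), (3107, 20), (3173, 20), (3175, 10), (3179, 10), (3191, 20), (3193, 20), (3197, 20), (3199, 20), (3215, 20), (3245, 20), (3251, 20), (3269, 10), (3701, 20), (3737, 20), (4547, 10), (4649, 20), (4655, 20), (7385, 20), (7387, 10), (7391, 10), (7403, 20), (7405, 20), (7409, 20), (7411, 10), (7463, 10), (7565, 20), (7571, 20), (7573, 20), (7591, 10), (7625, 10), (7627, 10), (9085, 10)]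
def o0 : List Nat := [166773923701068420, 166773923701064880, 166773923701120200, 166773923701090080, 166773923702857280, 166773923701684880, 166773923785468620, 166773923696832680, 166773928676663040, 166773920376721920, 166774263862155180]
theorem b0 : blockC acc 10 46 10 l0 = ofL o0 := by krfl
def bl : List (List (Nat × Nat) × List Nat) := [(l0, o0)]
theorem hb : ∀ b ∈ bl, blockC acc 10 46 10 b.1 = ofL b.2 :=
  List.forall_mem_cons.2 ⟨b0, List.forall_mem_nil _⟩
theorem cov : cover (9 + 1) 7 7 (orbA 9) (bl.map Prod.fst).flatten 0 = true := by krfl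
end R2L10S7T7

namespace R2L10S0T6
noncomputable def A : Type := by r347_A 2 10 0 6
noncomputable def tr : (T → T) → A := by r347_tr 2 10 0 6
noncomputable def F : (T → T → T) → Nat → A → A := by r347_F 2 10 0 6 0 0 0 0 A
noncomputable def app : (Nat → Nat) → A → T := by r347_app 2 10 0 6 A
theorem hF : (fun (cmb : T → T → T) (φ : T → T) (K : Nat) => tr (fun t => cmb t (φ (stepW 8 K t))))
    = fun cmb φ K => F cmb K (tr φ) := by krfl
theorem happ : (fun (f : Nat → Nat) (φ : T → T) => app f (tr φ)) = fun f φ => φ (buildC 10 0 6 f) := by krfl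
noncomputable def acc : Acc (stepW 8) (buildC 10 0 6) := ⟨A, tr, F, app, hF, happ⟩
def l0 : List (Nat × Nat) := [(0, 1), (1, 10), (2, 10), (4, 10), (5, 20), (8, 10), (10, 10), (11, 20), (13, 10), (14, 20), (16, 10), (17, 20), (20, 10), (23, 10), (26, 10), (28, 10), (29, 20), (31, 20), (32, 20), (34, 20), (35, 20), (38, 20), (40, 10), (41, 20), (43, 20), (44, 20), (47, 20), (50, 20), (52, 10), (56, 10), (59, 20), (62, 20), (68, 10), (82, 10), (83, 20), (85, 20), (86, 20), (88, 20), (89, 20), (91, 10), (92, 20), (94, 20), (95, 20), (97, 20), (98, 20), (100, 10), (101, 20), (103, 20), (104, 20), (106, 20), (110, 20), (112, 10), (113, 20), (115, 20), (116, 20), (119, 20), (121, 10), (122, 20), (124, 20), (128, 20), (130, 10), (137, 20), (140, 20), (142, 10), (146, 20), (164, 10), (167, 20), (170, 20), (173, 10), (176, 20), (182, 10), (194, 10), (244, 5), (245, 10), (247, 20), (248, 20), (250, 20), (251, 20), (253, 20), (254, 20), (256, 20), (257, 20), (259, 20), (260, 20), (262, 20), (263, 20), (265, 20), (266, 20), (268, 20), (272, 20), (274, 20),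 (275, 20), (277, 20), (278, 20), (280, 10), (281, 20), (283, 20), (284, 20), (286, 20), (289, 20), (290, 20), (292, 20), (299, 20), (301, 20), (302, 20), (304, 20), (308, 20), (310, 20), (316, 10), (326, 20), (328, 10), (329, 20), (331, 20), (332, 20), (335, 20), (337, 20), (338, 20), (340, 20), (344, 20), (346, 20), (353, 20), (356, 20), (358, 20), (362, 20), (364, 10), (380, 20), (407, 20), (410, 20), (412, 10), (416, 20), (434, 20), (488, 5), (491, 20), (494, 20), (497, 20), (500, 20), (506, 20), (518, 20), (524, 10), (572, 10), (739, 10), (740, 20), (742, 10), (743, 20), (745, 10), (746, 20), (749, 10), (752, 10), (757, 10), (758, 20), (760, 20), (761, 20), (763, 20), (764, 20), (766, 20), (767, 20), (769, 20), (770, 20), (772, 20), (775, 20), (776, 20), (778, 20), (784, 10), (785, 20), (787, 20), (788, 20), (790, 20), (793, 20), (794, 20), (796, 20), (802, 20), (812, 10), (814, 20), (815, 20), (817, 20), (818, 20), (820, 10), (821, 20), (823, 20), (824, 20), (826, 20), (829, 20), (830, 20), (832, 20), (839, 20), (841, 20), (842, 20), (844,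 20), (847, 10), (848, 20), (850, 20), (856, 20), (866, 20), (868, 20), (874, 10), (893, 20), (895, 20), (896, 20), (898, 20), (902, 20), (904, 20), (910, 10), (920, 20), (922, 20), (976, 5), (977, 20), (980, 10), (983, 20), (985, 20), (986, 20), (988, 20), (992, 20), (994, 20), (1001, 20), (1003, 10), (1004, 20), (1006, 20), (1010, 20), (1012, 20), (1028, 20), (1030, 10), (1055, 10), (1058, 20), (1060, 20), (1064, 20), (1066, 10), (1082, 20), (1136, 20), (1220, 10), (1222, 10), (1226, 20), (1244, 20), (1298, 10), (1478, 10), (1487, 10), (1490, 20), (1496, 20), (1514, 10), (1544, 20), (1550, 10), (2272, 10), (2273, 20), (2276, 10), (2278, 10), (2279, 20), (2281, 20), (2282, 20), (2284, 20), (2287, 10), (2288, 20), (2290, 20), (2297, 20), (2299, 10), (2300, 20), (2302, 20), (2306, 20), (2308, 10), (2324, 20), (2354, 20), (2360, 10), (2440, 5), (2441, 20), (2443, 10), (2444, 20), (2446, 10), (2450, 10), (2459, 10), (2461, 20), (2462, 20), (2464, 20), (2467, 20), (2468, 20), (2470, 20), (2476, 20), (2486, 20), (2488, 20), (2494, 20), (2515, 20),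 (2516, 20), (2518, 20), (2522, 20), (2524, 20), (2530, 20), (2540, 20), (2542, 20), (2548, 10), (2596, 20), (2684, 10), (2686, 20), (2692, 10), (2702, 10), (2704, 20), (2758, 20), (2954, 20), (2956, 10), (2972, 10), (3008, 20), (3010, 20), (3026, 10), (3028, 10), (3172, 5), (7381, 2), (7382, 10), (7384, 10), (7402, 10), (7564, 5)]
def o0 : List Nat := [713720485385289, 713720485389196, 713720485451366, 713720485679026, 713720487879746, 713720499794086, 713720611325426, 713721344232846, 713728222045906]
theorem b0 : blockC acc 10 38 8 l0 = ofL o0 := by krfl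
def bl : List (List (Nat × Nat) × List Nat) := [(l0, o0)]
theorem hb : ∀ b ∈ bl, blockC acc 10 38 8 b.1 = ofL b.2 :=
  List.forall_mem_cons.2 ⟨b0, List.forall_mem_nil _⟩
theorem cov : cover (9 + 1) 0 6 (orbA 9) (bl.map Prod.fst).flatten 0 = true := by krfl
end R2L10S0T6

end Crest.Agent.R347
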