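import Crest.Agent.R347.Asm
import Crest.Agent.R347.HR10a0
import Crest.Agent.R347.HR10a1
import Crest.Agent.R347.HR10a2
import Crest.Agent.R347.HR10b0
import Crest.Agent.R347.HR10b1
import Crest.Agent.R347.HR10b2
import Crest.Agent.R347.HR10c0
import Crest.Agent.R347.HR10c1
import Crest.Agent.R347.HR10c2
import Crest.Agent.R347.HR10c3

/-! Row 347: enclosures of partition functions (generated). -/

set_option autoImplicit false
set_option Elab.async false
set_option maxRecDepth 100000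

namespace Crest.Agent.R347

theorem R0L10S10T10.chk : (mkD bQ (eQ (8 + 2)) (momOf 80 18 R0L10S10T10.bl) [mkCl 0 14778766 3262 1 ((-1) ^ (8 + 2 + 10)), mkCl 0 14228465 4383 1 ((-1) ^ (8 + 2 + 10))]
    [(1351104844967163231129329891 / 79228162514264337593543950336 : ℚ), (2278611033369750181371211475 / 9903520314283042199192993792 : ℚ), (2283866259931049921631801775 / 9903520314283042199192993792 : ℚ), (7382947965586064631675326691 / 79228162514264337593543950336 : ℚ), (98315031086964167017748759 / 4951760157141521099596496896 : ℚ), (97831886705779769399607239 / 39614081257132168796771975168 : ℚ), (7351212303781184239849823 / 39614081257132168796771975168 : ℚ), (328578964458072177928991 / 39614081257132168796771975168 : ℚ), (2009973294299612718383 / 9903520314283042199192993792 : ℚ), (41444211901885559775 / 19807040628566084398385987584 : ℚ)]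
    (-13 : ℚ) (1 / 20 : ℚ) 30).check
    (2140224042447 / 1000000000000 : ℚ) (2140360123911 / 1000000000000 : ℚ) (428023784289 / 200000000000 : ℚ) (2140360123911 / 1000000000000 : ℚ) = true := by krfl
theorem R0L10S10T10.res : In (tF 1 8 1 10 10) (2140224042447 / 1000000000000 : ℚ) (2140360123911 / 1000000000000 : ℚ) ∧
    In (tF kZ 8 1 10 10) (428023784289 / 200000000000 : ℚ) (2140360123911 / 1000000000000 : ℚ) :=
  resZ (Or.inl rfl) (momRB (Or.inl rfl) (real_kind0 8 (by norm_num)) R0L10S10T10.acc (by decide) R0L10S10T10.hb rfl R0L10S10T10.cov)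
    (List.forall_mem_cons.2 ⟨CluQ.toZ (clR1 (real_kind0 8 (by norm_num)) R0L10S10T10.acc (by norm_num) R0L10S10T10.c0_0),
      List.forall_mem_cons.2 ⟨CluQ.toZ (clR1 (real_kind0 8 (by norm_num)) R0L10S10T10.acc (by norm_num) R0L10S10T10.c1_0),
      List.forall_mem_nil _⟩⟩) R0L10S10T10.chk

theorem R0L10S9T9.chk : (mkD bQ (eQ (8 + 2)) (momOf 72 16 R0L10S9T9.bl) [mkCl 0 14228465 1806 1 ((-1) ^ (8 + 2 + 9)), mkCl 0 13208965 1840 1 ((-1) ^ (8 + 2 + 9))]
    [(1091514956040602580185857879 / 79228162514264337593543950336 : ℚ), (12221681511432693437780664571 / 79228162514264337593543950336 : ℚ), (10143120933943380565093566093 / 79228162514264337593543950336 : ℚ), (3350673823354486692309337843 / 79228162514264337593543950336 : ℚ), (570519837930962006234277827 / 79228162514264337593543950336 : ℚ), (54667962615931881044818151 / 79228162514264337593543950336 : ℚ), (1488247736114921081909645 / 39614081257132168796771975168 : ℚ), (42962204641281941577539 / 39614081257132168796771975168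 : ℚ), (63799615586285877997 / 4951760157141521099596496896 : ℚ)]
    (-261 / 20 : ℚ) (1 / 20 : ℚ) 38).check
    (14530925871 / 1000000000000 : ℚ) (14674172933 / 1000000000000 : ℚ) (-14674172933 / 1000000000000 : ℚ) (-14387794933 / 1000000000000 : ℚ) = true := by krfl
theorem R0L10S9T9.res : In (tF 1 8 1 9 9) (14530925871 / 1000000000000 : ℚ) (14674172933 / 1000000000000 : ℚ) ∧
    In (tF kZ 8 1 9 9) (-14674172933 / 1000000000000 : ℚ) (-14387794933 / 1000000000000 : ℚ) :=
  resZ (Or.inl rfl) (momRA (Or.inl rfl) (real_kind0 8 (by norm_num)) R0L10S9T9.acc (by decide) R0L10S9T9.hb R0L10S9T9.cov)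
    (List.forall_mem_cons.2 ⟨CluQ.toZ (clR1 (real_kind0 8 (by norm_num)) R0L10S9T9.acc (by norm_num) R0L10S9T9.c0_0),
      List.forall_mem_cons.2 ⟨CluQ.toZ (clR1 (real_kind0 8 (by norm_num)) R0L10S9T9.acc (by norm_num) R0L10S9T9.c1_0),
      List.forall_mem_nil _⟩⟩) R0L10S9T9.chk

theorem R0L10S8T8.chk : (mkD bQ (eQ (8 + 2)) (momOf 63 14 R0L10S8T8.bl) []
    [(18819208107189019309750981 / 1237940039285380274899124224 : ℚ), (3779760540821761277299268453 / 39614081257132168796771975168 : ℚ), (5098387431362639798237101617 / 79228162514264337593543950336 : ℚ), (170427168691300168883566945 / 9903520314283042199192993792 : ℚ), (182138624703075701312253967 / 79228162514264337593543950336 : ℚ), (12908820912356194998336503 / 79228162514264337593543950336 : ℚ), (28993912827811996456749 / 4951760157141521099596496896 : ℚ), (6649498019566387981113 / 79228162514264337593543950336 : ℚ)]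
    (-129 / 10 : ℚ) (1 / 20 : ℚ) 53).check
    (0 : ℚ) (14974509 / 500000000000 : ℚ) (-14974509 / 500000000000 : ℚ) (14974509 / 500000000000 : ℚ) = true := by krfl
theorem R0L10S8T8.res : In (tF 1 8 1 8 8) (0 : ℚ) (14974509 / 500000000000 : ℚ) ∧
    In (tF kZ 8 1 8 8) (-14974509 / 500000000000 : ℚ) (14974509 / 500000000000 : ℚ) :=
  resZ (Or.inl rfl) (momRA (Or.inl rfl) (real_kind0 8 (by norm_num)) R0L10S8T8.acc (by decide) R0L10S8T8.hb R0L10S8T8.cov)
    (List.forall_mem_nil _) R0L10S8T8.chk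

theorem R0L10S7T7.chk : (mkD bQ (eQ (8 + 2)) (momOf 46 10 R0L10S7T7.bl) []
    [(1878490442245606280269059835 / 79228162514264337593543950336 : ℚ), (4680344075762244808650887543 / 79228162514264337593543950336 : ℚ), (60694724742903364159158895 / 2475880078570760549798248448 : ℚ), (75493915678959646003571735 / 19807040628566084398385987584 : ℚ), (622131758479640441133655 / 2475880078570760549798248448 : ℚ), (469055075703797854200959 / 79228162514264337593543950336 : ℚ)]
    (-123 / 10 : ℚ) (1 / 20 : ℚ) 85).check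
    (0 : ℚ) (46533 / 500000000000 : ℚ) (-46533 / 500000000000 : ℚ) (46533 / 500000000000 : ℚ) = true := by krfl
theorem R0L10S7T7.res : In (tF 1 8 1 7 7) (0 : ℚ) (46533 / 500000000000 : ℚ) ∧
    In (tF kZ 8 1 7 7) (-46533 / 500000000000 : ℚ) (46533 / 500000000000 : ℚ) :=
  resZ (Or.inl rfl) (momRA (Or.inl rfl) (real_kind0 8 (by norm_num)) R0L10S7T7.acc (by decide) R0L10S7T7.hb R0L10S7T7.cov)
    (List.forall_mem_nil _) R0L10S7T7.chk

theorem R0L10S0T6.chk : (mkD bQ (eQ (8 + 2)) (momOf 37 8 R0L10S0T6.bl) []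
    [(64218717794064938404199715 / 309485009821345068724781056 : ℚ), (4766336000982978578473404883 / 39614081257132168796771975168 : ℚ), (110183183601501290675243835 / 4951760157141521099596496896 : ℚ), (2025784609513343485013531 / 1237940039285380274899124224 : ℚ), (822441133620802594901445 / 19807040628566084398385987584 : ℚ)]
    (-47 / 4 : ℚ) (1 / 20 : ℚ) 74).check
    (0 : ℚ) (121 / 250000000000 : ℚ) (-121 / 250000000000 : ℚ) (121 / 250000000000 : ℚ) = true := by krfl
theorem R0L10S0T6.res : In (tF 1 8 1 0 6) (0 : ℚ) (121 / 250000000000 : ℚ) ∧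
    In (tF kZ 8 1 0 6) (-121 / 250000000000 : ℚ) (121 / 250000000000 : ℚ) :=
  resZ (Or.inl rfl) (momRA (Or.inl rfl) (real_kind0 8 (by norm_num)) R0L10S0T6.acc (by decide) R0L10S0T6.hb R0L10S0T6.cov)
    (List.forall_mem_nil _) R0L10S0T6.chk

theorem R1L10S10T10.chk : (mkD bQ (eQ (8 + 2)) (momOf 80 18 R1L10S10T10.bl) [mkCl 0 14661338 3471 1 ((-1) ^ (8 + 2) * (-1)), mkCl 0 14245113 4461 1 ((-1) ^ (8 + 2) * 1)]
    [(1812616678510600845362276165 / 79228162514264337593543950336 : ℚ), (18176576453029462122942475481 / 79228162514264337593543950336 : ℚ), (18075935427054224893551378533 / 79228162514264337593543950336 : ℚ), (7343879149221650705429179129 / 79228162514264337593543950336 : ℚ), (394852392096581149381132481 / 19807040628566084398385987584 : ℚ), (99331077925809485879600965 / 39614081257132168796771975168 : ℚ), (7555863065142846504472541 / 39614081257132168796771975168 : ℚ), (342148784105491232648633 / 39614081257132168796771975168 : ℚ), (8486608319172756941843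 / 39614081257132168796771975168 : ℚ), (177474172188798586247 / 79228162514264337593543950336 : ℚ)]
    (-131 / 10 : ℚ) (1 / 20 : ℚ) 32).check
    (375248450819 / 500000000000 : ℚ) (375378921133 / 500000000000 : ℚ) (-358483965369 / 500000000000 : ℚ) (-179114412203 / 250000000000 : ℚ) = true := by krfl
theorem R1L10S10T10.res : In (tF 1 8 RZ 10 10) (375248450819 / 500000000000 : ℚ) (375378921133 / 500000000000 : ℚ) ∧
    In (tF kX 8 RZ 10 10) (-358483965369 / 500000000000 : ℚ) (-179114412203 / 250000000000 : ℚ) :=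
  resX  (momRB (Or.inr (Or.inl rfl)) (real_kindP 8 (by norm_num)) R1L10S10T10.acc (by decide) R1L10S10T10.hb rfl R1L10S10T10.cov)
    (List.forall_mem_cons.2 ⟨clX1 (real_kindP 8 (by norm_num)) R1L10S10T10.acc (by norm_num) (-1) R1L10S10T10.c0_0 (parM_imp _ _ R1L10S10T10.p0_0),
      List.forall_mem_cons.2 ⟨clX1 (real_kindP 8 (by norm_num)) R1L10S10T10.acc (by norm_num) 1 R1L10S10T10.c1_0 (parP_imp _ _ R1L10S10T10.p1_0),
      List.forall_mem_nil _⟩⟩) R1L10S10T10.chk

theorem R1L10S9T9.chk : (mkD bQ (eQ (8 + 2)) (momOf 72 16 R1L10S9T9.bl) [mkCl 0 13806869 2564 2 ((-1) ^ (8 + 2 + 9))]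
    [(1060100805212877168178044399 / 79228162514264337593543950336 : ℚ), (12065931713450840803330642067 / 79228162514264337593543950336 : ℚ), (10128489230234839487211015775 / 79228162514264337593543950336 : ℚ), (3385202919457466141011329509 / 79228162514264337593543950336 : ℚ), (583361150274454682770135999 / 79228162514264337593543950336 : ℚ), (14147409802005572648414985 / 19807040628566084398385987584 : ℚ), (3120057110070715525337787 / 79228162514264337593543950336 : ℚ), (91230139080261106609973 / 79228162514264337593543950336 : ℚ), (1098071751160902446235 / 79228162514264337593543950336 : ℚ)]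
    (-261 / 20 : ℚ) (1 / 20 : ℚ) 38).check
    (637441457 / 1000000000000 : ℚ) (778876863 / 1000000000000 : ℚ) (-778876863 / 1000000000000 : ℚ) (-124003321 / 250000000000 : ℚ) = true := by krfl
theorem R1L10S9T9.res : In (tF 1 8 RZ 9 9) (637441457 / 1000000000000 : ℚ) (778876863 / 1000000000000 : ℚ) ∧
    In (tF kZ 8 RZ 9 9) (-778876863 / 1000000000000 : ℚ) (-124003321 / 250000000000 : ℚ) :=
  resZ (Or.inr (Or.inl rfl)) (momRA (Or.inr (Or.inl rfl)) (real_kindP 8 (by norm_num)) R1L10S9T9.acc (by decide) R1L10S9T9.hb R1L10S9T9.cov)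
    (List.forall_mem_cons.2 ⟨CluQ.toZ (clR2 (real_kindP 8 (by norm_num)) R1L10S9T9.acc (by norm_num) R1L10S9T9.c0_0 R1L10S9T9.c0_1 R1L10S9T9.or0),
      List.forall_mem_nil _⟩) R1L10S9T9.chk

theorem R1L10S8T8.chk : (mkD bQ (eQ (8 + 2)) (momOf 63 14 R1L10S8T8.bl) []
    [(1199111082033619698499759901 / 79228162514264337593543950336 : ℚ), (2135513201013705981044002287 / 19807040628566084398385987584 : ℚ), (2928986407506333028732685881 / 39614081257132168796771975168 : ℚ), (395859819949258278487123731 / 19807040628566084398385987584 : ℚ), (53366360159053204296482321 / 19807040628566084398385987584 : ℚ), (3814447583042123769944905 / 19807040628566084398385987584 : ℚ), (552825830845701655728599 / 79228162514264337593543950336 : ℚ), (7988105444461903221993 / 79228162514264337593543950336 : ℚ)]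
    (-51 / 4 : ℚ) (1 / 20 : ℚ) 49).check
    (0 : ℚ) (98439 / 12500000000 : ℚ) (-98439 / 12500000000 : ℚ) (98439 / 12500000000 : ℚ) = true := by krfl
theorem R1L10S8T8.res : In (tF 1 8 RZ 8 8) (0 : ℚ) (98439 / 12500000000 : ℚ) ∧
    In (tF kZ 8 RZ 8 8) (-98439 / 12500000000 : ℚ) (98439 / 12500000000 : ℚ) :=
  resZ (Or.inr (Or.inl rfl)) (momRA (Or.inr (Or.inl rfl)) (real_kindP 8 (by norm_num)) R1L10S8T8.acc (by decide) R1L10S8T8.hb R1L10S8T8.cov)
    (List.forall_mem_nil _) R1L10S8T8.chk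

theorem R1L10S7T7.chk : (mkD bQ (eQ (8 + 2)) (momOf 46 10 R1L10S7T7.bl) []
    [(445655182435013699561034863 / 19807040628566084398385987584 : ℚ), (2319674443206085794728526887 / 39614081257132168796771975168 : ℚ), (1944947739480874153617534639 / 79228162514264337593543950336 : ℚ), (76043127742222572757208029 / 19807040628566084398385987584 : ℚ), (20136791385953578675326467 / 79228162514264337593543950336 : ℚ), (475983009927178234703541 / 79228162514264337593543950336 : ℚ)]
    (-49 / 4 : ℚ) (1 / 20 : ℚ) 84).check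
    (0 : ℚ) (14839 / 250000000000 : ℚ) (-14839 / 250000000000 : ℚ) (14839 / 250000000000 : ℚ) = true := by krfl
theorem R1L10S7T7.res : In (tF 1 8 RZ 7 7) (0 : ℚ) (14839 / 250000000000 : ℚ) ∧
    In (tF kZ 8 RZ 7 7) (-14839 / 250000000000 : ℚ) (14839 / 250000000000 : ℚ) :=
  resZ (Or.inr (Or.inl rfl)) (momRA (Or.inr (Or.inl rfl)) (real_kindP 8 (by norm_num)) R1L10S7T7.acc (by decide) R1L10S7T7.hb R1L10S7T7.cov)
    (List.forall_mem_nil _) R1L10S7T7.chk

theorem R1L10S0T6.chk : (mkD bQ (eQ (8 + 2)) (momOf 37 8 R1L10S0T6.bl) []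
    [(64218717794064938404199715 / 309485009821345068724781056 : ℚ), (4766336000982978578473404883 / 39614081257132168796771975168 : ℚ), (110183183601501290675243835 / 4951760157141521099596496896 : ℚ), (2025784609513343485013531 / 1237940039285380274899124224 : ℚ), (822441133620802594901445 / 19807040628566084398385987584 : ℚ)]
    (-47 / 4 : ℚ) (1 / 20 : ℚ) 74).check
    (0 : ℚ) (121 / 250000000000 : ℚ) (-121 / 250000000000 : ℚ) (121 / 250000000000 : ℚ) = true := by krfl
theorem R1L10S0T6.res : In (tF 1 8 RZ 0 6) (0 : ℚ) (121 / 250000000000 : ℚ) ∧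
    In (tF kZ 8 RZ 0 6) (-121 / 250000000000 : ℚ) (121 / 250000000000 : ℚ) :=
  resZ (Or.inr (Or.inl rfl)) (momRA (Or.inr (Or.inl rfl)) (real_kindP 8 (by norm_num)) R1L10S0T6.acc (by decide) R1L10S0T6.hb R1L10S0T6.cov)
    (List.forall_mem_nil _) R1L10S0T6.chk

theorem R2L10S10T10.chk : (mkD bQ (eQ (8 + 2)) (momOf 82 18 R2L10S10T10.bl) [mkCl 0 14694541 4913 1 ((-1) ^ (8 + 2 + 10)), mkCl 0 14241021 6637 1 ((-1) ^ (8 + 2 + 10))]
    [(923131172062118679930815447 / 39614081257132168796771975168 : ℚ), (18427664542343272118551113889 / 79228162514264337593543950336 : ℚ), (9039667486246702844833019529 / 39614081257132168796771975168 : ℚ), (1812217938740741264387712505 / 19807040628566084398385987584 : ℚ), (1539156277031290528892303805 / 79228162514264337593543950336 : ℚ), (191200559863879147667900173 / 79228162514264337593543950336 : ℚ), (14367554437129772817063147 / 79228162514264337593543950336 : ℚ), (2511025724591139183675 / 309485009821345068724781056 : ℚ), (7878091224872700413651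 / 39614081257132168796771975168 : ℚ), (162821605053626965379 / 79228162514264337593543950336 : ℚ)]
    (-261 / 20 : ℚ) (1 / 20 : ℚ) 29).check
    (1007344387797 / 1000000000000 : ℚ) (1007534556943 / 1000000000000 : ℚ) (1007176238597 / 1000000000000 : ℚ) (1007534556943 / 1000000000000 : ℚ) = true := by krfl
theorem R2L10S10T10.res : In (tF 1 8 RW 10 10) (1007344387797 / 1000000000000 : ℚ) (1007534556943 / 1000000000000 : ℚ) ∧
    In (tF kZ 8 RW 10 10) (1007176238597 / 1000000000000 : ℚ) (1007534556943 / 1000000000000 : ℚ) :=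
  resZ (Or.inr (Or.inr rfl)) (momCB (Or.inr (Or.inr rfl)) (cplx_kindW 8 (by norm_num)) R2L10S10T10.acc (by decide) R2L10S10T10.hb rfl R2L10S10T10.cov)
    (List.forall_mem_cons.2 ⟨CluQ.toZ (clC1 (cplx_kindW 8 (by norm_num)) R2L10S10T10.acc (by norm_num) (by norm_num) (by norm_num) R2L10S10T10.c0_0),
      List.forall_mem_cons.2 ⟨CluQ.toZ (clC1 (cplx_kindW 8 (by norm_num)) R2L10S10T10.acc (by norm_num) (by norm_num) (by norm_num) R2L10S10T10.c1_0),
      List.forall_mem_nil _⟩⟩) R2L10S10T10.chk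

theorem R2L10S9T9.chk : (mkD bQ (eQ (8 + 2)) (momOf 73 16 R2L10S9T9.bl) [mkCl 0 14033091 1389 1 ((-1) ^ (8 + 2 + 9)), mkCl 0 13532879 1609 1 ((-1) ^ (8 + 2 + 9))]
    [(1110236771094104045252731611 / 79228162514264337593543950336 : ℚ), (6069557598899705134189567649 / 39614081257132168796771975168 : ℚ), (2531464136988962801800588747 / 19807040628566084398385987584 : ℚ), (3367262792791799324097486549 / 79228162514264337593543950336 : ℚ), (288767509152807495436836897 / 39614081257132168796771975168 : ℚ), (55767480363668035371759037 / 79228162514264337593543950336 : ℚ), (3060791961624028459589037 / 79228162514264337593543950336 : ℚ), (89093826377187729889591 / 79228162514264337593543950336 : ℚ), (133442223098583027679 / 9903520314283042199192993792 : ℚ)]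
    (-261 / 20 : ℚ) (1 / 20 : ℚ) 38).check
    (2501312627 / 1000000000000 : ℚ) (105788329 / 40000000000 : ℚ) (-105788329 / 40000000000 : ℚ) (-2357932431 / 1000000000000 : ℚ) = true := by krfl
theorem R2L10S9T9.res : In (tF 1 8 RW 9 9) (2501312627 / 1000000000000 : ℚ) (105788329 / 40000000000 : ℚ) ∧
    In (tF kZ 8 RW 9 9) (-105788329 / 40000000000 : ℚ) (-2357932431 / 1000000000000 : ℚ) :=
  resZ (Or.inr (Or.inr rfl)) (momCA (Or.inr (Or.inr rfl)) (cplx_kindW 8 (by norm_num)) R2L10S9T9.acc (by decide) R2L10S9T9.hb R2L10S9T9.cov)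
    (List.forall_mem_cons.2 ⟨CluQ.toZ (clC1 (cplx_kindW 8 (by norm_num)) R2L10S9T9.acc (by norm_num) (by norm_num) (by norm_num) R2L10S9T9.c0_0),
      List.forall_mem_cons.2 ⟨CluQ.toZ (clC1 (cplx_kindW 8 (by norm_num)) R2L10S9T9.acc (by norm_num) (by norm_num) (by norm_num) R2L10S9T9.c1_0),
      List.forall_mem_nil _⟩⟩) R2L10S9T9.chk

theorem R2L10S8T8.chk : (mkD bQ (eQ (8 + 2)) (momOf 64 14 R2L10S8T8.bl) []
    [(1459318525630935836066272547 / 79228162514264337593543950336 : ℚ), (4337145054114057113616260443 / 39614081257132168796771975168 : ℚ), (1458284936864462465489458771 / 19807040628566084398385987584 : ℚ), (780594099804479774061809901 / 39614081257132168796771975168 : ℚ), (209011654791883488838971039 / 79228162514264337593543950336 : ℚ), (14856360989017222535358073 / 79228162514264337593543950336 : ℚ), (133922917908617355930293 / 19807040628566084398385987584 : ℚ), (7706968859952518836887 / 79228162514264337593543950336 : ℚ)]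
    (-64 / 5 : ℚ) (1 / 20 : ℚ) 50).check
    (0 : ℚ) (12142937 / 1000000000000 : ℚ) (-12142937 / 1000000000000 : ℚ) (12142937 / 1000000000000 : ℚ) = true := by krfl
theorem R2L10S8T8.res : In (tF 1 8 RW 8 8) (0 : ℚ) (12142937 / 1000000000000 : ℚ) ∧
    In (tF kZ 8 RW 8 8) (-12142937 / 1000000000000 : ℚ) (12142937 / 1000000000000 : ℚ) :=
  resZ (Or.inr (Or.inr rfl)) (momCA (Or.inr (Or.inr rfl)) (cplx_kindW 8 (by norm_num)) R2L10S8T8.acc (by decide) R2L10S8T8.hb R2L10S8T8.cov)
    (List.forall_mem_nil _) R2L10S8T8.chk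

theorem R2L10S7T7.chk : (mkD bQ (eQ (8 + 2)) (momOf 46 10 R2L10S7T7.bl) []
    [(225856584993841660202905777 / 9903520314283042199192993792 : ℚ), (4649710796980650524884048115 / 79228162514264337593543950336 : ℚ), (972130553550766824244834889 / 39614081257132168796771975168 : ℚ), (303617237399197648227623969 / 79228162514264337593543950336 : ℚ), (20079016926723925687768467 / 79228162514264337593543950336 : ℚ), (7409873608324346897721 / 1237940039285380274899124224 : ℚ)]
    (-49 / 4 : ℚ) (1 / 20 : ℚ) 84).check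
    (0 : ℚ) (29883 / 500000000000 : ℚ) (-29883 / 500000000000 : ℚ) (29883 / 500000000000 : ℚ) = true := by krfl
theorem R2L10S7T7.res : In (tF 1 8 RW 7 7) (0 : ℚ) (29883 / 500000000000 : ℚ) ∧
    In (tF kZ 8 RW 7 7) (-29883 / 500000000000 : ℚ) (29883 / 500000000000 : ℚ) :=
  resZ (Or.inr (Or.inr rfl)) (momCA (Or.inr (Or.inr rfl)) (cplx_kindW 8 (by norm_num)) R2L10S7T7.acc (by decide) R2L10S7T7.hb R2L10S7T7.cov)
    (List.forall_mem_nil _) R2L10S7T7.chk

theorem R2L10S0T6.chk : (mkD bQ (eQ (8 + 2)) (momOf 38 8 R2L10S0T6.bl) []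
    [(64218717794064938404199715 / 309485009821345068724781056 : ℚ), (4766336000982978578473404883 / 39614081257132168796771975168 : ℚ), (110183183601501290675243835 / 4951760157141521099596496896 : ℚ), (2025784609513343485013531 / 1237940039285380274899124224 : ℚ), (822441133620802594901445 / 19807040628566084398385987584 : ℚ)]
    (-47 / 4 : ℚ) (1 / 20 : ℚ) 74).check
    (0 : ℚ) (121 / 250000000000 : ℚ) (-121 / 250000000000 : ℚ) (121 / 250000000000 : ℚ) = true := by krfl
theorem R2L10S0T6.res : In (tF 1 8 RW 0 6) (0 : ℚ) (121 / 250000000000 : ℚ) ∧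
    In (tF kZ 8 RW 0 6) (-121 / 250000000000 : ℚ) (121 / 250000000000 : ℚ) :=
  resZ (Or.inr (Or.inr rfl)) (momCA (Or.inr (Or.inr rfl)) (cplx_kindW 8 (by norm_num)) R2L10S0T6.acc (by decide) R2L10S0T6.hb R2L10S0T6.cov)
    (List.forall_mem_nil _) R2L10S0T6.chk

theorem bd_Z0_10 : (216928589 / 100000000 : ℝ) ≤ Zc 1 1 9 ∧ Zc 1 1 9 ≤ (27122107 / 12500000 : ℝ) := by
  have h0 := R0L10S10T10.res
  have h1 := R0L10S9T9.res
  have h2 := R0L10S8T8.res
  have h3 := R0L10S7T7.res
  have h4 := R0L10S0T6.res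
  have e0 : Zc 1 1 9 = tF 1 8 1 10 10 + 2 * tF 1 8 1 0 9 := Zc_one (Or.inl rfl) 8
  have e1 := tF_split 1 8 1 0 6 9 (by norm_num) (by norm_num)
  have e2 := tF_split 1 8 1 7 7 9 (by norm_num) (by norm_num)
  have e3 := tF_split 1 8 1 8 8 9 (by norm_num) (by norm_num)
  simp only [In] at h0 h1 h2 h3 h4
  push_cast at h0 h1 h2 h3 h4
  norm_num only at e1 e2 e3
  constructor <;> linarith [h0.1.1, h0.1.2, h0.2.1, h0.2.2, h1.1.1, h1.1.2, h1.2.1, h1.2.2, h2.1.1, h2.1.2, h2.2.1, h2.2.2, h3.1.1, h3.1.2, h3.2.1, h3.2.2, h4.1.1, h4.1.2, h4.2.1, h4.2.2]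

theorem bd_Y0_10 : (211071049 / 100000000 : ℝ) ≤ Zc kZ 1 9 ∧ Zc kZ 1 9 ≤ (105582231 / 50000000 : ℝ) := by
  have h0 := R0L10S10T10.res
  have h1 := R0L10S9T9.res
  have h2 := R0L10S8T8.res
  have h3 := R0L10S7T7.res
  have h4 := R0L10S0T6.res
  have e0 : Zc kZ 1 9 = tF kZ 8 1 10 10 + 2 * tF kZ 8 1 0 9 := Zc_kZ (Or.inl rfl) 8
  have e1 := tF_split kZ 8 1 0 6 9 (by norm_num) (by norm_num)
  have e2 := tF_split kZ 8 1 7 7 9 (by norm_num) (by norm_num)
  have e3 := tF_split kZ 8 1 8 8 9 (by norm_num) (by norm_num)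
  simp only [In] at h0 h1 h2 h3 h4
  push_cast at h0 h1 h2 h3 h4
  norm_num only at e1 e2 e3
  constructor <;> linarith [h0.1.1, h0.1.2, h0.2.1, h0.2.2, h1.1.1, h1.1.2, h1.2.1, h1.2.2, h2.1.1, h2.1.2, h2.2.1, h2.2.2, h3.1.1, h3.1.2, h3.2.1, h3.2.2, h4.1.1, h4.1.2, h4.2.1, h4.2.2]

theorem bd_Zp_10 : (37588589 / 50000000 : ℝ) ≤ Zc 1 RZ 9 ∧ Zc 1 RZ 9 ≤ (75233147 / 100000000 : ℝ) := by
  have h0 := R1L10S10T10.res
  have h1 := R1L10S9T9.res
  have h2 := R1L10S8T8.res
  have h3 := R1L10S7T7.res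
  have h4 := R1L10S0T6.res
  have e0 : Zc 1 RZ 9 = tF 1 8 RZ 10 10 + 2 * tF 1 8 RZ 0 9 := Zc_one (Or.inr (Or.inl rfl)) 8
  have e1 := tF_split 1 8 RZ 0 6 9 (by norm_num) (by norm_num)
  have e2 := tF_split 1 8 RZ 7 7 9 (by norm_num) (by norm_num)
  have e3 := tF_split 1 8 RZ 8 8 9 (by norm_num) (by norm_num)
  simp only [In] at h0 h1 h2 h3 h4
  push_cast at h0 h1 h2 h3 h4
  norm_num only at e1 e2 e3
  constructor <;> linarith [h0.1.1, h0.1.2, h0.2.1, h0.2.2, h1.1.1, h1.1.2, h1.2.1, h1.2.2, h2.1.1, h2.1.2, h2.2.1, h2.2.2, h3.1.1, h3.1.2, h3.2.1, h3.2.2, h4.1.1, h4.1.2, h4.2.1, h4.2.2]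

theorem bd_Yx_10 : (-35848397 / 50000000 : ℝ) ≤ Zc kX RZ 9 ∧ Zc kX RZ 9 ≤ (-17911441 / 25000000 : ℝ) := by
  have h0 := R1L10S10T10.res
  have e0 : Zc kX RZ 9 = tF kX 8 RZ 10 10 := Zc_kX 8
  simp only [In] at h0
  push_cast at h0
  constructor <;> linarith [h0.1.1, h0.1.2, h0.2.1, h0.2.2]

theorem bd_Zw_10 : (101234701 / 100000000 : ℝ) ≤ Zc 1 RW 9 ∧ Zc 1 RW 9 ≤ (50642419 / 50000000 : ℝ) := by
  have h0 := R2L10S10T10.res
  have h1 := R2L10S9T9.res
  have h2 := R2L10S8T8.res
  have h3 := R2L10S7T7.res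
  have h4 := R2L10S0T6.res
  have e0 : Zc 1 RW 9 = tF 1 8 RW 10 10 + 2 * tF 1 8 RW 0 9 := Zc_one (Or.inr (Or.inr rfl)) 8
  have e1 := tF_split 1 8 RW 0 6 9 (by norm_num) (by norm_num)
  have e2 := tF_split 1 8 RW 7 7 9 (by norm_num) (by norm_num)
  have e3 := tF_split 1 8 RW 8 8 9 (by norm_num) (by norm_num)
  simp only [In] at h0 h1 h2 h3 h4
  push_cast at h0 h1 h2 h3 h4
  norm_num only at e1 e2 e3
  constructor <;> linarith [h0.1.1, h0.1.2, h0.2.1, h0.2.2, h1.1.1, h1.1.2, h1.2.1, h1.2.2, h2.1.1, h2.1.2, h2.2.1, h2.2.2, h3.1.1, h3.1.2, h3.2.1, h3.2.2, h4.1.1, h4.1.2, h4.2.1, h4.2.2]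

theorem bd_Yw_10 : (100186241 / 100000000 : ℝ) ≤ Zc kZ RW 9 ∧ Zc kZ RW 9 ≤ (10028431 / 10000000 : ℝ) := by
  have h0 := R2L10S10T10.res
  have h1 := R2L10S9T9.res
  have h2 := R2L10S8T8.res
  have h3 := R2L10S7T7.res
  have h4 := R2L10S0T6.res
  have e0 : Zc kZ RW 9 = tF kZ 8 RW 10 10 + 2 * tF kZ 8 RW 0 9 := Zc_kZ (Or.inr (Or.inr rfl)) 8
  have e1 := tF_split kZ 8 RW 0 6 9 (by norm_num) (by norm_num)
  have e2 := tF_split kZ 8 RW 7 7 9 (by norm_num) (by norm_num)
  have e3 := tF_split kZ 8 RW 8 8 9 (by norm_num) (by norm_num)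
  simp only [In] at h0 h1 h2 h3 h4
  push_cast at h0 h1 h2 h3 h4
  norm_num only at e1 e2 e3
  constructor <;> linarith [h0.1.1, h0.1.2, h0.2.1, h0.2.2, h1.1.1, h1.1.2, h1.2.1, h1.2.2, h2.1.1, h2.1.2, h2.2.1, h2.2.2, h3.1.1, h3.1.2, h3.2.1, h3.2.2, h4.1.1, h4.1.2, h4.2.1, h4.2.2]

end Crest.Agent.R347
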