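import Crest.Agent.R347.Asm
import Crest.Agent.R347.HR6

/-! Row 347: enclosures of partition functions (generated). -/

set_option autoImplicit false
set_option Elab.async false
set_option maxRecDepth 100000

namespace Crest.Agent.R347

theorem R0L6S6T6.chk : (mkD bQ (eQ (4 + 2)) (momOf 31 8 R0L6S6T6.bl) [mkCl 0 9036023 637 1 ((-1) ^ (4 + 2 + 6)), mkCl 0 8280391 1777 1 ((-1) ^ (4 + 2 + 6))]
    [(7712562223570877941284146481 / 79228162514264337593543950336 : ℚ), (18960168949537874269280954511 / 79228162514264337593543950336 : ℚ), (1016999516008239286309530491 / 9903520314283042199192993792 : ℚ), (73159259550421433713045323 / 4951760157141521099596496896 : ℚ), (13414710847718353977336781 / 19807040628566084398385987584 : ℚ)]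
    (-29 / 4 : ℚ) (1 / 20 : ℚ) 40).check
    (3630457372477 / 500000000000 : ℚ) (7260955949437 / 1000000000000 : ℚ) (3630447026707 / 500000000000 : ℚ) (7260955949437 / 1000000000000 : ℚ) = true := by krfl
theorem R0L6S6T6.res : In (tF 1 4 1 6 6) (3630457372477 / 500000000000 : ℚ) (7260955949437 / 1000000000000 : ℚ) ∧
    In (tF kZ 4 1 6 6) (3630447026707 / 500000000000 : ℚ) (7260955949437 / 1000000000000 : ℚ) :=
  resZ (Or.inl rfl) (momRB (Or.inl rfl) (real_kind0 4 (by norm_num)) R0L6S6T6.acc (by decide) R0L6S6T6.hb rfl R0L6S6T6.cov)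
    (List.forall_mem_cons.2 ⟨CluQ.toZ (clR1 (real_kind0 4 (by norm_num)) R0L6S6T6.acc (by norm_num) R0L6S6T6.c0_0),
      List.forall_mem_cons.2 ⟨CluQ.toZ (clR1 (real_kind0 4 (by norm_num)) R0L6S6T6.acc (by norm_num) R0L6S6T6.c1_0),
      List.forall_mem_nil _⟩⟩) R0L6S6T6.chk

theorem R0L6S5T5.chk : (mkD bQ (eQ (4 + 2)) (momOf 31 8 R0L6S5T5.bl) [mkCl 0 8280391 1758 1 ((-1) ^ (4 + 2 + 5))]
    [(4302270226980180757977178105 / 39614081257132168796771975168 : ℚ), (309821666456262674335882061 / 1237940039285380274899124224 : ℚ), (8316706250930799035011503015 / 79228162514264337593543950336 : ℚ), (1178305030113705565196802271 / 79228162514264337593543950336 : ℚ), (6669406408741178487231579 / 9903520314283042199192993792 : ℚ)]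
    (-29 / 4 : ℚ) (1 / 20 : ℚ) 39).check
    (3857785679 / 500000000000 : ℚ) (386776263 / 50000000000 : ℚ) (-386776263 / 50000000000 : ℚ) (-3847838739 / 500000000000 : ℚ) = true := by krfl
theorem R0L6S5T5.res : In (tF 1 4 1 5 5) (3857785679 / 500000000000 : ℚ) (386776263 / 50000000000 : ℚ) ∧
    In (tF kZ 4 1 5 5) (-386776263 / 50000000000 : ℚ) (-3847838739 / 500000000000 : ℚ) :=
  resZ (Or.inl rfl) (momRA (Or.inl rfl) (real_kind0 4 (by norm_num)) R0L6S5T5.acc (by decide) R0L6S5T5.hb R0L6S5T5.cov)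
    (List.forall_mem_cons.2 ⟨CluQ.toZ (clR1 (real_kind0 4 (by norm_num)) R0L6S5T5.acc (by norm_num) R0L6S5T5.c0_0),
      List.forall_mem_nil _⟩) R0L6S5T5.chk

theorem R0L6S0T4.chk : (mkD bQ (eQ (4 + 2)) (momOf 26 6 R0L6S0T4.bl) []
    [(3459082687311599568587189849 / 39614081257132168796771975168 : ℚ), (10022753304827185574229861597 / 79228162514264337593543950336 : ℚ), (2654682040533903851202042593 / 79228162514264337593543950336 : ℚ), (184183971476421400687934975 / 79228162514264337593543950336 : ℚ)]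
    (-73 / 10 : ℚ) (1 / 20 : ℚ) 72).check
    (0 : ℚ) (2945021 / 100000000000 : ℚ) (-2945021 / 100000000000 : ℚ) (2945021 / 100000000000 : ℚ) = true := by krfl
theorem R0L6S0T4.res : In (tF 1 4 1 0 4) (0 : ℚ) (2945021 / 100000000000 : ℚ) ∧
    In (tF kZ 4 1 0 4) (-2945021 / 100000000000 : ℚ) (2945021 / 100000000000 : ℚ) :=
  resZ (Or.inl rfl) (momRA (Or.inl rfl) (real_kind0 4 (by norm_num)) R0L6S0T4.acc (by decide) R0L6S0T4.hb R0L6S0T4.cov)
    (List.forall_mem_nil _) R0L6S0T4.chk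

theorem R1L6S6T6.chk : (mkD bQ (eQ (4 + 2)) (momOf 31 8 R1L6S6T6.bl) [mkCl 0 8709391 541 1 ((-1) ^ (4 + 2) * (-1)), mkCl 0 8329163 1315 1 ((-1) ^ (4 + 2) * 1)]
    [(7340521166038888500319925707 / 79228162514264337593543950336 : ℚ), (19436358632175377959338583033 / 79228162514264337593543950336 : ℚ), (2167561826597597797343665203 / 19807040628566084398385987584 : ℚ), (1300171448343881142058930207 / 79228162514264337593543950336 : ℚ), (62273650963175277462209109 / 79228162514264337593543950336 : ℚ)]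
    (-147 / 20 : ℚ) (1 / 20 : ℚ) 39).check
    (48516936899 / 125000000000 : ℚ) (388186399899 / 1000000000000 : ℚ) (-182090709491 / 500000000000 : ℚ) (-364080580313 / 1000000000000 : ℚ) = true := by krfl
theorem R1L6S6T6.res : In (tF 1 4 RZ 6 6) (48516936899 / 125000000000 : ℚ) (388186399899 / 1000000000000 : ℚ) ∧
    In (tF kX 4 RZ 6 6) (-182090709491 / 500000000000 : ℚ) (-364080580313 / 1000000000000 : ℚ) :=
  resX  (momRB (Or.inr (Or.inl rfl)) (real_kindP 4 (by norm_num)) R1L6S6T6.acc (by decide) R1L6S6T6.hb rfl R1L6S6T6.cov)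
    (List.forall_mem_cons.2 ⟨clX1 (real_kindP 4 (by norm_num)) R1L6S6T6.acc (by norm_num) (-1) R1L6S6T6.c0_0 (parM_imp _ _ R1L6S6T6.p0_0),
      List.forall_mem_cons.2 ⟨clX1 (real_kindP 4 (by norm_num)) R1L6S6T6.acc (by norm_num) 1 R1L6S6T6.c1_0 (parP_imp _ _ R1L6S6T6.p1_0),
      List.forall_mem_nil _⟩⟩) R1L6S6T6.chk

theorem R1L6S5T5.chk : (mkD bQ (eQ (4 + 2)) (momOf 46 12 R1L6S5T5.bl) []
    [(10446644087534908900374600731 / 79228162514264337593543950336 : ℚ), (45972963579542538473190833497 / 79228162514264337593543950336 : ℚ), (9320223297705490797578652859 / 19807040628566084398385987584 : ℚ), (6017855631593671488708017511 / 39614081257132168796771975168 : ℚ), (1843761183308517101007505421 / 79228162514264337593543950336 : ℚ), (67023783553725811150033145 / 39614081257132168796771975168 : ℚ), (3722577085767414298935239 / 79228162514264337593543950336 : ℚ)]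
    (-37 / 5 : ℚ) (1 / 20 : ℚ) 20).check
    (0 : ℚ) (28604187 / 250000000000 : ℚ) (-28604187 / 250000000000 : ℚ) (28604187 / 250000000000 : ℚ) = true := by krfl
theorem R1L6S5T5.res : In (tF 1 4 RZ 5 5) (0 : ℚ) (28604187 / 250000000000 : ℚ) ∧
    In (tF kZ 4 RZ 5 5) (-28604187 / 250000000000 : ℚ) (28604187 / 250000000000 : ℚ) :=
  resZ (Or.inr (Or.inl rfl)) (momRA (Or.inr (Or.inl rfl)) (real_kindP 4 (by norm_num)) R1L6S5T5.acc (by decide) R1L6S5T5.hb R1L6S5T5.cov)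
    (List.forall_mem_nil _) R1L6S5T5.chk

theorem R1L6S0T4.chk : (mkD bQ (eQ (4 + 2)) (momOf 26 6 R1L6S0T4.bl) []
    [(1708300365574307583958858745 / 19807040628566084398385987584 : ℚ), (1330054604957164347325047139 / 9903520314283042199192993792 : ℚ), (2889142361582649862133474667 / 79228162514264337593543950336 : ℚ), (50827221604183119376775941 / 19807040628566084398385987584 : ℚ)]
    (-143 / 20 : ℚ) (1 / 20 : ℚ) 68).check
    (0 : ℚ) (1406807 / 200000000000 : ℚ) (-1406807 / 200000000000 : ℚ) (1406807 / 200000000000 : ℚ) = true := by krfl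
theorem R1L6S0T4.res : In (tF 1 4 RZ 0 4) (0 : ℚ) (1406807 / 200000000000 : ℚ) ∧
    In (tF kZ 4 RZ 0 4) (-1406807 / 200000000000 : ℚ) (1406807 / 200000000000 : ℚ) :=
  resZ (Or.inr (Or.inl rfl)) (momRA (Or.inr (Or.inl rfl)) (real_kindP 4 (by norm_num)) R1L6S0T4.acc (by decide) R1L6S0T4.hb R1L6S0T4.cov)
    (List.forall_mem_nil _) R1L6S0T4.chk

theorem R2L6S6T6.chk : (mkD bQ (eQ (4 + 2)) (momOf 32 8 R2L6S6T6.bl) [mkCl 0 8810443 1372 1 ((-1) ^ (4 + 2 + 6)), mkCl 0 8317357 1140 1 ((-1) ^ (4 + 2 + 6))]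
    [(8146782893082233128034602921 / 79228162514264337593543950336 : ℚ), (20388373692174187452294840573 / 79228162514264337593543950336 : ℚ), (8892905656494384119003120463 / 79228162514264337593543950336 : ℚ), (1308714482144054258665366943 / 79228162514264337593543950336 : ℚ), (30813207397529132083382985 / 39614081257132168796771975168 : ℚ)]
    (-73 / 10 : ℚ) (1 / 20 : ℚ) 39).check
    (475196433637 / 500000000000 : ℚ) (475215265383 / 500000000000 : ℚ) (950360962847 / 1000000000000 : ℚ) (475215265383 / 500000000000 : ℚ) = true := by krfl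
theorem R2L6S6T6.res : In (tF 1 4 RW 6 6) (475196433637 / 500000000000 : ℚ) (475215265383 / 500000000000 : ℚ) ∧
    In (tF kZ 4 RW 6 6) (950360962847 / 1000000000000 : ℚ) (475215265383 / 500000000000 : ℚ) :=
  resZ (Or.inr (Or.inr rfl)) (momCB (Or.inr (Or.inr rfl)) (cplx_kindW 4 (by norm_num)) R2L6S6T6.acc (by decide) R2L6S6T6.hb rfl R2L6S6T6.cov)
    (List.forall_mem_cons.2 ⟨CluQ.toZ (clC1 (cplx_kindW 4 (by norm_num)) R2L6S6T6.acc (by norm_num) (by norm_num) (by norm_num) R2L6S6T6.c0_0),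
      List.forall_mem_cons.2 ⟨CluQ.toZ (clC1 (cplx_kindW 4 (by norm_num)) R2L6S6T6.acc (by norm_num) (by norm_num) (by norm_num) R2L6S6T6.c1_0),
      List.forall_mem_nil _⟩⟩) R2L6S6T6.chk

theorem R2L6S5T5.chk : (mkD bQ (eQ (4 + 2)) (momOf 32 8 R2L6S5T5.bl) [mkCl 0 7913198 404 1 ((-1) ^ (4 + 2 + 5))]
    [(4082581114079833764171444875 / 39614081257132168796771975168 : ℚ), (9841214170085341384748984745 / 39614081257132168796771975168 : ℚ), (8436584092336575261850785107 / 79228162514264337593543950336 : ℚ), (153056531674769774116916901 / 9903520314283042199192993792 : ℚ), (56942535044025101714347385 / 79228162514264337593543950336 : ℚ)]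
    (-147 / 20 : ℚ) (1 / 20 : ℚ) 39).check
    (138534247 / 500000000000 : ℚ) (165203627 / 500000000000 : ℚ) (-165203627 / 500000000000 : ℚ) (-223730231 / 1000000000000 : ℚ) = true := by krfl
theorem R2L6S5T5.res : In (tF 1 4 RW 5 5) (138534247 / 500000000000 : ℚ) (165203627 / 500000000000 : ℚ) ∧
    In (tF kZ 4 RW 5 5) (-165203627 / 500000000000 : ℚ) (-223730231 / 1000000000000 : ℚ) :=
  resZ (Or.inr (Or.inr rfl)) (momCA (Or.inr (Or.inr rfl)) (cplx_kindW 4 (by norm_num)) R2L6S5T5.acc (by decide) R2L6S5T5.hb R2L6S5T5.cov)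
    (List.forall_mem_cons.2 ⟨CluQ.toZ (clC1 (cplx_kindW 4 (by norm_num)) R2L6S5T5.acc (by norm_num) (by norm_num) (by norm_num) R2L6S5T5.c0_0),
      List.forall_mem_nil _⟩) R2L6S5T5.chk

theorem R2L6S0T4.chk : (mkD bQ (eQ (4 + 2)) (momOf 26 6 R2L6S0T4.bl) []
    [(6598704817463406749967557639 / 79228162514264337593543950336 : ℚ), (5193999902073921100768263979 / 39614081257132168796771975168 : ℚ), (2832460410093778452503498163 / 79228162514264337593543950336 : ℚ), (100008056219553148072374629 / 39614081257132168796771975168 : ℚ)]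
    (-36 / 5 : ℚ) (1 / 20 : ℚ) 70).check
    (0 : ℚ) (5617221 / 500000000000 : ℚ) (-5617221 / 500000000000 : ℚ) (5617221 / 500000000000 : ℚ) = true := by krfl
theorem R2L6S0T4.res : In (tF 1 4 RW 0 4) (0 : ℚ) (5617221 / 500000000000 : ℚ) ∧
    In (tF kZ 4 RW 0 4) (-5617221 / 500000000000 : ℚ) (5617221 / 500000000000 : ℚ) :=
  resZ (Or.inr (Or.inr rfl)) (momCA (Or.inr (Or.inr rfl)) (cplx_kindW 4 (by norm_num)) R2L6S0T4.acc (by decide) R2L6S0T4.hb R2L6S0T4.cov)
    (List.forall_mem_nil _) R2L6S0T4.chk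

theorem bd_Z0_6 : (181908647 / 25000000 : ℝ) ≤ Zc 1 1 5 ∧ Zc 1 1 5 ≤ (727648591 / 100000000 : ℝ) := by
  have h0 := R0L6S6T6.res
  have h1 := R0L6S5T5.res
  have h2 := R0L6S0T4.res
  have e0 : Zc 1 1 5 = tF 1 4 1 6 6 + 2 * tF 1 4 1 0 5 := Zc_one (Or.inl rfl) 4
  have e1 := tF_split 1 4 1 0 4 5 (by norm_num) (by norm_num)
  simp only [In] at h0 h1 h2
  push_cast at h0 h1 h2
  norm_num only at e1
  constructor <;> linarith [h0.1.1, h0.1.2, h0.2.1, h0.2.2, h1.1.1, h1.1.2, h1.2.1, h1.2.2, h2.1.1, h2.1.2, h2.2.1, h2.2.2]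

theorem bd_Y0_6 : (72453641 / 10000000 : ℝ) ≤ Zc kZ 1 5 ∧ Zc kZ 1 5 ≤ (14491247 / 2000000 : ℝ) := by
  have h0 := R0L6S6T6.res
  have h1 := R0L6S5T5.res
  have h2 := R0L6S0T4.res
  have e0 : Zc kZ 1 5 = tF kZ 4 1 6 6 + 2 * tF kZ 4 1 0 5 := Zc_kZ (Or.inl rfl) 4
  have e1 := tF_split kZ 4 1 0 4 5 (by norm_num) (by norm_num)
  simp only [In] at h0 h1 h2
  push_cast at h0 h1 h2
  norm_num only at e1
  constructor <;> linarith [h0.1.1, h0.1.2, h0.2.1, h0.2.2, h1.1.1, h1.1.2, h1.2.1, h1.2.2, h2.1.1, h2.1.2, h2.2.1, h2.2.2]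

theorem bd_Zp_6 : (38813549 / 100000000 : ℝ) ≤ Zc 1 RZ 5 ∧ Zc 1 RZ 5 ≤ (38842931 / 100000000 : ℝ) := by
  have h0 := R1L6S6T6.res
  have h1 := R1L6S5T5.res
  have h2 := R1L6S0T4.res
  have e0 : Zc 1 RZ 5 = tF 1 4 RZ 6 6 + 2 * tF 1 4 RZ 0 5 := Zc_one (Or.inr (Or.inl rfl)) 4
  have e1 := tF_split 1 4 RZ 0 4 5 (by norm_num) (by norm_num)
  simp only [In] at h0 h1 h2
  push_cast at h0 h1 h2
  norm_num only at e1
  constructor <;> linarith [h0.1.1, h0.1.2, h0.2.1, h0.2.2, h1.1.1, h1.1.2, h1.2.1, h1.2.2, h2.1.1, h2.1.2, h2.2.1, h2.2.2]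

theorem bd_Yx_6 : (-18209071 / 50000000 : ℝ) ≤ Zc kX RZ 5 ∧ Zc kX RZ 5 ≤ (-18204029 / 50000000 : ℝ) := by
  have h0 := R1L6S6T6.res
  have e0 : Zc kX RZ 5 = tF kX 4 RZ 6 6 := Zc_kX 4
  simp only [In] at h0
  push_cast at h0
  constructor <;> linarith [h0.1.1, h0.1.2, h0.2.1, h0.2.2]

theorem bd_Zw_6 : (950947 / 1000000 : ℝ) ≤ Zc 1 RW 5 ∧ Zc 1 RW 5 ≤ (47555691 / 50000000 : ℝ) := by
  have h0 := R2L6S6T6.res
  have h1 := R2L6S5T5.res
  have h2 := R2L6S0T4.res
  have e0 : Zc 1 RW 5 = tF 1 4 RW 6 6 + 2 * tF 1 4 RW 0 5 := Zc_one (Or.inr (Or.inr rfl)) 4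
  have e1 := tF_split 1 4 RW 0 4 5 (by norm_num) (by norm_num)
  simp only [In] at h0 h1 h2
  push_cast at h0 h1 h2
  norm_num only at e1
  constructor <;> linarith [h0.1.1, h0.1.2, h0.2.1, h0.2.2, h1.1.1, h1.1.2, h1.2.1, h1.2.2, h2.1.1, h2.1.2, h2.2.1, h2.2.2]

theorem bd_Yw_6 : (94967767 / 100000000 : ℝ) ≤ Zc kZ RW 5 ∧ Zc kZ RW 5 ≤ (47500277 / 50000000 : ℝ) := by
  have h0 := R2L6S6T6.res
  have h1 := R2L6S5T5.res
  have h2 := R2L6S0T4.res
  have e0 : Zc kZ RW 5 = tF kZ 4 RW 6 6 + 2 * tF kZ 4 RW 0 5 := Zc_kZ (Or.inr (Or.inr rfl)) 4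
  have e1 := tF_split kZ 4 RW 0 4 5 (by norm_num) (by norm_num)
  simp only [In] at h0 h1 h2
  push_cast at h0 h1 h2
  norm_num only at e1
  constructor <;> linarith [h0.1.1, h0.1.2, h0.2.1, h0.2.2, h1.1.1, h1.1.2, h1.2.1, h1.2.2, h2.1.1, h2.1.2, h2.2.1, h2.2.2]

end Crest.Agent.R347
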