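import Crest.Agent.R347.Asm
import Crest.Agent.R347.HR7

/-! Row 347: enclosures of partition functions (generated). -/

set_option autoImplicit false
set_option Elab.async false
set_option maxRecDepth 100000

namespace Crest.Agent.R347

theorem R0L7S7T7.chk : (mkD bQ (eQ (5 + 2)) (momOf 41 10 R0L7S7T7.bl) [mkCl 0 10037177 1870 1 ((-1) ^ (5 + 2 + 7)), mkCl 0 9138749 1389 2 ((-1) ^ (5 + 2 + 7))]
    [(1166617211532169658142429311 / 19807040628566084398385987584 : ℚ), (15734069375071828787490888845 / 79228162514264337593543950336 : ℚ), (8444444056213721250664774347 / 79228162514264337593543950336 : ℚ), (419807348280755821861901301 / 19807040628566084398385987584 : ℚ), (140740875999442766326657833 / 79228162514264337593543950336 : ℚ), (4200874246933450952074421 / 79228162514264337593543950336 : ℚ)]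
    (-35 / 4 : ℚ) (1 / 20 : ℚ) 41).check
    (52090361981 / 500000000000 : ℚ) (104232176457 / 1000000000000 : ℚ) (813516667 / 7812500000 : ℚ) (104232176457 / 1000000000000 : ℚ) = true := by krfl
theorem R0L7S7T7.res : In (tF 1 5 1 7 7) (52090361981 / 500000000000 : ℚ) (104232176457 / 1000000000000 : ℚ) ∧
    In (tF kZ 5 1 7 7) (813516667 / 7812500000 : ℚ) (104232176457 / 1000000000000 : ℚ) :=
  resZ (Or.inl rfl) (momRB (Or.inl rfl) (real_kind0 5 (by norm_num)) R0L7S7T7.acc (by decide) R0L7S7T7.hb rfl R0L7S7T7.cov)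
    (List.forall_mem_cons.2 ⟨CluQ.toZ (clR1 (real_kind0 5 (by norm_num)) R0L7S7T7.acc (by norm_num) R0L7S7T7.c0_0),
      List.forall_mem_cons.2 ⟨CluQ.toZ (clR2 (real_kind0 5 (by norm_num)) R0L7S7T7.acc (by norm_num) R0L7S7T7.c1_0 R0L7S7T7.c1_1 R0L7S7T7.or1),
      List.forall_mem_nil _⟩⟩) R0L7S7T7.chk

theorem R0L7S6T6.chk : (mkD bQ (eQ (5 + 2)) (momOf 41 10 R0L7S6T6.bl) [mkCl 0 9138749 1363 2 ((-1) ^ (5 + 2 + 6))]
    [(2647983332285779848860769585 / 39614081257132168796771975168 : ℚ), (16535465007727583096800681979 / 79228162514264337593543950336 : ℚ), (4369200899977862392520934143 / 39614081257132168796771975168 : ℚ), (1725340050844520656948813577 / 79228162514264337593543950336 : ℚ), (144040212880553111937805755 / 79228162514264337593543950336 : ℚ), (4289770149125266554634843 / 79228162514264337593543950336 : ℚ)]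
    (-87 / 10 : ℚ) (1 / 20 : ℚ) 41).check
    (6075043 / 100000000000 : ℚ) (93147563 / 1000000000000 : ℚ) (-93147563 / 1000000000000 : ℚ) (-5670733 / 200000000000 : ℚ) = true := by krfl
theorem R0L7S6T6.res : In (tF 1 5 1 6 6) (6075043 / 100000000000 : ℚ) (93147563 / 1000000000000 : ℚ) ∧
    In (tF kZ 5 1 6 6) (-93147563 / 1000000000000 : ℚ) (-5670733 / 200000000000 : ℚ) :=
  resZ (Or.inl rfl) (momRA (Or.inl rfl) (real_kind0 5 (by norm_num)) R0L7S6T6.acc (by decide) R0L7S6T6.hb R0L7S6T6.cov)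
    (List.forall_mem_cons.2 ⟨CluQ.toZ (clR2 (real_kind0 5 (by norm_num)) R0L7S6T6.acc (by norm_num) R0L7S6T6.c0_0 R0L7S6T6.c0_1 R0L7S6T6.or0),
      List.forall_mem_nil _⟩) R0L7S6T6.chk

theorem R0L7S0T5.chk : (mkD bQ (eQ (5 + 2)) (momOf 33 8 R0L7S0T5.bl) []
    [(3807725131791640186266016611 / 79228162514264337593543950336 : ℚ), (8884846277845524064453202201 / 79228162514264337593543950336 : ℚ), (212719316603272601557343809 / 4951760157141521099596496896 : ℚ), (437835257405293842896716023 / 79228162514264337593543950336 : ℚ), (18008622268802103330447757 / 79228162514264337593543950336 : ℚ)]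
    (-171 / 20 : ℚ) (1 / 20 : ℚ) 65).check
    (0 : ℚ) (1803981 / 250000000000 : ℚ) (-1803981 / 250000000000 : ℚ) (1803981 / 250000000000 : ℚ) = true := by krfl
theorem R0L7S0T5.res : In (tF 1 5 1 0 5) (0 : ℚ) (1803981 / 250000000000 : ℚ) ∧
    In (tF kZ 5 1 0 5) (-1803981 / 250000000000 : ℚ) (1803981 / 250000000000 : ℚ) :=
  resZ (Or.inl rfl) (momRA (Or.inl rfl) (real_kind0 5 (by norm_num)) R0L7S0T5.acc (by decide) R0L7S0T5.hb R0L7S0T5.cov)
    (List.forall_mem_nil _) R0L7S0T5.chk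

theorem R1L7S7T7.chk : (mkD bQ (eQ (5 + 2)) (momOf 63 16 R1L7S7T7.bl) [mkCl 0 10342493 892 1 ((-1) ^ (5 + 2) * 1)]
    [(6811565757158934694932569367 / 79228162514264337593543950336 : ℚ), (15973711352625523992760742613 / 39614081257132168796771975168 : ℚ), (34226000965775474904753997095 / 79228162514264337593543950336 : ℚ), (1981715619114824927545485201 / 9903520314283042199192993792 : ℚ), (482955761971403020319484595 / 9903520314283042199192993792 : ℚ), (533431690560836068105281117 / 79228162514264337593543950336 : ℚ), (41947916473309126546979213 / 79228162514264337593543950336 : ℚ), (1750568947872289246969251 / 79228162514264337593543950336 : ℚ), (15038662042928325415849 / 39614081257132168796771975168 : ℚ)]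
    (-89 / 10 : ℚ) (1 / 20 : ℚ) 22).check
    (827602586153 / 500000000000 : ℚ) (4138752627 / 2500000000 : ℚ) (-4138752627 / 2500000000 : ℚ) (-413728957087 / 250000000000 : ℚ) = true := by krfl
theorem R1L7S7T7.res : In (tF 1 5 RZ 7 7) (827602586153 / 500000000000 : ℚ) (4138752627 / 2500000000 : ℚ) ∧
    In (tF kX 5 RZ 7 7) (-4138752627 / 2500000000 : ℚ) (-413728957087 / 250000000000 : ℚ) :=
  resX  (momRB (Or.inr (Or.inl rfl)) (real_kindP 5 (by norm_num)) R1L7S7T7.acc (by decide) R1L7S7T7.hb rfl R1L7S7T7.cov)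
    (List.forall_mem_cons.2 ⟨clX1 (real_kindP 5 (by norm_num)) R1L7S7T7.acc (by norm_num) 1 R1L7S7T7.c0_0 (parP_imp _ _ R1L7S7T7.p0_0),
      List.forall_mem_nil _⟩) R1L7S7T7.chk

theorem R1L7S6T6.chk : (mkD bQ (eQ (5 + 2)) (momOf 41 10 R1L7S6T6.bl) [mkCl 0 9795304 700 1 ((-1) ^ (5 + 2 + 6))]
    [(4968300046176621508933517557 / 79228162514264337593543950336 : ℚ), (17810755496591564552372023373 / 79228162514264337593543950336 : ℚ), (9790583032219925455545476209 / 79228162514264337593543950336 : ℚ), (497077251235692591952313099 / 19807040628566084398385987584 : ℚ), (85134142150581004389058721 / 39614081257132168796771975168 : ℚ), (5197812467199912312480549 / 79228162514264337593543950336 : ℚ)]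
    (-35 / 4 : ℚ) (1 / 20 : ℚ) 38).check
    (11637117433 / 1000000000000 : ℚ) (2922501459 / 250000000000 : ℚ) (-2922501459 / 250000000000 : ℚ) (-11584265091 / 1000000000000 : ℚ) = true := by krfl
theorem R1L7S6T6.res : In (tF 1 5 RZ 6 6) (11637117433 / 1000000000000 : ℚ) (2922501459 / 250000000000 : ℚ) ∧
    In (tF kZ 5 RZ 6 6) (-2922501459 / 250000000000 : ℚ) (-11584265091 / 1000000000000 : ℚ) :=
  resZ (Or.inr (Or.inl rfl)) (momRA (Or.inr (Or.inl rfl)) (real_kindP 5 (by norm_num)) R1L7S6T6.acc (by decide) R1L7S6T6.hb R1L7S6T6.cov)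
    (List.forall_mem_cons.2 ⟨CluQ.toZ (clR1 (real_kindP 5 (by norm_num)) R1L7S6T6.acc (by norm_num) R1L7S6T6.c0_0),
      List.forall_mem_nil _⟩) R1L7S6T6.chk

theorem R1L7S0T5.chk : (mkD bQ (eQ (5 + 2)) (momOf 33 8 R1L7S0T5.bl) []
    [(3663562240142732531046810749 / 79228162514264337593543950336 : ℚ), (520917122880358957673831611 / 4951760157141521099596496896 : ℚ), (1607550373370968490784302747 / 39614081257132168796771975168 : ℚ), (208951700965237893653916309 / 39614081257132168796771975168 : ℚ), (17373041480923788688660581 / 79228162514264337593543950336 : ℚ)]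
    (-173 / 20 : ℚ) (1 / 20 : ℚ) 67).check
    (0 : ℚ) (4653753 / 250000000000 : ℚ) (-4653753 / 250000000000 : ℚ) (4653753 / 250000000000 : ℚ) = true := by krfl
theorem R1L7S0T5.res : In (tF 1 5 RZ 0 5) (0 : ℚ) (4653753 / 250000000000 : ℚ) ∧
    In (tF kZ 5 RZ 0 5) (-4653753 / 250000000000 : ℚ) (4653753 / 250000000000 : ℚ) :=
  resZ (Or.inr (Or.inl rfl)) (momRA (Or.inr (Or.inl rfl)) (real_kindP 5 (by norm_num)) R1L7S0T5.acc (by decide) R1L7S0T5.hb R1L7S0T5.cov)
    (List.forall_mem_nil _) R1L7S0T5.chk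

theorem R2L7S7T7.chk : (mkD bQ (eQ (5 + 2)) (momOf 73 18 R2L7S7T7.bl) [mkCl 0 10282560 956 1 ((-1) ^ (5 + 2 + 7))]
    [(5372067688922638490960412107 / 79228162514264337593543950336 : ℚ), (16446891403008849094897738031 / 39614081257132168796771975168 : ℚ), (11147722518074660187777026161 / 19807040628566084398385987584 : ℚ), (6511769812767058890026381379 / 19807040628566084398385987584 : ℚ), (2028487511703460409895658581 / 19807040628566084398385987584 : ℚ), (738369808543737211516233053 / 39614081257132168796771975168 : ℚ), (20260595994983075556013501 / 9903520314283042199192993792 : ℚ), (5279876286664381519727471 / 39614081257132168796771975168 : ℚ), (375865848022632968361909 / 79228162514264337593543950336 : ℚ), (5627498674131283607185 / 79228162514264337593543950336 : ℚ)]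
    (-177 / 20 : ℚ) (1 / 20 : ℚ) 19).check
    (961690586323 / 1000000000000 : ℚ) (24048532007 / 25000000000 : ℚ) (961443961289 / 1000000000000 : ℚ) (24048532007 / 25000000000 : ℚ) = true := by krfl
theorem R2L7S7T7.res : In (tF 1 5 RW 7 7) (961690586323 / 1000000000000 : ℚ) (24048532007 / 25000000000 : ℚ) ∧
    In (tF kZ 5 RW 7 7) (961443961289 / 1000000000000 : ℚ) (24048532007 / 25000000000 : ℚ) :=
  resZ (Or.inr (Or.inr rfl)) (momCB (Or.inr (Or.inr rfl)) (cplx_kindW 5 (by norm_num)) R2L7S7T7.acc (by decide) R2L7S7T7.hb rfl R2L7S7T7.cov)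
    (List.forall_mem_cons.2 ⟨CluQ.toZ (clC1 (cplx_kindW 5 (by norm_num)) R2L7S7T7.acc (by norm_num) (by norm_num) (by norm_num) R2L7S7T7.c0_0),
      List.forall_mem_nil _⟩) R2L7S7T7.chk

theorem R2L7S6T6.chk : (mkD bQ (eQ (5 + 2)) (momOf 42 10 R2L7S6T6.bl) [mkCl 0 9717666 1905 1 ((-1) ^ (5 + 2 + 6))]
    [(5426493115125678363971585247 / 79228162514264337593543950336 : ℚ), (9004574949679162267394072985 / 39614081257132168796771975168 : ℚ), (9662547251282757142786433707 / 79228162514264337593543950336 : ℚ), (1927623707781787671553892143 / 79228162514264337593543950336 : ℚ), (162514488026813688995954629 / 79228162514264337593543950336 : ℚ), (4890057056950549193038719 / 79228162514264337593543950336 : ℚ)]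
    (-44 / 5 : ℚ) (1 / 20 : ℚ) 39).check
    (5759231931 / 1000000000000 : ℚ) (146085461 / 25000000000 : ℚ) (-146085461 / 25000000000 : ℚ) (-5675093971 / 1000000000000 : ℚ) = true := by krfl
theorem R2L7S6T6.res : In (tF 1 5 RW 6 6) (5759231931 / 1000000000000 : ℚ) (146085461 / 25000000000 : ℚ) ∧
    In (tF kZ 5 RW 6 6) (-146085461 / 25000000000 : ℚ) (-5675093971 / 1000000000000 : ℚ) :=
  resZ (Or.inr (Or.inr rfl)) (momCA (Or.inr (Or.inr rfl)) (cplx_kindW 5 (by norm_num)) R2L7S6T6.acc (by decide) R2L7S6T6.hb R2L7S6T6.cov)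
    (List.forall_mem_cons.2 ⟨CluQ.toZ (clC1 (cplx_kindW 5 (by norm_num)) R2L7S6T6.acc (by norm_num) (by norm_num) (by norm_num) R2L7S6T6.c0_0),
      List.forall_mem_nil _⟩) R2L7S6T6.chk

theorem R2L7S0T5.chk : (mkD bQ (eQ (5 + 2)) (momOf 34 8 R2L7S0T5.bl) []
    [(225447064410662530919732735 / 4951760157141521099596496896 : ℚ), (8343371342392468763025818461 / 79228162514264337593543950336 : ℚ), (201190346984914170623615279 / 4951760157141521099596496896 : ℚ), (52210733771390985564411929 / 9903520314283042199192993792 : ℚ), (2165780405980441612327529 / 9903520314283042199192993792 : ℚ)]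
    (-173 / 20 : ℚ) (1 / 20 : ℚ) 67).check
    (0 : ℚ) (18137119 / 1000000000000 : ℚ) (-18137119 / 1000000000000 : ℚ) (18137119 / 1000000000000 : ℚ) = true := by krfl
theorem R2L7S0T5.res : In (tF 1 5 RW 0 5) (0 : ℚ) (18137119 / 1000000000000 : ℚ) ∧
    In (tF kZ 5 RW 0 5) (-18137119 / 1000000000000 : ℚ) (18137119 / 1000000000000 : ℚ) :=
  resZ (Or.inr (Or.inr rfl)) (momCA (Or.inr (Or.inr rfl)) (cplx_kindW 5 (by norm_num)) R2L7S0T5.acc (by decide) R2L7S0T5.hb R2L7S0T5.cov)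
    (List.forall_mem_nil _) R2L7S0T5.chk

theorem bd_Z0_7 : (5215111 / 50000000 : ℝ) ≤ Zc 1 1 6 ∧ Zc 1 1 6 ≤ (10443291 / 100000000 : ℝ) := by
  have h0 := R0L7S7T7.res
  have h1 := R0L7S6T6.res
  have h2 := R0L7S0T5.res
  have e0 : Zc 1 1 6 = tF 1 5 1 7 7 + 2 * tF 1 5 1 0 6 := Zc_one (Or.inl rfl) 5
  have e1 := tF_split 1 5 1 0 5 6 (by norm_num) (by norm_num)
  simp only [In] at h0 h1 h2
  push_cast at h0 h1 h2
  norm_num only at e1
  constructor <;> linarith [h0.1.1, h0.1.2, h0.2.1, h0.2.2, h1.1.1, h1.1.2, h1.2.1, h1.2.2, h2.1.1, h2.1.2, h2.2.1, h2.2.2]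

theorem bd_Y0_7 : (519647 / 5000000 : ℝ) ≤ Zc kZ 1 6 ∧ Zc kZ 1 6 ≤ (10418991 / 100000000 : ℝ) := by
  have h0 := R0L7S7T7.res
  have h1 := R0L7S6T6.res
  have h2 := R0L7S0T5.res
  have e0 : Zc kZ 1 6 = tF kZ 5 1 7 7 + 2 * tF kZ 5 1 0 6 := Zc_kZ (Or.inl rfl) 5
  have e1 := tF_split kZ 5 1 0 5 6 (by norm_num) (by norm_num)
  simp only [In] at h0 h1 h2
  push_cast at h0 h1 h2
  norm_num only at e1
  constructor <;> linarith [h0.1.1, h0.1.2, h0.2.1, h0.2.2, h1.1.1, h1.1.2, h1.2.1, h1.2.2, h2.1.1, h2.1.2, h2.2.1, h2.2.2]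

theorem bd_Zp_7 : (8392397 / 5000000 : ℝ) ≤ Zc 1 RZ 6 ∧ Zc 1 RZ 6 ≤ (16789183 / 10000000 : ℝ) := by
  have h0 := R1L7S7T7.res
  have h1 := R1L7S6T6.res
  have h2 := R1L7S0T5.res
  have e0 : Zc 1 RZ 6 = tF 1 5 RZ 7 7 + 2 * tF 1 5 RZ 0 6 := Zc_one (Or.inr (Or.inl rfl)) 5
  have e1 := tF_split 1 5 RZ 0 5 6 (by norm_num) (by norm_num)
  simp only [In] at h0 h1 h2
  push_cast at h0 h1 h2
  norm_num only at e1
  constructor <;> linarith [h0.1.1, h0.1.2, h0.2.1, h0.2.2, h1.1.1, h1.1.2, h1.2.1, h1.2.2, h2.1.1, h2.1.2, h2.2.1, h2.2.2]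

theorem bd_Yx_7 : (-82775053 / 50000000 : ℝ) ≤ Zc kX RZ 6 ∧ Zc kX RZ 6 ≤ (-82745791 / 50000000 : ℝ) := by
  have h0 := R1L7S7T7.res
  have e0 : Zc kX RZ 6 = tF kX 5 RZ 7 7 := Zc_kX 5
  simp only [In] at h0
  push_cast at h0
  constructor <;> linarith [h0.1.1, h0.1.2, h0.2.1, h0.2.2]

theorem bd_Zw_7 : (19464181 / 20000000 : ℝ) ≤ Zc 1 RW 6 ∧ Zc 1 RW 6 ≤ (2434161 / 2500000 : ℝ) := by
  have h0 := R2L7S7T7.res
  have h1 := R2L7S6T6.res
  have h2 := R2L7S0T5.res
  have e0 : Zc 1 RW 6 = tF 1 5 RW 7 7 + 2 * tF 1 5 RW 0 6 := Zc_one (Or.inr (Or.inr rfl)) 5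
  have e1 := tF_split 1 5 RW 0 5 6 (by norm_num) (by norm_num)
  simp only [In] at h0 h1 h2
  push_cast at h0 h1 h2
  norm_num only at e1
  constructor <;> linarith [h0.1.1, h0.1.2, h0.2.1, h0.2.2, h1.1.1, h1.1.2, h1.2.1, h1.2.2, h2.1.1, h2.1.2, h2.2.1, h2.2.2]

theorem bd_Yw_7 : (18994417 / 20000000 : ℝ) ≤ Zc kZ RW 6 ∧ Zc kZ RW 6 ≤ (95062737 / 100000000 : ℝ) := by
  have h0 := R2L7S7T7.res
  have h1 := R2L7S6T6.res
  have h2 := R2L7S0T5.res
  have e0 : Zc kZ RW 6 = tF kZ 5 RW 7 7 + 2 * tF kZ 5 RW 0 6 := Zc_kZ (Or.inr (Or.inr rfl)) 5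
  have e1 := tF_split kZ 5 RW 0 5 6 (by norm_num) (by norm_num)
  simp only [In] at h0 h1 h2
  push_cast at h0 h1 h2
  norm_num only at e1
  constructor <;> linarith [h0.1.1, h0.1.2, h0.2.1, h0.2.2, h1.1.1, h1.1.2, h1.2.1, h1.2.2, h2.1.1, h2.1.2, h2.2.1, h2.2.2]

end Crest.Agent.R347
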