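import Crest.Agent.R347.Asm
import Crest.Agent.R347.HR8

/-! Row 347: enclosures of partition functions (generated). -/

set_option autoImplicit false
set_option Elab.async false
set_option maxRecDepth 100000

namespace Crest.Agent.R347

theorem R0L8S8T8.chk : (mkD bQ (eQ (6 + 2)) (momOf 50 12 R0L8S8T8.bl) [mkCl 0 11887660 1023 1 ((-1) ^ (6 + 2 + 8)), mkCl 0 11265272 1661 1 ((-1) ^ (6 + 2 + 8))]
    [(3226646153043309614206423617 / 79228162514264337593543950336 : ℚ), (1881584231055851446179653937 / 9903520314283042199192993792 : ℚ), (2396067224275697622837540617 / 19807040628566084398385987584 : ℚ), (2358368283385889603870981223 / 79228162514264337593543950336 : ℚ), (68195123132165162326770759 / 19807040628566084398385987584 : ℚ), (3725860969251730982147791 / 19807040628566084398385987584 : ℚ), (310030466611924281848327 / 79228162514264337593543950336 : ℚ)]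
    (-41 / 4 : ℚ) (1 / 20 : ℚ) 39).check
    (3295410905707 / 1000000000000 : ℚ) (3295564180533 / 1000000000000 : ℚ) (3295272583391 / 1000000000000 : ℚ) (3295564180533 / 1000000000000 : ℚ) = true := by krfl
theorem R0L8S8T8.res : In (tF 1 6 1 8 8) (3295410905707 / 1000000000000 : ℚ) (3295564180533 / 1000000000000 : ℚ) ∧
    In (tF kZ 6 1 8 8) (3295272583391 / 1000000000000 : ℚ) (3295564180533 / 1000000000000 : ℚ) :=
  resZ (Or.inl rfl) (momRB (Or.inl rfl) (real_kind0 6 (by norm_num)) R0L8S8T8.acc (by decide) R0L8S8T8.hb rfl R0L8S8T8.cov)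
    (List.forall_mem_cons.2 ⟨CluQ.toZ (clR1 (real_kind0 6 (by norm_num)) R0L8S8T8.acc (by norm_num) R0L8S8T8.c0_0),
      List.forall_mem_cons.2 ⟨CluQ.toZ (clR1 (real_kind0 6 (by norm_num)) R0L8S8T8.acc (by norm_num) R0L8S8T8.c1_0),
      List.forall_mem_nil _⟩⟩) R0L8S8T8.chk

theorem R0L8S7T7.chk : (mkD bQ (eQ (6 + 2)) (momOf 50 12 R0L8S7T7.bl) [mkCl 0 11265272 1131 1 ((-1) ^ (6 + 2 + 7))]
    [(2884377606264510281258147951 / 79228162514264337593543950336 : ℚ), (15058952250948405925795339397 / 79228162514264337593543950336 : ℚ), (4825791749591811940329667409 / 39614081257132168796771975168 : ℚ), (1187125520725231958141040507 / 39614081257132168796771975168 : ℚ), (137068691614295865989881035 / 39614081257132168796771975168 : ℚ), (3736539177404602782043241 / 19807040628566084398385987584 : ℚ), (155128864673375375226727 / 39614081257132168796771975168 : ℚ)]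
    (-41 / 4 : ℚ) (1 / 20 : ℚ) 39).check
    (233618747 / 20000000000 : ℚ) (5906465021 / 500000000000 : ℚ) (-5906465021 / 500000000000 : ℚ) (-3695681 / 320000000 : ℚ) = true := by krfl
theorem R0L8S7T7.res : In (tF 1 6 1 7 7) (233618747 / 20000000000 : ℚ) (5906465021 / 500000000000 : ℚ) ∧
    In (tF kZ 6 1 7 7) (-5906465021 / 500000000000 : ℚ) (-3695681 / 320000000 : ℚ) :=
  resZ (Or.inl rfl) (momRA (Or.inl rfl) (real_kind0 6 (by norm_num)) R0L8S7T7.acc (by decide) R0L8S7T7.hb R0L8S7T7.cov)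
    (List.forall_mem_cons.2 ⟨CluQ.toZ (clR1 (real_kind0 6 (by norm_num)) R0L8S7T7.acc (by norm_num) R0L8S7T7.c0_0),
      List.forall_mem_nil _⟩) R0L8S7T7.chk

theorem R0L8S0T6.chk : (mkD bQ (eQ (6 + 2)) (momOf 42 10 R0L8S0T6.bl) []
    [(2189200729230621053601037129 / 79228162514264337593543950336 : ℚ), (3585968260057064024063637411 / 39614081257132168796771975168 : ℚ), (3481016676298228080228413545 / 79228162514264337593543950336 : ℚ), (156227821268745181993160189 / 19807040628566084398385987584 : ℚ), (47387757537385517757132357 / 79228162514264337593543950336 : ℚ), (1282733211321698513411087 / 79228162514264337593543950336 : ℚ)]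
    (-101 / 10 : ℚ) (1 / 20 : ℚ) 65).check
    (0 : ℚ) (30036147 / 1000000000000 : ℚ) (-30036147 / 1000000000000 : ℚ) (30036147 / 1000000000000 : ℚ) = true := by krfl
theorem R0L8S0T6.res : In (tF 1 6 1 0 6) (0 : ℚ) (30036147 / 1000000000000 : ℚ) ∧
    In (tF kZ 6 1 0 6) (-30036147 / 1000000000000 : ℚ) (30036147 / 1000000000000 : ℚ) :=
  resZ (Or.inl rfl) (momRA (Or.inl rfl) (real_kind0 6 (by norm_num)) R0L8S0T6.acc (by decide) R0L8S0T6.hb R0L8S0T6.cov)
    (List.forall_mem_nil _) R0L8S0T6.chk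

theorem R1L8S8T8.chk : (mkD bQ (eQ (6 + 2)) (momOf 50 12 R1L8S8T8.bl) [mkCl 0 11698116 2183 1 ((-1) ^ (6 + 2) * (-1)), mkCl 0 11293116 1354 1 ((-1) ^ (6 + 2) * 1)]
    [(106437645052274174387172455 / 2475880078570760549798248448 : ℚ), (7821302908169115508989693581 / 39614081257132168796771975168 : ℚ), (10085779285985079454906570621 / 79228162514264337593543950336 : ℚ), (2523559526420763955401134699 / 79228162514264337593543950336 : ℚ), (74350259119857299619220077 / 19807040628566084398385987584 : ℚ), (8289352474923865959366255 / 39614081257132168796771975168 : ℚ), (352267533015035030103443 / 79228162514264337593543950336 : ℚ)]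
    (-103 / 10 : ℚ) (1 / 20 : ℚ) 39).check
    (302327363769 / 500000000000 : ℚ) (302445674613 / 500000000000 : ℚ) (-57482604171 / 100000000000 : ℚ) (-574358583591 / 1000000000000 : ℚ) = true := by krfl
theorem R1L8S8T8.res : In (tF 1 6 RZ 8 8) (302327363769 / 500000000000 : ℚ) (302445674613 / 500000000000 : ℚ) ∧
    In (tF kX 6 RZ 8 8) (-57482604171 / 100000000000 : ℚ) (-574358583591 / 1000000000000 : ℚ) :=
  resX  (momRB (Or.inr (Or.inl rfl)) (real_kindP 6 (by norm_num)) R1L8S8T8.acc (by decide) R1L8S8T8.hb rfl R1L8S8T8.cov)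
    (List.forall_mem_cons.2 ⟨clX1 (real_kindP 6 (by norm_num)) R1L8S8T8.acc (by norm_num) (-1) R1L8S8T8.c0_0 (parM_imp _ _ R1L8S8T8.p0_0),
      List.forall_mem_cons.2 ⟨clX1 (real_kindP 6 (by norm_num)) R1L8S8T8.acc (by norm_num) 1 R1L8S8T8.c1_0 (parP_imp _ _ R1L8S8T8.p1_0),
      List.forall_mem_nil _⟩⟩) R1L8S8T8.chk

theorem R1L8S7T7.chk : (mkD bQ (eQ (6 + 2)) (momOf 50 12 R1L8S7T7.bl) [mkCl 0 10704031 756 2 ((-1) ^ (6 + 2 + 7))]
    [(1639147385698670708693659927 / 39614081257132168796771975168 : ℚ), (7752664260606662418348428397 / 39614081257132168796771975168 : ℚ), (10117554330793364034055359021 / 79228162514264337593543950336 : ℚ), (1279250569785081154756477953 / 39614081257132168796771975168 : ℚ), (304626448504654374157174717 / 79228162514264337593543950336 : ℚ), (1072141395355159183471989 / 4951760157141521099596496896 : ℚ), (368185094974341594177185 / 79228162514264337593543950336 : ℚ)]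
    (-101 / 10 : ℚ) (1 / 20 : ℚ) 39).check
    (36153597 / 250000000000 : ℚ) (178539861 / 1000000000000 : ℚ) (-178539861 / 1000000000000 : ℚ) (-110689399 / 1000000000000 : ℚ) = true := by krfl
theorem R1L8S7T7.res : In (tF 1 6 RZ 7 7) (36153597 / 250000000000 : ℚ) (178539861 / 1000000000000 : ℚ) ∧
    In (tF kZ 6 RZ 7 7) (-178539861 / 1000000000000 : ℚ) (-110689399 / 1000000000000 : ℚ) :=
  resZ (Or.inr (Or.inl rfl)) (momRA (Or.inr (Or.inl rfl)) (real_kindP 6 (by norm_num)) R1L8S7T7.acc (by decide) R1L8S7T7.hb R1L8S7T7.cov)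
    (List.forall_mem_cons.2 ⟨CluQ.toZ (clR2 (real_kindP 6 (by norm_num)) R1L8S7T7.acc (by norm_num) R1L8S7T7.c0_0 R1L8S7T7.c0_1 R1L8S7T7.or0),
      List.forall_mem_nil _⟩) R1L8S7T7.chk

theorem R1L8S0T6.chk : (mkD bQ (eQ (6 + 2)) (momOf 42 10 R1L8S0T6.bl) []
    [(2307546931824001024099417929 / 79228162514264337593543950336 : ℚ), (1970582411536953348625390617 / 19807040628566084398385987584 : ℚ), (963697177697581248762075023 / 19807040628566084398385987584 : ℚ), (695629905252664200224088381 / 79228162514264337593543950336 : ℚ), (53004895961001349702302001 / 79228162514264337593543950336 : ℚ), (720743763426908121747139 / 39614081257132168796771975168 : ℚ)]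
    (-199 / 20 : ℚ) (1 / 20 : ℚ) 61).check
    (0 : ℚ) (1502047 / 200000000000 : ℚ) (-1502047 / 200000000000 : ℚ) (1502047 / 200000000000 : ℚ) = true := by krfl
theorem R1L8S0T6.res : In (tF 1 6 RZ 0 6) (0 : ℚ) (1502047 / 200000000000 : ℚ) ∧
    In (tF kZ 6 RZ 0 6) (-1502047 / 200000000000 : ℚ) (1502047 / 200000000000 : ℚ) :=
  resZ (Or.inr (Or.inl rfl)) (momRA (Or.inr (Or.inl rfl)) (real_kindP 6 (by norm_num)) R1L8S0T6.acc (by decide) R1L8S0T6.hb R1L8S0T6.cov)
    (List.forall_mem_nil _) R1L8S0T6.chk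

theorem R2L8S8T8.chk : (mkD bQ (eQ (6 + 2)) (momOf 52 12 R2L8S8T8.bl) [mkCl 0 11753852 2556 1 ((-1) ^ (6 + 2 + 8)), mkCl 0 11286315 2821 1 ((-1) ^ (6 + 2 + 8))]
    [(3531189890897709934588686323 / 79228162514264337593543950336 : ℚ), (15769128728576949891041615317 / 79228162514264337593543950336 : ℚ), (5027130400798744373059461219 / 39614081257132168796771975168 : ℚ), (1245538359500900634563619603 / 39614081257132168796771975168 : ℚ), (145408216189931051140360679 / 39614081257132168796771975168 : ℚ), (16062104749851041320351389 / 79228162514264337593543950336 : ℚ), (169090477010248810774417 / 39614081257132168796771975168 : ℚ)]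
    (-103 / 10 : ℚ) (1 / 20 : ℚ) 39).check
    (247773137153 / 250000000000 : ℚ) (49566104277 / 50000000000 : ℚ) (247718559159 / 250000000000 : ℚ) (49566104277 / 50000000000 : ℚ) = true := by krfl
theorem R2L8S8T8.res : In (tF 1 6 RW 8 8) (247773137153 / 250000000000 : ℚ) (49566104277 / 50000000000 : ℚ) ∧
    In (tF kZ 6 RW 8 8) (247718559159 / 250000000000 : ℚ) (49566104277 / 50000000000 : ℚ) :=
  resZ (Or.inr (Or.inr rfl)) (momCB (Or.inr (Or.inr rfl)) (cplx_kindW 6 (by norm_num)) R2L8S8T8.acc (by decide) R2L8S8T8.hb rfl R2L8S8T8.cov)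
    (List.forall_mem_cons.2 ⟨CluQ.toZ (clC1 (cplx_kindW 6 (by norm_num)) R2L8S8T8.acc (by norm_num) (by norm_num) (by norm_num) R2L8S8T8.c0_0),
      List.forall_mem_cons.2 ⟨CluQ.toZ (clC1 (cplx_kindW 6 (by norm_num)) R2L8S8T8.acc (by norm_num) (by norm_num) (by norm_num) R2L8S8T8.c1_0),
      List.forall_mem_nil _⟩⟩) R2L8S8T8.chk

theorem R2L8S7T7.chk : (mkD bQ (eQ (6 + 2)) (momOf 60 14 R2L8S7T7.bl) [mkCl 0 11005314 599 1 ((-1) ^ (6 + 2 + 7))]
    [(3756257369529523543651557875 / 79228162514264337593543950336 : ℚ), (10965881467152819299627877375 / 39614081257132168796771975168 : ℚ), (17761040556435175103998236955 / 79228162514264337593543950336 : ℚ), (5771464528977362873210605475 / 79228162514264337593543950336 : ℚ), (234492517221023411750322359 / 19807040628566084398385987584 : ℚ), (80835752965339581917832659 / 79228162514264337593543950336 : ℚ), (882565138874729098598489 / 19807040628566084398385987584 : ℚ), (30732980697266390430627 / 39614081257132168796771975168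 : ℚ)]
    (-203 / 20 : ℚ) (1 / 20 : ℚ) 31).check
    (138528779 / 125000000000 : ℚ) (584801217 / 500000000000 : ℚ) (-584801217 / 500000000000 : ℚ) (-1046860971 / 1000000000000 : ℚ) = true := by krfl
theorem R2L8S7T7.res : In (tF 1 6 RW 7 7) (138528779 / 125000000000 : ℚ) (584801217 / 500000000000 : ℚ) ∧
    In (tF kZ 6 RW 7 7) (-584801217 / 500000000000 : ℚ) (-1046860971 / 1000000000000 : ℚ) :=
  resZ (Or.inr (Or.inr rfl)) (momCA (Or.inr (Or.inr rfl)) (cplx_kindW 6 (by norm_num)) R2L8S7T7.acc (by decide) R2L8S7T7.hb R2L8S7T7.cov)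
    (List.forall_mem_cons.2 ⟨CluQ.toZ (clC1 (cplx_kindW 6 (by norm_num)) R2L8S7T7.acc (by norm_num) (by norm_num) (by norm_num) R2L8S7T7.c0_0),
      List.forall_mem_nil _⟩) R2L8S7T7.chk

theorem R2L8S0T6.chk : (mkD bQ (eQ (6 + 2)) (momOf 43 10 R2L8S0T6.bl) []
    [(620079528409954313914875999 / 19807040628566084398385987584 : ℚ), (7942708105128548411665812723 / 79228162514264337593543950336 : ℚ), (1920268615087236875847762545 / 39614081257132168796771975168 : ℚ), (688815768507991127566877457 / 79228162514264337593543950336 : ℚ), (52251671374618119633310857 / 79228162514264337593543950336 : ℚ), (707903460171238876779069 / 39614081257132168796771975168 : ℚ)]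
    (-10 : ℚ) (1 / 20 : ℚ) 62).check
    (0 : ℚ) (736901 / 62500000000 : ℚ) (-736901 / 62500000000 : ℚ) (736901 / 62500000000 : ℚ) = true := by krfl
theorem R2L8S0T6.res : In (tF 1 6 RW 0 6) (0 : ℚ) (736901 / 62500000000 : ℚ) ∧
    In (tF kZ 6 RW 0 6) (-736901 / 62500000000 : ℚ) (736901 / 62500000000 : ℚ) :=
  resZ (Or.inr (Or.inr rfl)) (momCA (Or.inr (Or.inr rfl)) (cplx_kindW 6 (by norm_num)) R2L8S0T6.acc (by decide) R2L8S0T6.hb R2L8S0T6.cov)
    (List.forall_mem_nil _) R2L8S0T6.chk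

theorem bd_Z0_8 : (165938639 / 50000000 : ℝ) ≤ Zc 1 1 7 ∧ Zc 1 1 7 ≤ (82981253 / 25000000 : ℝ) := by
  have h0 := R0L8S8T8.res
  have h1 := R0L8S7T7.res
  have h2 := R0L8S0T6.res
  have e0 : Zc 1 1 7 = tF 1 6 1 8 8 + 2 * tF 1 6 1 0 7 := Zc_one (Or.inl rfl) 6
  have e1 := tF_split 1 6 1 0 6 7 (by norm_num) (by norm_num)
  simp only [In] at h0 h1 h2
  push_cast at h0 h1 h2
  norm_num only at e1
  constructor <;> linarith [h0.1.1, h0.1.2, h0.2.1, h0.2.2, h1.1.1, h1.1.2, h1.2.1, h1.2.2, h2.1.1, h2.1.2, h2.2.1, h2.2.2]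

theorem bd_Y0_8 : (65431733 / 20000000 : ℝ) ≤ Zc kZ 1 7 ∧ Zc kZ 1 7 ≤ (2618021 / 800000 : ℝ) := by
  have h0 := R0L8S8T8.res
  have h1 := R0L8S7T7.res
  have h2 := R0L8S0T6.res
  have e0 : Zc kZ 1 7 = tF kZ 6 1 8 8 + 2 * tF kZ 6 1 0 7 := Zc_kZ (Or.inl rfl) 6
  have e1 := tF_split kZ 6 1 0 6 7 (by norm_num) (by norm_num)
  simp only [In] at h0 h1 h2
  push_cast at h0 h1 h2
  norm_num only at e1
  constructor <;> linarith [h0.1.1, h0.1.2, h0.2.1, h0.2.2, h1.1.1, h1.1.2, h1.2.1, h1.2.2, h2.1.1, h2.1.2, h2.2.1, h2.2.2]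

theorem bd_Zp_8 : (12098879 / 20000000 : ℝ) ≤ Zc 1 RZ 7 ∧ Zc 1 RZ 7 ≤ (12105269 / 20000000 : ℝ) := by
  have h0 := R1L8S8T8.res
  have h1 := R1L8S7T7.res
  have h2 := R1L8S0T6.res
  have e0 : Zc 1 RZ 7 = tF 1 6 RZ 8 8 + 2 * tF 1 6 RZ 0 7 := Zc_one (Or.inr (Or.inl rfl)) 6
  have e1 := tF_split 1 6 RZ 0 6 7 (by norm_num) (by norm_num)
  simp only [In] at h0 h1 h2
  push_cast at h0 h1 h2
  norm_num only at e1
  constructor <;> linarith [h0.1.1, h0.1.2, h0.2.1, h0.2.2, h1.1.1, h1.1.2, h1.2.1, h1.2.2, h2.1.1, h2.1.2, h2.2.1, h2.2.2]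

theorem bd_Yx_8 : (-11496521 / 20000000 : ℝ) ≤ Zc kX RZ 7 ∧ Zc kX RZ 7 ≤ (-28717929 / 50000000 : ℝ) := by
  have h0 := R1L8S8T8.res
  have e0 : Zc kX RZ 7 = tF kX 6 RZ 8 8 := Zc_kX 6
  simp only [In] at h0
  push_cast at h0
  constructor <;> linarith [h0.1.1, h0.1.2, h0.2.1, h0.2.2]

theorem bd_Zw_8 : (993309 / 1000000 : ℝ) ≤ Zc 1 RW 7 ∧ Zc 1 RW 7 ≤ (12421061 / 12500000 : ℝ) := by
  have h0 := R2L8S8T8.res
  have h1 := R2L8S7T7.res
  have h2 := R2L8S0T6.res
  have e0 : Zc 1 RW 7 = tF 1 6 RW 8 8 + 2 * tF 1 6 RW 0 7 := Zc_one (Or.inr (Or.inr rfl)) 6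
  have e1 := tF_split 1 6 RW 0 6 7 (by norm_num) (by norm_num)
  simp only [In] at h0 h1 h2
  push_cast at h0 h1 h2
  norm_num only at e1
  constructor <;> linarith [h0.1.1, h0.1.2, h0.2.1, h0.2.2, h1.1.1, h1.1.2, h1.2.1, h1.2.2, h2.1.1, h2.1.2, h2.2.1, h2.2.2]

theorem bd_Yw_8 : (19770229 / 20000000 : ℝ) ≤ Zc kZ RW 7 ∧ Zc kZ RW 7 ≤ (19785039 / 20000000 : ℝ) := by
  have h0 := R2L8S8T8.res
  have h1 := R2L8S7T7.res
  have h2 := R2L8S0T6.res
  have e0 : Zc kZ RW 7 = tF kZ 6 RW 8 8 + 2 * tF kZ 6 RW 0 7 := Zc_kZ (Or.inr (Or.inr rfl)) 6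
  have e1 := tF_split kZ 6 RW 0 6 7 (by norm_num) (by norm_num)
  simp only [In] at h0 h1 h2
  push_cast at h0 h1 h2
  norm_num only at e1
  constructor <;> linarith [h0.1.1, h0.1.2, h0.2.1, h0.2.2, h1.1.1, h1.1.2, h1.2.1, h1.2.2, h2.1.1, h2.1.2, h2.2.1, h2.2.2]

end Crest.Agent.R347
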