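import Crest.Agent.R347.Asm
import Crest.Agent.R347.HR9a
import Crest.Agent.R347.HR9b
import Crest.Agent.R347.HR9c

/-! Row 347: enclosures of partition functions (generated). -/

set_option autoImplicit false
set_option Elab.async false
set_option maxRecDepth 100000

namespace Crest.Agent.R347

theorem R0L9S9T9.chk : (mkD bQ (eQ (7 + 2)) (momOf 61 14 R0L9S9T9.bl) [mkCl 0 13086270 778 1 ((-1) ^ (7 + 2 + 9)), mkCl 0 12278659 1892 2 ((-1) ^ (7 + 2 + 9))]
    [(551930220447926484380373039 / 19807040628566084398385987584 : ℚ), (103155810041661969849476465 / 618970019642690137449562112 : ℚ), (9597138189472343547274332845 / 79228162514264337593543950336 : ℚ), (86734970079640782597074495 / 2475880078570760549798248448 : ℚ), (400647315128747831569638629 / 79228162514264337593543950336 : ℚ), (7661137953063331126973513 / 19807040628566084398385987584 : ℚ), (593590913013358906486611 / 39614081257132168796771975168 : ℚ), (18327648364187195058329 / 79228162514264337593543950336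 : ℚ)]
    (-233 / 20 : ℚ) (1 / 20 : ℚ) 39).check
    (70601432987 / 250000000000 : ℚ) (282551088677 / 1000000000000 : ℚ) (141130674781 / 500000000000 : ℚ) (282551088677 / 1000000000000 : ℚ) = true := by krfl
theorem R0L9S9T9.res : In (tF 1 7 1 9 9) (70601432987 / 250000000000 : ℚ) (282551088677 / 1000000000000 : ℚ) ∧
    In (tF kZ 7 1 9 9) (141130674781 / 500000000000 : ℚ) (282551088677 / 1000000000000 : ℚ) :=
  resZ (Or.inl rfl) (momRB (Or.inl rfl) (real_kind0 7 (by norm_num)) R0L9S9T9.acc (by decide) R0L9S9T9.hb rfl R0L9S9T9.cov)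
    (List.forall_mem_cons.2 ⟨CluQ.toZ (clR1 (real_kind0 7 (by norm_num)) R0L9S9T9.acc (by norm_num) R0L9S9T9.c0_0),
      List.forall_mem_cons.2 ⟨CluQ.toZ (clR2 (real_kind0 7 (by norm_num)) R0L9S9T9.acc (by norm_num) R0L9S9T9.c1_0 R0L9S9T9.c1_1 R0L9S9T9.or1),
      List.forall_mem_nil _⟩⟩) R0L9S9T9.chk

theorem R0L9S8T8.chk : (mkD bQ (eQ (7 + 2)) (momOf 61 14 R0L9S8T8.bl) [mkCl 0 12278659 1330 2 ((-1) ^ (7 + 2 + 8))]
    [(1814650487570660743346005693 / 79228162514264337593543950336 : ℚ), (12432893740585151366225508065 / 79228162514264337593543950336 : ℚ), (9140671229412383252694525285 / 79228162514264337593543950336 : ℚ), (2654656925424919820158842415 / 79228162514264337593543950336 : ℚ), (192067129852875448166306047 / 39614081257132168796771975168 : ℚ), (7358849299709463964066213 / 19807040628566084398385987584 : ℚ), (1142174494542791476455679 / 79228162514264337593543950336 : ℚ), (17659838493210596315957 / 79228162514264337593543950336 : ℚ)]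
    (-233 / 20 : ℚ) (1 / 20 : ℚ) 40).check
    (74933481 / 200000000000 : ℚ) (508692709 / 1000000000000 : ℚ) (-508692709 / 1000000000000 : ℚ) (-240644307 / 1000000000000 : ℚ) = true := by krfl
theorem R0L9S8T8.res : In (tF 1 7 1 8 8) (74933481 / 200000000000 : ℚ) (508692709 / 1000000000000 : ℚ) ∧
    In (tF kZ 7 1 8 8) (-508692709 / 1000000000000 : ℚ) (-240644307 / 1000000000000 : ℚ) :=
  resZ (Or.inl rfl) (momRA (Or.inl rfl) (real_kind0 7 (by norm_num)) R0L9S8T8.acc (by decide) R0L9S8T8.hb R0L9S8T8.cov)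
    (List.forall_mem_cons.2 ⟨CluQ.toZ (clR2 (real_kind0 7 (by norm_num)) R0L9S8T8.acc (by norm_num) R0L9S8T8.c0_0 R0L9S8T8.c0_1 R0L9S8T8.or0),
      List.forall_mem_nil _⟩) R0L9S8T8.chk

theorem R0L9S7T7.chk : (mkD bQ (eQ (7 + 2)) (momOf 53 12 R0L9S7T7.bl) []
    [(2280097723376196329616277249 / 79228162514264337593543950336 : ℚ), (4916494431434827383999224423 / 39614081257132168796771975168 : ℚ), (5711600017264680632990444899 / 79228162514264337593543950336 : ℚ), (1288203142610118242471293541 / 79228162514264337593543950336 : ℚ), (137054334150252751054920783 / 79228162514264337593543950336 : ℚ), (6904931921488698733857015 / 79228162514264337593543950336 : ℚ), (132695163839088394424399 / 79228162514264337593543950336 : ℚ)]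
    (-113 / 10 : ℚ) (1 / 20 : ℚ) 51).check
    (0 : ℚ) (4717373 / 1000000000000 : ℚ) (-4717373 / 1000000000000 : ℚ) (4717373 / 1000000000000 : ℚ) = true := by krfl
theorem R0L9S7T7.res : In (tF 1 7 1 7 7) (0 : ℚ) (4717373 / 1000000000000 : ℚ) ∧
    In (tF kZ 7 1 7 7) (-4717373 / 1000000000000 : ℚ) (4717373 / 1000000000000 : ℚ) :=
  resZ (Or.inl rfl) (momRA (Or.inl rfl) (real_kind0 7 (by norm_num)) R0L9S7T7.acc (by decide) R0L9S7T7.hb R0L9S7T7.cov)
    (List.forall_mem_nil _) R0L9S7T7.chk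

theorem R0L9S0T6.chk : (mkD bQ (eQ (7 + 2)) (momOf 36 8 R0L9S0T6.bl) []
    [(5342876877740106223606377287 / 79228162514264337593543950336 : ℚ), (2857531336553063022855462491 / 39614081257132168796771975168 : ℚ), (1523393052597365540781464493 / 79228162514264337593543950336 : ℚ), (73851370825785724205576615 / 39614081257132168796771975168 : ℚ), (4723852922104067418781129 / 79228162514264337593543950336 : ℚ)]
    (-57 / 5 : ℚ) (1 / 20 : ℚ) 95).check
    (0 : ℚ) (10871269 / 1000000000000 : ℚ) (-10871269 / 1000000000000 : ℚ) (10871269 / 1000000000000 : ℚ) = true := by krfl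
theorem R0L9S0T6.res : In (tF 1 7 1 0 6) (0 : ℚ) (10871269 / 1000000000000 : ℚ) ∧
    In (tF kZ 7 1 0 6) (-10871269 / 1000000000000 : ℚ) (10871269 / 1000000000000 : ℚ) :=
  resZ (Or.inl rfl) (momRA (Or.inl rfl) (real_kind0 7 (by norm_num)) R0L9S0T6.acc (by decide) R0L9S0T6.hb R0L9S0T6.cov)
    (List.forall_mem_nil _) R0L9S0T6.chk

theorem R1L9S9T9.chk : (mkD bQ (eQ (7 + 2)) (momOf 61 14 R1L9S9T9.bl) [mkCl 0 13261106 1023 1 ((-1) ^ (7 + 2) * 1), mkCl 0 12250940 2520 2 ((-1) ^ (7 + 2) * (-1))]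
    [(1929649835136060041506187015 / 79228162514264337593543950336 : ℚ), (15113391291037849938604864315 / 79228162514264337593543950336 : ℚ), (11520469281218645619235242199 / 79228162514264337593543950336 : ℚ), (3441537867551395456356229493 / 79228162514264337593543950336 : ℚ), (255366123140506300067128437 / 39614081257132168796771975168 : ℚ), (20039233314651329424674731 / 39614081257132168796771975168 : ℚ), (1591335752141245999927727 / 79228162514264337593543950336 : ℚ), (25166045045562381540607 / 79228162514264337593543950336 : ℚ)]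
    (-23 / 2 : ℚ) (1 / 20 : ℚ) 37).check
    (55000956403 / 40000000000 : ℚ) (1375064260533 / 1000000000000 : ℚ) (-1099585069 / 800000000 : ℚ) (-68720343127 / 50000000000 : ℚ) = true := by krfl
theorem R1L9S9T9.res : In (tF 1 7 RZ 9 9) (55000956403 / 40000000000 : ℚ) (1375064260533 / 1000000000000 : ℚ) ∧
    In (tF kX 7 RZ 9 9) (-1099585069 / 800000000 : ℚ) (-68720343127 / 50000000000 : ℚ) :=
  resX  (momRB (Or.inr (Or.inl rfl)) (real_kindP 7 (by norm_num)) R1L9S9T9.acc (by decide) R1L9S9T9.hb rfl R1L9S9T9.cov)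
    (List.forall_mem_cons.2 ⟨clX1 (real_kindP 7 (by norm_num)) R1L9S9T9.acc (by norm_num) 1 R1L9S9T9.c0_0 (parP_imp _ _ R1L9S9T9.p0_0),
      List.forall_mem_cons.2 ⟨clX2 (real_kindP 7 (by norm_num)) R1L9S9T9.acc (by norm_num) (-1) R1L9S9T9.c1_0 R1L9S9T9.c1_1 R1L9S9T9.or1 (parM_imp _ _ R1L9S9T9.p1_0) (parM_imp _ _ R1L9S9T9.p1_1),
      List.forall_mem_nil _⟩⟩) R1L9S9T9.chk

theorem R1L9S8T8.chk : (mkD bQ (eQ (7 + 2)) (momOf 69 16 R1L9S8T8.bl) [mkCl 0 12759464 1284 1 ((-1) ^ (7 + 2 + 8))]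
    [(2156702974695651458995091193 / 79228162514264337593543950336 : ℚ), (10640510458714558383423930645 / 39614081257132168796771975168 : ℚ), (19678227482462650170121045045 / 79228162514264337593543950336 : ℚ), (455977453030499411011215189 / 4951760157141521099596496896 : ℚ), (697696196817807278709108725 / 39614081257132168796771975168 : ℚ), (75088571840102414731642195 / 39614081257132168796771975168 : ℚ), (9181612827124102942331267 / 79228162514264337593543950336 : ℚ), (297576461410178935512785 / 79228162514264337593543950336 : ℚ), (1984390842644428786415 / 39614081257132168796771975168 : ℚ)]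
    (-231 / 20 : ℚ) (1 / 20 : ℚ) 30).check
    (2920475807 / 200000000000 : ℚ) (114541051 / 7812500000 : ℚ) (-114541051 / 7812500000 : ℚ) (-2908717303 / 200000000000 : ℚ) = true := by krfl
theorem R1L9S8T8.res : In (tF 1 7 RZ 8 8) (2920475807 / 200000000000 : ℚ) (114541051 / 7812500000 : ℚ) ∧
    In (tF kZ 7 RZ 8 8) (-114541051 / 7812500000 : ℚ) (-2908717303 / 200000000000 : ℚ) :=
  resZ (Or.inr (Or.inl rfl)) (momRA (Or.inr (Or.inl rfl)) (real_kindP 7 (by norm_num)) R1L9S8T8.acc (by decide) R1L9S8T8.hb R1L9S8T8.cov)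
    (List.forall_mem_cons.2 ⟨CluQ.toZ (clR1 (real_kindP 7 (by norm_num)) R1L9S8T8.acc (by norm_num) R1L9S8T8.c0_0),
      List.forall_mem_nil _⟩) R1L9S8T8.chk

theorem R1L9S7T7.chk : (mkD bQ (eQ (7 + 2)) (momOf 53 12 R1L9S7T7.bl) []
    [(141076367321781309905541717 / 4951760157141521099596496896 : ℚ), (1124271628108344600940587445 / 9903520314283042199192993792 : ℚ), (2614550610535914112826035447 / 39614081257132168796771975168 : ℚ), (297156672806492219599650455 / 19807040628566084398385987584 : ℚ), (127735857608789611607044323 / 79228162514264337593543950336 : ℚ), (6507274179458881153184023 / 79228162514264337593543950336 : ℚ), (126521184656491543797133 / 79228162514264337593543950336 : ℚ)]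
    (-57 / 5 : ℚ) (1 / 20 : ℚ) 53).check
    (0 : ℚ) (12066987 / 1000000000000 : ℚ) (-12066987 / 1000000000000 : ℚ) (12066987 / 1000000000000 : ℚ) = true := by krfl
theorem R1L9S7T7.res : In (tF 1 7 RZ 7 7) (0 : ℚ) (12066987 / 1000000000000 : ℚ) ∧
    In (tF kZ 7 RZ 7 7) (-12066987 / 1000000000000 : ℚ) (12066987 / 1000000000000 : ℚ) :=
  resZ (Or.inr (Or.inl rfl)) (momRA (Or.inr (Or.inl rfl)) (real_kindP 7 (by norm_num)) R1L9S7T7.acc (by decide) R1L9S7T7.hb R1L9S7T7.cov)
    (List.forall_mem_nil _) R1L9S7T7.chk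

theorem R1L9S0T6.chk : (mkD bQ (eQ (7 + 2)) (momOf 36 8 R1L9S0T6.bl) []
    [(5342876877740106223606377287 / 79228162514264337593543950336 : ℚ), (2857531336553063022855462491 / 39614081257132168796771975168 : ℚ), (1523393052597365540781464493 / 79228162514264337593543950336 : ℚ), (73851370825785724205576615 / 39614081257132168796771975168 : ℚ), (4723852922104067418781129 / 79228162514264337593543950336 : ℚ)]
    (-57 / 5 : ℚ) (1 / 20 : ℚ) 95).check
    (0 : ℚ) (10871269 / 1000000000000 : ℚ) (-10871269 / 1000000000000 : ℚ) (10871269 / 1000000000000 : ℚ) = true := by krfl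
theorem R1L9S0T6.res : In (tF 1 7 RZ 0 6) (0 : ℚ) (10871269 / 1000000000000 : ℚ) ∧
    In (tF kZ 7 RZ 0 6) (-10871269 / 1000000000000 : ℚ) (10871269 / 1000000000000 : ℚ) :=
  resZ (Or.inr (Or.inl rfl)) (momRA (Or.inr (Or.inl rfl)) (real_kindP 7 (by norm_num)) R1L9S0T6.acc (by decide) R1L9S0T6.hb R1L9S0T6.cov)
    (List.forall_mem_nil _) R1L9S0T6.chk

theorem R2L9S9T9.chk : (mkD bQ (eQ (7 + 2)) (momOf 62 14 R2L9S9T9.bl) [mkCl 0 13224346 1276 1 ((-1) ^ (7 + 2 + 9)), mkCl 0 12258068 2818 2 ((-1) ^ (7 + 2 + 9))]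
    [(2153421019870092297228151639 / 79228162514264337593543950336 : ℚ), (14504429309522980256304639211 / 79228162514264337593543950336 : ℚ), (2698683970534082940099764155 / 19807040628566084398385987584 : ℚ), (3174342546005133310144194477 / 79228162514264337593543950336 : ℚ), (58118223872705386469183921 / 9903520314283042199192993792 : ℚ), (36055539788659161707063331 / 79228162514264337593543950336 : ℚ), (88484034231464926375053 / 4951760157141521099596496896 : ℚ), (2768918711695779628179 / 9903520314283042199192993792 : ℚ)]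
    (-231 / 20 : ℚ) (1 / 20 : ℚ) 37).check
    (61602254361 / 62500000000 : ℚ) (492846975307 / 500000000000 : ℚ) (985583756577 / 1000000000000 : ℚ) (492846975307 / 500000000000 : ℚ) = true := by krfl
theorem R2L9S9T9.res : In (tF 1 7 RW 9 9) (61602254361 / 62500000000 : ℚ) (492846975307 / 500000000000 : ℚ) ∧
    In (tF kZ 7 RW 9 9) (985583756577 / 1000000000000 : ℚ) (492846975307 / 500000000000 : ℚ) :=
  resZ (Or.inr (Or.inr rfl)) (momCB (Or.inr (Or.inr rfl)) (cplx_kindW 7 (by norm_num)) R2L9S9T9.acc (by decide) R2L9S9T9.hb rfl R2L9S9T9.cov)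
    (List.forall_mem_cons.2 ⟨CluQ.toZ (clC1 (cplx_kindW 7 (by norm_num)) R2L9S9T9.acc (by norm_num) (by norm_num) (by norm_num) R2L9S9T9.c0_0),
      List.forall_mem_cons.2 ⟨CluQ.toZ (clC2 (cplx_kindW 7 (by norm_num)) R2L9S9T9.acc (by norm_num) (by norm_num) (by norm_num) R2L9S9T9.c1_0 R2L9S9T9.c1_1 R2L9S9T9.or1),
      List.forall_mem_nil _⟩⟩) R2L9S9T9.chk

theorem R2L9S8T8.chk : (mkD bQ (eQ (7 + 2)) (momOf 70 16 R2L9S8T8.bl) [mkCl 0 12702587 945 1 ((-1) ^ (7 + 2 + 8))]
    [(2050095369417552931420491447 / 79228162514264337593543950336 : ℚ), (9994764523245530344203462065 / 39614081257132168796771975168 : ℚ), (18246187684266076176835826615 / 79228162514264337593543950336 : ℚ), (1670359550617554805473195153 / 19807040628566084398385987584 : ℚ), (1262647280036183209215788079 / 79228162514264337593543950336 : ℚ), (134298147175672045813298703 / 79228162514264337593543950336 : ℚ), (4057902869469703628517437 / 39614081257132168796771975168 : ℚ), (260016840959174887793959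 / 79228162514264337593543950336 : ℚ), (3428310538126513424521 / 79228162514264337593543950336 : ℚ)]
    (-58 / 5 : ℚ) (1 / 20 : ℚ) 30).check
    (8722317221 / 1000000000000 : ℚ) (2203605873 / 250000000000 : ℚ) (-2203605873 / 250000000000 : ℚ) (-8630247431 / 1000000000000 : ℚ) = true := by krfl
theorem R2L9S8T8.res : In (tF 1 7 RW 8 8) (8722317221 / 1000000000000 : ℚ) (2203605873 / 250000000000 : ℚ) ∧
    In (tF kZ 7 RW 8 8) (-2203605873 / 250000000000 : ℚ) (-8630247431 / 1000000000000 : ℚ) :=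
  resZ (Or.inr (Or.inr rfl)) (momCA (Or.inr (Or.inr rfl)) (cplx_kindW 7 (by norm_num)) R2L9S8T8.acc (by decide) R2L9S8T8.hb R2L9S8T8.cov)
    (List.forall_mem_cons.2 ⟨CluQ.toZ (clC1 (cplx_kindW 7 (by norm_num)) R2L9S8T8.acc (by norm_num) (by norm_num) (by norm_num) R2L9S8T8.c0_0),
      List.forall_mem_nil _⟩) R2L9S8T8.chk

theorem R2L9S7T7.chk : (mkD bQ (eQ (7 + 2)) (momOf 53 12 R2L9S7T7.bl) []
    [(535846030526045926986283633 / 19807040628566084398385987584 : ℚ), (4492840955478442365764202139 / 39614081257132168796771975168 : ℚ), (2622003770445673667508819201 / 39614081257132168796771975168 : ℚ), (595741028031677443070711861 / 39614081257132168796771975168 : ℚ), (127812604571329371812991049 / 79228162514264337593543950336 : ℚ), (6495489031343372396620279 / 79228162514264337593543950336 : ℚ), (125947479917647960299325 / 79228162514264337593543950336 : ℚ)]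
    (-57 / 5 : ℚ) (1 / 20 : ℚ) 53).check
    (0 : ℚ) (1164363 / 100000000000 : ℚ) (-1164363 / 100000000000 : ℚ) (1164363 / 100000000000 : ℚ) = true := by krfl
theorem R2L9S7T7.res : In (tF 1 7 RW 7 7) (0 : ℚ) (1164363 / 100000000000 : ℚ) ∧
    In (tF kZ 7 RW 7 7) (-1164363 / 100000000000 : ℚ) (1164363 / 100000000000 : ℚ) :=
  resZ (Or.inr (Or.inr rfl)) (momCA (Or.inr (Or.inr rfl)) (cplx_kindW 7 (by norm_num)) R2L9S7T7.acc (by decide) R2L9S7T7.hb R2L9S7T7.cov)
    (List.forall_mem_nil _) R2L9S7T7.chk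

theorem R2L9S0T6.chk : (mkD bQ (eQ (7 + 2)) (momOf 36 8 R2L9S0T6.bl) []
    [(5342876877740106223606377287 / 79228162514264337593543950336 : ℚ), (2857531336553063022855462491 / 39614081257132168796771975168 : ℚ), (1523393052597365540781464493 / 79228162514264337593543950336 : ℚ), (73851370825785724205576615 / 39614081257132168796771975168 : ℚ), (4723852922104067418781129 / 79228162514264337593543950336 : ℚ)]
    (-57 / 5 : ℚ) (1 / 20 : ℚ) 95).check
    (0 : ℚ) (10871269 / 1000000000000 : ℚ) (-10871269 / 1000000000000 : ℚ) (10871269 / 1000000000000 : ℚ) = true := by krfl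
theorem R2L9S0T6.res : In (tF 1 7 RW 0 6) (0 : ℚ) (10871269 / 1000000000000 : ℚ) ∧
    In (tF kZ 7 RW 0 6) (-10871269 / 1000000000000 : ℚ) (10871269 / 1000000000000 : ℚ) :=
  resZ (Or.inr (Or.inr rfl)) (momCA (Or.inr (Or.inr rfl)) (cplx_kindW 7 (by norm_num)) R2L9S0T6.acc (by decide) R2L9S0T6.hb R2L9S0T6.cov)
    (List.forall_mem_nil _) R2L9S0T6.chk

theorem bd_Z0_9 : (14157753 / 50000000 : ℝ) ≤ Zc 1 1 8 ∧ Zc 1 1 8 ≤ (14179983 / 50000000 : ℝ) := by
  have h0 := R0L9S9T9.res
  have h1 := R0L9S8T8.res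
  have h2 := R0L9S7T7.res
  have h3 := R0L9S0T6.res
  have e0 : Zc 1 1 8 = tF 1 7 1 9 9 + 2 * tF 1 7 1 0 8 := Zc_one (Or.inl rfl) 7
  have e1 := tF_split 1 7 1 0 6 8 (by norm_num) (by norm_num)
  have e2 := tF_split 1 7 1 7 7 8 (by norm_num) (by norm_num)
  simp only [In] at h0 h1 h2 h3
  push_cast at h0 h1 h2 h3
  norm_num only at e1 e2
  constructor <;> linarith [h0.1.1, h0.1.2, h0.2.1, h0.2.2, h1.1.1, h1.1.2, h1.2.1, h1.2.2, h2.1.1, h2.1.2, h2.2.1, h2.2.2, h3.1.1, h3.1.2, h3.2.1, h3.2.2]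

theorem bd_Y0_9 : (14060639 / 50000000 : ℝ) ≤ Zc kZ 1 8 ∧ Zc kZ 1 8 ≤ (14105049 / 50000000 : ℝ) := by
  have h0 := R0L9S9T9.res
  have h1 := R0L9S8T8.res
  have h2 := R0L9S7T7.res
  have h3 := R0L9S0T6.res
  have e0 : Zc kZ 1 8 = tF kZ 7 1 9 9 + 2 * tF kZ 7 1 0 8 := Zc_kZ (Or.inl rfl) 7
  have e1 := tF_split kZ 7 1 0 6 8 (by norm_num) (by norm_num)
  have e2 := tF_split kZ 7 1 7 7 8 (by norm_num) (by norm_num)
  simp only [In] at h0 h1 h2 h3
  push_cast at h0 h1 h2 h3
  norm_num only at e1 e2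
  constructor <;> linarith [h0.1.1, h0.1.2, h0.2.1, h0.2.2, h1.1.1, h1.1.2, h1.2.1, h1.2.2, h2.1.1, h2.1.2, h2.2.1, h2.2.2, h3.1.1, h3.1.2, h3.2.1, h3.2.2]

theorem bd_Zp_9 : (70211433 / 50000000 : ℝ) ≤ Zc 1 RZ 8 ∧ Zc 1 RZ 8 ≤ (28088653 / 20000000 : ℝ) := by
  have h0 := R1L9S9T9.res
  have h1 := R1L9S8T8.res
  have h2 := R1L9S7T7.res
  have h3 := R1L9S0T6.res
  have e0 : Zc 1 RZ 8 = tF 1 7 RZ 9 9 + 2 * tF 1 7 RZ 0 8 := Zc_one (Or.inr (Or.inl rfl)) 7
  have e1 := tF_split 1 7 RZ 0 6 8 (by norm_num) (by norm_num)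
  have e2 := tF_split 1 7 RZ 7 7 8 (by norm_num) (by norm_num)
  simp only [In] at h0 h1 h2 h3
  push_cast at h0 h1 h2 h3
  norm_num only at e1 e2
  constructor <;> linarith [h0.1.1, h0.1.2, h0.2.1, h0.2.2, h1.1.1, h1.1.2, h1.2.1, h1.2.2, h2.1.1, h2.1.2, h2.2.1, h2.2.2, h3.1.1, h3.1.2, h3.2.1, h3.2.2]

theorem bd_Yx_9 : (-68724067 / 50000000 : ℝ) ≤ Zc kX RZ 8 ∧ Zc kX RZ 8 ≤ (-68720343 / 50000000 : ℝ) := by
  have h0 := R1L9S9T9.res
  have e0 : Zc kX RZ 8 = tF kX 7 RZ 9 9 := Zc_kX 7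
  simp only [In] at h0
  push_cast at h0
  constructor <;> linarith [h0.1.1, h0.1.2, h0.2.1, h0.2.2]

theorem bd_Zw_9 : (10030807 / 10000000 : ℝ) ≤ Zc 1 RW 8 ∧ Zc 1 RW 8 ≤ (100336783 / 100000000 : ℝ) := by
  have h0 := R2L9S9T9.res
  have h1 := R2L9S8T8.res
  have h2 := R2L9S7T7.res
  have h3 := R2L9S0T6.res
  have e0 : Zc 1 RW 8 = tF 1 7 RW 9 9 + 2 * tF 1 7 RW 0 8 := Zc_one (Or.inr (Or.inr rfl)) 7
  have e1 := tF_split 1 7 RW 0 6 8 (by norm_num) (by norm_num)
  have e2 := tF_split 1 7 RW 7 7 8 (by norm_num) (by norm_num)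
  simp only [In] at h0 h1 h2 h3
  push_cast at h0 h1 h2 h3
  norm_num only at e1 e2
  constructor <;> linarith [h0.1.1, h0.1.2, h0.2.1, h0.2.2, h1.1.1, h1.1.2, h1.2.1, h1.2.2, h2.1.1, h2.1.2, h2.2.1, h2.2.2, h3.1.1, h3.1.2, h3.2.1, h3.2.2]

theorem bd_Yw_9 : (96790987 / 100000000 : ℝ) ≤ Zc kZ RW 8 ∧ Zc kZ RW 8 ≤ (96847849 / 100000000 : ℝ) := by
  have h0 := R2L9S9T9.res
  have h1 := R2L9S8T8.res
  have h2 := R2L9S7T7.res
  have h3 := R2L9S0T6.res
  have e0 : Zc kZ RW 8 = tF kZ 7 RW 9 9 + 2 * tF kZ 7 RW 0 8 := Zc_kZ (Or.inr (Or.inr rfl)) 7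
  have e1 := tF_split kZ 7 RW 0 6 8 (by norm_num) (by norm_num)
  have e2 := tF_split kZ 7 RW 7 7 8 (by norm_num) (by norm_num)
  simp only [In] at h0 h1 h2 h3
  push_cast at h0 h1 h2 h3
  norm_num only at e1 e2
  constructor <;> linarith [h0.1.1, h0.1.2, h0.2.1, h0.2.2, h1.1.1, h1.1.2, h1.2.1, h1.2.2, h2.1.1, h2.1.2, h2.2.1, h2.2.2, h3.1.1, h3.1.2, h3.2.1, h3.2.2]

end Crest.Agent.R347
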