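import Crest.Agent.R347.Exch

/-! Row 347: the spin-one representation of rotations and the covariance of the local tensor. -/

set_option autoImplicit false
open Crest.MathPhysics.SpinChain Matrix

namespace Crest.Agent.R347

/-- `1/√2` -/
noncomputable def covr : ℂ := ((Real.sqrt 2 : ℝ) : ℂ) / 2

theorem covr_sq : covr * covr = 1 / 2 := by
  have h : ((Real.sqrt 2 : ℝ) : ℂ) * ((Real.sqrt 2 : ℝ) : ℂ) = 2 := by
    rw [← Complex.ofReal_mul, Real.mul_self_sqrt (by norm_num)]; norm_num
  unfold covr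
  linear_combination h / 4

theorem star_covr : star covr = covr := by simp [covr]

/-- from the Cartesian basis to the standard basis -/
noncomputable def Wq : M3 := !![-covr, Complex.I * covr, 0; 0, 0, 1; covr, Complex.I * covr, 0]

theorem Wq_H : Wqᴴ = !![-covr, 0, covr; -Complex.I * covr, 0, -Complex.I * covr; 0, 1, 0] := by
  ext i j
  fin_cases i <;> fin_cases j <;> simp [Wq, covr]

theorem Wq_mul : Wq * Wqᴴ = 1 := by
  have h := covr_sq
  have hI := Complex.I_mul_I
  rw [Wq_H]
  ext i j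
  fin_cases i <;> fin_cases j <;> simp [Wq, Matrix.mul_apply, Fin.sum_univ_three] <;> grind

theorem Wq_mul' : Wqᴴ * Wq = 1 := mul_eq_one_comm.1 Wq_mul

/-- the spin-one representation -/
noncomputable def kR : R3 →+* M3 where
  toFun R := Wq * R.map (↑) * Wqᴴ
  map_one' := by
    rw [show (1 : R3).map ((↑) : ℝ → ℂ) = 1 from Matrix.map_one _ (by simp) (by simp), mul_one,
      Wq_mul]
  map_mul' R R' := by
    rw [show (R * R').map ((↑) : ℝ → ℂ) = R.map (↑) * R'.map (↑) from
      Matrix.map_mul (f := Complex.ofRealHom)]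
    simp only [mul_assoc]
    rw [← mul_assoc Wqᴴ Wq, Wq_mul', one_mul]
  map_zero' := by simp
  map_add' R R' := by
    rw [show (R + R').map ((↑) : ℝ → ℂ) = R.map (↑) + R'.map (↑) from
      Matrix.map_add _ (fun _ _ => Complex.ofReal_add _ _) _ _, mul_add, add_mul]

theorem kR_apply (R : R3) : kR R = Wq * R.map (↑) * Wqᴴ := rfl

theorem kR_smul (c : ℝ) (R : R3) : kR (c • R) = (c : ℂ) • kR R := by
  have : (c • R).map ((↑) : ℝ → ℂ) = (c : ℂ) • R.map (↑) := by ext i j; simp
  rw [kR_apply, kR_apply, this, mul_smul_comm, smul_mul_assoc]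

theorem kR_H (R : R3) : (kR R)ᴴ = kR Rᵀ := by
  have : (R.map ((↑) : ℝ → ℂ))ᴴ = Rᵀ.map (↑) := by ext i j; simp
  rw [kR_apply, kR_apply, conjTranspose_mul, conjTranspose_mul, conjTranspose_conjTranspose, this,
    mul_assoc]

theorem trace_kR (R : R3) : (kR R).trace = ((R.trace : ℝ) : ℂ) := by
  rw [kR_apply, trace_mul_cycle, Wq_mul', one_mul]
  simp [trace]

theorem kR_entry (R : R3) (i j : Fin 3) :
    kR R i j = ∑ b, (∑ a, Wq i a * (R a b : ℂ)) * Wqᴴ b j := by
  simp only [kR_apply, Matrix.mul_apply, map_apply]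

theorem kR_RZ : kR RZ = kZ := by
  have h := covr_sq
  have hI := Complex.I_mul_I
  ext i j
  rw [kR_entry, Wq_H]
  fin_cases i <;> fin_cases j <;> simp [Wq, RZ, kZ, Fin.sum_univ_three] <;> grind

theorem kR_RX : kR RX = kX := by
  have h := covr_sq
  have hI := Complex.I_mul_I
  ext i j
  rw [kR_entry, Wq_H]
  fin_cases i <;> fin_cases j <;> simp [Wq, RX, kX, Fin.sum_univ_three] <;> grind

/-- the generators of rotations -/
def eps : Fin 3 → R3 :=
  ![!![0, 0, 0; 0, 0, 1; 0, -1, 0], !![0, 0, -1; 0, 0, 0; 1, 0, 0], !![0, 1, 0; -1, 0, 0; 0, 0, 0]]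

theorem cov_spinPlus : spinPlus = !![0, 2 * covr, 0; 0, 0, 2 * covr; 0, 0, 0] := by
  ext i j
  fin_cases i <;> fin_cases j <;> simp [spinPlus, covr] <;> ring

theorem cov_spinMinus : spinMinus = !![0, 0, 0; 2 * covr, 0, 0; 0, 2 * covr, 0] := by
  rw [spinMinus, cov_spinPlus]
  ext i j
  fin_cases i <;> fin_cases j <;> simp [covr]

theorem cov_spinZ : spinZ = !![1, 0, 0; 0, 0, 0; 0, 0, -1] := by
  ext i j
  fin_cases i <;> fin_cases j <;> simp [spinZ, magneticNumber]
  norm_num

theorem kR_eps (a : Fin 3) : kR (eps a) = ell a := by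
  have h := covr_sq
  have hI := Complex.I_mul_I
  ext i j
  rw [kR_entry, Wq_H]
  fin_cases a <;> fin_cases i <;> fin_cases j <;>
    simp [Wq, eps, ell, spinOp, spinX, spinY, cov_spinPlus, cov_spinMinus, cov_spinZ,
      Fin.sum_univ_three] <;> grind

/-- proper rotations -/
def IsRot (R : R3) : Prop := R * Rᵀ = 1 ∧ R.det = 1

theorem IsRot.tr_mul {R : R3} (h : IsRot R) : Rᵀ * R = 1 := mul_eq_one_comm.1 h.1

theorem IsRot.mul {R R' : R3} (h : IsRot R) (h' : IsRot R') : IsRot (R * R') :=
  ⟨by rw [transpose_mul, mul_assoc, ← mul_assoc R', h'.1, one_mul, h.1],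
    by rw [det_mul, h.2, h'.2, one_mul]⟩

theorem IsRot.mul_eps {R : R3} (h : IsRot R) (a : Fin 3) :
    R * eps a = ∑ b, R b a • (eps b * R) := by
  have h1 : adjugate R = Rᵀ := by
    rw [← one_mul (adjugate R), ← h.tr_mul, mul_assoc, mul_adjugate, h.2, one_smul, mul_one]
  have h2 : R * eps a * Rᵀ = ∑ b, R b a • eps b := by
    rw [adjugate_fin_three] at h1
    have e := fun i j => congrFun (congrFun h1 i) j
    have e00 := e 0 0
    have e01 := e 0 1
    have e02 := e 0 2
    have e10 := e 1 0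
    have e11 := e 1 1
    have e12 := e 1 2
    have e20 := e 2 0
    have e21 := e 2 1
    have e22 := e 2 2
    simp at e00 e01 e02 e10 e11 e12 e20 e21 e22
    ext i j
    fin_cases a <;> fin_cases i <;> fin_cases j <;>
      simp [eps, Matrix.mul_apply, Fin.sum_univ_three] <;> linarith
  rw [← mul_one (R * eps a), ← h.tr_mul, ← mul_assoc, h2, Finset.sum_mul]
  simp only [smul_mul_assoc]

theorem IsRot.mul_ell {R : R3} (h : IsRot R) (a : Fin 3) :
    kR R * ell a = ∑ b, (R b a : ℂ) • (ell b * kR R) := by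
  rw [← kR_eps, ← map_mul, h.mul_eps, map_sum]
  simp only [kR_smul, map_mul, kR_eps]

theorem IsRot.sum_mul_ell {R : R3} (h : IsRot R) (c : Fin 3) :
    ∑ a, (R c a : ℂ) • (kR R * ell a) = ell c * kR R := by
  have e : ∀ b, ∑ a, (R c a : ℂ) * (R b a : ℂ) = if c = b then 1 else 0 := fun b => by
    have := congrFun (congrFun h.1 c) b
    rw [Matrix.mul_apply, Matrix.one_apply] at this
    simp only [transpose_apply] at this
    simp only [← Complex.ofReal_mul, ← Complex.ofReal_sum, this]
    split_ifs <;> simp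
  simp only [h.mul_ell, Finset.smul_sum, smul_smul]
  rw [Finset.sum_comm]
  simp only [← Finset.sum_smul, e, ite_smul, one_smul, zero_smul, Finset.sum_ite_eq,
    Finset.mem_univ, if_true]

/-- covariance of the local tensor -/
theorem IsRot.loc_cov {R : R3} (h : IsRot R) (s : ℝ) (γ α : B4) :
    kR R * ∑ a, uR R γ a • loc s a α = (∑ b, uR R b α • loc s γ b) * kR R := by
  rcases γ with _ | c <;> rcases α with _ | a <;>
    simp only [Fintype.sum_option, uR, loc, zero_smul, smul_zero, one_smul, Finset.sum_const_zero,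
      add_zero, zero_add, mul_one, one_mul, mul_zero, zero_mul]
  · rw [mul_smul_comm, h.mul_ell, Finset.sum_mul, Finset.smul_sum]
    exact Finset.sum_congr rfl fun b _ => by
      rw [smul_mul_assoc, smul_mul_assoc, smul_comm]
  · rw [smul_mul_assoc, ← h.sum_mul_ell, Finset.mul_sum, Finset.smul_sum]
    exact Finset.sum_congr rfl fun b _ => by
      rw [mul_smul_comm, mul_smul_comm, smul_comm]

/-- real form of the local tensor -/
def locR (s : ℝ) : B4 → B4 → R3
  | none, none => 1
  | some a, none => s • eps a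
  | none, some a => s • eps a
  | some _, some _ => 0

theorem kR_locR (s : ℝ) (α α' : B4) : kR (locR s α α') = loc s α α' := by
  rcases α with _ | c <;> rcases α' with _ | a <;> simp [locR, loc, kR_smul, kR_eps]

theorem cov_loc_symm (s : ℝ) (α α' : B4) : loc s α α' = loc s α' α := by
  rcases α with _ | c <;> rcases α' with _ | a <;> rfl

theorem Tm_herm (s : ℝ) (m : ℕ) (G : R3) : (Tm s m (kR G)).IsHermitian := by
  ext α α'
  have : ∀ α α' : BI m, Tm s m (kR G) α α' =
      (((G * (List.ofFn fun t => locR s (α t) (α' t)).prod).trace : ℝ) : ℂ) := fun α α' => by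
    rw [← trace_kR, map_mul, map_list_prod, List.map_ofFn]
    simp only [Tm, of_apply, Function.comp_def, kR_locR]
  rw [conjTranspose_apply, this α' α, Complex.star_def, Complex.conj_ofReal, ← this]
  simp only [Tm, of_apply, cov_loc_symm s (α' _)]

theorem cov_sum_cons {B M : Type} [Fintype B] [AddCommMonoid M] {m : ℕ} (F : (Fin (m + 1) → B) → M) :
    ∑ β, F β = ∑ b, ∑ β : Fin m → B, F (Fin.cons b β) := by
  rw [← (Fin.consEquiv fun _ => B).sum_comp, Fintype.sum_prod_type]
  rfl

theorem cov_prod_sum {B : Type} [Fintype B] (m : ℕ) (c : Fin m → B → ℂ) (M : Fin m → B → M3) :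
    (List.ofFn fun t => ∑ b, c t b • M t b).prod =
      ∑ β : Fin m → B, (∏ t, c t (β t)) • (List.ofFn fun t => M t (β t)).prod := by
  induction m with
  | zero => simp
  | succ m ih =>
    rw [List.ofFn_succ, List.prod_cons, ih, cov_sum_cons, Finset.sum_mul_sum]
    refine Finset.sum_congr rfl fun b _ => Finset.sum_congr rfl fun β _ => ?_
    rw [List.ofFn_succ, List.prod_cons, Fin.prod_univ_succ, smul_mul_smul_comm]
    simp only [Fin.cons_zero, Fin.cons_succ]

theorem cov_prod_conj {k : M3} (m : ℕ) {M N : Fin m → M3} (h : ∀ t, k * M t = N t * k) :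
    k * (List.ofFn M).prod = (List.ofFn N).prod * k := by
  induction m with
  | zero => simp
  | succ m ih =>
    rw [List.ofFn_succ, List.ofFn_succ, List.prod_cons, List.prod_cons, ← mul_assoc, h, mul_assoc,
      ih fun t => h t.succ, mul_assoc]

/-- covariance of the space-direction transfer matrix -/
theorem IsRot.Um_Tm {R G G' : R3} (h : IsRot R) (hG : R * G = G' * R) (s : ℝ) (m : ℕ) :
    Um m R * Tm s m (kR G) = Tm s m (kR G') * Um m R := by
  ext γ α
  have h1 := cov_prod_conj m fun t => h.loc_cov s (γ t) (α t)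
  have h2 : (kR G * (List.ofFn fun t => ∑ a, uR R (γ t) a • loc s a (α t)).prod).trace =
      (kR G' * (List.ofFn fun t => ∑ b, uR R b (α t) • loc s (γ t) b).prod).trace := by
    rw [← one_mul G, ← h.tr_mul, mul_assoc, hG, map_mul, map_mul, mul_assoc, mul_assoc, h1,
      trace_mul_comm, mul_assoc, mul_assoc, ← map_mul, h.1, map_one, mul_one]
  rw [cov_prod_sum, cov_prod_sum] at h2
  simp only [Finset.mul_sum, mul_smul_comm, trace_sum, trace_smul, smul_eq_mul] at h2
  simp only [Matrix.mul_apply, Um, Tm, of_apply, h2, mul_comm]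

theorem cov_kcons_mul {L : ℕ} (A A' : M3) (B B' : Op L) :
    kcons A B * kcons A' B' = kcons (A * A') (B * B') := by
  ext σ τ
  simp only [kcons, Matrix.mul_apply, of_apply]
  rw [cov_sum_cons, Finset.sum_mul_sum]
  refine Finset.sum_congr rfl fun b _ => Finset.sum_congr rfl fun β _ => ?_
  simp only [Fin.cons_zero, Fin.tail_cons]
  ring

theorem cov_kcons_sum_left {L : ℕ} (c : B4 → ℂ) (A : B4 → M3) (B : Op L) :
    kcons (∑ b, c b • A b) B = ∑ b, c b • kcons (A b) B := by
  ext σ τ
  simp only [kcons, of_apply, Matrix.sum_apply, Matrix.smul_apply, smul_eq_mul, Finset.sum_mul,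
    mul_assoc]

theorem cov_kcons_sum_right {L : ℕ} (c : B4 → ℂ) (A : M3) (B : B4 → Op L) :
    kcons A (∑ b, c b • B b) = ∑ b, c b • kcons A (B b) := by
  ext σ τ
  simp only [kcons, of_apply, Matrix.sum_apply, Matrix.smul_apply, smul_eq_mul, Finset.mul_sum,
    mul_left_comm]

theorem cov_kAll_succ (k : M3) (L : ℕ) : kAll k (L + 1) = kcons k (kAll k L) := by
  ext σ τ
  simp only [kAll, kcons, of_apply, Fin.prod_univ_succ, Fin.tail]

theorem IsRot.Wc_cov {R : R3} (h : IsRot R) (s : ℝ) (L : ℕ) (γ α : B4) :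
    kAll (kR R) L * ∑ a, uR R γ a • Wc s L a α = (∑ b, uR R b α • Wc s L γ b) * kAll (kR R) L := by
  induction L generalizing γ α with
  | zero =>
    have : kAll (kR R) 0 = 1 := by
      ext σ τ
      simp [kAll, Matrix.one_apply, Subsingleton.elim σ τ]
    simp [this, Wc]
  | succ L ih =>
    have e1 : ∑ a, uR R γ a • Wc s (L + 1) a α =
        ∑ a', kcons (∑ a, uR R γ a • loc s a a') (Wc s L a' α) := by
      simp only [Wc, Finset.smul_sum, cov_kcons_sum_left]
      exact Finset.sum_comm
    have e2 : ∑ b, uR R b α • Wc s (L + 1) γ b =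
        ∑ a', kcons (loc s γ a') (∑ b, uR R b α • Wc s L a' b) := by
      simp only [Wc, Finset.smul_sum, cov_kcons_sum_right]
      exact Finset.sum_comm
    rw [e1, e2, cov_kAll_succ, Finset.mul_sum, Finset.sum_mul]
    simp only [cov_kcons_mul, h.loc_cov, ← ih]
    simp only [Finset.sum_mul, Finset.mul_sum, smul_mul_assoc, mul_smul_comm, cov_kcons_sum_left,
      cov_kcons_sum_right]
    exact Finset.sum_comm

theorem cov_uR_mul (R R' : R3) (a b : B4) : ∑ c, uR R a c * uR R' c b = uR (R * R') a b := by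
  rcases a with _ | a <;> rcases b with _ | b <;>
    simp [Fintype.sum_option, uR, Matrix.mul_apply]

theorem cov_uR_tr (R : R3) (a b : B4) : uR Rᵀ a b = uR R b a := by
  rcases a with _ | a <;> rcases b with _ | b <;> rfl

/-- covariance of the time-direction transfer matrix -/
theorem IsRot.kAll_Wr {R : R3} (h : IsRot R) (s : ℝ) (L : ℕ) :
    kAll (kR R) L * Wr s L 1 = Wr s L 1 * kAll (kR R) L := by
  have e1 : Wr s L 1 = ∑ γ, ∑ α, uR R γ α • ∑ a, uR R γ a • Wc s L a α := by
    rw [Wr, ← h.tr_mul, Finset.sum_comm]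
    refine Eq.trans ?_ Finset.sum_comm
    refine Finset.sum_congr rfl fun α _ => ?_
    simp only [Finset.smul_sum, smul_smul, ← cov_uR_mul, cov_uR_tr, Finset.sum_smul]
    exact Finset.sum_comm
  have e2 : Wr s L 1 = ∑ γ, ∑ α, uR R γ α • ∑ b, uR R b α • Wc s L γ b := by
    rw [Wr, ← h.1]
    refine Finset.sum_congr rfl fun γ _ => ?_
    simp only [Finset.smul_sum, smul_smul, ← cov_uR_mul, cov_uR_tr, Finset.sum_smul]
    refine Finset.sum_comm.trans ?_
    simp only [mul_comm]
  conv_lhs => rw [e1]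
  conv_rhs => rw [e2]
  rw [Finset.mul_sum, Finset.sum_mul]
  refine Finset.sum_congr rfl fun γ _ => ?_
  rw [Finset.mul_sum, Finset.sum_mul]
  refine Finset.sum_congr rfl fun α _ => ?_
  rw [mul_smul_comm, smul_mul_assoc, h.Wc_cov]

end Crest.Agent.R347
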