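import Crest.Agent.R347.Defs

/-! Row 347: the two transfer directions of the discrete model give the same partition function. -/

set_option autoImplicit false
open Crest.MathPhysics.SpinChain Matrix

namespace Crest.Agent.R347

theorem exch_sum_cons {ι M : Type*} [Fintype ι] [AddCommMonoid M] {m : ℕ}
    (F : (Fin (m + 1) → ι) → M) :
    ∑ x, F x = ∑ a : ι, ∑ y : Fin m → ι, F (Fin.cons a y) := by
  rw [← (Fin.consEquiv fun _ : Fin (m + 1) => ι).sum_comp, Fintype.sum_prod_type]
  rfl

theorem exch_ofFn_sum {R ι : Type*} [Semiring R] [Fintype ι] :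
    ∀ (m : ℕ) (f : Fin m → ι → R),
      (List.ofFn fun t => ∑ i, f t i).prod
        = ∑ x : Fin m → ι, (List.ofFn fun t => f t (x t)).prod
  | 0, f => by simp
  | m + 1, f => by
    rw [List.ofFn_succ, List.prod_cons, exch_ofFn_sum m (fun t => f t.succ), exch_sum_cons,
      Finset.sum_mul_sum]
    refine Finset.sum_congr rfl fun a _ => Finset.sum_congr rfl fun y _ => ?_
    rw [List.ofFn_succ, List.prod_cons]
    simp

theorem exch_ofFn_smul {R A : Type*} [CommSemiring R] [Semiring A] [Algebra R A] :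
    ∀ (m : ℕ) (c : Fin m → R) (f : Fin m → A),
      (List.ofFn fun t => c t • f t).prod = (∏ t, c t) • (List.ofFn f).prod
  | 0, c, f => by simp
  | m + 1, c, f => by
    rw [List.ofFn_succ, List.prod_cons, exch_ofFn_smul m (fun t => c t.succ) (fun t => f t.succ),
      List.ofFn_succ (f := f), List.prod_cons, Fin.prod_univ_succ, smul_mul_smul_comm]

theorem exch_pow_ofFn {A : Type*} [Monoid A] (a : A) (m : ℕ) :
    a ^ m = (List.ofFn fun _ : Fin m => a).prod := by
  simp [List.ofFn_const]

theorem exch_kcons_mul {L : ℕ} (A A' : M3) (B B' : Op L) :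
    kcons A B * kcons A' B' = kcons (A * A') (B * B') := by
  ext σ τ
  simp only [kcons, Matrix.mul_apply, Matrix.of_apply]
  rw [exch_sum_cons, Finset.sum_mul_sum]
  refine Finset.sum_congr rfl fun a _ => Finset.sum_congr rfl fun y _ => ?_
  simp only [Fin.cons_zero, Fin.tail_cons]
  ring

theorem exch_kcons_one {L : ℕ} : kcons (1 : M3) (1 : Op L) = 1 := by
  ext σ τ
  simp only [kcons, Matrix.of_apply, Matrix.one_apply]
  by_cases h : σ = τ
  · subst h; simp
  · rw [if_neg h]
    by_cases h0 : σ 0 = τ 0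
    · have : Fin.tail σ ≠ Fin.tail τ := by
        intro h1
        apply h
        rw [← Fin.cons_self_tail σ, ← Fin.cons_self_tail τ, h0, h1]
      simp [this]
    · simp [h0]

theorem exch_trace_kcons {L : ℕ} (A : M3) (B : Op L) :
    Matrix.trace (kcons A B) = Matrix.trace A * Matrix.trace B := by
  simp only [Matrix.trace, Matrix.diag, kcons, Matrix.of_apply]
  rw [exch_sum_cons, Finset.sum_mul_sum]
  simp

theorem exch_kAll_succ (g : M3) (L : ℕ) : kAll g (L + 1) = kcons g (kAll g L) := by
  ext σ τ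
  simp only [kAll, kcons, Matrix.of_apply, Fin.prod_univ_succ]
  rfl

theorem exch_kAll_zero (g : M3) : kAll g 0 = 1 := by
  ext σ τ
  have : σ = τ := Subsingleton.elim _ _
  subst this
  simp [kAll]

theorem exch_ofFn_kcons {L : ℕ} :
    ∀ (m : ℕ) (A : Fin m → M3) (B : Fin m → Op L),
      (List.ofFn fun t => kcons (A t) (B t)).prod = kcons (List.ofFn A).prod (List.ofFn B).prod
  | 0, A, B => by simp [exch_kcons_one]
  | m + 1, A, B => by
    rw [List.ofFn_succ, List.prod_cons, exch_ofFn_kcons m (fun t => A t.succ) (fun t => B t.succ),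
      exch_kcons_mul, List.ofFn_succ (f := A), List.ofFn_succ (f := B), List.prod_cons,
      List.prod_cons]

theorem tr_slices (s : ℝ) (m : ℕ) (g : M3) (L : ℕ) (α α' : BI m) :
    Matrix.trace (kAll g L * (List.ofFn fun t => Wc s L (α t) (α' t)).prod)
      = ((Tm s m g) ^ L) α α' := by
  induction L generalizing α α' with
  | zero =>
    have h : (fun t => Wc s 0 (α t) (α' t))
        = fun t => (if α t = α' t then (1 : ℂ) else 0) • (1 : Op 0) := by
      funext t
      simp only [Wc]
      split_ifs <;> simp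
    rw [h, exch_ofFn_smul, exch_kAll_zero, pow_zero, Matrix.one_apply]
    have h1 : (List.ofFn fun _ : Fin m => (1 : Op 0)).prod = 1 := by
      rw [← exch_pow_ofFn, one_pow]
    rw [h1, one_mul, Matrix.trace_smul, Matrix.trace_one, Finset.prod_ite_zero]
    by_cases hα : α = α'
    · subst hα; simp
    · have : ¬ ∀ t, α t = α' t := fun h => hα (funext h)
      simp [this, hα]
  | succ L ih =>
    simp only [Wc]
    rw [exch_ofFn_sum m (fun t β => kcons (loc s (α t) β) (Wc s L β (α' t))), Finset.mul_sum,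
      Matrix.trace_sum, pow_succ', Matrix.mul_apply]
    refine Finset.sum_congr rfl fun β _ => ?_
    rw [exch_ofFn_kcons m (fun t => loc s (α t) (β t)) (fun t => Wc s L (β t) (α' t)),
      exch_kAll_succ, exch_kcons_mul, exch_trace_kcons, ih]
    rfl

/-- power of a weighted double sum of slices -/
theorem exch_tr_pow (s : ℝ) (m : ℕ) (g : M3) (L : ℕ) (c : B4 → B4 → ℂ) :
    Matrix.trace (kAll g L * (∑ α, ∑ α', c α α' • Wc s L α α') ^ m)
      = ∑ α : BI m, ∑ α' : BI m, (∏ t, c (α t) (α' t)) * ((Tm s m g) ^ L) α α' := by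
  rw [exch_pow_ofFn, exch_ofFn_sum m (fun _ α => ∑ α', c α α' • Wc s L α α'), Finset.mul_sum,
    Matrix.trace_sum]
  refine Finset.sum_congr rfl fun α _ => ?_
  rw [exch_ofFn_sum m (fun t α' => c (α t) α' • Wc s L (α t) α'), Finset.mul_sum,
    Matrix.trace_sum]
  refine Finset.sum_congr rfl fun α' _ => ?_
  rw [exch_ofFn_smul m (fun t => c (α t) (α' t)) (fun t => Wc s L (α t) (α' t)),
    Matrix.mul_smul, Matrix.trace_smul, tr_slices, smul_eq_mul]

theorem tr_ring (s : ℝ) (m : ℕ) (g : M3) (R : R3) (L : ℕ) :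
    Matrix.trace (kAll g L * (Wr s L R) ^ m) = Matrix.trace (Um m R * (Tm s m g) ^ L) := by
  rw [Wr, exch_tr_pow s m g L (fun α α' => uR R α' α), Finset.sum_comm]
  simp only [Matrix.trace, Matrix.diag, Matrix.mul_apply, Um, Matrix.of_apply]

theorem kAll_one (L : ℕ) : kAll 1 L = 1 := by
  induction L with
  | zero => exact exch_kAll_zero _
  | succ L ih => rw [exch_kAll_succ, ih, exch_kcons_one]

theorem tr_open (s h1 h2 : ℝ) (m L : ℕ) :
    Matrix.trace ((Wo s L h1 h2) ^ m) = Vm s m h1 ⬝ᵥ ((Tm s m 1) ^ L) *ᵥ Vm s m h2 := by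
  have h := exch_tr_pow s m 1 L (fun α α' => vB s h1 α * vB s h2 α')
  rw [kAll_one, one_mul] at h
  rw [Wo, h]
  simp only [dotProduct, Matrix.mulVec, Vm, Finset.mul_sum, Finset.prod_mul_distrib]
  refine Finset.sum_congr rfl fun α _ => Finset.sum_congr rfl fun α' _ => ?_
  ring

theorem kAll_mul (k k' : M3) (L : ℕ) : kAll (k * k') L = kAll k L * kAll k' L := by
  induction L with
  | zero => simp [exch_kAll_zero]
  | succ L ih => rw [exch_kAll_succ, exch_kAll_succ, exch_kAll_succ, exch_kcons_mul, ih]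

theorem kAll_conjTranspose (k : M3) (L : ℕ) : (kAll k L)ᴴ = kAll kᴴ L := by
  ext σ τ
  simp [kAll, Matrix.conjTranspose_apply]

/-- sign of a bond index -/
noncomputable def exchE : B4 → ℂ
  | none => 1
  | some _ => -1

theorem exchE_sq (a : B4) : exchE a * exchE a = 1 := by
  cases a <;> simp [exchE]

theorem exch_spinOp_herm (a : Fin 3) : (spinOp a)ᴴ = spinOp a := by
  fin_cases a
  · simp [spinOp, spinX, spinMinus, Matrix.conjTranspose_smul, Matrix.conjTranspose_add, add_comm]
  · have h : star (1 / (2 * Complex.I) : ℂ) = -(1 / (2 * Complex.I)) := by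
      simp
    change (spinY)ᴴ = spinY
    rw [spinY, Matrix.conjTranspose_smul, h, spinMinus, Matrix.conjTranspose_sub,
      Matrix.conjTranspose_conjTranspose, neg_smul, ← smul_neg, neg_sub]
  · change (spinZ)ᴴ = spinZ
    rw [spinZ, Matrix.diagonal_conjTranspose]
    congr 1
    funext k
    simp

theorem exch_ell_conj (a : Fin 3) : (ell a)ᴴ = -ell a := by
  rw [ell, Matrix.conjTranspose_smul, exch_spinOp_herm]
  simp

theorem exch_loc_conj (s : ℝ) (a b : B4) : (loc s a b)ᴴ = (exchE a * exchE b) • loc s a b := by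
  cases a <;> cases b <;>
    simp [loc, exchE, Matrix.conjTranspose_smul, exch_ell_conj]

theorem exch_kcons_conj {L : ℕ} (A : M3) (B : Op L) : (kcons A B)ᴴ = kcons Aᴴ Bᴴ := by
  ext σ τ
  simp [kcons, Matrix.conjTranspose_apply, mul_comm]

theorem exch_kcons_smul {L : ℕ} (c d : ℂ) (A : M3) (B : Op L) :
    kcons (c • A) (d • B) = (c * d) • kcons A B := by
  ext σ τ
  simp only [kcons, Matrix.of_apply, Matrix.smul_apply, smul_eq_mul]
  ring

theorem exch_Wc_conj (s : ℝ) (L : ℕ) (a b : B4) :
    (Wc s L a b)ᴴ = (exchE a * exchE b) • Wc s L a b := by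
  induction L generalizing a b with
  | zero =>
    simp only [Wc]
    split_ifs with h
    · subst h; rw [exchE_sq]; simp
    · simp
  | succ L ih =>
    simp only [Wc]
    rw [Matrix.conjTranspose_sum, Finset.smul_sum]
    refine Finset.sum_congr rfl fun c _ => ?_
    rw [exch_kcons_conj, exch_loc_conj, ih, exch_kcons_smul]
    congr 1
    calc exchE a * exchE c * (exchE c * exchE b) = exchE a * (exchE c * exchE c) * exchE b := by
          ring
      _ = _ := by rw [exchE_sq, mul_one]

theorem Wr_herm (s : ℝ) (L : ℕ) (R : R3) : (Wr s L R).IsHermitian := by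
  unfold Matrix.IsHermitian Wr
  rw [Matrix.conjTranspose_sum]
  refine Finset.sum_congr rfl fun a _ => ?_
  rw [Matrix.conjTranspose_sum]
  refine Finset.sum_congr rfl fun b _ => ?_
  rw [Matrix.conjTranspose_smul, exch_Wc_conj, smul_smul]
  congr 1
  cases a <;> cases b <;> simp [uR, exchE]

theorem exch_vB_conj (s h : ℝ) (a : B4) : star (vB s h a) * exchE a = vB s h a := by
  cases a with
  | none => simp [vB, exchE]
  | some a =>
    simp only [vB, exchE]
    split_ifs <;> simp

theorem Wo_herm (s : ℝ) (L : ℕ) (h1 h2 : ℝ) : (Wo s L h1 h2).IsHermitian := by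
  unfold Matrix.IsHermitian Wo
  rw [Matrix.conjTranspose_sum]
  refine Finset.sum_congr rfl fun a _ => ?_
  rw [Matrix.conjTranspose_sum]
  refine Finset.sum_congr rfl fun b _ => ?_
  rw [Matrix.conjTranspose_smul, exch_Wc_conj, smul_smul]
  congr 1
  rw [star_mul']
  calc star (vB s h1 a) * star (vB s h2 b) * (exchE a * exchE b)
      = (star (vB s h1 a) * exchE a) * (star (vB s h2 b) * exchE b) := by ring
    _ = _ := by rw [exch_vB_conj, exch_vB_conj]

theorem exch_uR_one (a b : B4) : uR 1 a b = if a = b then 1 else 0 := by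
  cases a <;> cases b <;> simp [uR, Matrix.one_apply]
  split_ifs <;> simp

theorem Um_one (m : ℕ) : Um m 1 = 1 := by
  ext α' α
  simp only [Um, Matrix.of_apply, exch_uR_one, Matrix.one_apply, Finset.prod_ite_zero]
  by_cases hα : α' = α
  · subst hα; simp
  · have : ¬ ∀ t, α' t = α t := fun h => hα (funext h)
    simp [this, hα]

theorem exch_uR_mul (R R' : R3) (a b : B4) : uR (R * R') a b = ∑ c, uR R a c * uR R' c b := by
  cases a <;> cases b <;> simp [uR, Fintype.sum_option, Matrix.mul_apply]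

theorem Um_mul (m : ℕ) (R R' : R3) : Um m (R * R') = Um m R * Um m R' := by
  ext α' α
  simp only [Um, Matrix.of_apply, Matrix.mul_apply, exch_uR_mul]
  rw [Finset.prod_univ_sum, Fintype.piFinset_univ]
  refine Finset.sum_congr rfl fun β _ => ?_
  rw [Finset.prod_mul_distrib]

theorem Um_conjTranspose (m : ℕ) (R : R3) : (Um m R)ᴴ = Um m Rᵀ := by
  ext α' α
  simp only [Um, Matrix.conjTranspose_apply, Matrix.of_apply, star_prod]
  refine Finset.prod_congr rfl fun t _ => ?_
  cases α t <;> cases α' t <;> simp [uR]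

theorem star_Vm (s h : ℝ) (m : ℕ) : star (Vm s m h) = Vm s m (-h) := by
  funext α
  simp only [Vm, Pi.star_apply, star_prod]
  refine Finset.prod_congr rfl fun t _ => ?_
  cases α t with
  | none => simp [vB]
  | some a =>
    simp only [vB]
    split_ifs <;> simp

theorem exch_uR_vB (s h : ℝ) (a : B4) : ∑ c, uR RX a c * vB s h c = vB s (-h) a := by
  cases a with
  | none => simp [uR, vB, Fintype.sum_option]
  | some a =>
    fin_cases a <;> simp [uR, vB, RX, Fintype.sum_option, Fin.sum_univ_three]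

theorem Um_RX_Vm (s h : ℝ) (m : ℕ) : Um m RX *ᵥ Vm s m h = Vm s m (-h) := by
  funext α
  simp only [Matrix.mulVec, dotProduct, Um, Vm, Matrix.of_apply, ← exch_uR_vB]
  rw [Finset.prod_univ_sum, Fintype.piFinset_univ]
  refine Finset.sum_congr rfl fun β _ => ?_
  rw [Finset.prod_mul_distrib]

theorem ZZ_eq (s c : ℝ) (g : M3) (R : R3) (L m : ℕ) :
    ZZ s c g R L m = rtr (kAll g L * (((c ^ L : ℝ) : ℂ) • Wr s L R) ^ m) := by
  unfold ZZ rtr
  rw [smul_pow, smul_pow, Matrix.mul_smul, Matrix.mul_smul, Matrix.trace_smul, Matrix.trace_smul,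
    tr_ring]
  congr 2
  push_cast
  rw [← pow_mul, ← pow_mul, mul_comm]

theorem WW_eq (s c h1 h2 : ℝ) (L m : ℕ) :
    WW s c h1 h2 L m
      = (Vm s m h1 ⬝ᵥ ((((c ^ m : ℝ) : ℂ) • Tm s m 1) ^ L) *ᵥ Vm s m h2).re := by
  unfold WW rtr
  rw [smul_pow, smul_pow, Matrix.trace_smul, tr_open, Matrix.smul_mulVec, dotProduct_smul]
  congr 2
  push_cast
  rw [← pow_mul, ← pow_mul, mul_comm]

end Crest.Agent.R347
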