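import Crest.Agent.R347.Spec
import Crest.Agent.R347.Exch
import Crest.Agent.R347.CovAux

/-! Row 347: rotation covariance of the discrete model and its symmetry sectors. -/

set_option autoImplicit false
set_option linter.unusedSectionVars false
open Crest.MathPhysics.SpinChain Matrix

namespace Crest.Agent.R347

section proj
variable {ι : Type} [Fintype ι] [DecidableEq ι] {A P P' X W : Matrix ι ι ℂ}

/-- orthogonal projections commuting with `A` -/
structure CovPr (A P : Matrix ι ι ℂ) : Prop where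
  herm : P.IsHermitian
  idem : P * P = P
  comm : P * A = A * P

theorem CovPr.mul (h : CovPr A P) (h' : CovPr A P') (hc : P * P' = P' * P) : CovPr A (P * P') where
  herm := by rw [IsHermitian, conjTranspose_mul, h.herm.eq, h'.herm.eq, hc]
  idem := by rw [mul_assoc, ← mul_assoc P', ← hc, mul_assoc, h'.idem, ← mul_assoc, h.idem]
  comm := by rw [mul_assoc, h'.comm, ← mul_assoc, h.comm, mul_assoc]

theorem CovPr.compl (h : CovPr A P) : CovPr A (1 - P) where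
  herm := isHermitian_one.sub h.herm
  idem := by rw [mul_sub, mul_one, sub_mul, one_mul, h.idem, sub_self, sub_zero]
  comm := by rw [mul_sub, sub_mul, one_mul, mul_one, h.comm]

theorem covPr_two (hX : X.IsHermitian) (hXX : X * X = 1) (hA : X * A = A * X) :
    CovPr A ((1 / 2 : ℂ) • (1 + X)) where
  herm := (isHermitian_one.add hX).smul (by simp [IsSelfAdjoint])
  idem := by
    simp only [smul_mul_assoc, mul_smul_comm, mul_add, add_mul, one_mul, mul_one, hXX]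
    module
  comm := by
    simp only [smul_mul_assoc, mul_smul_comm, mul_add, add_mul, one_mul, mul_one, hA]

theorem covPr_three (hW : Wᴴ = W * W) (hWW : W * W * W = 1) (hA : W * A = A * W) :
    CovPr A ((1 / 3 : ℂ) • (1 + W + W * W)) where
  herm := by
    refine IsHermitian.smul ?_ (by simp [IsSelfAdjoint])
    rw [IsHermitian, conjTranspose_add, conjTranspose_add, conjTranspose_mul, hW,
      conjTranspose_one, ← mul_assoc, hWW, one_mul, add_right_comm]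
  idem := by
    simp only [smul_mul_assoc, mul_smul_comm, mul_add, add_mul, one_mul, mul_one, ← mul_assoc, hWW]
    module
  comm := by
    simp only [smul_mul_assoc, mul_smul_comm, mul_add, add_mul, one_mul, mul_one, mul_assoc, hA]
    rw [← mul_assoc W A, hA, mul_assoc]

theorem CovPr.patoms (h : CovPr A P) (hA : A.IsHermitian) {f : ℕ → ℝ}
    (hf : ∀ n, f n = rtr (P * A ^ n)) : PAtoms f :=
  (funext hf : f = _) ▸ patoms_of_proj A P hA h.herm h.idem h.comm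

theorem cov_herm_smul (hA : A.IsHermitian) (c : ℝ) : ((c : ℂ) • A).IsHermitian :=
  hA.smul (by simp [IsSelfAdjoint])

end proj

/-- cyclic permutation of the axes -/
def RC : R3 := !![0, 0, 1; 1, 0, 0; 0, 1, 0]
/-- rotation by `π` about `x + y` -/
def RT : R3 := !![0, 1, 0; 1, 0, 0; 0, 0, -1]
/-- rotation by `π` about `x + z` -/
def RS : R3 := !![0, 0, 1; 0, -1, 0; 1, 0, 0]
/-- takes the diagonal to the `z` axis -/
noncomputable def RQ : R3 :=
  !![√2 / 2, -√2 / 2, 0; √2 * √3 / 6, √2 * √3 / 6, -(√2 * √3) / 3; √3 / 3, √3 / 3, √3 / 3]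

theorem cov_s2 : √2 * √2 = (2 : ℝ) := Real.mul_self_sqrt (by norm_num)
theorem cov_s3 : √3 * √3 = (3 : ℝ) := Real.mul_self_sqrt (by norm_num)

local macro "mat3" : tactic => `(tactic| (
  have h2 := cov_s2
  have h3 := cov_s3
  ext i j
  fin_cases i <;> fin_cases j <;>
    simp [RX, RZ, RW, RC, RT, RS, RQ, Matrix.mul_apply, Fin.sum_univ_three] <;> grind))

local macro "det3" : tactic => `(tactic| (
  have h2 := cov_s2
  have h3 := cov_s3
  simp [RX, RZ, RW, RC, RT, RS, RQ, det_fin_three] <;> grind))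

theorem rot_X : IsRot RX := ⟨by mat3, by det3⟩
theorem rot_Z : IsRot RZ := ⟨by mat3, by det3⟩
theorem rot_W : IsRot RW := ⟨by mat3, by det3⟩
theorem rot_C : IsRot RC := ⟨by mat3, by det3⟩
theorem rot_T : IsRot RT := ⟨by mat3, by det3⟩
theorem rot_S : IsRot RS := ⟨by mat3, by det3⟩
theorem rot_Q : IsRot RQ := ⟨by mat3, by det3⟩

theorem RX_tr : RXᵀ = RX := by mat3
theorem RZ_tr : RZᵀ = RZ := by mat3
theorem RC_tr : RCᵀ = RC * RC := by mat3
theorem RW_tr : RWᵀ = RW * RW := by mat3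
theorem RX_RX : RX * RX = 1 := by mat3
theorem RZ_RZ : RZ * RZ = 1 := by mat3
theorem RX_RZ : RX * RZ = RZ * RX := by mat3
theorem RW_RZ : RW * RZ = RZ * RW := by mat3
theorem RC_RZ : RC * RZ = RX * RC := by mat3
theorem RC_RX : RC * RX = RX * RZ * RC := by mat3
theorem RX_RW : RX * RW = RW * RW * RX := by mat3
theorem RC_three : RC * RC * RC = 1 := by rw [← RC_tr, rot_C.tr_mul]
theorem RW_three : RW * RW * RW = 1 := by rw [← RW_tr, rot_W.tr_mul]

/-- the normalised space-direction transfer matrix -/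
noncomputable def TA (s c : ℝ) (m : ℕ) (G : R3) : Matrix (BI m) (BI m) ℂ :=
  ((c ^ m : ℝ) : ℂ) • Tm s m (kR G)

theorem TA_herm (s c : ℝ) (m : ℕ) (G : R3) : (TA s c m G).IsHermitian :=
  cov_herm_smul (Tm_herm s m G) _

theorem IsRot.Um_TA {R G G' : R3} (h : IsRot R) (hG : R * G = G' * R) (s c : ℝ) (m : ℕ) :
    Um m R * TA s c m G = TA s c m G' * Um m R := by
  rw [TA, TA, mul_smul_comm, smul_mul_assoc, h.Um_Tm hG]

theorem IsRot.Um_TA_one {R : R3} (h : IsRot R) (s c : ℝ) (m : ℕ) :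
    Um m R * TA s c m 1 = TA s c m 1 * Um m R := h.Um_TA (by rw [mul_one, one_mul]) s c m

/-- complex form of the torus partition function -/
noncomputable def ZC (s c : ℝ) (G R : R3) (L m : ℕ) : ℂ := trace (Um m R * TA s c m G ^ L)

theorem ZZ_kR (s c : ℝ) (G R : R3) (L m : ℕ) : ZZ s c (kR G) R L m = (ZC s c G R L m).re := rfl

theorem ZZ_one (s c : ℝ) (R : R3) (L m : ℕ) : ZZ s c 1 R L m = (ZC s c 1 R L m).re := by
  rw [← ZZ_kR, map_one]

theorem IsRot.ZC_conj {R G G' S S' : R3} (h : IsRot R) (hG : R * G = G' * R) (hS : R * S = S' * R)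
    (s c : ℝ) (L m : ℕ) : ZC s c G S L m = ZC s c G' S' L m := by
  have h1 : Um m R * TA s c m G ^ L = TA s c m G' ^ L * Um m R :=
    SemiconjBy.pow_right (h.Um_TA hG s c m) L
  have h2 : S = Rᵀ * (S' * R) := by rw [← hS, ← mul_assoc, h.tr_mul, one_mul]
  rw [ZC, h2, Um_mul, Um_mul, mul_assoc, mul_assoc, h1, trace_mul_comm, mul_assoc, mul_assoc,
    ← Um_mul, h.1, Um_one, mul_one, ZC]

theorem IsRot.ZC_one {R S S' : R3} (h : IsRot R) (hS : R * S = S' * R) (s c : ℝ) (L m : ℕ) :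
    ZC s c 1 S' L m = ZC s c 1 S L m :=
  (h.ZC_conj (by rw [mul_one, one_mul]) hS s c L m).symm

theorem ZC_id (s c : ℝ) (G : R3) (L m : ℕ) : trace (TA s c m G ^ L) = ZC s c G 1 L m := by
  rw [ZC, Um_one, one_mul]

theorem Um_herm {R : R3} (h : Rᵀ = R) (m : ℕ) : (Um m R).IsHermitian := by
  rw [IsHermitian, Um_conjTranspose, h]

theorem kAll_herm {R : R3} (h : Rᵀ = R) (L : ℕ) : (kAll (kR R) L).IsHermitian := by
  rw [IsHermitian, kAll_conjTranspose, kR_H, h]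

theorem covPr_Um_two {R G : R3} (h : IsRot R) (ht : Rᵀ = R) (hG : R * G = G * R) (s c : ℝ) (m : ℕ) :
    CovPr (TA s c m G) ((1 / 2 : ℂ) • (1 + Um m R)) :=
  covPr_two (Um_herm ht m) (by rw [← Um_mul, ← Um_one, ← h.1, ht]) (h.Um_TA hG s c m)

theorem covPr_Um_three {R G : R3} (h : IsRot R) (ht : Rᵀ = R * R) (hG : R * G = G * R) (s c : ℝ)
    (m : ℕ) : CovPr (TA s c m G) ((1 / 3 : ℂ) • (1 + Um m R + Um m R * Um m R)) :=
  covPr_three (by rw [Um_conjTranspose, ht, Um_mul])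
    (by rw [← Um_mul, ← Um_mul, ← ht, h.tr_mul, Um_one]) (h.Um_TA hG s c m)

section sectors
variable (s c : ℝ) (m : ℕ)

theorem ZC_X (L : ℕ) : ZC s c 1 RX L m = ZC s c 1 RZ L m := rot_C.ZC_one RC_RZ s c L m

theorem ZC_Y (L : ℕ) : ZC s c 1 (RX * RZ) L m = ZC s c 1 RZ L m :=
  (rot_C.ZC_one RC_RX s c L m).trans (ZC_X s c m L)

theorem cov_exT (h : ℝ) : ∃ μ c0,
    Side (fun L => ZZ s c 1 1 L m) (fun L => ZZ s c 1 RZ L m) μ ∧
    VSide (fun L => ZZ s c 1 1 L m) (fun L => ZZ s c 1 RZ L m) (fun n => WW s c (-h) h n m)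
      (fun n => WW s c h h n m) μ c0 := by
  have h0 := side_of_herm (TA s c m 1) (Um m RX) (Um m RZ) (TA_herm s c m 1) (Um_herm RX_tr m)
    (Um_herm RZ_tr m) (by rw [← Um_mul, RX_RX, Um_one]) (by rw [← Um_mul, RZ_RZ, Um_one])
    (rot_X.Um_TA_one s c m).symm (rot_Z.Um_TA_one s c m).symm (by rw [← Um_mul, ← Um_mul, RX_RZ])
    (fun n => congrArg Complex.re (ZC_X s c m n))
    (fun n => by rw [← Um_mul]; exact congrArg Complex.re (ZC_Y s c m n)) (Vm s m h)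
  have e1 : (fun L => ZZ s c 1 1 L m) = fun n => rtr (TA s c m 1 ^ n) := funext fun n => by
    rw [ZZ_one, rtr, ZC_id]
  have e2 : (fun L => ZZ s c 1 RZ L m) = fun n => rtr (Um m RZ * TA s c m 1 ^ n) :=
    funext fun n => ZZ_one s c RZ n m
  have e3 : (fun n => WW s c (-h) h n m) =
      fun n => (star (Vm s m h) ⬝ᵥ (TA s c m 1 ^ n) *ᵥ Vm s m h).re := funext fun n => by
    rw [WW_eq, star_Vm, TA, map_one]
  have e4 : (fun n => WW s c h h n m) =
      fun n => (star (Vm s m h) ⬝ᵥ (Um m RX * TA s c m 1 ^ n) *ᵥ Vm s m h).re := funext fun n => by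
    rw [WW_eq, ← mulVec_mulVec, dotProduct_mulVec (star _), ← (Um_herm RX_tr m).eq, ← star_mulVec,
      Um_RX_Vm, star_Vm, neg_neg, TA, map_one]
  rw [e1, e2, e3, e4]
  exact h0

theorem cov_exW (L : ℕ) : ∃ lam, Side (ZZ s c 1 1 L) (ZZ s c kZ 1 L) lam := by
  have hc : ∀ {R : R3}, IsRot R → (((c ^ L : ℝ) : ℂ) • Wr s L 1) * kAll (kR R) L =
      kAll (kR R) L * (((c ^ L : ℝ) : ℂ) • Wr s L 1) := fun h => by
    rw [mul_smul_comm, smul_mul_assoc, h.kAll_Wr]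
  have h1 : ∀ n, ZZ s c (kR RX) 1 L n = ZZ s c (kR RZ) 1 L n := fun n =>
    congrArg Complex.re (rot_C.ZC_conj RC_RZ (by rw [mul_one, one_mul]) s c L n).symm
  have h2 : ∀ n, ZZ s c (kR (RX * RZ)) 1 L n = ZZ s c (kR RX) 1 L n := fun n =>
    congrArg Complex.re (rot_C.ZC_conj RC_RX (by rw [mul_one, one_mul]) s c L n).symm
  obtain ⟨μ, c0, h0, -⟩ := side_of_herm (((c ^ L : ℝ) : ℂ) • Wr s L 1) (kAll (kR RX) L)
    (kAll (kR RZ) L) (cov_herm_smul (Wr_herm s L 1) _) (kAll_herm RX_tr L) (kAll_herm RZ_tr L)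
    (by rw [← kAll_mul, ← map_mul, RX_RX, map_one, kAll_one])
    (by rw [← kAll_mul, ← map_mul, RZ_RZ, map_one, kAll_one]) (hc rot_X) (hc rot_Z)
    (by rw [← kAll_mul, ← kAll_mul, ← map_mul, ← map_mul, RX_RZ])
    (fun n => by rw [← ZZ_eq, ← ZZ_eq, h1])
    (fun n => by rw [← kAll_mul, ← map_mul, ← ZZ_eq, ← ZZ_eq, h2, h1]) 0
  have e1 : ZZ s c 1 1 L = fun n => rtr ((((c ^ L : ℝ) : ℂ) • Wr s L 1) ^ n) := funext fun n => by
    rw [ZZ_eq, kAll_one, one_mul]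
  have e2 : ZZ s c kZ 1 L = fun n => rtr (kAll (kR RZ) L * (((c ^ L : ℝ) : ℂ) • Wr s L 1) ^ n) :=
    funext fun n => by rw [ZZ_eq, kR_RZ]
  rw [e1, e2]
  exact ⟨μ, h0⟩

theorem cov_P4 : CovPr (TA s c m 1)
    (((1 / 2 : ℂ) • (1 + Um m RX)) * ((1 / 2 : ℂ) • (1 + Um m RZ))) :=
  (covPr_Um_two rot_X RX_tr (by rw [mul_one, one_mul]) s c m).mul
    (covPr_Um_two rot_Z RZ_tr (by rw [mul_one, one_mul]) s c m) (by
      simp only [smul_mul_assoc, mul_smul_comm, mul_add, add_mul, one_mul, mul_one, ← Um_mul, RX_RZ]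
      module)

theorem cov_P4_comm : (((1 / 2 : ℂ) • (1 + Um m RX)) * ((1 / 2 : ℂ) • (1 + Um m RZ))) *
      ((1 / 3 : ℂ) • (1 + Um m RC + Um m RC * Um m RC)) =
    ((1 / 3 : ℂ) • (1 + Um m RC + Um m RC * Um m RC)) *
      (((1 / 2 : ℂ) • (1 + Um m RX)) * ((1 / 2 : ℂ) • (1 + Um m RZ))) := by
  have h : Commute (((1 / 2 : ℂ) • (1 + Um m RX)) * ((1 / 2 : ℂ) • (1 + Um m RZ))) (Um m RC) := by
    have h1 : RC * (RX * RZ) = RZ * RC := by mat3
    simp only [Commute, SemiconjBy, smul_mul_assoc, mul_smul_comm, mul_add, add_mul, one_mul,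
      mul_one, ← Um_mul, h1, RC_RX, RC_RZ]
    module
  exact ((((Commute.one_right _).add_right h).add_right (h.mul_right h)).smul_right _).eq

theorem cov_tr4 (L : ℕ) : trace ((((1 / 2 : ℂ) • (1 + Um m RX)) * ((1 / 2 : ℂ) • (1 + Um m RZ))) *
    TA s c m 1 ^ L) = (ZC s c 1 1 L m + 3 * ZC s c 1 RZ L m) / 4 := by
  have h1 := ZC_X s c m L
  have h2 := ZC_Y s c m L
  simp only [smul_mul_assoc, mul_smul_comm, mul_add, add_mul, one_mul, mul_one, ← Um_mul,
    trace_smul, trace_add, ZC_id, smul_eq_mul]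
  simp only [ZC] at h1 h2 ⊢
  rw [h1, h2]
  ring

theorem cov_tr12 (L : ℕ) : trace (((((1 / 2 : ℂ) • (1 + Um m RX)) * ((1 / 2 : ℂ) • (1 + Um m RZ))) *
    ((1 / 3 : ℂ) • (1 + Um m RC + Um m RC * Um m RC))) * TA s c m 1 ^ L) =
      (ZC s c 1 1 L m + 3 * ZC s c 1 RZ L m + 8 * ZC s c 1 RW L m) / 12 := by
  have h1 := ZC_X s c m L
  have h2 := ZC_Y s c m L
  have h3 : ZC s c 1 RW L m = ZC s c 1 RC L m := rot_Q.ZC_one (by mat3) s c L m
  have h4 : ZC s c 1 (RZ * RC) L m = ZC s c 1 RC L m := rot_X.ZC_one (by mat3) s c L m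
  have h5 : ZC s c 1 (RX * RZ * RC) L m = ZC s c 1 RC L m := rot_Z.ZC_one (by mat3) s c L m
  have h6 : ZC s c 1 (RX * RC) L m = ZC s c 1 RC L m :=
    (rot_X.mul rot_Z).ZC_one (by mat3) s c L m
  have h7 : ZC s c 1 (RX * (RC * RC)) L m = ZC s c 1 RC L m := rot_T.ZC_one (by mat3) s c L m
  have h8 : ZC s c 1 (RZ * (RC * RC)) L m = ZC s c 1 RC L m :=
    (rot_X.ZC_one (by mat3) s c L m).trans h7
  have h9 : ZC s c 1 (RC * RC) L m = ZC s c 1 RC L m := (rot_Z.ZC_one (by mat3) s c L m).trans h7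
  have h10 : ZC s c 1 (RX * RZ * (RC * RC)) L m = ZC s c 1 RC L m :=
    ((rot_X.mul rot_Z).ZC_one (by mat3) s c L m).trans h7
  simp only [smul_mul_assoc, mul_smul_comm, mul_add, add_mul, one_mul, mul_one, ← Um_mul,
    trace_smul, trace_add, ZC_id, smul_eq_mul]
  simp only [ZC] at h1 h2 h3 h4 h5 h6 h7 h8 h9 h10 ⊢
  rw [h1, h2, h3, h4, h5, h6, h7, h8, h9, h10]
  ring

theorem cov_P3_comm : ((1 / 3 : ℂ) • (1 + Um m RW + Um m RW * Um m RW)) *
      ((1 / 2 : ℂ) • (1 + Um m RX)) =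
    ((1 / 2 : ℂ) • (1 + Um m RX)) * ((1 / 3 : ℂ) • (1 + Um m RW + Um m RW * Um m RW)) := by
  have h1 : RX * (RW * RW) = RW * RX := by mat3
  simp only [smul_mul_assoc, mul_smul_comm, mul_add, add_mul, one_mul, mul_one, ← Um_mul, h1, RX_RW]
  module

theorem cov_tr2 (L : ℕ) : trace (((1 / 2 : ℂ) • (1 + Um m RX)) * TA s c m RZ ^ L) =
    (ZC s c RZ 1 L m + ZC s c RX RZ L m) / 2 := by
  have h1 : ZC s c RZ RX L m = ZC s c RX RZ L m := rot_S.ZC_conj (by mat3) (by mat3) s c L m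
  simp only [smul_mul_assoc, add_mul, one_mul, trace_smul, trace_add, ZC_id, smul_eq_mul]
  simp only [ZC] at h1 ⊢
  rw [h1]
  ring

theorem cov_tr3 (L : ℕ) : trace (((1 / 3 : ℂ) • (1 + Um m RW + Um m RW * Um m RW)) *
    TA s c m RZ ^ L) = (ZC s c RZ 1 L m + 2 * ZC s c RZ RW L m) / 3 := by
  have h1 : ZC s c RZ RW L m = ZC s c RZ (RW * RW) L m := rot_X.ZC_conj RX_RZ RX_RW s c L m
  simp only [smul_mul_assoc, add_mul, one_mul, ← Um_mul, trace_smul, trace_add, ZC_id, smul_eq_mul]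
  simp only [ZC] at h1 ⊢
  rw [← h1]
  ring

theorem cov_tr6 (L : ℕ) : trace ((((1 / 3 : ℂ) • (1 + Um m RW + Um m RW * Um m RW)) *
    ((1 / 2 : ℂ) • (1 + Um m RX))) * TA s c m RZ ^ L) =
      (ZC s c RZ 1 L m + 2 * ZC s c RZ RW L m + 3 * ZC s c RX RZ L m) / 6 := by
  have h1 : ZC s c RZ RX L m = ZC s c RX RZ L m := rot_S.ZC_conj (by mat3) (by mat3) s c L m
  have h2 : ZC s c RZ RW L m = ZC s c RZ (RW * RW) L m := rot_X.ZC_conj RX_RZ RX_RW s c L m
  have h3 : ZC s c RZ RX L m = ZC s c RZ (RW * RW * RX) L m :=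
    rot_W.ZC_conj RW_RZ (by mat3) s c L m
  have h4 : ZC s c RZ (RW * RX) L m = ZC s c RZ RX L m := rot_W.ZC_conj RW_RZ (by mat3) s c L m
  simp only [smul_mul_assoc, mul_smul_comm, mul_add, add_mul, one_mul, mul_one, ← Um_mul,
    trace_smul, trace_add, ZC_id, smul_eq_mul]
  simp only [ZC] at h1 h2 h3 h4 ⊢
  rw [h4, ← h3, ← h2, h1]
  ring

theorem cov_re_eq {x : ℝ} {z w : ℂ} (h : z = w) (h' : x = w.re) : x = z.re := h ▸ h'

end sectors

theorem exists_sys (s c h : ℝ) : ∃ S : Sys, (∀ L m, S.Z L m = ZZ s c 1 1 L m) ∧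
    (∀ L m, S.Zs L m = ZZ s c 1 RZ L m) ∧ (∀ L m, S.Zt L m = ZZ s c kZ 1 L m) ∧
    (∀ L m, S.Wm L m = WW s c (-h) h L m) ∧ (∀ L m, S.Wp L m = WW s c h h L m) := by
  choose μ c0 hT hV using fun m => cov_exT s c m h
  choose lam hW using fun L => cov_exW s c L
  choose lo hWm using fun n => side0_of_herm _ (cov_herm_smul (Wo_herm s n (-h) h) (c ^ n))
  refine ⟨{ Z := ZZ s c 1 1, Zs := ZZ s c 1 RZ, Zt := ZZ s c kZ 1, Wm := WW s c (-h) h
            Wp := WW s c h h, μ := μ, lam := lam, c0 := c0, lo := lo, hT := hT, hV := hV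
            hTt := fun m => ?_, hW := hW, hWs := fun L => ?_, hWm := hWm
            hWp := fun n => sq0_of_herm _ (cov_herm_smul (Wo_herm s n h h) (c ^ n)) },
    fun _ _ => rfl, fun _ _ => rfl, fun _ _ => rfl, fun _ _ => rfl, fun _ _ => rfl⟩
  · have e : (fun L => ZZ s c kZ 1 L m) = fun n => rtr (TA s c m RZ ^ n) := funext fun n => by
      rw [← kR_RZ, ZZ_kR, rtr, ZC_id]
    rw [e]
    exact sq0_of_herm _ (TA_herm s c m RZ)
  · have e : ZZ s c 1 RZ L = fun n => rtr ((((c ^ L : ℝ) : ℂ) • Wr s L RZ) ^ n) :=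
      funext fun n => by rw [ZZ_eq, kAll_one, one_mul]
    rw [e]
    exact sq0_of_herm _ (cov_herm_smul (Wr_herm s L RZ) _)

theorem patoms_one (s c : ℝ) (m : ℕ) :
    PAtoms (fun L => (ZZ s c 1 1 L m + 3 * ZZ s c 1 RZ L m + 8 * ZZ s c 1 RW L m) / 12) := by
  refine ((cov_P4 s c m).mul (covPr_Um_three rot_C RC_tr (by rw [mul_one, one_mul]) s c m)
    (cov_P4_comm m)).patoms (TA_herm s c m 1) fun L => cov_re_eq (cov_tr12 s c m L) ?_
  simp [ZZ_one]

theorem patoms_E (s c : ℝ) (m : ℕ) :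
    PAtoms (fun L => (2 * ZZ s c 1 1 L m + 6 * ZZ s c 1 RZ L m - 8 * ZZ s c 1 RW L m) / 12) := by
  refine ((cov_P4 s c m).mul (covPr_Um_three rot_C RC_tr (by rw [mul_one, one_mul]) s c m).compl
    (by rw [mul_sub, sub_mul, mul_one, one_mul, cov_P4_comm])).patoms (TA_herm s c m 1) fun L => ?_
  rw [rtr, mul_sub, mul_one, sub_mul, trace_sub, cov_tr4, cov_tr12]
  simp [ZZ_one]
  ring

theorem patoms_z (s c : ℝ) (m : ℕ) :
    PAtoms (fun L => (ZZ s c 1 1 L m - ZZ s c 1 RZ L m) / 4) := by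
  have hX := covPr_Um_two rot_X RX_tr (G := 1) (by rw [mul_one, one_mul]) s c m
  have hZ := covPr_Um_two rot_Z RZ_tr (G := 1) (by rw [mul_one, one_mul]) s c m
  refine (hX.compl.mul hZ (by
    simp only [smul_mul_assoc, mul_smul_comm, mul_add, add_mul, one_mul, mul_one, ← Um_mul, RX_RZ,
      mul_sub, sub_mul]
    module)).patoms (TA_herm s c m 1) fun L => ?_
  rw [rtr, sub_mul, one_mul, sub_mul, trace_sub, cov_tr4]
  simp only [smul_mul_assoc, add_mul, one_mul, trace_smul, trace_add, ZC_id, smul_eq_mul]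
  rw [← ZC]
  simp [ZZ_one]
  ring

theorem patoms_a (s c : ℝ) (m : ℕ) :
    PAtoms (fun L => (ZZ s c kZ 1 L m + 2 * ZZ s c kZ RW L m - 3 * ZZ s c kX RZ L m) / 6) := by
  refine ((covPr_Um_three rot_W RW_tr RW_RZ s c m).mul (covPr_Um_two rot_X RX_tr RX_RZ s c m).compl
    (by rw [mul_sub, sub_mul, mul_one, one_mul, cov_P3_comm])).patoms (TA_herm s c m RZ) fun L => ?_
  rw [rtr, mul_sub, mul_one, sub_mul, trace_sub, cov_tr3, cov_tr6, ← kR_RZ, ← kR_RX]
  simp [ZZ_kR]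
  ring

theorem patoms_b (s c : ℝ) (m : ℕ) :
    PAtoms (fun L => (ZZ s c kZ 1 L m + 2 * ZZ s c kZ RW L m + 3 * ZZ s c kX RZ L m) / 6) := by
  refine ((covPr_Um_three rot_W RW_tr RW_RZ s c m).mul (covPr_Um_two rot_X RX_tr RX_RZ s c m)
    (cov_P3_comm m)).patoms (TA_herm s c m RZ) fun L => ?_
  rw [rtr, cov_tr6, ← kR_RZ, ← kR_RX]
  simp [ZZ_kR]

theorem patoms_c (s c : ℝ) (m : ℕ) :
    PAtoms (fun L => (ZZ s c kZ 1 L m - ZZ s c kZ RW L m) / 3) := by
  refine ((covPr_Um_three rot_W RW_tr RW_RZ s c m).compl.mul (covPr_Um_two rot_X RX_tr RX_RZ s c m)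
    (by rw [mul_sub, sub_mul, mul_one, one_mul, cov_P3_comm])).patoms (TA_herm s c m RZ) fun L => ?_
  rw [rtr, sub_mul, one_mul, sub_mul, trace_sub, cov_tr2, cov_tr6, ← kR_RZ]
  simp [ZZ_kR]
  ring

end Crest.Agent.R347
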