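import Mathlib
import Crest.Prelude.Def_SpinChain

/-! Row 347 (Haldane gap): shared definitions.  See `Crest/Agent/R347/Plan.lean` for the plan. -/

set_option autoImplicit false
open Crest.MathPhysics.SpinChain Matrix

namespace Crest.Agent.R347

abbrev Cfg (L : ℕ) := Fin L → Fin 3
abbrev Op (L : ℕ) := Matrix (Cfg L) (Cfg L) ℂ
abbrev M3 := Matrix (Fin 3) (Fin 3) ℂ
abbrev R3 := Matrix (Fin 3) (Fin 3) ℝ

/-- real part of the trace -/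
noncomputable def rtr {ι : Type} [Fintype ι] (A : Matrix ι ι ℂ) : ℝ := (Matrix.trace A).re

/-- `exp (-β (H + E))` -/
noncomputable def ex {ι : Type} [Fintype ι] [DecidableEq ι] (β E : ℝ) (H : Matrix ι ι ℂ) :
    Matrix ι ι ℂ :=
  NormedSpace.exp ((-(β : ℂ)) • (H + (E : ℂ) • (1 : Matrix ι ι ℂ)))

/-! ### Hamiltonians -/

/-- total magnetisation -/
def chg {L : ℕ} (σ : Cfg L) : ℤ := ∑ j, magneticNumber (σ j)

/-- projector on the configurations with `lo ≤ chg ≤ hi` -/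
noncomputable def Pj (L : ℕ) (lo hi : ℤ) : Op L :=
  Matrix.diagonal fun σ => if lo ≤ chg σ ∧ chg σ ≤ hi then 1 else 0

/-- `k ⊗ k ⊗ ⋯ ⊗ k` -/
noncomputable def kAll (k : M3) (L : ℕ) : Op L := Matrix.of fun σ τ => ∏ j, k (σ j) (τ j)

noncomputable def Hopen (n : ℕ) : Op (n + 1) := ∑ j : Fin n, bond (Fin.castSucc j) (Fin.succ j)

/-- ring of `n+1` sites whose closing bond is twisted by the rotation `R` -/
noncomputable def Htw (n : ℕ) (R : R3) : Op (n + 1) :=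
  Hopen n + ∑ a, ∑ b, (R b a : ℂ) • (onSite (spinOp a) 0 * onSite (spinOp b) (Fin.last n))

/-- open chain of `n+1` sites with end fields `h1`, `h2` -/
noncomputable def Hfld (n : ℕ) (h1 h2 : ℝ) : Op (n + 1) :=
  Hopen n - ((h1 : ℂ) • onSite spinZ 0 + (h2 : ℂ) • onSite spinZ (Fin.last n))

def RX : R3 := !![1, 0, 0; 0, -1, 0; 0, 0, -1]
def RZ : R3 := !![-1, 0, 0; 0, -1, 0; 0, 0, 1]
/-- rotation by `2π/3` about the z axis -/
noncomputable def RW : R3 := !![-1/2, -(Real.sqrt 3)/2, 0; Real.sqrt 3/2, -1/2, 0; 0, 0, 1]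
/-- rotation by `π` about z on one spin: `(-1)^m` -/
def kZ : M3 := !![-1, 0, 0; 0, 1, 0; 0, 0, -1]
/-- rotation by `π` about x on one spin -/
def kX : M3 := !![0, 0, -1; 0, -1, 0; -1, 0, 0]

/-! ### the discrete (Trotter) model -/

abbrev B4 := Option (Fin 3)

noncomputable def ell (a : Fin 3) : M3 := Complex.I • spinOp a

/-- local tensor -/
noncomputable def loc (s : ℝ) : B4 → B4 → M3
  | none, none => 1
  | some a, none => (s : ℂ) • ell a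
  | none, some a => (s : ℂ) • ell a
  | some _, some _ => 0

/-- `A ⊗ B` -/
noncomputable def kcons {L : ℕ} (A : M3) (B : Op L) : Op (L + 1) :=
  Matrix.of fun σ τ => A (σ 0) (τ 0) * B (Fin.tail σ) (Fin.tail τ)

/-- one time slice of a chain of `L` sites with open bond indices -/
noncomputable def Wc (s : ℝ) : (L : ℕ) → B4 → B4 → Op L
  | 0, α, α' => if α = α' then 1 else 0
  | L + 1, α, α'' => ∑ α', kcons (loc s α α') (Wc s L α' α'')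

noncomputable def uR (R : R3) : B4 → B4 → ℂ
  | none, none => 1
  | some b, some a => (R b a : ℂ)
  | _, _ => 0

/-- slice of the twisted ring: `1 - s² Htw + O(s³)` -/
noncomputable def Wr (s : ℝ) (L : ℕ) (R : R3) : Op L := ∑ α, ∑ α', uR R α' α • Wc s L α α'

noncomputable def vB (s h : ℝ) : B4 → ℂ
  | none => 1
  | some a => if a = 2 then -(Complex.I * h * s) else 0

/-- slice of the open chain with fields: `1 - s² Hfld + O(s³)` -/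
noncomputable def Wo (s : ℝ) (L : ℕ) (h1 h2 : ℝ) : Op L :=
  ∑ α, ∑ α', (vB s h1 α * vB s h2 α') • Wc s L α α'

abbrev BI (m : ℕ) := Fin m → B4

/-- space-direction transfer matrix of `m` slices with time twist `g` -/
noncomputable def Tm (s : ℝ) (m : ℕ) (g : M3) : Matrix (BI m) (BI m) ℂ :=
  Matrix.of fun α α' => Matrix.trace (g * (List.ofFn fun t => loc s (α t) (α' t)).prod)

noncomputable def Um (m : ℕ) (R : R3) : Matrix (BI m) (BI m) ℂ :=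
  Matrix.of fun α' α => ∏ t, uR R (α' t) (α t)

noncomputable def Vm (s : ℝ) (m : ℕ) (h : ℝ) : BI m → ℂ := fun α => ∏ t, vB s h (α t)

/-! ### abstract spectral properties -/

/-- power sums of finitely many reals -/
def PAtoms (f : ℕ → ℝ) : Prop :=
  ∃ (ι : Type) (_ : Fintype ι) (ν : ι → ℝ), ∀ n, 0 < n → f n = ∑ i, ν i ^ n

/-- `Z n = tr A^n`, `μ` = spectral radius -/
structure Side0 (Z : ℕ → ℝ) (μ : ℝ) : Prop where
  nonneg : 0 ≤ μ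
  top_le : ∀ n, Even n → 0 < n → μ ^ n ≤ Z n
  mono : ∀ n k, Even n → 0 < n → Even k → Z (n + k) ≤ μ ^ k * Z n
  sq : ∀ n, Even n → 0 < n → Z (2 * n) ≤ μ ^ (2 * n) + (Z n - μ ^ n) ^ 2

/-- `Z n = tr A^n`, `Zp n = tr (X A^n)` for the three involutions `X` of a Klein group commuting
with `A`; `(Z + 3 Zp)/4` is the invariant sector and `(Z - Zp)/4` each of the three others. -/
structure Side (Z Zp : ℕ → ℝ) (μ : ℝ) : Prop extends Side0 Z μ where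
  Qnn : ∀ n, Even n → 0 < n → Zp n ≤ Z n
  Pge : ∀ n, Even n → 0 < n → Z n < 3 * μ ^ n → μ ^ n ≤ (Z n + 3 * Zp n) / 4
  sqZ : ∀ n, Even n → 0 < n → Z n < 3 * μ ^ n →
    Z (2 * n) ≤ μ ^ (2 * n) + ((Z n + 3 * Zp n) / 4 - μ ^ n) ^ 2 + 3 * ((Z n - Zp n) / 4) ^ 2
  sqP : ∀ n, Even n → 0 < n → Z n < 3 * μ ^ n →
    (Z (2 * n) + 3 * Zp (2 * n)) / 4 ≤ μ ^ (2 * n) + ((Z n + 3 * Zp n) / 4 - μ ^ n) ^ 2

def Sq0 (Z : ℕ → ℝ) : Prop := ∀ n, Even n → 0 < n → 0 ≤ Z n ∧ Z (2 * n) ≤ Z n ^ 2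

/-- `Wm n = ⟨V, A^n V⟩`, `Wp n = ⟨V, X A^n V⟩`, `c0` = weight of `V` on a top eigenvector -/
structure VSide (Z Zp Wm Wp : ℕ → ℝ) (μ c0 : ℝ) : Prop where
  c0_nonneg : 0 ≤ c0
  R_nonneg : ∀ n, Even n → c0 * μ ^ n ≤ Wm n
  R_mono : ∀ n k, Even n → Even k → Wm (n + k) - c0 * μ ^ (n + k) ≤ μ ^ k * (Wm n - c0 * μ ^ n)
  decay : ∀ (l n : ℕ) (η : ℝ), Even l → 0 < l → Even n → Z l < 3 * μ ^ l →
    (Z l + 3 * Zp l) / 4 - μ ^ l ≤ η → (Z l - Zp l) / 4 ≤ η →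
    Wm (n + l) - c0 * μ ^ (n + l) ≤ η * (Wm n - c0 * μ ^ n)
  odd_up : ∀ n, Even n → Wp (n + 1) ≤ c0 * μ ^ (n + 1) + μ * (Wm n - c0 * μ ^ n)
  odd_lo : ∀ n, Even n → c0 * μ ^ (n + 1) - μ * (Wm n - c0 * μ ^ n) ≤ |Wp (n + 1)|
  filt : ∀ l, Even l → 0 < l → Z l < 3 * μ ^ l → ∃ σ : ℝ, (σ = μ ∨ σ = -μ) ∧ ∀ p0 p1 p2 : ℝ,
    c0 * σ ^ 4 * (p0 + p1 * σ + p2 * σ ^ 2) ^ 2 ≤
      p0 ^ 2 * ((Wm 4 + Wp 4) / 2) + 2 * p0 * p1 * ((Wm 5 + Wp 5) / 2)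
        + (p1 ^ 2 + 2 * p0 * p2) * ((Wm 6 + Wp 6) / 2) + 2 * p1 * p2 * ((Wm 7 + Wp 7) / 2)
        + p2 ^ 2 * ((Wm 8 + Wp 8) / 2)

/-- The abstract two-direction system.  First argument = number of sites, second = number of
slices. `Z` untwisted torus, `Zs` space twist π, `Zt` time twist π, `Wm`/`Wp` open chain with
fields `(-h,h)` / `(h,h)`. -/
structure Sys where
  Z : ℕ → ℕ → ℝ
  Zs : ℕ → ℕ → ℝ
  Zt : ℕ → ℕ → ℝ
  Wm : ℕ → ℕ → ℝ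
  Wp : ℕ → ℕ → ℝ
  μ : ℕ → ℝ
  lam : ℕ → ℝ
  c0 : ℕ → ℝ
  lo : ℕ → ℝ
  hT : ∀ m, Side (fun L => Z L m) (fun L => Zs L m) (μ m)
  hV : ∀ m, VSide (fun L => Z L m) (fun L => Zs L m) (fun n => Wm n m) (fun n => Wp n m) (μ m) (c0 m)
  hTt : ∀ m, Sq0 (fun L => Zt L m)
  hW : ∀ L, Side (Z L) (Zt L) (lam L)
  hWs : ∀ L, Sq0 (Zs L)
  hWm : ∀ n, Side0 (Wm n) (lo n)
  hWp : ∀ n, Sq0 (Wp n)

/-- rational seed constants -/
structure SD where
  p20 : ℚ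
  q20 : ℚ
  z80 : ℚ
  t80 : ℚ
  z160 : ℚ
  t160 : ℚ
  w8 : ℚ
  f0 : ℚ
  f1 : ℚ
  f2 : ℚ
  qo : ℚ
  g68 : ℚ
  g88 : ℚ

structure Seeds (S : Sys) (m : ℕ) (d : SD) : Prop where
  even : Even m
  pos : 0 < m
  mu1 : 1 ≤ S.μ m
  mu2 : 1 ≤ S.μ (2 * m)
  lam80 : 1 ≤ S.lam 80 ^ m
  lam160 : 1 ≤ S.lam 160 ^ m
  p20 : (S.Z 20 m + 3 * S.Zs 20 m) / 4 ≤ d.p20
  q20 : (S.Z 20 m - S.Zs 20 m) / 4 ≤ d.q20
  z80 : S.Z 80 m ≤ d.z80
  t80 : S.Zt 80 m ≤ d.t80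
  z160 : S.Z 160 m ≤ d.z160
  t160 : S.Zt 160 m ≤ d.t160
  w8 : S.Wm 8 m ≤ d.w8
  qo : (d.f0 : ℝ) ^ 2 * ((S.Wm 4 m + S.Wp 4 m) / 2) + 2 * d.f0 * d.f1 * ((S.Wm 5 m + S.Wp 5 m) / 2)
        + (d.f1 ^ 2 + 2 * d.f0 * d.f2) * ((S.Wm 6 m + S.Wp 6 m) / 2)
        + 2 * d.f1 * d.f2 * ((S.Wm 7 m + S.Wp 7 m) / 2)
        + d.f2 ^ 2 * ((S.Wm 8 m + S.Wp 8 m) / 2) ≤ d.qo
  g68 : (d.g68 : ℝ) ≤ S.lo 68 ^ m
  g88 : (d.g88 : ℝ) ≤ S.lo 88 ^ m

/-! ### explicit action of the Hamiltonians in the product basis -/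

/-- raise the basis index (lower the spin), junk at the end -/
def up3 (a : Fin 3) : Fin 3 := a + 1
def dn3 (a : Fin 3) : Fin 3 := a - 1

/-- diagonal part of the open chain -/
def dOpen : (L : ℕ) → Cfg L → ℤ
  | 0, _ => 0
  | 1, _ => 0
  | L + 2, σ => magneticNumber (σ 0) * magneticNumber (σ 1) + dOpen (L + 1) (Fin.tail σ)

/-- hopping part of the open chain acting on a vector `x` -/
def hopO {R : Type} [AddCommMonoid R] : (L : ℕ) → (Cfg L → R) → Cfg L → R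
  | 0, _, _ => 0
  | 1, _, _ => 0
  | L + 2, x, σ =>
    (if σ 0 ≠ 2 ∧ σ 1 ≠ 0 then
        x (Fin.cons (up3 (σ 0)) (Fin.cons (dn3 (σ 1)) (Fin.tail (Fin.tail σ)))) else 0)
      + (if σ 0 ≠ 0 ∧ σ 1 ≠ 2 then
        x (Fin.cons (dn3 (σ 0)) (Fin.cons (up3 (σ 1)) (Fin.tail (Fin.tail σ)))) else 0)
      + hopO (L + 1) (fun τ => x (Fin.cons (σ 0) τ)) (Fin.tail σ)

/-- closing-bond hop: first index raised, last index lowered -/
def perA {R : Type} [Zero R] (n : ℕ) (x : Cfg (n + 1) → R) (σ : Cfg (n + 1)) : R :=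
  if σ 0 ≠ 2 ∧ σ (Fin.last n) ≠ 0 then
    x (Function.update (Function.update σ 0 (up3 (σ 0))) (Fin.last n) (dn3 (σ (Fin.last n)))) else 0

/-- closing-bond hop: first index lowered, last index raised -/
def perB {R : Type} [Zero R] (n : ℕ) (x : Cfg (n + 1) → R) (σ : Cfg (n + 1)) : R :=
  if σ 0 ≠ 0 ∧ σ (Fin.last n) ≠ 2 then
    x (Function.update (Function.update σ 0 (dn3 (σ 0))) (Fin.last n) (up3 (σ (Fin.last n)))) else 0

/-- twisted ring, `u` the phase of `perA`, `v` the phase of `perB` -/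
def actR {R : Type} [CommRing R] (n : ℕ) (u v : R) (x : Cfg (n + 1) → R) (σ : Cfg (n + 1)) : R :=
  ((dOpen (n + 1) σ + magneticNumber (σ 0) * magneticNumber (σ (Fin.last n)) : ℤ) : R) * x σ
    + hopO (n + 1) x σ + u * perA n x σ + v * perB n x σ

/-- `5 ×` the open chain with end fields `a/5`, `b/5` -/
def actO {R : Type} [CommRing R] (n : ℕ) (a b : ℤ) (x : Cfg (n + 1) → R) (σ : Cfg (n + 1)) : R :=
  ((5 * dOpen (n + 1) σ - a * magneticNumber (σ 0) - b * magneticNumber (σ (Fin.last n)) : ℤ) : R)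
      * x σ + 5 * hopO (n + 1) x σ

/-- primitive cube root of unity -/
noncomputable def om : ℂ := -1 / 2 + (Real.sqrt 3 / 2 : ℝ) * Complex.I

def rotC {n : ℕ} (σ : Cfg (n + 1)) : Cfg (n + 1) := Fin.snoc (Fin.tail σ) (σ 0)
def revC {L : ℕ} (σ : Cfg L) : Cfg L := fun j => σ (Fin.rev j)
def flipC {L : ℕ} (σ : Cfg L) : Cfg L := fun j => Fin.rev (σ j)

/-- big-endian base 3 index of a configuration -/
def idx : (L : ℕ) → Cfg L → ℕ
  | 0, _ => 0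
  | L + 1, σ => (σ 0 : ℕ) * 3 ^ L + idx L (Fin.tail σ)

/-- `r` pairwise orthogonal approximate eigenvectors in the sector `P v = v`, `F v = ε v` -/
def Clu {ι : Type} [Fintype ι] [DecidableEq ι] (H P F : Matrix ι ι ℂ) (ρ s : ℝ) (r : ℕ) (ε : ℤ) :
    Prop :=
  ∃ v : Fin r → ι → ℂ, (∀ i j, i ≠ j → star (v i) ⬝ᵥ v j = 0) ∧ ∀ i, v i ≠ 0 ∧ P *ᵥ v i = v i ∧
    F *ᵥ v i = (ε : ℂ) • v i ∧
    r * (star (H *ᵥ v i - (ρ : ℂ) • v i) ⬝ᵥ (H *ᵥ v i - (ρ : ℂ) • v i)).re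
      ≤ s ^ 2 * (star (v i) ⬝ᵥ v i).re

/-- variational bound: some vector has energy at most `x` -/
def Var {ι : Type} [Fintype ι] (H : Matrix ι ι ℂ) (x : ℝ) : Prop :=
  ∃ ψ : ι → ℂ, ψ ≠ 0 ∧ (star ψ ⬝ᵥ H *ᵥ ψ).re ≤ x * (star ψ ⬝ᵥ ψ).re

/-- `5 ×` the open chain with fields `a/5`, `b/5` (an integer matrix) -/
noncomputable def HO (n : ℕ) (a b : ℤ) : Op (n + 1) := (5 : ℂ) • Hfld n (a / 5) (b / 5)

/-- configuration with index `i` -/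
def cfg : (L : ℕ) → ℕ → Cfg L
  | 0, _ => Fin.elim0
  | L + 1, i => Fin.cons ⟨i / 3 ^ L % 3, Nat.mod_lt _ (by norm_num)⟩ (cfg L (i % 3 ^ L))

/-- torus partition function: time twist `g`, space twist `R`, `L` sites, `m` slices -/
noncomputable def ZZ (s c : ℝ) (g : M3) (R : R3) (L m : ℕ) : ℝ :=
  rtr (Um m R * (((c ^ m : ℝ) : ℂ) • Tm s m g) ^ L)

/-- open-chain partition function -/
noncomputable def WW (s c h1 h2 : ℝ) (L m : ℕ) : ℝ :=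
  rtr ((((c ^ L : ℝ) : ℂ) • Wo s L h1 h2) ^ m)

/-- the quadratic filter `∑ ν^6 (p0 + p1 ν + p2 ν²)²` in terms of power sums -/
def quad (p0 p1 p2 : ℝ) (f : ℕ → ℝ) : ℝ :=
  p0 ^ 2 * f 6 + 2 * p0 * p1 * f 7 + (p1 ^ 2 + 2 * p0 * p2) * f 8 + 2 * p1 * p2 * f 9 + p2 ^ 2 * f 10

/-! ### the sector checker -/

def rup (x : ℚ) : ℚ := (⌈x * 2 ^ 128⌉ : ℤ) / 2 ^ 128
def rdn (x : ℚ) : ℚ := (⌊x * 2 ^ 128⌋ : ℤ) / 2 ^ 128
/-- `∑_{i<14} z^i / i!` -/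
def tay (z : ℚ) : ℚ :=
  1 + z * (1 + z / 2 * (1 + z / 3 * (1 + z / 4 * (1 + z / 5 * (1 + z / 6 * (1 + z / 7 * (1 + z / 8 *
    (1 + z / 9 * (1 + z / 10 * (1 + z / 11 * (1 + z / 12 * (1 + z / 13))))))))))))
def squ (x : ℚ) : ℚ := rup (x * x)
def sqd (x : ℚ) : ℚ := rdn (x * x)
/-- upper bound of `exp y` for `|y| ≤ 64` -/
def expU (y : ℚ) : ℚ := squ (squ (squ (squ (squ (squ (rup (tay (y / 64) + 1 / 2 ^ 36)))))))
/-- lower bound of `exp y` for `|y| ≤ 64` -/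
def expL (y : ℚ) : ℚ := sqd (sqd (sqd (sqd (sqd (sqd (rdn (tay (y / 64) - 1 / 2 ^ 36)))))))

def padd : List ℚ → List ℚ → List ℚ
  | [], q => q
  | p, [] => p
  | a :: p, b :: q => (a + b) :: padd p q
def pmul : List ℚ → List ℚ → List ℚ
  | [], _ => []
  | a :: p, q => padd (q.map (a * ·)) (0 :: pmul p q)
/-- coefficients in `x` of `p (a - x)` -/
def psh (a : ℚ) : List ℚ → List ℚ
  | [] => []
  | c :: p => padd [c] (pmul [a, -1] (psh a p))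
def pev (p : List ℚ) (t : ℚ) : ℚ := p.foldr (fun c r => c + t * r) 0
def pdot : List ℚ → List ℚ → ℚ
  | a :: p, b :: q => a * b + pdot p q
  | _, _ => 0

/-- a cluster: at least `r` eigenvalues in `[ρ - s, ρ + s]` with `F = ε` -/
structure Cl where
  ρ : ℚ
  s : ℚ
  r : ℕ
  ε : ℤ

structure SecData where
  β : ℚ
  E : ℚ
  mom : List ℚ
  cl : List Cl
  /-- coefficients of `p` in the variable `t = a0 + J δ - x` -/
  p : List ℚ
  a0 : ℚ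
  δ : ℚ
  J : ℕ

/-- `∑_{j=i}^{i+n-1} max 0 (E_j - E_{j+1}) w / p(a_{j+1})² + E_{i+n} d` with `E_{j+1} = rup (E_j q)`;
`k` = remaining number of steps, so `a_J - a_{j+1} = (k-1) δ` -/
def abel (p : List ℚ) (δ w d q : ℚ) : ℕ → ℚ → ℚ
  | 0, e => e * d
  | k + 1, e => rup (max 0 (e - rup (e * q)) * w / (pev p (k * δ)) ^ 2) + abel p δ w d q k (rup (e * q))

namespace SecData
variable (D : SecData)
def aJ : ℚ := D.a0 + D.J * D.δ
def w : ℚ := pdot (pmul (psh D.aJ D.p) (psh D.aJ D.p)) D.mom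
  - (D.cl.map fun c => (c.r : ℚ) * (pev D.p (D.aJ - (c.ρ + c.s))) ^ 2).sum
def rest : ℚ := abel D.p D.δ D.w (D.mom.headD 0) (expU (-(D.β * D.δ))) D.J (expU (-(D.β * (D.a0 + D.E))))
def cLo (c : Cl) : ℚ := c.r * expL (-(D.β * (c.ρ + c.s + D.E)))
def cHi (c : Cl) : ℚ := c.r * expU (-(D.β * (c.ρ - c.s + D.E)))
def lo : ℚ := (D.cl.map D.cLo).sum
def hi : ℚ := (D.cl.map D.cHi).sum + D.rest
def flo : ℚ := (D.cl.map fun c => if c.ε = 1 then D.cLo c else -D.cHi c).sum - D.rest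
def fhi : ℚ := (D.cl.map fun c => if c.ε = 1 then D.cHi c else -D.cLo c).sum + D.rest
def ok : Bool :=
  decide (0 < D.β) && decide (0 < D.δ) && decide (D.β * D.δ ≤ 64) && decide (0 < D.mom.length)
  && decide (|D.β * (D.a0 + D.E)| ≤ 64) && ((pmul (psh D.aJ D.p) (psh D.aJ D.p)).drop D.mom.length).all (fun c => decide (c = 0))
  && decide (0 < D.p.headD 0) && D.p.all (fun c => decide (0 ≤ c))
  && decide (D.w < (pev D.p (D.J * D.δ)) ^ 2)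
  && D.cl.all (fun c => decide (0 ≤ c.s) && decide (c.ρ + c.s ≤ D.aJ) && decide (c.ε = 1 ∨ c.ε = -1)
      && decide (|D.β * (c.ρ + c.s + D.E)| ≤ 64) && decide (|D.β * (c.ρ - c.s + D.E)| ≤ 64))
  && decide (D.cl.Pairwise fun c c' => c.ρ + c.s < c'.ρ - c'.s)
/-- everything in one Boolean: the four enclosures are inside the given rationals -/
def check (lo hi flo fhi : ℚ) : Bool :=
  D.ok && decide (lo ≤ D.lo) && decide (D.hi ≤ hi) && decide (flo ≤ D.flo) && decide (D.fhi ≤ fhi)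
end SecData

end Crest.Agent.R347
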