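import Crest.Agent.R347.TK

/-! Row 347: `Nat`-only versions of the certificate checks of `TK.lean` (faster in the kernel). -/

set_option autoImplicit false

namespace Crest.Agent.R347

noncomputable section

def sumN (f : Nat → Nat → Nat) (d : Nat) : T → T → Nat :=
  Nat.rec (motive := fun _ => T → T → Nat) (fun x y => f x.val y.val)
    (fun _ g x y => T.rec (motive := fun _ => Nat)
      (T.rec (motive := fun _ => Nat) 0 (fun _ => 0)
        (fun a b c _ _ _ => Nat.add (Nat.add (g T.nil a) (g T.nil b)) (g T.nil c)) y)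
      (fun _ => 0)
      (fun a b c _ _ _ => Nat.add (Nat.add (g a y.c0) (g b y.c1)) (g c y.c2)) x) d

def sqn (x : Nat) : Nat := Nat.mul x x
/-- `(p - q)²` -/
def sqd2 (p q : Nat) : Nat := sqn (Nat.add (Nat.sub p q) (Nat.sub q p))
/-- `dec N + 2^63` -/
def bia (N : Nat) : Nat := Nat.mod (Nat.add N 9223372036854775808) 18446744073709551616

def fSq (a _b : Nat) : Nat := sqd2 (bia a) 9223372036854775808
def fRes (D ρp ρm cp cm a b : Nat) : Nat :=
  sqd2 (Nat.add (Nat.add (Nat.mul D (bia b)) (Nat.mul ρm (bia a))) cp) (Nat.add (Nat.mul ρp (bia a)) cm)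
def fN4 (a b : Nat) : Nat :=
  Nat.add (sqd2 (Nat.mul 2 (bia a)) (Nat.add (bia b) 9223372036854775808))
    (Nat.mul 3 (sqd2 (bia b) 9223372036854775808))
def fPlus (a b : Nat) : Nat := sqd2 (bia b) (bia a)
def fMinus (a b : Nat) : Nat := sqd2 (Nat.add (bia b) (bia a)) 18446744073709551616

def smallT (t : T) : Bool :=
  allLe 8589934592 (T.map (fun a => Nat.mod (Nat.add a 4294967296) 18446744073709551616) t)

def certRN (L r D sn sd ρp ρm : Nat) (t u : T) : Bool :=
  Nat.ble 1 (sumN fSq L t t) && smallT t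
  && Nat.ble (Nat.mul (Nat.mul r (sqn sd)) (sumN (fRes D ρp ρm (Nat.mul ρp 9223372036854775808)
        (Nat.mul (Nat.add D ρm) 9223372036854775808)) L t u))
      (Nat.mul (Nat.mul (sqn sn) (sqn D)) (sumN fSq L t t))

def certCN (L r D sn sd ρp ρm : Nat) (t u : T) : Bool :=
  Nat.ble 1 (sumN fN4 L t.c0 t.c1) && smallT t
  && Nat.ble (Nat.mul (Nat.mul r (sqn sd)) (sumN fN4 L (resT D ρp ρm t.c0 u.c0) (resT D ρp ρm t.c1 u.c1)))
      (Nat.mul (Nat.mul (sqn sn) (sqn D)) (sumN fN4 L t.c0 t.c1))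

def parP (L : Nat) (t : T) : Bool := Nat.beq (sumN fPlus L t t.flip) 0
def parM (L : Nat) (t : T) : Bool := Nat.beq (sumN fMinus L t t.flip) 0

/-- concatenation of chunks of 6804 bits -/
def cat (l : List Nat) : Nat :=
  List.rec (motive := fun _ => Nat) 0 (fun a _ r => Nat.add a (Nat.shiftLeft r 6804)) l

/-- entry `i` is the 28-bit biased field `i / 3` of `B`, reduced mod `2^64` -/
def vd1 (B i : Nat) : Nat :=
  Nat.mod (Nat.add (Nat.land (Nat.shiftRight B (Nat.mul 28 (Nat.div i 3))) 268435455)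
    18446744073575333888) 18446744073709551616

def vd2 (B B' i : Nat) : Nat :=
  Bool.rec (vd1 B' (Nat.div i 2)) (vd1 B (Nat.div i 2)) (Nat.beq (Nat.mod i 2) 0)

end

end Crest.Agent.R347
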