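import Lean.Elab.Tactic.Basic
import Lean.Elab.ElabRules
import Lean.Elab.Tactic.ElabTerm
import Crest.Agent.R347.TK2

/-! Row 347: term builders for the accelerators `Acc` of `TK.lean`.  The tactics only build terms
(straight-line versions of the step functions); the kernel checks `hF` and `happ` by `rfl`. -/

set_option autoImplicit false

namespace Crest.Agent.R347.Gen

inductive E where
  | nil : E
  | leaf : Lean.Expr → E
  | node : E → E → E → E

instance : Inhabited E := ⟨.nil⟩

def nadd (a b : Lean.Expr) := Lean.mkApp2 (Lean.mkConst ``Nat.add) a b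
def nsub (a b : Lean.Expr) := Lean.mkApp2 (Lean.mkConst ``Nat.sub) a b
def nmul (a b : Lean.Expr) := Lean.mkApp2 (Lean.mkConst ``Nat.mul) a b
def lit (n : Nat) := Lean.mkRawNatLit n

def E.add : E → E → E
  | .nil, y => y
  | .leaf a, .leaf b => .leaf (nadd a b)
  | .leaf a, _ => .leaf a
  | .node a b c, .node a' b' c' => .node (a.add a') (b.add b') (c.add c')
  | .node a b c, _ => .node a b c
def E.mk : E → E → E → E
  | .nil, .nil, .nil => .nil
  | a, b, c => .node a b c
def E.c0 : E → E | .node a _ _ => a | _ => .nil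
def E.c1 : E → E | .node _ a _ => a | _ => .nil
def E.c2 : E → E | .node _ _ a => a | _ => .nil
def E.map (f : Lean.Expr → Lean.Expr) : E → E
  | .nil => .nil
  | .leaf a => .leaf (f a)
  | .node a b c => .node (a.map f) (b.map f) (c.map f)
def E.diag (K : Lean.Expr) (g p0 m0 p2 m2 : Nat) : E → Nat → Nat → Nat → E
  | .nil, _, _, _ => .nil
  | .leaf x, s, p, m =>
    let p := p + (if s == 0 then p0 else if s == 2 then p2 else 0)
    let m := m + (if s == 0 then m0 else if s == 2 then m2 else 0)
    .leaf (if m ≤ p then (if p ≤ m then K else nadd K (nmul (lit (p - m)) x))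
      else nsub K (nmul (lit (m - p)) x))
  | .node a b c, s, p, m =>
    .node (a.diag K g p0 m0 p2 m2 0 (if s == 0 then p + g else p) (if s == 2 then m + g else m))
      (b.diag K g p0 m0 p2 m2 1 p m)
      (c.diag K g p0 m0 p2 m2 2 (if s == 2 then p + g else p) (if s == 0 then m + g else m))
def E.up : Nat → E → E
  | 0, .node a b _ => .mk .nil a b
  | d + 1, .node a b c => .mk (up d a) (up d b) (up d c)
  | _, _ => .nil
def E.dn : Nat → E → E
  | 0, .node _ b c => .mk b c .nil
  | d + 1, .node a b c => .mk (dn d a) (dn d b) (dn d c)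
  | _, _ => .nil
def E.hop : Nat → E → E → E
  | d + 1, .node a b c, acc => .mk
      (hop d a (.mk acc.c0.c0 (acc.c0.c1.add b.c0) (acc.c0.c2.add b.c1)))
      (hop d b (.mk (acc.c1.c0.add a.c1) ((acc.c1.c1.add a.c2).add c.c0) (acc.c1.c2.add c.c1)))
      (hop d c (.mk (acc.c2.c0.add b.c1) (acc.c2.c1.add b.c2) acc.c2.c2))
  | _, _, acc => acc
def baseR (d : Nat) (K : Lean.Expr) (t : E) : E :=
  E.hop (d + 1) t (.mk (t.c0.diag K 1 1 0 0 1 0 0 0) (t.c1.diag K 1 0 0 0 0 1 0 0)
    (t.c2.diag K 1 0 1 1 0 2 0 0))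
def PA (d : Nat) (t : E) : E := .mk (E.up d t.c1) (E.up d t.c2) .nil
def PB (d : Nat) (t : E) : E := .mk .nil (E.dn d t.c0) (E.dn d t.c1)
def E.neg (K : Lean.Expr) (t : E) : E := t.map (nsub K)

/-- kinds: 0 untwisted, 1 π-twisted, 2 `2π/3`-twisted, 3 open -/
def step (kind d ap am bp bm : Nat) (K : Lean.Expr) (t : E) : E :=
  if kind == 0 then ((baseR d K t).add (PA d t)).add (PB d t)
  else if kind == 1 then ((baseR d K t).add ((PA d t).neg K)).add ((PB d t).neg K)
  else if kind == 2 then
    .node ((((baseR d K t.c0).add ((PA d t.c1).neg K)).add (PB d t.c1)).add ((PB d t.c0).neg K))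
      ((((baseR d K t.c1).add (PA d t.c0)).add ((PA d t.c1).neg K)).add ((PB d t.c0).neg K)) .nil
  else (E.mk (t.c0.diag K 5 bm bp bp bm 0 am ap) (t.c1.diag K 5 bm bp bp bm 1 0 0)
    (t.c2.diag K 5 bm bp bp bm 2 ap am)).add ((E.hop (d + 1) t .nil).map (nmul (lit 5)))

/-- the sector tree; the leaf function gets (counter, index) -/
def build (f : Nat → Nat → Lean.Expr) (lo hi : Nat) : Nat → Nat → Nat → Nat → E × Nat
  | 0, s, i, n => if lo ≤ s && s ≤ hi then (.leaf (f n i), n + 1) else (.nil, n)
  | d + 1, s, i, n =>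
    if lo ≤ s + 2 * (d + 1) && s ≤ hi then
      let (a, n) := build f lo hi d s (3 * i) n
      let (b, n) := build f lo hi d (s + 1) (3 * i + 1) n
      let (c, n) := build f lo hi d (s + 2) (3 * i + 2) n
      (.node a b c, n)
    else (.nil, n)

def shape (kind L lo hi : Nat) (f : Nat → Nat → Lean.Expr) : E × Nat :=
  if kind == 2 then
    let (a, n) := build (fun c i => f c (2 * i)) lo hi L 0 0 0
    let (b, n) := build (fun c i => f c (2 * i + 1)) lo hi L 0 0 n
    (.node a b .nil, n)
  else build f lo hi L 0 0 0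

def E.leaves : E → Array Lean.Expr → Array Lean.Expr
  | .nil, a => a
  | .leaf x, a => a.push x
  | .node x y z, a => z.leaves (y.leaves (x.leaves a))
def E.toExpr : E → Lean.Expr
  | .nil => Lean.mkConst ``T.nil
  | .leaf x => Lean.mkApp (Lean.mkConst ``T.leaf) x
  | .node a b c => Lean.mkApp3 (Lean.mkConst ``T.node) a.toExpr b.toExpr c.toExpr

def natE := Lean.mkConst ``Nat
def tE := Lean.mkConst ``T
def arr (a b : Lean.Expr) := Lean.mkForall `x .default a b
def lam (a b : Lean.Expr) := Lean.mkLambda `x .default a b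
def arrows (n : Nat) (α : Lean.Expr) : Lean.Expr := n.fold (fun _ _ acc => arr natE acc) α
def lams (n : Nat) (b : Lean.Expr) : Lean.Expr := n.fold (fun _ _ acc => lam natE acc) b
def cnt (kind L lo hi : Nat) : Nat := (shape kind L lo hi fun _ _ => natE).2
def vars (kind L lo hi : Nat) : E :=
  let n := cnt kind L lo hi
  (shape kind L lo hi fun c _ => Lean.mkBVar (n - 1 - c)).1

elab "r347_A " k:num L:num lo:num hi:num : tactic => do
  (← Lean.Elab.Tactic.getMainGoal).assign (arrows (cnt k.getNat L.getNat lo.getNat hi.getNat) tE)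

elab "r347_tr " k:num L:num lo:num hi:num : tactic => do
  let n := cnt k.getNat L.getNat lo.getNat hi.getNat
  let t := vars k.getNat L.getNat lo.getNat hi.getNat
  (← Lean.Elab.Tactic.getMainGoal).assign
    (lam (arr tE tE) (lams n (Lean.mkApp (Lean.mkBVar n) t.toExpr)))

elab "r347_F " k:num L:num lo:num hi:num ap:num am:num bp:num bm:num A:ident : tactic => do
  let n := cnt k.getNat L.getNat lo.getNat hi.getNat
  let t := vars k.getNat L.getNat lo.getNat hi.getNat
  let s := step k.getNat (L.getNat - 2) ap.getNat am.getNat bp.getNat bm.getNat (Lean.mkBVar (n + 1)) t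
  let Ae ← Lean.Elab.Tactic.elabTerm A none
  (← Lean.Elab.Tactic.getMainGoal).assign
    (lam (arr tE (arr tE tE)) (lam natE (lam Ae (lams n
      (Lean.mkApp2 (Lean.mkBVar (n + 2)) t.toExpr (Lean.mkAppN (Lean.mkBVar n) (s.leaves #[])))))))

elab "r347_app " k:num L:num lo:num hi:num A:ident : tactic => do
  let t := (shape k.getNat L.getNat lo.getNat hi.getNat fun _ i => Lean.mkApp (Lean.mkBVar 1) (lit i)).1
  let Ae ← Lean.Elab.Tactic.elabTerm A none
  (← Lean.Elab.Tactic.getMainGoal).assign
    (lam (arr natE natE) (lam Ae (Lean.mkAppN (Lean.mkBVar 0) (t.leaves #[]))))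

/-- closes `a = b` by `Eq.refl b`; only the kernel checks it -/
elab "krfl" : tactic => do
  let g ← Lean.Elab.Tactic.getMainGoal
  let t ← Lean.instantiateMVars (← g.getType)
  let some (α, _, r) := t.eq? | throwError "not an equation"
  let u ← Lean.Meta.getLevel α
  g.assign (Lean.mkApp2 (Lean.mkConst ``Eq.refl [u]) α r)

end Crest.Agent.R347.Gen
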