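import Crest.Agent.R347.MPSBase
import Crest.Agent.R347.MPSAuxD

/-! Row 347: variational (matrix product state) bound for the bulk energy. -/

set_option autoImplicit false
open Crest.MathPhysics.SpinChain Matrix

namespace Crest.Agent.R347

open MPSK in
/-- the list certificate implies the hypotheses of `mps_bulk` -/
theorem mps_of_cert (D : ℕ) (hD : 0 < D) (N0 N1 N2 Y : LM) (d S c ε : ℤ) (e : ℝ) (hd : 0 < d)
    (hS : 0 < S) (s0 : short D N0 = true) (s1 : short D N1 = true) (s2 : short D N2 = true)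
    (hg : near D (MPSK.gram N0 N1 N2) (d * d) 0 = true)
    (hp : near D (pot N0 N1 N2 Y d S) c ε = true)
    (he : e * ((d : ℝ) ^ 4 * S) ≤ c - D * ε) (h1 h2 : ℝ) :
    ∃ C : ℝ, ∀ n : ℕ, Var (Hfld n h1 h2) (-e * n + C) := by
  have : Nonempty (Fin D) := ⟨⟨0, hD⟩⟩
  have hd' : (0 : ℝ) < d := by exact_mod_cast hd
  have hS' : (0 : ℝ) < S := by exact_mod_cast hS
  set M0 := toM D N0 with hM0
  set M1 := toM D N1 with hM1
  set M2 := toM D N2 with hM2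
  set Yr := toM D Y with hYr
  have hG : M0 * M0ᵀ + M1 * M1ᵀ + M2 * M2ᵀ = ((d : ℝ) * d) • (1 : Matrix (Fin D) (Fin D) ℝ) := by
    have := near_zero hg
    simp only [MPSK.gram, toM_madd, toM_mulT D _ _ s0, toM_mulT D _ _ s1, toM_mulT D _ _ s2] at this
    push_cast at this
    exact this
  let A : Fin 3 → Matrix (Fin D) (Fin D) ℝ := ![(d : ℝ)⁻¹ • M0, (d : ℝ)⁻¹ • M1, (d : ℝ)⁻¹ • M2]
  have a0 : A 0 = (d : ℝ)⁻¹ • M0 := rfl
  have a1 : A 1 = (d : ℝ)⁻¹ • M1 := rfl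
  have a2 : A 2 = (d : ℝ)⁻¹ • M2 := rfl
  refine mps_bulk A ((S : ℝ)⁻¹ • Yr) e ?_ ?_ h1 h2
  · rw [a0, a1, a2]
    simp only [Matrix.transpose_smul, Matrix.smul_mul, Matrix.mul_smul, smul_smul]
    rw [← smul_add, ← smul_add, hG, smul_smul]
    have : (d : ℝ)⁻¹ * (d : ℝ)⁻¹ * (d * d) = 1 := by field_simp
    rw [this, one_smul]
  · intro x
    have hq := near_quad hp x
    have hP : toM D (pot N0 N1 N2 Y d S) = ((d : ℝ) ^ 4 * S) • ((S : ℝ)⁻¹ • Yr
        - (A 0 * ((S : ℝ)⁻¹ • Yr) * (A 0)ᵀ + A 1 * ((S : ℝ)⁻¹ • Yr) * (A 1)ᵀ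
          + A 2 * ((S : ℝ)⁻¹ • Yr) * (A 2)ᵀ) - mpsB A) := by
      simp only [pot, toM_madd, toM_msm, toM_mulT D _ _ s0, toM_mulT D _ _ s1, toM_mulT D _ _ s2,
        mpsB, a0, a1, a2, ← hM0, ← hM1, ← hM2, ← hYr]
      simp only [Matrix.transpose_smul, Matrix.transpose_add, Matrix.transpose_mul,
        Matrix.transpose_transpose, Matrix.smul_mul, Matrix.mul_smul, Matrix.mul_add,
        Matrix.add_mul, Matrix.mul_sub, Matrix.sub_mul, Matrix.mul_assoc]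
      push_cast
      match_scalars <;> field_simp
    rw [hP, Matrix.smul_mulVec, dotProduct_smul, smul_eq_mul] at hq
    have hxx : 0 ≤ x ⬝ᵥ x := Finset.sum_nonneg fun i _ => mul_self_nonneg _
    have hpos : (0 : ℝ) < (d : ℝ) ^ 4 * S := by positivity
    refine le_of_mul_le_mul_left (le_trans ?_ hq) hpos
    nlinarith [mul_le_mul_of_nonneg_right he hxx]

theorem var_bulk (h1 h2 : ℝ) : ∃ C : ℝ, ∀ n : ℕ, Var (Hfld n h1 h2) (-(1401476 / 10 ^ 6) * n + C) := by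
  refine mps_of_cert 24 (by norm_num) MPSK.N0 MPSK.N1 MPSK.N2 MPSK.Yd MPSK.dd 1000000000000 _ _ _
    MPSK.dd_pos (by norm_num) MPSK.short_N.1 MPSK.short_N.2.1 MPSK.short_N.2.2 MPSK.gram_ok
    MPSK.pot_ok (le_of_eq ?_) h1 h2
  push_cast
  ring

end Crest.Agent.R347
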