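import Crest.Agent.R347.MPSOpenAuxK
import Crest.Agent.R347.MPSOpenAux88

/-! Row 347: kernel evaluation of the 88-site matrix product state. -/

namespace Crest.Agent.R347.MO

theorem check88 : check (dec data88) 1229263 10000 88 = true := by decide +kernel

end Crest.Agent.R347.MO
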