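import Crest.Agent.R347.MPSOpenAuxP
import Crest.Agent.R347.MPSOpenAuxC68
import Crest.Agent.R347.MPSOpenAuxC88

/-! Row 347: variational (matrix product state) bounds for two open chains. -/

set_option autoImplicit false
open Crest.MathPhysics.SpinChain Matrix

namespace Crest.Agent.R347

theorem var_68 : Var (Hfld 67 (-(3 / 5)) (3 / 5)) (-(1401475 / 10 ^ 6 * 68 - 4035 / 10 ^ 4)) := by
  have h := MO.var_of_check _ 948968 10000 67 (by norm_num) (by norm_num) MO.check68
  convert h using 2
  norm_num

theorem var_88 : Var (Hfld 87 (-(3 / 5)) (3 / 5)) (-(1401475 / 10 ^ 6 * 88 - 4035 / 10 ^ 4)) := by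
  have h := MO.var_of_check _ 1229263 10000 87 (by norm_num) (by norm_num) MO.check88
  convert h using 2
  norm_num

end Crest.Agent.R347
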