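import Crest.Agent.R347.RecAux3

/-! Row 347: the doubling recursion (pure real analysis on `Sys`). -/

set_option autoImplicit false

namespace Crest.Agent.R347

/-- the seed constants (β₀ = 19/2) -/
def d0 : SD where
  p20 := 10709 / 10000
  q20 := 791 / 10000
  z80 := 12950 / 10000
  t80 := 10942 / 10000
  z160 := 16768 / 10000
  t160 := 11954 / 10000
  w8 := 4573 / 100000
  f0 := -5244 / 10000
  f1 := -3910 / 10000
  f2 := 19154 / 10000
  qo := 2264 / 100000
  g68 := 2143 / 100000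
  g88 := 2143 / 100000

/-! ### explicit levels (constants rounded up) -/

theorem rec_cS :
    StartOK d0 (1656 / 10000) (7114 / 10000) (1444 / 10000) (295 / 1000) (2372 / 10000)
      (1801 / 10000) (1356 / 10000) (791 / 10000) (10668 / 10000) (2598 / 100000) (2932 / 100000)
      (11477 / 10000) (16868 / 10000) (7589 / 10000) (3682 / 10000) := by
  constructor <;> norm_num [d0]

theorem rec_l1 (S : Sys) (m : ℕ) (hs : Seeds S m d0) :
    RecInv S 20 m (2743 / 100000) (1687 / 10000) (1444 / 10000) (295 / 1000) (2372 / 10000)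
      (1801 / 10000) (1356 / 10000) :=
  rec_start S m d0 hs rec_cS (by constructor <;> norm_num)

theorem rec_cD1 :
    DblOK (2743 / 100000) (1687 / 10000) (2901 / 100000) (106227 / 100000) (14463 / 10000)
      (106358 / 100000) (1299 / 10000) (4528 / 10000) := by
  constructor <;> norm_num

theorem rec_cV1 :
    VOK (2372 / 10000) (1801 / 10000) (1356 / 10000) (106358 / 100000) (1299 / 10000)
      (4528 / 10000) (1796 / 1000) (1093 / 1000) (16998 / 10000) (4083 / 10000) (151 / 1000)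
      (151 / 1000) (1651 / 10000) (1668 / 10000) := by
  constructor <;> norm_num

theorem rec_l2 (S : Sys) (m : ℕ) (hs : Seeds S m d0) :
    RecInv S (2 * 20) (2 * m) (1688 / 100000) (6835 / 100000) (997 / 10000) (1527 / 10000)
      (151 / 1000) (1651 / 10000) (1668 / 10000) ∧
    RingOut S 20 (2 * m) ((106358 / 100000) ^ 4 * (1 + (9487 / 1000000)) ^ 2) := by
  have I := (rec_l1 S m hs)
  have hM : Even m := hs.even
  have M0 : 0 < m := by have := hs.pos; omega
  have cy : SqOK (2743 / 100000) (1687 / 10000) (7525 / 10000000) (9487 / 1000000) := by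
    constructor <;> norm_num
  have cx : SqOK (1444 / 10000) (295 / 1000) (2086 / 100000) (2901 / 100000) := by
    constructor <;> norm_num
  have cn : SqOK (1299 / 10000) (4528 / 10000) (1688 / 100000) (6835 / 100000) := by
    constructor <;> norm_num
  have ct : SqOK (31575 / 100000) (6768 / 10000) (997 / 10000) (1527 / 10000) := by
    constructor <;> norm_num
  have hX := rec_start160 S m d0 hs (by norm_num [d0]) (by norm_num [d0]) ct
  have h := rec_step S (by decide) (by norm_num) hM M0 I cx cy rec_cD1 cn rec_cV1 hX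
  exact ⟨h.1, h.2.1⟩

theorem rec_cD2 :
    DblOK (1688 / 100000) (6835 / 100000) (1088 / 100000) (103493 / 100000) (11664 / 10000)
      (101512 / 100000) (5058 / 100000) (1587 / 10000) := by
  constructor <;> norm_num

theorem rec_cT2 :
    DblOK (997 / 10000) (1527 / 10000) (1558 / 1000000) (12103 / 10000) (13329 / 10000)
      (103566 / 100000) (2535 / 10000) (3761 / 10000) := by
  constructor <;> norm_num

theorem rec_cV2 :
    VOK (151 / 1000) (1651 / 10000) (1668 / 10000) (101512 / 100000) (5058 / 100000)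
      (1587 / 10000) (18481 / 10000) (94 / 100) (14727 / 10000) (2513 / 10000) (529 / 10000)
      (529 / 10000) (4973 / 100000) (6316 / 100000) := by
  constructor <;> norm_num

theorem rec_l3 (S : Sys) (m : ℕ) (hs : Seeds S m d0) :
    RecInv S (2 * (2 * 20)) (2 * (2 * m)) (2559 / 1000000) (8396 / 1000000) (6427 / 100000)
      (6928 / 100000) (529 / 10000) (4973 / 100000) (6316 / 100000) ∧
    RingOut S (2 * 20) (2 * (2 * m)) ((101512 / 100000) ^ 4 * (1 + (1558 / 1000000)) ^ 2) := by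
  have I := (rec_l2 S m hs).1
  have hM : Even (2 * m) := even_two_mul _
  have M0 : 0 < (2 * m) := by have := hs.pos; omega
  have cy : SqOK (1688 / 100000) (6835 / 100000) (285 / 1000000) (1558 / 1000000) := by
    constructor <;> norm_num
  have cx : SqOK (997 / 10000) (1527 / 10000) (9941 / 1000000) (1088 / 100000) := by
    constructor <;> norm_num
  have cn : SqOK (5058 / 100000) (1587 / 10000) (2559 / 1000000) (8396 / 1000000) := by
    constructor <;> norm_num
  have ct : SqOK (2535 / 10000) (3761 / 10000) (6427 / 100000) (6928 / 100000) := by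
    constructor <;> norm_num
  have hX := rec_stepX S (by decide) (by norm_num) hM M0 I cy rec_cT2 ct
  have h := rec_step S (by decide) (by norm_num) hM M0 I cx cy rec_cD2 cn rec_cV2 hX
  exact ⟨h.1, h.2.1⟩

theorem rec_cD3 :
    DblOK (2559 / 1000000) (8396 / 1000000) (4139 / 1000000) (1005136 / 1000000) (10253 / 10000)
      (1004214 / 1000000) (9372 / 1000000) (2115 / 100000) := by
  constructor <;> norm_num

theorem rec_cT3 :
    DblOK (6427 / 100000) (6928 / 100000) (235 / 10000000) (11327 / 10000) (11435 / 10000)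
      (101044 / 100000) (1446 / 10000) (1553 / 10000) := by
  constructor <;> norm_num

theorem rec_cV3 :
    VOK (529 / 10000) (4973 / 100000) (6316 / 100000) (1004214 / 1000000) (9372 / 1000000)
      (2115 / 100000) (12456 / 10000) (2486 / 10000) (11426 / 10000) (7167 / 100000)
      (9372 / 1000000) (9372 / 1000000) (233 / 100000) (5137 / 1000000) := by
  constructor <;> norm_num

theorem rec_l4 (S : Sys) (m : ℕ) (hs : Seeds S m d0) :
    RecInv S (2 * (2 * (2 * 20))) (2 * (2 * (2 * m))) (8784 / 100000000) (1492 / 10000000)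
      (2091 / 100000) (2095 / 100000) (9372 / 1000000) (233 / 100000) (5137 / 1000000) ∧
    RingOut S (2 * (2 * 20)) (2 * (2 * (2 * m)))
      ((1004214 / 1000000) ^ 4 * (1 + (235 / 10000000)) ^ 2) := by
  have I := (rec_l3 S m hs).1
  have hM : Even (2 * (2 * m)) := even_two_mul _
  have M0 : 0 < (2 * (2 * m)) := by have := hs.pos; omega
  have cy : SqOK (2559 / 1000000) (8396 / 1000000) (6549 / 1000000000) (235 / 10000000) := by
    constructor <;> norm_num
  have cx : SqOK (6427 / 100000) (6928 / 100000) (4131 / 1000000) (4139 / 1000000) := by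
    constructor <;> norm_num
  have cn : SqOK (9372 / 1000000) (2115 / 100000) (8784 / 100000000) (1492 / 10000000) := by
    constructor <;> norm_num
  have ct : SqOK (1446 / 10000) (1553 / 10000) (2091 / 100000) (2095 / 100000) := by
    constructor <;> norm_num
  have hX := rec_stepX S (by decide) (by norm_num) hM M0 I cy rec_cT3 ct
  have h := rec_step S (by decide) (by norm_num) hM M0 I cx cy rec_cD3 cn rec_cV3 hX
  exact ⟨h.1, h.2.1⟩

theorem rec_cD4 :
    DblOK (8784 / 100000000) (1492 / 10000000) (4373 / 10000000) (10001757 / 10000000)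
      (1001174 / 1000000) (10004375 / 10000000) (6133 / 10000000) (7361 / 10000000) := by
  constructor <;> norm_num

theorem rec_cT4 :
    DblOK (2091 / 100000) (2095 / 100000) (8971 / 1000000000000) (104226 / 100000)
      (104234 / 100000) (10009342 / 10000000) (4324 / 100000) (4332 / 100000) := by
  constructor <;> norm_num

theorem rec_cV4 :
    VOK (9372 / 1000000) (233 / 100000) (5137 / 1000000) (10004375 / 10000000) (6133 / 10000000)
      (7361 / 10000000) (101502 / 100000) (1503 / 100000) (101533 / 100000) (7666 / 1000000)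
      (6133 / 10000000) 1 ((945 / 1000) ^ 2 ^ 5 / 40) ((945 / 1000) ^ 2 ^ 5 / 40) := by
  constructor <;> norm_num

theorem rec_l5 (S : Sys) (m : ℕ) (hs : Seeds S m d0) :
    RecInv S (2 * (2 * (2 * (2 * 20)))) (2 * (2 * (2 * (2 * m)))) ((945 / 1000) ^ 2 ^ 5 / 40)
      ((945 / 1000) ^ 2 ^ 5 / 40) ((945 / 1000) ^ 2 ^ 5 / 40) ((945 / 1000) ^ 2 ^ 5 / 40) 1
      ((945 / 1000) ^ 2 ^ 5 / 40) ((945 / 1000) ^ 2 ^ 5 / 40) ∧
    RingOut S (2 * (2 * (2 * 20))) (2 * (2 * (2 * (2 * m))))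
      ((10004375 / 10000000) ^ 4 * (1 + (8971 / 1000000000000)) ^ 2) := by
  have I := (rec_l4 S m hs).1
  have hM : Even (2 * (2 * (2 * m))) := even_two_mul _
  have M0 : 0 < (2 * (2 * (2 * m))) := by have := hs.pos; omega
  have cy : SqOK (8784 / 100000000) (1492 / 10000000) (7716 / 1000000000000) (8971 / 1000000000000) := by
    constructor <;> norm_num
  have cx : SqOK (2091 / 100000) (2095 / 100000) (4373 / 10000000) (4373 / 10000000) := by
    constructor <;> norm_num
  have cn : SqOK (6133 / 10000000) (7361 / 10000000) ((945 / 1000) ^ 2 ^ 5 / 40) ((945 / 1000) ^ 2 ^ 5 / 40) := by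
    constructor <;> norm_num
  have ct : SqOK (4324 / 100000) (4332 / 100000) ((945 / 1000) ^ 2 ^ 5 / 40) ((945 / 1000) ^ 2 ^ 5 / 40) := by
    constructor <;> norm_num
  have hX := rec_stepX S (by decide) (by norm_num) hM M0 I cy rec_cT4 ct
  have h := rec_step S (by decide) (by norm_num) hM M0 I cx cy rec_cD4 cn rec_cV4 hX
  exact ⟨h.1, h.2.1⟩


/-! ### the asymptotic regime -/

theorem rec_asym (S : Sys) {l M : ℕ} (hl : Even l) (l0 : 0 < l) (hM : Even M) (M0 : 0 < M)
    {e : ℝ} (e0 : 0 ≤ e) (e1 : e ≤ 1 / 200) (I : RecInv S l M e e e e 1 e e) :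
    RecInv S (2 * l) (2 * M) (40 * e ^ 2) (40 * e ^ 2) (40 * e ^ 2) (40 * e ^ 2) 1 (40 * e ^ 2)
        (40 * e ^ 2) ∧
      RingOut S l (2 * M) (1 + 13 * e) ∧
      ∀ n, Even n → 8 + 4 * l ≤ n → n + 1 ≤ 8 + 8 * l →
        S.Wp (n + 1) (2 * M) ^ 2 ≤ (1 + 12 * e) * S.Wp (n + 1) (2 * (2 * M)) := by
  have step : ∀ (k : ℕ) (c : ℝ), e ^ k ≤ c * e → e ^ (k + 1) ≤ c / 200 * e := by
    intro k c h
    have h1 : e ^ (k + 1) ≤ e ^ k * (1 / 200) := by rw [pow_succ]; gcongr
    linarith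
  have p2 : e ^ 2 ≤ 1 / 200 * e := step 1 1 (by simp)
  have p3 := step 2 _ p2
  have p4 := step 3 _ p3
  have p5 := step 4 _ p4
  have p6 := step 5 _ p5
  have p7 := step 6 _ p6
  have p8 := step 7 _ p7
  norm_num at p3 p4 p5 p6 p7 p8
  have q2 : 0 ≤ e ^ 2 := by positivity
  have q3 : 0 ≤ e ^ 3 := by positivity
  have c1 : SqOK e e (e ^ 2) (e ^ 2) := ⟨by linarith, le_rfl, by linarith, by linarith⟩
  have c2 : DblOK e e (e ^ 2) ((1 + e) ^ 2) (1 + 3 * e) (1 + 3 * e) (6 * e) (6 * e) :=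
    ⟨by linarith, by linarith, by linarith, by linarith, Or.inl le_rfl, by linarith, by linarith⟩
  have c3 : SqOK (6 * e) (6 * e) (40 * e ^ 2) (40 * e ^ 2) :=
    ⟨by linarith, by linarith, by linarith, by linarith⟩
  have hB : (1 + e) ^ 2 * (1 + 40 * e ^ 2) * (1 + 3 * e) ^ 2 * (1 + e) ^ 2 ≤ 1 + 11 * e := by
    linarith
  have c4 : VOK 1 e e (1 + 3 * e) (6 * e) (6 * e) (1 + 5 * e) (6 * e) (1 + 11 * e) (6 * e) (6 * e)
      1 (40 * e ^ 2) (40 * e ^ 2) :=
    ⟨by norm_num, le_rfl, by linarith, by linarith, by linarith, by linarith, by linarith,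
      by linarith, by linarith, by linarith, by linarith, by simpa using hB, by linarith,
      by linarith, by linarith, by linarith, by linarith, by linarith⟩
  have h := rec_step S hl l0 hM M0 I c1 c1 c2 c3 c4 (rec_stepX S hl l0 hM M0 I c1 c2 c3)
  refine ⟨h.1, ?_, ?_⟩
  · intro L hL h1 h2
    refine (h.2.1 L hL h1 h2).trans (mul_le_mul_of_nonneg_right (by linarith) ?_)
    exact rec_nonneg0 (S.hW L).toSide0 (even_two_mul _) (by omega)
  · intro n hn h1 h2
    have h3 := h.2.2 n hn h1 h2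
    have h4 := ((S.hWp (n + 1)) (2 * (2 * M)) (even_two_mul _) (by omega)).1
    have h5 : 0 < 1 - 40 * e ^ 2 := by linarith
    rw [one_pow, mul_one] at h3
    have h6 : (1 + e) ^ 2 * (1 + 40 * e ^ 2) * (1 + 3 * e) ^ 2 * (1 + e) ^ 2 ≤
        (1 - 40 * e ^ 2) * (1 + 12 * e) := by linarith
    refine le_of_mul_le_mul_left (h3.trans ?_) h5
    exact (mul_le_mul_of_nonneg_right h6 h4).trans (le_of_eq (mul_assoc _ _ _))

theorem rec_eps (j : ℕ) : (945 / 1000 : ℝ) ^ 2 ^ (j + 5) / 40 ≤ 1 / 200 := by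
  have h1 : (945 / 1000 : ℝ) ^ 2 ^ (j + 5) ≤ (945 / 1000 : ℝ) ^ 2 ^ 5 :=
    pow_le_pow_of_le_one (by norm_num) (by norm_num)
      (Nat.pow_le_pow_right (by norm_num) (by omega))
  have h2 : (945 / 1000 : ℝ) ^ 2 ^ 5 ≤ 1 / 5 := by norm_num
  linarith

theorem rec_even_l (j : ℕ) : Even (10 * 2 ^ j) := Even.mul_right (by decide) _

theorem rec_levels (S : Sys) (m : ℕ) (hs : Seeds S m d0) (j : ℕ) :
    RecInv S (10 * 2 ^ (j + 5)) (2 ^ (j + 4) * m) ((945 / 1000) ^ 2 ^ (j + 5) / 40)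
      ((945 / 1000) ^ 2 ^ (j + 5) / 40) ((945 / 1000) ^ 2 ^ (j + 5) / 40)
      ((945 / 1000) ^ 2 ^ (j + 5) / 40) 1 ((945 / 1000) ^ 2 ^ (j + 5) / 40)
      ((945 / 1000) ^ 2 ^ (j + 5) / 40) := by
  induction j with
  | zero =>
    have e1 : 2 ^ (0 + 4) * m = 2 * (2 * (2 * (2 * m))) := by ring
    rw [e1]
    exact (rec_l5 S m hs).1
  | succ j ih =>
    have e1 : 10 * 2 ^ (j + 1 + 5) = 2 * (10 * 2 ^ (j + 5)) := by ring
    have e2 : 2 ^ (j + 1 + 4) * m = 2 * (2 ^ (j + 4) * m) := by ring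
    have e3 : (945 / 1000 : ℝ) ^ 2 ^ (j + 1 + 5) / 40 =
        40 * ((945 / 1000 : ℝ) ^ 2 ^ (j + 5) / 40) ^ 2 := by
      rw [show j + 1 + 5 = (j + 5) + 1 by ring, pow_succ 2 (j + 5), pow_mul, div_pow _ 40]
      ring
    rw [e1, e2, e3]
    have := hs.pos
    exact (rec_asym S (rec_even_l _) (by positivity) (hs.even.mul_left _) (by positivity)
      (by positivity) (rec_eps j) ih).1

theorem rec_window (a L : ℕ) (a0 : 0 < a) (h : a ≤ L) :
    ∃ j, a * 2 ^ j ≤ L ∧ L < a * 2 ^ (j + 1) := by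
  induction L, h using Nat.le_induction with
  | base => exact ⟨0, by simp, by omega⟩
  | succ L hL ih =>
    obtain ⟨j, h1, h2⟩ := ih
    by_cases h3 : L + 1 < a * 2 ^ (j + 1)
    · exact ⟨j, by omega, h3⟩
    · refine ⟨j + 1, by omega, ?_⟩
      have : a * 2 ^ (j + 1 + 1) = 2 * (a * 2 ^ (j + 1)) := by ring
      omega

theorem rec_final {b a c : ℝ} (b0 : 0 < b) (hab : b ≤ a) (a1 : a ≤ 1) (hc : c ≤ 13) (c0 : 0 ≤ c) :
    (1 + c * (b / 40)) * (1 + a ^ 2) < (1 + a) ^ 2 := by
  have h1 : a ^ 2 ≤ 1 := pow_le_one₀ (by linarith) a1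
  have h2 : c * (b / 40) ≤ 13 * (b / 40) := by gcongr
  have h3 : 0 ≤ c * (b / 40) := by positivity
  nlinarith [mul_le_mul_of_nonneg_left h1 h3]

theorem rec_ring (L : ℕ) (hL : Even L) (h60 : 60 ≤ L) :
    ∃ (k : ℕ) (κ : ℝ), κ * (1 + ((964 / 1000 : ℝ) ^ 2 ^ k) ^ 2) < (1 + (964 / 1000 : ℝ) ^ 2 ^ k) ^ 2 ∧
      ∀ (S : Sys) (m : ℕ), Seeds S m d0 → S.Z L (2 ^ k * m) ^ 2 ≤ κ * S.Z L (2 * (2 ^ k * m)) := by
  by_cases h0 : L ≤ 80
  · refine ⟨0, d0.z160 * (1 + (d0.p20 - 1) ^ 2 + 3 * d0.q20 ^ 2) ^ 2, by norm_num [d0], ?_⟩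
    intro S m hs
    rw [pow_zero, one_mul]
    exact rec_ring0 S m d0 hs (by norm_num [d0]) L hL (by omega) h0
  by_cases h1 : L ≤ 160
  · refine ⟨1, _, ?_, fun S m hs => (by
      rw [pow_one]
      exact (rec_l2 S m hs).2 L hL (by omega) (by omega))⟩
    norm_num
  by_cases h2 : L ≤ 320
  · refine ⟨2, _, ?_, fun S m hs => (by
      rw [show 2 ^ 2 * m = 2 * (2 * m) by ring]
      exact (rec_l3 S m hs).2 L hL (by omega) (by omega))⟩
    norm_num
  by_cases h3 : L ≤ 640
  · refine ⟨3, _, ?_, fun S m hs => (by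
      rw [show 2 ^ 3 * m = 2 * (2 * (2 * m)) by ring]
      exact (rec_l4 S m hs).2 L hL (by omega) (by omega))⟩
    norm_num
  by_cases h4 : L ≤ 1280
  · refine ⟨4, _, ?_, fun S m hs => (by
      rw [show 2 ^ 4 * m = 2 * (2 * (2 * (2 * m))) by ring]
      exact (rec_l5 S m hs).2 L hL (by omega) (by omega))⟩
    norm_num
  obtain ⟨j, j1, j2⟩ := rec_window 1280 L (by norm_num) (by omega)
  refine ⟨j + 5, 1 + 13 * ((945 / 1000 : ℝ) ^ 2 ^ (j + 5) / 40), ?_, ?_⟩
  · exact rec_final (by positivity) (pow_le_pow_left₀ (by norm_num) (by norm_num) _)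
      (pow_le_one₀ (by norm_num) (by norm_num)) le_rfl (by norm_num)
  · intro S m hs
    have := hs.pos
    have e2 : 2 ^ (j + 5) * m = 2 * (2 ^ (j + 4) * m) := by ring
    have e3 : 4 * (10 * 2 ^ (j + 5)) = 1280 * 2 ^ j := by ring
    have e4 : 8 * (10 * 2 ^ (j + 5)) = 1280 * 2 ^ (j + 1) := by ring
    rw [e2]
    exact (rec_asym S (rec_even_l _) (by positivity) (hs.even.mul_left _) (by positivity)
      (by positivity) (rec_eps j) (rec_levels S m hs j)).2.1 L hL (by omega) (by omega)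

theorem rec_open (L : ℕ) (hL : 960 ≤ L) :
    ∃ (k : ℕ) (κ : ℝ), κ * (1 + ((945 / 1000 : ℝ) ^ 2 ^ k) ^ 2) < (1 + (945 / 1000 : ℝ) ^ 2 ^ k) ^ 2 ∧
      ∀ (S : Sys) (m : ℕ), Seeds S m d0 →
        S.Wp (2 * L + 1) (2 ^ k * m) ^ 2 ≤ κ * S.Wp (2 * L + 1) (2 * (2 ^ k * m)) := by
  obtain ⟨j, j1, j2⟩ := rec_window 1280 (2 * L - 8) (by norm_num) (by omega)
  refine ⟨j + 5, 1 + 12 * ((945 / 1000 : ℝ) ^ 2 ^ (j + 5) / 40), ?_, ?_⟩
  · exact rec_final (by positivity) le_rfl
      (pow_le_one₀ (by norm_num) (by norm_num)) (by norm_num) (by norm_num)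
  · intro S m hs
    have := hs.pos
    have e2 : 2 ^ (j + 5) * m = 2 * (2 ^ (j + 4) * m) := by ring
    have e3 : 4 * (10 * 2 ^ (j + 5)) = 1280 * 2 ^ j := by ring
    have e4 : 8 * (10 * 2 ^ (j + 5)) = 1280 * 2 ^ (j + 1) := by ring
    rw [e2]
    exact (rec_asym S (rec_even_l _) (by positivity) (hs.even.mul_left _) (by positivity)
      (by positivity) (rec_eps j) (rec_levels S m hs j)).2.2 (2 * L) (even_two_mul L) (by omega)
      (by omega)

end Crest.Agent.R347
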