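import Crest.Agent.R347.Exch

/-! Row 347: the continuum limit of the discrete model. -/

set_option autoImplicit false
open Crest.MathPhysics.SpinChain Matrix

namespace Crest.Agent.R347

open Filter Topology

/-- number of slices, time step and normalisation at stage `N` -/
def mN (N : ℕ) : ℕ := 2 * N + 2
noncomputable def sN (β : ℝ) (N : ℕ) : ℝ := Real.sqrt (β / mN N)
noncomputable def cN (β e : ℝ) (N : ℕ) : ℝ := Real.exp (-(e * (β / mN N)))

namespace Trot

section Banach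

variable {𝔸 : Type*} [NormedRing 𝔸] [NormOneClass 𝔸] [NormedAlgebra ℝ 𝔸] [CompleteSpace 𝔸]

omit [NormedAlgebra ℝ 𝔸] [CompleteSpace 𝔸] in
theorem norm_pow_sub_pow {a b : 𝔸} {K : ℝ} (hK : 1 ≤ K) (ha : ‖a‖ ≤ K) (hb : ‖b‖ ≤ K) (m : ℕ) :
    ‖a ^ m - b ^ m‖ ≤ m * K ^ m * ‖a - b‖ := by
  induction m with
  | zero => simp
  | succ m ih =>
    have h1 : a ^ (m + 1) - b ^ (m + 1) = a * (a ^ m - b ^ m) + (a - b) * b ^ m := by
      rw [pow_succ', pow_succ']; noncomm_ring
    have h2 : ‖b ^ m‖ ≤ K ^ (m + 1) :=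
      (norm_pow_le b m).trans ((pow_le_pow_left₀ (norm_nonneg _) hb m).trans
        (pow_le_pow_right₀ hK (Nat.le_succ m)))
    have h0 : 0 ≤ K := by linarith
    rw [h1]
    calc _ ≤ ‖a‖ * ‖a ^ m - b ^ m‖ + ‖a - b‖ * ‖b ^ m‖ :=
          (norm_add_le _ _).trans (add_le_add (norm_mul_le _ _) (norm_mul_le _ _))
      _ ≤ K * (m * K ^ m * ‖a - b‖) + ‖a - b‖ * K ^ (m + 1) := by gcongr
      _ = _ := by push_cast; ring

omit [NormOneClass 𝔸] in
theorem tendsto_exp_slope (B : 𝔸) {m : ℕ → ℕ} (hm : Tendsto m atTop atTop) :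
    Tendsto (fun N => (m N : ℝ) • (NormedSpace.exp ((m N : ℝ)⁻¹ • B) - 1)) atTop (𝓝 B) := by
  have h := hasDerivAt_iff_tendsto_slope_zero.1 (hasDerivAt_exp_smul_const (𝕂 := ℝ) B 0)
  have h1 : Tendsto (fun N => (m N : ℝ)⁻¹) atTop (𝓝[≠] 0) := by
    refine tendsto_nhdsWithin_iff.2 ⟨tendsto_inv_atTop_zero.comp
      (tendsto_natCast_atTop_atTop.comp hm), ?_⟩
    filter_upwards [hm.eventually_ge_atTop 1] with N hN
    have : (0 : ℝ) < m N := by exact_mod_cast hN
    exact (inv_pos.2 this).ne'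
  simpa [Function.comp_def] using h.comp h1

theorem tendsto_pow_exp {A : ℕ → 𝔸} {B : 𝔸} {m : ℕ → ℕ} (hm : Tendsto m atTop atTop)
    (h : Tendsto (fun N => (m N : ℝ) • (A N - 1)) atTop (𝓝 B)) :
    Tendsto (fun N => A N ^ m N) atTop (𝓝 (NormedSpace.exp B)) := by
  let _ : NormedAlgebra ℚ 𝔸 := NormedAlgebra.restrictScalars ℚ ℝ 𝔸
  have hE := tendsto_exp_slope B hm
  set E : ℕ → 𝔸 := fun N => NormedSpace.exp ((m N : ℝ)⁻¹ • B) with hEd
  have hd : Tendsto (fun N => Real.exp (‖B‖ + 1) * ‖(m N : ℝ) • (A N - 1) - (m N : ℝ) • (E N - 1)‖)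
      atTop (𝓝 0) := by
    simpa using ((h.sub hE).norm).const_mul (Real.exp (‖B‖ + 1))
  rw [tendsto_iff_norm_sub_tendsto_zero]
  refine squeeze_zero' (Eventually.of_forall fun N => norm_nonneg _) ?_ hd
  have hlt : ‖B‖ < ‖B‖ + 1 := lt_add_one _
  filter_upwards [hm.eventually_ge_atTop 1, h.norm.eventually (gt_mem_nhds hlt),
    hE.norm.eventually (gt_mem_nhds hlt)] with N hN h1 h2
  have hm0 : (0 : ℝ) < m N := by exact_mod_cast hN
  have hb : ∀ a : 𝔸, ‖(m N : ℝ) • (a - 1)‖ < ‖B‖ + 1 → ‖a‖ ≤ Real.exp ((‖B‖ + 1) / m N) := by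
    intro a ha
    rw [norm_smul, Real.norm_of_nonneg hm0.le] at ha
    have h3 : ‖a - 1‖ ≤ (‖B‖ + 1) / m N := by
      rw [le_div_iff₀ hm0]; linarith
    have h4 : ‖a‖ ≤ ‖a - 1‖ + 1 := by simpa using norm_add_le (a - 1) 1
    linarith [Real.add_one_le_exp ((‖B‖ + 1) / m N)]
  have h5 : E N ^ m N = NormedSpace.exp B := by
    rw [hEd, ← NormedSpace.exp_nsmul, ← Nat.cast_smul_eq_nsmul ℝ, smul_smul,
      mul_inv_cancel₀ hm0.ne', one_smul]
  have h6 := norm_pow_sub_pow (Real.one_le_exp (by positivity)) (hb _ h1) (hb _ h2) (m N)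
  rw [← h5]
  refine h6.trans (le_of_eq ?_)
  rw [← Real.exp_nat_mul, mul_div_cancel₀ _ hm0.ne', ← smul_sub, sub_sub_sub_cancel_right,
    norm_smul, Real.norm_of_nonneg hm0.le]
  ring

end Banach

theorem tendsto_mN : Tendsto mN atTop atTop :=
  tendsto_atTop_mono (fun N => by simp only [mN, id]; omega) tendsto_id

theorem mN_pos (N : ℕ) : (0 : ℝ) < mN N := by
  unfold mN; positivity

theorem tendsto_div_mN (β : ℝ) : Tendsto (fun N => β / mN N) atTop (𝓝 0) :=
  tendsto_const_nhds.div_atTop (tendsto_natCast_atTop_atTop.comp tendsto_mN)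

open scoped Matrix.Norms.Operator in
theorem tendsto_slice {ι : Type} [Fintype ι] [DecidableEq ι] [Nonempty ι]
    {W C : ℝ → Matrix ι ι ℂ} {H : Matrix ι ι ℂ} (hC : Continuous C)
    (hW : ∀ s : ℝ, W s = 1 - (s : ℂ) ^ 2 • H + (s : ℂ) ^ 3 • C s) (β e : ℝ) (hβ : 0 < β)
    (L j : ℕ) : Tendsto (fun N => (((cN β e N ^ L : ℝ) : ℂ) • W (sN β N)) ^ (j * mN N)) atTop
      (𝓝 (ex (j * β) (e * L) H)) := by
  have hs : Tendsto (sN β) atTop (𝓝 0) := by
    have := (tendsto_div_mN β).sqrt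
    rwa [Real.sqrt_zero] at this
  have hc : Tendsto (fun N => cN β e N ^ L) atTop (𝓝 1) := by
    simpa [cN] using (((tendsto_div_mN β).const_mul e).neg.rexp).pow L
  have hc' : Tendsto (fun N => (mN N : ℝ) * (cN β e N ^ L - 1)) atTop (𝓝 (-(β * (e * L)))) := by
    have := tendsto_exp_slope (-(β * (e * L))) tendsto_mN
    refine this.congr fun N => ?_
    rw [← Real.exp_eq_exp_ℝ, cN, ← Real.exp_nat_mul, smul_eq_mul, smul_eq_mul]
    congr 3
    ring
  have h1 : Tendsto (fun N => (mN N : ℝ) • (((cN β e N ^ L : ℝ) : ℂ) • W (sN β N) - 1)) atTop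
      (𝓝 ((-(β : ℂ)) • (H + ((e * L : ℝ) : ℂ) • (1 : Matrix ι ι ℂ)))) := by
    have h2 := ((hc'.smul_const (1 : Matrix ι ι ℂ)).sub ((hc.const_mul β).smul_const H)).add
      (((hc.const_mul β).mul hs).smul ((hC.tendsto 0).comp hs))
    convert h2 using 2 with N
    · have h3 : ((sN β N : ℝ) : ℂ) ^ 2 = ((β / mN N : ℝ) : ℂ) := by
        rw [← Complex.ofReal_pow, sN, Real.sq_sqrt (div_nonneg hβ.le (mN_pos N).le)]
      have h4 : ((mN N : ℝ) : ℂ) ≠ 0 := Complex.ofReal_ne_zero.2 (mN_pos N).ne'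
      rw [hW, pow_succ _ 2, h3]
      simp only [← Complex.coe_smul, Function.comp_apply]
      push_cast at h4 ⊢
      match_scalars <;> field_simp
    · simp only [← Complex.coe_smul]
      push_cast
      module
  have h5 := (tendsto_pow_exp tendsto_mN h1).pow j
  simp only [← pow_mul, mul_comm _ j] at h5
  have h6 : ex (j * β) (e * L) H =
      NormedSpace.exp ((-(β : ℂ)) • (H + ((e * L : ℝ) : ℂ) • (1 : Matrix ι ι ℂ))) ^ j := by
    rw [ex, ← Matrix.exp_nsmul, ← Nat.cast_smul_eq_nsmul ℂ, smul_smul]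
    congr 2
    push_cast
    ring
  rw [h6]
  exact h5

/-! ### tensor products -/

theorem kcons_add {L : ℕ} (A : M3) (B B' : Op L) : kcons A (B + B') = kcons A B + kcons A B' := by
  ext σ τ; simp [kcons, mul_add]

theorem kcons_sub {L : ℕ} (A : M3) (B B' : Op L) : kcons A (B - B') = kcons A B - kcons A B' := by
  ext σ τ; simp [kcons, mul_sub]

theorem kcons_smul {L : ℕ} (A : M3) (c : ℂ) (B : Op L) : kcons A (c • B) = c • kcons A B := by
  ext σ τ; simp [kcons, mul_left_comm]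

theorem smul_kcons {L : ℕ} (A : M3) (c : ℂ) (B : Op L) : kcons (c • A) B = c • kcons A B := by
  ext σ τ; simp [kcons, mul_assoc]

theorem kcons_zero {L : ℕ} (A : M3) : kcons A (0 : Op L) = 0 := by
  ext σ τ; simp [kcons]

theorem zero_kcons {L : ℕ} (B : Op L) : kcons 0 B = 0 := by
  ext σ τ; simp [kcons]

theorem kcons_sum {L : ℕ} {κ : Type} (s : Finset κ) (A : M3) (B : κ → Op L) :
    kcons A (∑ k ∈ s, B k) = ∑ k ∈ s, kcons A (B k) := by
  ext σ τ; simp [kcons, Matrix.sum_apply, Finset.mul_sum]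

theorem kcons_mul {L : ℕ} (A A' : M3) (B B' : Op L) :
    kcons A B * kcons A' B' = kcons (A * A') (B * B') := by
  ext σ τ
  simp only [kcons, Matrix.mul_apply, Matrix.of_apply, Finset.sum_mul_sum]
  rw [← (Fin.consEquiv fun _ => Fin 3).sum_comp, Fintype.sum_prod_type]
  refine Finset.sum_congr rfl fun a _ => Finset.sum_congr rfl fun ρ _ => ?_
  change A (σ 0) a * B (Fin.tail σ) ρ * (A' a (τ 0) * B' ρ (Fin.tail τ)) = _
  ring

theorem onSite_zero {L : ℕ} (A : M3) : onSite A (0 : Fin (L + 1)) = kcons A 1 := by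
  ext σ τ
  simp only [onSite, kcons, Matrix.of_apply, Matrix.one_apply, Fin.forall_fin_succ, ne_eq,
    not_true_eq_false, false_imp_iff, true_and, Fin.succ_ne_zero, not_false_eq_true, true_imp_iff,
    funext_iff, Fin.tail, mul_ite, mul_one, mul_zero]

theorem onSite_succ {L : ℕ} (A : M3) (j : Fin L) : onSite A j.succ = kcons 1 (onSite A j) := by
  ext σ τ
  simp only [onSite, kcons, Matrix.of_apply, Matrix.one_apply, Fin.forall_fin_succ, ne_eq,
    (Fin.succ_ne_zero j).symm, not_false_eq_true, true_imp_iff, Fin.succ_inj, Fin.tail,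
    ite_and, ite_mul, one_mul, zero_mul]

theorem kcons_one {L : ℕ} : kcons 1 (1 : Op L) = 1 := by
  ext σ τ
  simp only [kcons, Matrix.of_apply, Matrix.one_apply, funext_iff, Fin.forall_fin_succ, Fin.tail,
    ite_and, ite_mul, one_mul, zero_mul]

theorem onSite_smul {L : ℕ} (c : ℂ) (A : M3) (j : Fin L) : onSite (c • A) j = c • onSite A j := by
  ext σ τ; simp [onSite]

theorem continuous_kcons {L : ℕ} (A : M3) {C : ℝ → Op L} (hC : Continuous C) :
    Continuous fun s => kcons A (C s) :=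
  continuous_matrix fun _ _ => continuous_const.mul (hC.matrix_elem _ _)

theorem ell_ell {L : ℕ} (a b : Fin 3) (i j : Fin L) :
    onSite (ell a) i * onSite (ell b) j = -(onSite (spinOp a) i * onSite (spinOp b) j) := by
  rw [ell, ell, onSite_smul, onSite_smul, smul_mul_smul_comm, Complex.I_mul_I, neg_smul, one_smul]

theorem Hopen_succ (n : ℕ) :
    Hopen (n + 1) = kcons 1 (Hopen n) - ∑ a, kcons (ell a) (onSite (ell a) (0 : Fin (n + 1))) := by
  have h1 : ∀ a, kcons (ell a) (onSite (ell a) (0 : Fin (n + 1))) =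
      -(onSite (spinOp a) 0 * onSite (spinOp a) (Fin.succ 0)) := by
    intro a
    rw [← ell_ell, onSite_zero (L := n + 1) (ell a), onSite_succ, kcons_mul, mul_one, one_mul]
  rw [Hopen, Hopen, Fin.sum_univ_succ, kcons_sum, sub_eq_add_neg]
  refine (add_comm _ _).trans ?_
  congr 1
  · refine Finset.sum_congr rfl fun j _ => ?_
    rw [bond, bond, kcons_sum]
    refine Finset.sum_congr rfl fun a _ => ?_
    rw [← Fin.succ_castSucc, onSite_succ, onSite_succ (j := j.succ), kcons_mul, mul_one]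
  · simp [h1, bond]

theorem Wc_none (s : ℝ) (L : ℕ) (α : B4) : Wc s (L + 1) none α =
    kcons 1 (Wc s L none α) + (s : ℂ) • ∑ a, kcons (ell a) (Wc s L (some a) α) := by
  simp only [Wc, Fintype.sum_option, loc, smul_kcons, Finset.smul_sum]

theorem Wc_some (s : ℝ) (L : ℕ) (a : Fin 3) (α : B4) : Wc s (L + 1) (some a) α =
    (s : ℂ) • kcons (ell a) (Wc s L none α) := by
  simp only [Wc, Fintype.sum_option, loc, smul_kcons, zero_kcons, Finset.sum_const_zero, add_zero]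

theorem expand (n : ℕ) : ∃ (C₁ : ℝ → Op (n + 1)) (C₂ C₃ : Fin 3 → ℝ → Op (n + 1))
    (C₄ : Fin 3 → Fin 3 → ℝ → Op (n + 1)), Continuous C₁ ∧ (∀ a, Continuous (C₂ a)) ∧
    (∀ a, Continuous (C₃ a)) ∧ (∀ a b, Continuous (C₄ a b)) ∧ ∀ s : ℝ,
    Wc s (n + 1) none none = 1 - (s : ℂ) ^ 2 • Hopen n + (s : ℂ) ^ 3 • C₁ s ∧
    (∀ a, Wc s (n + 1) (some a) none = (s : ℂ) • onSite (ell a) 0 + (s : ℂ) ^ 2 • C₂ a s) ∧
    (∀ b, Wc s (n + 1) none (some b) =
      (s : ℂ) • onSite (ell b) (Fin.last n) + (s : ℂ) ^ 2 • C₃ b s) ∧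
    ∀ a b, Wc s (n + 1) (some a) (some b) = (s : ℂ) ^ 2 •
      (if n = 0 then 0 else onSite (ell a) 0 * onSite (ell b) (Fin.last n)) +
        (s : ℂ) ^ 3 • C₄ a b s := by
  induction n with
  | zero =>
    refine ⟨fun _ => 0, fun _ _ => 0, fun _ _ => 0, fun _ _ _ => 0, continuous_const,
      fun _ => continuous_const, fun _ => continuous_const, fun _ _ => continuous_const,
      fun s => ⟨?_, fun a => ?_, fun b => ?_, fun a b => ?_⟩⟩
    · rw [Wc_none]
      simp [Wc, kcons_zero, kcons_one, Hopen]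
    · rw [Wc_some]
      simp [Wc, onSite_zero]
    · rw [Wc_none]
      simp [Wc, kcons_zero, onSite_zero, apply_ite (kcons _)]
    · rw [Wc_some]
      simp [Wc, kcons_zero]
  | succ n ih =>
    obtain ⟨C₁, C₂, C₃, C₄, h₁, h₂, h₃, h₄, h⟩ := ih
    refine ⟨fun s => kcons 1 (C₁ s) + ∑ a, kcons (ell a) (C₂ a s),
      fun a s => (s : ℂ) • (kcons (ell a) ((s : ℂ) • C₁ s - Hopen n)),
      fun b s => kcons 1 (C₃ b s) + (s : ℂ) • ∑ a, kcons (ell a)
        ((if n = 0 then 0 else onSite (ell a) 0 * onSite (ell b) (Fin.last n)) +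
          (s : ℂ) • C₄ a b s),
      fun a b s => kcons (ell a) (C₃ b s), ?_, fun a => ?_, fun b => ?_, fun a b => ?_,
      fun s => ⟨?_, fun a => ?_, fun b => ?_, fun a b => ?_⟩⟩
    · exact (continuous_kcons _ h₁).add
        (continuous_finsetSum _ fun a _ => continuous_kcons _ (h₂ a))
    · exact Complex.continuous_ofReal.smul (continuous_kcons _
        ((Complex.continuous_ofReal.smul h₁).sub continuous_const))
    · exact (continuous_kcons _ (h₃ b)).add (Complex.continuous_ofReal.smul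
        (continuous_finsetSum _ fun a _ => continuous_kcons _
          (continuous_const.add (Complex.continuous_ofReal.smul (h₄ a b)))))
    · exact continuous_kcons _ (h₃ b)
    · rw [Wc_none, (h s).1, Hopen_succ]
      simp only [(h s).2.1, kcons_add, kcons_sub, kcons_smul, kcons_one, Finset.sum_add_distrib,
        ← Finset.smul_sum]
      module
    · rw [Wc_some, (h s).1, onSite_zero]
      simp only [kcons_add, kcons_sub, kcons_smul]
      module
    · rw [Wc_none, (h s).2.2.1, ← Fin.succ_last, onSite_succ]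
      simp only [(h s).2.2.2, kcons_add, kcons_smul, Finset.sum_add_distrib, ← Finset.smul_sum]
      module
    · rw [Wc_some, (h s).2.2.1, ← Fin.succ_last, onSite_succ, onSite_zero (ell a), kcons_mul,
        if_neg (Nat.succ_ne_zero n), mul_one, one_mul]
      simp only [kcons_add, kcons_smul]
      module

theorem expand_Wr (R : R3) {n : ℕ} (hn : 1 ≤ n) : ∃ C : ℝ → Op (n + 1), Continuous C ∧
    ∀ s : ℝ, Wr s (n + 1) R = 1 - (s : ℂ) ^ 2 • Htw n R + (s : ℂ) ^ 3 • C s := by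
  obtain ⟨C₁, C₂, C₃, C₄, h₁, -, -, h₄, h⟩ := expand n
  refine ⟨fun s => C₁ s + ∑ a, ∑ b, (R b a : ℂ) • C₄ a b s, h₁.add
    (continuous_finsetSum _ fun a _ => continuous_finsetSum _ fun b _ =>
      (h₄ a b).fun_const_smul _),
    fun s => ?_⟩
  have h0 : n ≠ 0 := by omega
  simp only [Wr, Fintype.sum_option, uR, zero_smul, Finset.sum_const_zero, add_zero, zero_add,
    one_smul, (h s).1, (h s).2.2.2, if_neg h0, ell_ell, Htw, smul_add, Finset.sum_add_distrib,
    Finset.smul_sum, smul_neg, Finset.sum_neg_distrib, smul_comm (_ : ℂ) ((s : ℂ) ^ _)]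
  abel

theorem expand_Wo (h1 h2 : ℝ) (n : ℕ) : ∃ C : ℝ → Op (n + 1), Continuous C ∧
    ∀ s : ℝ, Wo s (n + 1) h1 h2 = 1 - (s : ℂ) ^ 2 • Hfld n h1 h2 + (s : ℂ) ^ 3 • C s := by
  obtain ⟨C₁, C₂, C₃, C₄, h₁, h₂, h₃, h₄, h⟩ := expand n
  refine ⟨fun s => C₁ s - (Complex.I * h1) • C₂ 2 s - (Complex.I * h2) • C₃ 2 s -
    ((h1 : ℂ) * h2 * s) • ((if n = 0 then 0 else onSite (ell 2) 0 * onSite (ell 2) (Fin.last n)) +
      (s : ℂ) • C₄ 2 2 s), ?_, fun s => ?_⟩
  · exact ((h₁.sub ((h₂ 2).const_smul (_ : ℂ))).sub ((h₃ 2).const_smul (_ : ℂ))).sub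
      ((continuous_const.mul Complex.continuous_ofReal).smul
        (continuous_const.add (Complex.continuous_ofReal.smul (h₄ 2 2))))
  · have e : ∀ j : Fin (n + 1), onSite (ell 2) j = Complex.I • onSite spinZ j := fun j =>
      onSite_smul _ _ _
    simp only [Wo, Fintype.sum_option, vB, one_mul, mul_one, ite_smul, zero_smul, ite_mul,
      mul_ite, zero_mul, mul_zero, Finset.sum_add_distrib, Finset.sum_ite_eq', Finset.mem_univ,
      if_true, one_smul, (h s).1, (h s).2.1, (h s).2.2.1, (h s).2.2.2, Hfld]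
    generalize (if n = 0 then 0 else onSite (ell 2) 0 * onSite (ell 2) (Fin.last n)) = X
    rw [e, e]
    match_scalars <;> ring_nf <;> simp

theorem continuous_rtr {ι : Type} [Fintype ι] : Continuous (rtr : Matrix ι ι ℂ → ℝ) :=
  Complex.continuous_re.comp continuous_id.matrix_trace

end Trot

theorem tendsto_ZZ (β e : ℝ) (hβ : 0 < β) (g : M3) (R : R3) (n : ℕ) (hn : 1 ≤ n) (j : ℕ) :
    Tendsto (fun N => ZZ (sN β N) (cN β e N) g R (n + 1) (j * mN N)) atTop
      (𝓝 (rtr (kAll g (n + 1) * ex (j * β) (e * (n + 1)) (Htw n R)))) := by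
  obtain ⟨C, hC, hW⟩ := Trot.expand_Wr R hn
  have h := Trot.tendsto_slice hC hW β e hβ (n + 1) j
  rw [Nat.cast_succ] at h
  simp only [ZZ_eq]
  exact (Trot.continuous_rtr.tendsto _).comp (h.const_mul _)

theorem tendsto_WW (β e h1 h2 : ℝ) (hβ : 0 < β) (n : ℕ) (j : ℕ) :
    Tendsto (fun N => WW (sN β N) (cN β e N) h1 h2 (n + 1) (j * mN N)) atTop
      (𝓝 (rtr (ex (j * β) (e * (n + 1)) (Hfld n h1 h2)))) := by
  obtain ⟨C, hC, hW⟩ := Trot.expand_Wo h1 h2 n
  have h := Trot.tendsto_slice hC hW β e hβ (n + 1) j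
  rw [Nat.cast_succ] at h
  exact (Trot.continuous_rtr.tendsto _).comp h

end Crest.Agent.R347
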