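import Crest.Agent.R347.Asm
import Crest.Agent.R347.Trotter
import Crest.Agent.R347.Cov
import Crest.Agent.R347.MPS
import Crest.Agent.R347.MPSOpen
import Crest.Agent.R347.Rec

/-! Row 347: the seeds of the recursion hold for the discrete model with enough slices. -/

set_option autoImplicit false
open Crest.MathPhysics.SpinChain Matrix Filter Topology

namespace Crest.Agent.R347

noncomputable def b0 : ℝ := 19 / 2
noncomputable def e0 : ℝ := 1401475 / 1000000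

/-- the discrete partition functions at stage `N` -/
noncomputable def zN (N : ℕ) (g : M3) (R : R3) (L m : ℕ) : ℝ := ZZ (sN b0 N) (cN b0 e0 N) g R L m
noncomputable def wN (N : ℕ) (h1 h2 : ℝ) (L m : ℕ) : ℝ := WW (sN b0 N) (cN b0 e0 N) h1 h2 L m

noncomputable def sys (N : ℕ) : Sys := (exists_sys (sN b0 N) (cN b0 e0 N) (3 / 5)).choose

theorem sys_Z (N L m : ℕ) : (sys N).Z L m = zN N 1 1 L m :=
  (exists_sys (sN b0 N) (cN b0 e0 N) (3 / 5)).choose_spec.1 L m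
theorem sys_Zs (N L m : ℕ) : (sys N).Zs L m = zN N 1 RZ L m :=
  (exists_sys (sN b0 N) (cN b0 e0 N) (3 / 5)).choose_spec.2.1 L m
theorem sys_Zt (N L m : ℕ) : (sys N).Zt L m = zN N kZ 1 L m :=
  (exists_sys (sN b0 N) (cN b0 e0 N) (3 / 5)).choose_spec.2.2.1 L m
theorem sys_Wm (N L m : ℕ) : (sys N).Wm L m = wN N (-(3 / 5)) (3 / 5) L m :=
  (exists_sys (sN b0 N) (cN b0 e0 N) (3 / 5)).choose_spec.2.2.2.1 L m
theorem sys_Wp (N L m : ℕ) : (sys N).Wp L m = wN N (3 / 5) (3 / 5) L m :=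
  (exists_sys (sN b0 N) (cN b0 e0 N) (3 / 5)).choose_spec.2.2.2.2 L m

theorem b0_pos : 0 < b0 := by unfold b0; norm_num

/-- continuum partition functions at `j β₀` -/
noncomputable def zI (g : M3) (R : R3) (n j : ℕ) : ℝ :=
  rtr (kAll g (n + 1) * ex (j * b0) (e0 * (n + 1)) (Htw n R))
noncomputable def wI (h1 h2 : ℝ) (n j : ℕ) : ℝ := rtr (ex (j * b0) (e0 * (n + 1)) (Hfld n h1 h2))

theorem lim_z (g : M3) (R : R3) (n : ℕ) (hn : 1 ≤ n) (j : ℕ) :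
    Tendsto (fun N => zN N g R (n + 1) (j * mN N)) atTop (𝓝 (zI g R n j)) :=
  tendsto_ZZ b0 e0 b0_pos g R n hn j

theorem lim_w (h1 h2 : ℝ) (n j : ℕ) :
    Tendsto (fun N => wN N h1 h2 (n + 1) (j * mN N)) atTop (𝓝 (wI h1 h2 n j)) :=
  tendsto_WW b0 e0 h1 h2 b0_pos n j

noncomputable def Zl (g : M3) (R : R3) (L : ℕ) : ℝ := Zc g R (L - 1)
noncomputable def Ol (h1 h2 : ℝ) (L : ℕ) : ℝ := Oc h1 h2 (L - 1)

theorem lim_z1 (g : M3) (R : R3) (L : ℕ) (hL : 2 ≤ L) :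
    Tendsto (fun N => zN N g R L (mN N)) atTop (𝓝 (Zl g R L)) := by
  obtain ⟨n, rfl⟩ : ∃ n, L = n + 1 := ⟨L - 1, by omega⟩
  have := lim_z g R n (by omega) 1
  simp only [one_mul, zI, Nat.cast_one] at this
  exact this

theorem lim_w1 (h1 h2 : ℝ) (L : ℕ) (hL : 1 ≤ L) :
    Tendsto (fun N => wN N h1 h2 L (mN N)) atTop (𝓝 (Ol h1 h2 L)) := by
  obtain ⟨n, rfl⟩ : ∃ n, L = n + 1 := ⟨L - 1, by omega⟩
  have := lim_w h1 h2 n 1
  simp only [one_mul, wI, Nat.cast_one] at this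
  exact this

theorem even_mN (N : ℕ) : Even (mN N) := ⟨N + 1, by unfold mN; ring⟩
theorem mN_pos (N : ℕ) : 0 < mN N := by unfold mN; omega

/-! ### lower bounds on the top eigenvalues -/

theorem exists_even_exp (a C X : ℝ) (ha : 0 < a) : ∃ k : ℕ, Even k ∧ 0 < k ∧ X < Real.exp (a * k - C) := by
  obtain ⟨k, hk⟩ := exists_nat_gt ((X + C) / a)
  refine ⟨2 * k + 2, ⟨k + 1, by ring⟩, by omega, ?_⟩
  rw [div_lt_iff₀ ha] at hk
  have h1 := Real.add_one_le_exp (a * ((2 * k + 2 : ℕ) : ℝ) - C)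
  have h2 : (0 : ℝ) ≤ k := Nat.cast_nonneg k
  push_cast at h1 ⊢
  nlinarith

theorem mu_ge (j : ℕ) (hj : 0 < j) :
    ∀ᶠ N in atTop, Real.exp (j * b0 / 2000000) ≤ (sys N).μ (j * mN N) := by
  obtain ⟨C, hC⟩ := var_bulk (-(3 / 5)) (3 / 5)
  have hjb : 0 < (j : ℝ) * b0 := mul_pos (by exact_mod_cast hj) b0_pos
  obtain ⟨k, hk, -, hX⟩ := exists_even_exp (j * b0 / 2000000) (j * b0 * (C + 2 * e0 - 1401476 / 10 ^ 6))
    (wI (-(3 / 5)) (3 / 5) 1 j) (by positivity)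
  set q := Real.exp (j * b0 / 2000000) with hq
  have hq0 : 0 < q := Real.exp_pos _
  have h1 := exp_le_rtr_of_var _ (Hfld_herm (k + 1) (-(3 / 5)) (3 / 5)) (j * b0)
    (e0 * (((k + 1 : ℕ) : ℝ) + 1)) _ hjb.le (hC (k + 1))
  have h2 : q ^ k * wI (-(3 / 5)) (3 / 5) 1 j < wI (-(3 / 5)) (3 / 5) (k + 1) j := by
    refine lt_of_lt_of_le (mul_lt_mul_of_pos_left hX (pow_pos hq0 k)) (le_trans (le_of_eq ?_) h1)
    rw [hq, ← Real.exp_nat_mul, ← Real.exp_add]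
    congr 1
    unfold e0; push_cast; ring
  have h3 := ((lim_w (-(3 / 5)) (3 / 5) 1 j).const_mul (q ^ k)).eventually_lt
    (lim_w (-(3 / 5)) (3 / 5) (k + 1) j) h2
  filter_upwards [h3] with N hN
  by_contra hlt
  push Not at hlt
  have hV := (sys N).hV (j * mN N)
  have hμ := ((sys N).hT (j * mN N)).nonneg
  have a1 := hV.R_mono 2 k even_two hk
  have a2 := hV.R_nonneg 2 even_two
  have a3 := hV.c0_nonneg
  simp only [sys_Wm] at a1 a2
  rw [show k + 1 + 1 = 2 + k by ring] at hN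
  have a4 : (sys N).μ (j * mN N) ^ k ≤ q ^ k := pow_le_pow_left₀ hμ hlt.le k
  have a5 : 0 ≤ wN N (-(3 / 5)) (3 / 5) 2 (j * mN N) := le_trans (by positivity) a2
  have a6 := mul_le_mul_of_nonneg_right a4 a5
  rw [pow_add] at a1
  change q ^ k * wN N (-(3 / 5)) (3 / 5) 2 (j * mN N) < _ at hN
  nlinarith

theorem mu_one (j : ℕ) (hj : 0 < j) : ∀ᶠ N in atTop, 1 ≤ (sys N).μ (j * mN N) := by
  filter_upwards [mu_ge j hj] with N hN
  refine le_trans (Real.one_le_exp ?_) hN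
  have := b0_pos
  positivity

theorem side0_pow {Z : ℕ → ℝ} {μ : ℝ} (h : Side0 Z μ) (m : ℕ) (hm : Even m) (h0 : 0 < m) (i : ℕ) :
    Z ((i + 1) * m) ≤ (μ ^ m) ^ i * Z m := by
  have := h.mono m (m * i) hm h0 (hm.mul_right i)
  rw [← pow_mul, show (i + 1) * m = m + m * i by ring]
  exact this

theorem lam_one (L : ℕ) (hL : Even L) (h2 : 2 ≤ L) :
    ∀ᶠ N in atTop, 1 ≤ (sys N).lam L ^ mN N := by
  have hL0 : (0 : ℝ) < L := by exact_mod_cast (by omega : 0 < L)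
  obtain ⟨j, -, hj, hX⟩ := exists_even_exp (b0 / 2000000 * L) 0 (Zl 1 1 L) (by have := b0_pos; positivity)
  have h3 := (lim_z1 1 1 L h2).eventually_lt_const hX
  filter_upwards [h3, mu_ge j hj] with N hN hμ
  by_contra hlt
  push Not at hlt
  obtain ⟨i, rfl⟩ : ∃ i, j = i + 1 := ⟨j - 1, by omega⟩
  have hW := ((sys N).hW L).toSide0
  have a1 := side0_pow hW (mN N) (even_mN N) (mN_pos N) i
  have a2 := ((sys N).hT ((i + 1) * mN N)).top_le L hL (by omega)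
  have a3 := hW.top_le (mN N) (even_mN N) (mN_pos N)
  have a4 : 0 ≤ (sys N).lam L ^ mN N := pow_nonneg hW.nonneg _
  have a5 : ((sys N).lam L ^ mN N) ^ i ≤ 1 := pow_le_one₀ a4 hlt.le
  have a6 := pow_le_pow_left₀ (Real.exp_pos _).le hμ L
  rw [← Real.exp_nat_mul] at a6
  rw [← sys_Z] at hN
  have a7 : b0 / 2000000 * L * ((i + 1 : ℕ) : ℝ) - 0 = L * (((i + 1 : ℕ) : ℝ) * b0 / 2000000) := by ring
  rw [a7] at hN
  have a8 := mul_le_mul_of_nonneg_right a5 (le_trans a4 a3)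
  linarith

theorem exp_g : (2150 / 100000 : ℝ) ≤ Real.exp (-(b0 * (4035 / 10 ^ 4))) := by
  have h := expL_le_exp (-(19 / 2 * (4035 / 10 ^ 4))) (by norm_num [abs_le])
  have h2 : (2150 / 100000 : ℚ) ≤ expL (-(19 / 2 * (4035 / 10 ^ 4))) := by decide +kernel
  have h3 : ((2150 / 100000 : ℚ) : ℝ) ≤ _ := (Rat.cast_le.2 h2).trans h
  unfold b0
  push_cast at h3
  exact h3

theorem lo_ge (n : ℕ)
    (hv : Var (Hfld n (-(3 / 5)) (3 / 5)) (-(1401475 / 10 ^ 6 * ((n : ℝ) + 1) - 4035 / 10 ^ 4))) :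
    ∀ᶠ N in atTop, (2143 / 100000 : ℝ) ≤ (sys N).lo (n + 1) ^ mN N := by
  set g : ℝ := 2143 / 100000 with hg
  set G : ℝ := 2150 / 100000 with hG
  obtain ⟨i, hi⟩ := pow_unbounded_of_one_lt (Ol (-(3 / 5)) (3 / 5) (n + 1) / G)
    (show (1 : ℝ) < G / g by norm_num [hg, hG])
  have hjb : 0 ≤ ((i + 1 : ℕ) : ℝ) * b0 := by have := b0_pos; positivity
  have h1 := exp_le_rtr_of_var _ (Hfld_herm n (-(3 / 5)) (3 / 5)) (((i + 1 : ℕ) : ℝ) * b0)
    (e0 * ((n : ℝ) + 1)) _ hjb hv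
  have h2 : g ^ i * Ol (-(3 / 5)) (3 / 5) (n + 1) < wI (-(3 / 5)) (3 / 5) n (i + 1) := by
    refine lt_of_lt_of_le ?_ h1
    have e1 : -(((i + 1 : ℕ) : ℝ) * b0 * (-(1401475 / 10 ^ 6 * ((n : ℝ) + 1) - 4035 / 10 ^ 4)
        + e0 * ((n : ℝ) + 1))) = ((i + 1 : ℕ) : ℝ) * -(b0 * (4035 / 10 ^ 4)) := by
      unfold e0; ring
    rw [e1, Real.exp_nat_mul]
    refine lt_of_lt_of_le ?_ (pow_le_pow_left₀ (by norm_num) exp_g (i + 1))
    have g0 : 0 < g := by norm_num [hg]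
    have G0 : 0 < G := by norm_num [hG]
    rw [div_lt_iff₀ G0, div_pow] at hi
    calc g ^ i * _ < g ^ i * (G ^ i / g ^ i * G) := mul_lt_mul_of_pos_left hi (pow_pos g0 i)
      _ = G ^ (i + 1) := by field_simp; ring
  have h3 := ((lim_w1 (-(3 / 5)) (3 / 5) (n + 1) (by omega)).const_mul (g ^ i)).eventually_lt
    (lim_w (-(3 / 5)) (3 / 5) n (i + 1)) h2
  filter_upwards [h3] with N hN
  by_contra hlt
  push Not at hlt
  have hW := (sys N).hWm (n + 1)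
  have a1 := side0_pow hW (mN N) (even_mN N) (mN_pos N) i
  have a3 := hW.top_le (mN N) (even_mN N) (mN_pos N)
  have a4 : 0 ≤ (sys N).lo (n + 1) ^ mN N := pow_nonneg hW.nonneg _
  have a5 : ((sys N).lo (n + 1) ^ mN N) ^ i ≤ g ^ i := pow_le_pow_left₀ a4 hlt.le i
  have a8 := mul_le_mul_of_nonneg_right a5 (le_trans a4 a3)
  rw [sys_Wm] at a1 a8
  rw [sys_Wm] at a1
  linarith

/-! ### filters -/

theorem ev_quad {f : ℕ → ℕ → ℝ} {g : ℕ → ℝ}
    (h : ∀ L, 2 ≤ L → Tendsto (fun N => f N L) atTop (𝓝 (g L))) {p0 p1 p2 X : ℝ}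
    (hq : quad p0 p1 p2 g < X) : ∀ᶠ N in atTop, quad p0 p1 p2 (f N) < X := by
  refine Tendsto.eventually_lt_const hq ?_
  unfold quad
  exact (((((h 6 (by norm_num)).const_mul _).add ((h 7 (by norm_num)).const_mul _)).add
    ((h 8 (by norm_num)).const_mul _)).add ((h 9 (by norm_num)).const_mul _)).add
    ((h 10 (by norm_num)).const_mul _)

theorem ev_pow {f : ℕ → ℕ → ℝ} {g : ℕ → ℝ} (hf : ∀ N, PAtoms (f N))
    (h : ∀ L, 2 ≤ L → Tendsto (fun N => f N L) atTop (𝓝 (g L))) {S : ℝ} (hS : g 10 < S) :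
    ∀ᶠ N in atTop, ∀ ρ, 0 < ρ → f N (10 * ρ) ≤ S ^ ρ := by
  filter_upwards [(h 10 (by norm_num)).eventually_lt_const hS] with N hN ρ hρ
  exact (hf N).pow_le hN.le ρ hρ

theorem ev_filter {f : ℕ → ℕ → ℝ} {g : ℕ → ℝ} (hf : ∀ N, PAtoms (f N))
    (h : ∀ L, 2 ≤ L → Tendsto (fun N => f N L) atTop (𝓝 (g L))) {ν p0 p1 p2 q0 q1 q2 A S : ℝ}
    (hν : 0 < ν) (hp2 : 0 ≤ p2) (hp1 : 0 ≤ p1 + 2 * p2 * ν) (hp0 : 0 < p0 + p1 * ν + p2 * ν ^ 2)
    (hp : quad p0 p1 p2 g < ν ^ 6 * (p0 + p1 * ν + p2 * ν ^ 2) ^ 2)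
    (hq2 : 0 ≤ q2) (hq1 : 0 ≤ -q1 + 2 * q2 * ν) (hq0 : 0 < q0 - q1 * ν + q2 * ν ^ 2)
    (hq : quad q0 q1 q2 g < ν ^ 6 * (q0 - q1 * ν + q2 * ν ^ 2) ^ 2)
    (hA : ν ^ 10 ≤ A) (hS : g 10 < S) (hAS : A ≤ S) (hSA : S ≤ 2 * A) :
    ∀ᶠ N in atTop, ∀ ρ, 0 < ρ → f N (10 * ρ) ≤ A ^ ρ + (S - A) ^ ρ := by
  filter_upwards [(h 10 (by norm_num)).eventually_lt_const hS, ev_quad h hp, ev_quad h hq]
    with N hN h1 h2 ρ hρ
  exact (hf N).filter hν hp2 hp1 hp0 h1 hq2 hq1 hq0 h2 hA hN.le hAS hSA ρ hρ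

noncomputable def gOne (L : ℕ) : ℝ := (Zl 1 1 L + 3 * Zl 1 RZ L + 8 * Zl 1 RW L) / 12
noncomputable def gE (L : ℕ) : ℝ := (2 * Zl 1 1 L + 6 * Zl 1 RZ L - 8 * Zl 1 RW L) / 12
noncomputable def gZ (L : ℕ) : ℝ := (Zl 1 1 L - Zl 1 RZ L) / 4
noncomputable def gA (L : ℕ) : ℝ := (Zl kZ 1 L + 2 * Zl kZ RW L - 3 * Zl kX RZ L) / 6
noncomputable def gB (L : ℕ) : ℝ := (Zl kZ 1 L + 2 * Zl kZ RW L + 3 * Zl kX RZ L) / 6
noncomputable def gC (L : ℕ) : ℝ := (Zl kZ 1 L - Zl kZ RW L) / 3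
noncomputable def gS (L : ℕ) : ℝ := (Ol (-(3 / 5)) (3 / 5) L + Ol (3 / 5) (3 / 5) L) / 2

/-- the numerical facts about short chains -/
structure Num : Prop where
  one1 : quad (-0.2638) (-0.1177) 1.3737 gOne
    < 1.00298 ^ 6 * (-0.2638 + -0.1177 * 1.00298 + 1.3737 * 1.00298 ^ 2) ^ 2
  one2 : quad (-0.0254) (-0.4918) 0.5291 gOne
    < 1.00298 ^ 6 * (-0.0254 - -0.4918 * 1.00298 + 0.5291 * 1.00298 ^ 2) ^ 2
  one3 : gOne 10 < 1.04413
  z1 : quad (-0.2799) 0.4579 1.1448 gZ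
    < 0.87614 ^ 6 * (-0.2799 + 0.4579 * 0.87614 + 1.1448 * 0.87614 ^ 2) ^ 2
  z2 : quad (-0.4595) (-0.1227) 1.7612 gZ
    < 0.87614 ^ 6 * (-0.4595 - -0.1227 * 0.87614 + 1.7612 * 0.87614 ^ 2) ^ 2
  z3 : gZ 10 < 0.3545
  a1 : quad (-0.2845) (-0.1794) 1.4616 gA
    < 1.00087 ^ 6 * (-0.2845 + -0.1794 * 1.00087 + 1.4616 * 1.00087 ^ 2) ^ 2
  a2 : quad (-0.0232) (-0.4845) 0.5374 gA
    < 1.00087 ^ 6 * (-0.0232 - -0.4845 * 1.00087 + 0.5374 * 1.00087 ^ 2) ^ 2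
  a3 : gA 10 < 1.04471
  e3 : gE 10 < 0.0629
  b3 : gB 10 < 0.328
  c3 : gC 10 < 0.36993
  w8 : Ol (-(3 / 5)) (3 / 5) 8 < 0.04573
  qo : (-0.5244) ^ 2 * gS 4 + 2 * (-0.5244) * (-0.3910) * gS 5
    + ((-0.3910) ^ 2 + 2 * (-0.5244) * 1.9154) * gS 6 + 2 * (-0.3910) * 1.9154 * gS 7
    + 1.9154 ^ 2 * gS 8 < 0.02264

theorem ev_seeds (H : Num) : ∀ᶠ N in atTop, Seeds (sys N) (mN N) d0 := by
  have f1 := ev_filter (g := gOne) (fun N => patoms_one (sN b0 N) (cN b0 e0 N) (mN N))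
    (fun L hL => (((lim_z1 1 1 L hL).add ((lim_z1 1 RZ L hL).const_mul 3)).add
      ((lim_z1 1 RW L hL).const_mul 8)).div_const 12) (A := 1.030203)
    (by norm_num) (by norm_num) (by norm_num) (by norm_num) H.one1 (by norm_num) (by norm_num)
    (by norm_num) H.one2 (by norm_num) H.one3 (by norm_num) (by norm_num)
  have f2 := ev_filter (g := gZ) (fun N => patoms_z (sN b0 N) (cN b0 e0 N) (mN N))
    (fun L hL => ((lim_z1 1 1 L hL).sub (lim_z1 1 RZ L hL)).div_const 4) (A := 0.266524)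
    (by norm_num) (by norm_num) (by norm_num) (by norm_num) H.z1 (by norm_num) (by norm_num)
    (by norm_num) H.z2 (by norm_num) H.z3 (by norm_num) (by norm_num)
  have f3 := ev_filter (g := gA) (fun N => patoms_a (sN b0 N) (cN b0 e0 N) (mN N))
    (fun L hL => (((lim_z1 kZ 1 L hL).add ((lim_z1 kZ RW L hL).const_mul 2)).sub
      ((lim_z1 kX RZ L hL).const_mul 3)).div_const 6) (A := 1.008735)
    (by norm_num) (by norm_num) (by norm_num) (by norm_num) H.a1 (by norm_num) (by norm_num)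
    (by norm_num) H.a2 (by norm_num) H.a3 (by norm_num) (by norm_num)
  have f4 := ev_pow (g := gE) (fun N => patoms_E (sN b0 N) (cN b0 e0 N) (mN N))
    (fun L hL => ((((lim_z1 1 1 L hL).const_mul 2).add ((lim_z1 1 RZ L hL).const_mul 6)).sub
      ((lim_z1 1 RW L hL).const_mul 8)).div_const 12) H.e3
  have f5 := ev_pow (g := gB) (fun N => patoms_b (sN b0 N) (cN b0 e0 N) (mN N))
    (fun L hL => (((lim_z1 kZ 1 L hL).add ((lim_z1 kZ RW L hL).const_mul 2)).add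
      ((lim_z1 kX RZ L hL).const_mul 3)).div_const 6) H.b3
  have f6 := ev_pow (g := gC) (fun N => patoms_c (sN b0 N) (cN b0 e0 N) (mN N))
    (fun L hL => ((lim_z1 kZ 1 L hL).sub (lim_z1 kZ RW L hL)).div_const 3) H.c3
  have f7 := (lim_w1 (-(3 / 5)) (3 / 5) 8 (by norm_num)).eventually_lt_const H.w8
  have ls : ∀ L, 1 ≤ L → Tendsto (fun N => (wN N (-(3 / 5)) (3 / 5) L (mN N)
      + wN N (3 / 5) (3 / 5) L (mN N)) / 2) atTop (𝓝 (gS L)) := fun L hL =>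
    ((lim_w1 _ _ L hL).add (lim_w1 _ _ L hL)).div_const 2
  have f8 := ((((((ls 4 (by norm_num)).const_mul _).add ((ls 5 (by norm_num)).const_mul _)).add
    ((ls 6 (by norm_num)).const_mul _)).add ((ls 7 (by norm_num)).const_mul _)).add
    ((ls 8 (by norm_num)).const_mul _)).eventually_lt_const H.qo
  have f9 := lo_ge 67 (by convert var_68 using 4; norm_num)
  have f10 := lo_ge 87 (by convert var_88 using 4; norm_num)
  filter_upwards [f1, f2, f3, f4, f5, f6, f7, f8, f9, f10, mu_one 1 one_pos, mu_one 2 two_pos,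
    lam_one 80 (by decide) (by norm_num), lam_one 160 (by decide) (by norm_num)]
    with N f1 f2 f3 f4 f5 f6 f7 f8 f9 f10 m1 m2 l1 l2
  have a1 := f1 2 two_pos
  have a2 := f2 2 two_pos
  have a4 := f4 2 two_pos
  have b1 := f1 8 (by norm_num)
  have b2 := f2 8 (by norm_num)
  have b3 := f3 8 (by norm_num)
  have b4 := f4 8 (by norm_num)
  have b5 := f5 8 (by norm_num)
  have b6 := f6 8 (by norm_num)
  have c1 := f1 16 (by norm_num)
  have c2 := f2 16 (by norm_num)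
  have c3 := f3 16 (by norm_num)
  have c4 := f4 16 (by norm_num)
  have c5 := f5 16 (by norm_num)
  have c6 := f6 16 (by norm_num)
  norm_num only at a1 a2 a4 b1 b2 b3 b4 b5 b6 c1 c2 c3 c4 c5 c6
  rw [one_mul] at m1
  refine ⟨even_mN N, mN_pos N, m1, m2, l1, l2, ?_, ?_, ?_, ?_, ?_, ?_, ?_, ?_, ?_, ?_⟩
  all_goals simp only [sys_Z, sys_Zs, sys_Zt, sys_Wm, sys_Wp, zN, d0]
  all_goals push_cast
  · linarith
  · linarith
  · linarith
  · linarith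
  · linarith
  · linarith
  · linarith
  · norm_num only at f8 ⊢; linarith
  · exact f9
  · exact f10

end Crest.Agent.R347
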