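import Mathlib

/-! Row 347, bulk MPS bound: integer list matrices evaluated by the kernel. -/

set_option autoImplicit false
open Matrix

namespace Crest.Agent.R347.MPSK

abbrev LM := List (List ℤ)

def dot : List ℤ → List ℤ → ℤ
  | a :: p, b :: q => a * b + dot p q
  | _, _ => 0

def mulT (M N : LM) : LM := M.map fun r => N.map fun c => dot r c

def ladd : List ℤ → List ℤ → List ℤ
  | [], q => q
  | p, [] => p
  | a :: p, b :: q => (a + b) :: ladd p q

def madd : LM → LM → LM
  | [], q => q
  | p, [] => p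
  | a :: p, b :: q => ladd a b :: madd p q

def msm (a : ℤ) (M : LM) : LM := M.map fun r => r.map fun x => a * x

def ent (M : LM) (i j : ℕ) : ℤ := (M.getD i []).getD j 0

/-- all entries of `M - c • 1` are at most `ε` in absolute value -/
def near (D : ℕ) (M : LM) (c ε : ℤ) : Bool :=
  (List.range D).all fun i => (List.range D).all fun j =>
    decide (|ent M i j - (if i = j then c else 0)| ≤ ε)

def short (D : ℕ) (M : LM) : Bool := M.all fun r => decide (r.length ≤ D)

def gram (N0 N1 N2 : LM) : LM := madd (madd (mulT N0 N0) (mulT N1 N1)) (mulT N2 N2)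

def pot (N0 N1 N2 Y : LM) (d S : ℤ) : LM :=
  let Z := msm S (madd (mulT N0 N0) (msm (-1) (mulT N2 N2)))
  let W := msm (2 * S) (madd (mulT N1 N0) (mulT N2 N1))
  let Y2 := msm (d * d) Y
  madd (msm (d * d) Y2) (msm (-1) (madd (madd (mulT N0 (madd (mulT N0 (madd Y2 Z)) (mulT N1 W)))
    (mulT N1 (madd (mulT N1 Y2) (mulT N2 W)))) (mulT N2 (mulT N2 (madd Y2 (msm (-1) Z))))))

/-! ### soundness -/

/-- the real matrix of a list matrix -/
noncomputable def toM (D : ℕ) (M : LM) : Matrix (Fin D) (Fin D) ℝ :=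
  Matrix.of fun i j => (ent M i j : ℝ)

theorem dot_nil (r : List ℤ) : dot r [] = 0 := by cases r <;> rfl

theorem dot_eq : ∀ (D : ℕ) (r c : List ℤ), r.length ≤ D →
    dot r c = ∑ k ∈ Finset.range D, r.getD k 0 * c.getD k 0
  | _, [], c, _ => by simp [dot]
  | _, a :: p, [], _ => by simp [dot]
  | 0, a :: p, b :: q, h => by simp at h
  | D + 1, a :: p, b :: q, h => by
    rw [Finset.sum_range_succ', dot, dot_eq D p q (by simpa using h)]
    simp [add_comm]

theorem ent_mulT (M N : LM) (i j : ℕ) : ent (mulT M N) i j = dot (M.getD i []) (N.getD j []) := by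
  unfold ent mulT
  simp only [List.getD_eq_getElem?_getD, List.getElem?_map]
  cases hM : M[i]? with
  | none => simp [dot]
  | some r =>
    cases hN : N[j]? with
    | none => simp [hN, dot_nil]
    | some c => simp [hN]

theorem toM_mulT (D : ℕ) (M N : LM) (h : short D M = true) :
    toM D (mulT M N) = toM D M * (toM D N)ᵀ := by
  ext i j
  have hl : (M.getD i []).length ≤ D := by
    simp only [short, List.all_eq_true, decide_eq_true_eq] at h
    rw [List.getD_eq_getElem?_getD]
    cases hM : M[(i : ℕ)]? with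
    | none => simp
    | some r => exact h r (List.mem_of_getElem? hM)
  simp only [toM, Matrix.of_apply, Matrix.mul_apply, Matrix.transpose_apply, ent_mulT]
  rw [dot_eq D _ _ hl, Finset.sum_range]
  push_cast
  rfl

theorem getD_ladd : ∀ (p q : List ℤ) (k : ℕ), (ladd p q).getD k 0 = p.getD k 0 + q.getD k 0
  | [], q, k => by simp [ladd]
  | a :: p, [], k => by simp [ladd]
  | a :: p, b :: q, 0 => by simp [ladd]
  | a :: p, b :: q, k + 1 => by
    have := getD_ladd p q k
    simpa [ladd] using this

theorem ladd_nil (p : List ℤ) : ladd p [] = p := by cases p <;> rfl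

theorem getD_madd : ∀ (p q : LM) (k : ℕ), (madd p q).getD k [] = ladd (p.getD k []) (q.getD k [])
  | [], q, k => by simp [madd, ladd]
  | a :: p, [], k => by simp [madd, ladd_nil]
  | a :: p, b :: q, 0 => by simp [madd]
  | a :: p, b :: q, k + 1 => by
    have := getD_madd p q k
    simpa [madd] using this

theorem toM_madd (D : ℕ) (M N : LM) : toM D (madd M N) = toM D M + toM D N := by
  ext i j
  simp only [toM, Matrix.of_apply, Matrix.add_apply, ent, getD_madd, getD_ladd]
  push_cast
  rfl

theorem toM_msm (D : ℕ) (a : ℤ) (M : LM) : toM D (msm a M) = (a : ℝ) • toM D M := by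
  ext i j
  have : ent (msm a M) i j = a * ent M i j := by
    unfold ent msm
    simp only [List.getD_eq_getElem?_getD, List.getElem?_map]
    cases hM : M[(i : ℕ)]? with
    | none => simp
    | some r =>
      cases hN : r[(j : ℕ)]? with
      | none => simp [hN]
      | some c => simp [hN]
  simp [toM, this]

theorem near_spec {D : ℕ} {M : LM} {c ε : ℤ} (h : near D M c ε = true) (i j : Fin D) :
    |toM D M i j - (if i = j then (c : ℝ) else 0)| ≤ ε := by
  simp only [near, List.all_eq_true, List.mem_range, decide_eq_true_eq] at h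
  have := h i i.2 j j.2
  have h2 : ((|ent M i j - (if (i : ℕ) = j then c else 0)| : ℤ) : ℝ) ≤ (ε : ℝ) := by
    exact_mod_cast this
  simpa [toM, Fin.ext_iff, apply_ite ((↑) : ℤ → ℝ)] using h2

theorem near_zero {D : ℕ} {M : LM} {c : ℤ} (h : near D M c 0 = true) :
    toM D M = (c : ℝ) • (1 : Matrix (Fin D) (Fin D) ℝ) := by
  ext i j
  have := near_spec h i j
  simp only [Int.cast_zero, abs_nonpos_iff, sub_eq_zero] at this
  rw [this]
  simp [Matrix.one_apply]

theorem near_quad {D : ℕ} {M : LM} {c ε : ℤ} (h : near D M c ε = true) (x : Fin D → ℝ) :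
    ((c : ℝ) - D * ε) * (x ⬝ᵥ x) ≤ x ⬝ᵥ toM D M *ᵥ x := by
  have e0 : x ⬝ᵥ toM D M *ᵥ x = (c : ℝ) * (x ⬝ᵥ x)
      + ∑ i, ∑ j, (toM D M i j - (if i = j then (c : ℝ) else 0)) * (x i * x j) := by
    simp only [dotProduct, Matrix.mulVec, Finset.mul_sum, sub_mul, Finset.sum_sub_distrib,
      ite_mul, zero_mul, Finset.sum_ite_eq, Finset.mem_univ, if_true]
    rw [add_sub_cancel]
    refine Finset.sum_congr rfl fun i _ => Finset.sum_congr rfl fun j _ => by ring
  have e1 : (D : ℝ) * ε * (x ⬝ᵥ x) = ∑ i, ∑ j, (ε : ℝ) * ((x i * x i + x j * x j) / 2) := by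
    have a : ∀ i : Fin D, ∑ j, (ε : ℝ) * ((x i * x i + x j * x j) / 2)
        = (ε * D / 2 : ℝ) * (x i * x i) + (ε / 2 : ℝ) * (x ⬝ᵥ x) := by
      intro i
      rw [← Finset.mul_sum, ← Finset.sum_div, Finset.sum_add_distrib]
      simp only [dotProduct, Finset.sum_const, Finset.card_univ, Fintype.card_fin, nsmul_eq_mul]
      ring
    simp only [a]
    rw [Finset.sum_add_distrib, ← Finset.mul_sum]
    simp only [Finset.sum_const, Finset.card_univ, Fintype.card_fin, nsmul_eq_mul]
    have b : ∑ i, x i * x i = x ⬝ᵥ x := rfl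
    rw [b]
    ring
  have e2 : ∀ i j, -((ε : ℝ) * ((x i * x i + x j * x j) / 2))
      ≤ (toM D M i j - (if i = j then (c : ℝ) else 0)) * (x i * x j) := by
    intro i j
    have h1 := near_spec h i j
    refine le_trans ?_ (neg_abs_le _)
    rw [neg_le_neg_iff, abs_mul]
    refine mul_le_mul h1 ?_ (abs_nonneg _) ((abs_nonneg _).trans h1)
    rw [abs_le]
    constructor
    · nlinarith [sq_nonneg (x i + x j)]
    · nlinarith [sq_nonneg (x i - x j)]
  have e3 : -(∑ i, ∑ j, (ε : ℝ) * ((x i * x i + x j * x j) / 2))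
      ≤ ∑ i, ∑ j, (toM D M i j - (if i = j then (c : ℝ) else 0)) * (x i * x j) := by
    rw [← Finset.sum_neg_distrib]
    refine Finset.sum_le_sum fun i _ => ?_
    rw [← Finset.sum_neg_distrib]
    exact Finset.sum_le_sum fun j _ => e2 i j
  rw [e0, sub_mul, e1]
  linarith

end Crest.Agent.R347.MPSK
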