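import Crest.Agent.R347.Ham

/-! Row 347: real quadratic form of the open chain, its recursion on the first site, and uniform
matrix product states. -/

set_option autoImplicit false
open Crest.MathPhysics.SpinChain Matrix

namespace Crest.Agent.R347

theorem mps_Hopen_mulVec (n : ℕ) (x : Cfg (n + 1) → ℂ) (σ : Cfg (n + 1)) :
    (Hopen n *ᵥ x) σ = (dOpen (n + 1) σ : ℂ) * x σ + hopO (n + 1) x σ := by
  have h := congrFun (HO_mulVec n 0 0 x) σ
  simp only [HO, Hfld, actO, Int.cast_zero, zero_div, Complex.ofReal_zero, zero_smul, add_zero,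
    sub_zero, zero_mul, Matrix.smul_mulVec, Pi.smul_apply, smul_eq_mul] at h
  push_cast at h
  have h5 : (5 : ℂ) ≠ 0 := by norm_num
  apply mul_left_cancel₀ h5
  rw [h]; ring

theorem mps_onSiteZ {L : ℕ} (j : Fin L) (x : Cfg L → ℂ) (σ : Cfg L) :
    (onSite spinZ j *ᵥ x) σ = (magneticNumber (σ j) : ℂ) * x σ := by
  simp only [Matrix.mulVec, dotProduct, onSite, spinZ, Matrix.of_apply, Matrix.diagonal_apply]
  rw [Finset.sum_eq_single σ]
  · simp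
  · intro τ _ hτ
    by_cases h1 : ∀ k, k ≠ j → σ k = τ k
    · have h2 : σ j ≠ τ j := by
        intro h2
        apply hτ
        funext k
        by_cases hk : k = j
        · rw [hk, h2]
        · exact (h1 k hk).symm
      simp [h2]
    · simp [h1]
  · simp

theorem mps_hopO_cast : ∀ (L : ℕ) (v : Cfg L → ℝ) (σ : Cfg L),
    hopO L (fun τ => ((v τ : ℝ) : ℂ)) σ = ((hopO L v σ : ℝ) : ℂ)
  | 0, _, _ => by simp [hopO]
  | 1, _, _ => by simp [hopO]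
  | L + 2, v, σ => by
    simp only [hopO]
    rw [mps_hopO_cast (L + 1) (fun τ => v (Fin.cons (σ 0) τ)) (Fin.tail σ)]
    push_cast [apply_ite ((↑) : ℝ → ℂ)]
    rfl

/-- real quadratic form of the open chain -/
noncomputable def mpsQ (L : ℕ) (v : Cfg L → ℝ) : ℝ :=
  ∑ σ, v σ * ((dOpen L σ : ℝ) * v σ + hopO L v σ)

theorem mps_abs_m (k : Fin 3) : |(magneticNumber k : ℝ)| ≤ 1 := by
  fin_cases k <;> simp [magneticNumber]

theorem mps_var_of_real (n : ℕ) (h1 h2 t : ℝ) (v : Cfg (n + 1) → ℝ) (hv : v ≠ 0)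
    (h : mpsQ (n + 1) v ≤ t * ∑ σ, v σ * v σ) : Var (Hfld n h1 h2) (t + (|h1| + |h2|)) := by
  refine ⟨fun σ => (v σ : ℂ), ?_, ?_⟩
  · intro h0
    apply hv
    funext σ
    have := congrFun h0 σ
    simpa using this
  · have e1 : (star (fun σ => (v σ : ℂ)) ⬝ᵥ Hfld n h1 h2 *ᵥ fun σ => (v σ : ℂ))
        = ((mpsQ (n + 1) v - ∑ σ, (h1 * magneticNumber (σ 0)
            + h2 * magneticNumber (σ (Fin.last n))) * (v σ * v σ) : ℝ) : ℂ) := by
      simp only [dotProduct, Hfld, Matrix.sub_mulVec, Matrix.add_mulVec, Matrix.smul_mulVec,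
        Pi.sub_apply, Pi.add_apply, Pi.smul_apply, mps_Hopen_mulVec, mps_onSiteZ, mps_hopO_cast,
        Pi.star_apply, smul_eq_mul, mpsQ]
      push_cast
      rw [← Finset.sum_sub_distrib]
      refine Finset.sum_congr rfl fun σ _ => ?_
      simp only [RCLike.star_def, Complex.conj_ofReal]
      ring
    have e2 : (star (fun σ => (v σ : ℂ)) ⬝ᵥ fun σ => (v σ : ℂ)) = ((∑ σ, v σ * v σ : ℝ) : ℂ) := by
      simp only [dotProduct, Pi.star_apply, RCLike.star_def, Complex.conj_ofReal]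
      push_cast
      rfl
    rw [e1, e2, Complex.ofReal_re, Complex.ofReal_re]
    have e3 : -(∑ σ : Cfg (n + 1), (h1 * magneticNumber (σ 0)
            + h2 * magneticNumber (σ (Fin.last n))) * (v σ * v σ))
          ≤ (|h1| + |h2|) * ∑ σ, v σ * v σ := by
      rw [Finset.mul_sum, ← Finset.sum_neg_distrib]
      refine Finset.sum_le_sum fun σ _ => ?_
      rw [← neg_mul]
      refine mul_le_mul_of_nonneg_right ?_ (mul_self_nonneg _)
      have a1 : |h1 * magneticNumber (σ 0)| ≤ |h1| := by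
        rw [abs_mul]; exact mul_le_of_le_one_right (abs_nonneg _) (mps_abs_m _)
      have a2 : |h2 * magneticNumber (σ (Fin.last n))| ≤ |h2| := by
        rw [abs_mul]; exact mul_le_of_le_one_right (abs_nonneg _) (mps_abs_m _)
      have := neg_abs_le (h1 * magneticNumber (σ 0))
      have := neg_abs_le (h2 * magneticNumber (σ (Fin.last n)))
      linarith
    nlinarith [e3, h]

theorem mps_sum_cons {L : ℕ} (f : Cfg (L + 1) → ℝ) :
    ∑ σ, f σ = ∑ s : Fin 3, ∑ τ : Cfg L, f (Fin.cons s τ) := by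
  rw [← (Fin.consEquiv (fun _ : Fin (L + 1) => Fin 3)).sum_comp, Fintype.sum_prod_type]
  rfl

theorem mpsQ_one (v : Cfg 1 → ℝ) : mpsQ 1 v = 0 := by
  simp [mpsQ, dOpen, hopO]

theorem mpsQ_succ (L : ℕ) (v : Cfg (L + 2) → ℝ) :
    mpsQ (L + 2) v = ∑ s : Fin 3, mpsQ (L + 1) (fun τ => v (Fin.cons s τ))
      + ∑ τ : Cfg L,
        (v (Fin.cons 0 (Fin.cons 0 τ)) * v (Fin.cons 0 (Fin.cons 0 τ))
        - v (Fin.cons 0 (Fin.cons 2 τ)) * v (Fin.cons 0 (Fin.cons 2 τ))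
        - v (Fin.cons 2 (Fin.cons 0 τ)) * v (Fin.cons 2 (Fin.cons 0 τ))
        + v (Fin.cons 2 (Fin.cons 2 τ)) * v (Fin.cons 2 (Fin.cons 2 τ))
        + 2 * (v (Fin.cons 0 (Fin.cons 1 τ)) * v (Fin.cons 1 (Fin.cons 0 τ))
          + v (Fin.cons 0 (Fin.cons 2 τ)) * v (Fin.cons 1 (Fin.cons 1 τ))
          + v (Fin.cons 1 (Fin.cons 1 τ)) * v (Fin.cons 2 (Fin.cons 0 τ))
          + v (Fin.cons 1 (Fin.cons 2 τ)) * v (Fin.cons 2 (Fin.cons 1 τ)))) := by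
  have key : ∀ (s t : Fin 3) (τ : Cfg L),
      v (Fin.cons s (Fin.cons t τ)) * ((dOpen (L + 2) (Fin.cons s (Fin.cons t τ)) : ℝ)
          * v (Fin.cons s (Fin.cons t τ)) + hopO (L + 2) v (Fin.cons s (Fin.cons t τ)))
        = v (Fin.cons s (Fin.cons t τ)) * ((dOpen (L + 1) (Fin.cons t τ) : ℝ)
          * v (Fin.cons s (Fin.cons t τ))
          + hopO (L + 1) (fun τ => v (Fin.cons s τ)) (Fin.cons t τ))
          + v (Fin.cons s (Fin.cons t τ)) * ((magneticNumber s * magneticNumber t : ℝ)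
              * v (Fin.cons s (Fin.cons t τ))
            + (if s ≠ 2 ∧ t ≠ 0 then v (Fin.cons (up3 s) (Fin.cons (dn3 t) τ)) else 0)
            + (if s ≠ 0 ∧ t ≠ 2 then v (Fin.cons (dn3 s) (Fin.cons (up3 t) τ)) else 0)) := by
    intro s t τ
    have c1 : (Fin.cons s (Fin.cons t τ) : Cfg (L + 2)) 1 = t := rfl
    simp only [dOpen, hopO, Fin.cons_zero, c1, Fin.tail_cons]
    push_cast
    ring
  unfold mpsQ
  rw [mps_sum_cons]
  simp_rw [mps_sum_cons (L := L), key, Finset.sum_add_distrib]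
  congr 1
  simp only [Fin.sum_univ_three, ← Finset.sum_add_distrib]
  refine Finset.sum_congr rfl fun τ _ => ?_
  have u0 : up3 0 = 1 := rfl
  have u1 : up3 1 = 2 := rfl
  have d1 : dn3 1 = 0 := rfl
  have d2 : dn3 2 = 1 := rfl
  have m0 : magneticNumber 0 = 1 := rfl
  have m1 : magneticNumber 1 = 0 := rfl
  have m2 : magneticNumber 2 = -1 := rfl
  simp [u0, u1, d1, d2, m0, m1, m2]
  ring

section MPS
set_option linter.unusedSectionVars false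
variable {D : Type} [Fintype D] [DecidableEq D]

/-- uniform matrix product state with left boundary vector `x` and open right index -/
noncomputable def mpsPsi (A : Fin 3 → Matrix D D ℝ) : (L : ℕ) → (D → ℝ) → Cfg L → D → ℝ
  | 0, x, _ => x
  | L + 1, x, σ => mpsPsi A L (x ᵥ* A (σ 0)) (Fin.tail σ)

theorem mpsPsi_cons (A : Fin 3 → Matrix D D ℝ) (L : ℕ) (x : D → ℝ) (s : Fin 3) (τ : Cfg L) :
    mpsPsi A (L + 1) x (Fin.cons s τ) = mpsPsi A L (x ᵥ* A s) τ := by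
  simp [mpsPsi]

theorem mps_dot (x y : D → ℝ) (M N : Matrix D D ℝ) :
    (x ᵥ* M) ⬝ᵥ (y ᵥ* N) = x ⬝ᵥ (M * Nᵀ) *ᵥ y := by
  rw [← Matrix.mulVec_mulVec, Matrix.dotProduct_mulVec, Matrix.mulVec_transpose]

theorem mps_quad (x : D → ℝ) (M N Y : Matrix D D ℝ) :
    (x ᵥ* M) ⬝ᵥ Y *ᵥ (x ᵥ* N) = x ⬝ᵥ (M * Y * Nᵀ) *ᵥ x := by
  rw [Matrix.dotProduct_mulVec, Matrix.vecMul_vecMul, mps_dot]

theorem mps_iso (A : Fin 3 → Matrix D D ℝ)
    (hA : A 0 * (A 0)ᵀ + A 1 * (A 1)ᵀ + A 2 * (A 2)ᵀ = 1) :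
    ∀ (L : ℕ) (x y : D → ℝ), ∑ σ : Cfg L, mpsPsi A L x σ ⬝ᵥ mpsPsi A L y σ = x ⬝ᵥ y
  | 0, x, y => by simp [mpsPsi]
  | L + 1, x, y => by
    rw [mps_sum_cons]
    simp only [mpsPsi_cons, mps_iso A hA L, Fin.sum_univ_three, mps_dot]
    rw [← dotProduct_add, ← dotProduct_add, ← Matrix.add_mulVec, ← Matrix.add_mulVec, hA,
      Matrix.one_mulVec]

/-- total energy of the purified state -/
noncomputable def mpsEn (A : Fin 3 → Matrix D D ℝ) (L : ℕ) (x : D → ℝ) : ℝ :=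
  ∑ j, mpsQ L fun σ => mpsPsi A L x σ j

/-- the bond matrix -/
noncomputable def mpsB (A : Fin 3 → Matrix D D ℝ) : Matrix D D ℝ :=
  A 0 * (A 0 * (A 0)ᵀ - A 2 * (A 2)ᵀ) * (A 0)ᵀ - A 2 * (A 0 * (A 0)ᵀ - A 2 * (A 2)ᵀ) * (A 2)ᵀ
    + (2 : ℝ) • (A 0 * (A 1 * (A 0)ᵀ + A 2 * (A 1)ᵀ) * (A 1)ᵀ
      + A 1 * (A 1 * (A 0)ᵀ + A 2 * (A 1)ᵀ) * (A 2)ᵀ)

theorem mpsEn_succ (A : Fin 3 → Matrix D D ℝ)
    (hA : A 0 * (A 0)ᵀ + A 1 * (A 1)ᵀ + A 2 * (A 2)ᵀ = 1) (L : ℕ) (x : D → ℝ) :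
    mpsEn A (L + 2) x = ∑ s, mpsEn A (L + 1) (x ᵥ* A s) + x ⬝ᵥ mpsB A *ᵥ x := by
  have pair : ∀ s t s' t' : Fin 3, ∑ j, ∑ τ : Cfg L,
      mpsPsi A L (x ᵥ* A s ᵥ* A t) τ j * mpsPsi A L (x ᵥ* A s' ᵥ* A t') τ j
        = x ⬝ᵥ (A s * (A t * (A t')ᵀ) * (A s')ᵀ) *ᵥ x := by
    intro s t s' t'
    rw [Finset.sum_comm]
    have := mps_iso A hA L (x ᵥ* A s ᵥ* A t) (x ᵥ* A s' ᵥ* A t')
    simp only [dotProduct] at this
    rw [this]
    have h2 := mps_dot (x ᵥ* A s) (x ᵥ* A s') (A t) (A t')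
    rw [mps_quad] at h2
    exact h2
  unfold mpsEn
  simp only [mpsQ_succ, mpsPsi_cons, Finset.sum_add_distrib, Finset.sum_sub_distrib,
    ← Finset.mul_sum, pair]
  rw [Finset.sum_comm]
  congr 1
  simp only [mpsB, Matrix.mul_add, Matrix.mul_sub, Matrix.add_mul, Matrix.sub_mul,
    Matrix.add_mulVec, Matrix.sub_mulVec, Matrix.smul_mulVec, dotProduct_add, dotProduct_sub,
    dotProduct_smul, smul_eq_mul]
  ring

theorem mps_quad_bound (Y : Matrix D D ℝ) : ∃ C : ℝ, ∀ x : D → ℝ, |x ⬝ᵥ Y *ᵥ x| ≤ C * (x ⬝ᵥ x) := by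
  refine ⟨∑ i, ∑ j, |Y i j|, fun x => ?_⟩
  have hx : ∀ i, x i * x i ≤ x ⬝ᵥ x := fun i =>
    Finset.single_le_sum (f := fun i => x i * x i) (fun i _ => mul_self_nonneg _)
      (Finset.mem_univ i)
  have e0 : x ⬝ᵥ Y *ᵥ x = ∑ i, ∑ j, x i * (Y i j * x j) := by
    simp only [dotProduct, Matrix.mulVec, Finset.mul_sum]
  rw [e0, Finset.sum_mul]
  refine (Finset.abs_sum_le_sum_abs _ _).trans (Finset.sum_le_sum fun i _ => ?_)
  rw [Finset.sum_mul]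
  refine (Finset.abs_sum_le_sum_abs _ _).trans (Finset.sum_le_sum fun j _ => ?_)
  have e : |x i * (Y i j * x j)| = |Y i j| * (|x i| * |x j|) := by
    rw [abs_mul, abs_mul]; ring
  rw [e]
  refine mul_le_mul_of_nonneg_left ?_ (abs_nonneg _)
  have a := hx i
  have b := hx j
  have a' := abs_mul_abs_self (x i)
  have b' := abs_mul_abs_self (x j)
  nlinarith [sq_nonneg (|x i| - |x j|)]

theorem mps_bulk [Nonempty D] (A : Fin 3 → Matrix D D ℝ) (Y : Matrix D D ℝ) (e : ℝ)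
    (hA : A 0 * (A 0)ᵀ + A 1 * (A 1)ᵀ + A 2 * (A 2)ᵀ = 1)
    (hP : ∀ x : D → ℝ, e * (x ⬝ᵥ x) ≤ x ⬝ᵥ (Y - (A 0 * Y * (A 0)ᵀ + A 1 * Y * (A 1)ᵀ
      + A 2 * Y * (A 2)ᵀ) - mpsB A) *ᵥ x) (h1 h2 : ℝ) :
    ∃ C : ℝ, ∀ n : ℕ, Var (Hfld n h1 h2) (-e * n + C) := by
  obtain ⟨C, hC⟩ := mps_quad_bound Y
  have main : ∀ (n : ℕ) (x : D → ℝ),
      mpsEn A (n + 1) x ≤ (-e * n + C) * (x ⬝ᵥ x) + x ⬝ᵥ Y *ᵥ x := by
    intro n
    induction n with
    | zero =>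
      intro x
      have := hC x
      have := neg_abs_le (x ⬝ᵥ Y *ᵥ x)
      have h0 : mpsEn A (0 + 1) x = 0 := Finset.sum_eq_zero fun j _ => mpsQ_one _
      rw [h0]
      simp only [Nat.cast_zero, mul_zero, zero_add]
      linarith
    | succ n ih =>
      intro x
      rw [mpsEn_succ A hA, Fin.sum_univ_three]
      have i0 := ih (x ᵥ* A 0)
      have i1 := ih (x ᵥ* A 1)
      have i2 := ih (x ᵥ* A 2)
      rw [mps_quad, mps_dot] at i0 i1 i2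
      have hn : x ⬝ᵥ (A 0 * (A 0)ᵀ) *ᵥ x + x ⬝ᵥ (A 1 * (A 1)ᵀ) *ᵥ x + x ⬝ᵥ (A 2 * (A 2)ᵀ) *ᵥ x
          = x ⬝ᵥ x := by
        rw [← dotProduct_add, ← dotProduct_add, ← Matrix.add_mulVec, ← Matrix.add_mulVec, hA,
          Matrix.one_mulVec]
      have hp := hP x
      simp only [Matrix.add_mulVec, Matrix.sub_mulVec, dotProduct_add, dotProduct_sub] at hp
      push_cast
      rw [← hn] at hp ⊢
      nlinarith
  refine ⟨2 * C + (|h1| + |h2|), fun n => ?_⟩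
  obtain ⟨j0⟩ := ‹Nonempty D›
  set x : D → ℝ := Pi.single j0 1 with hx
  have hxx : x ⬝ᵥ x = 1 := by simp [hx]
  set t : ℝ := -e * n + 2 * C with ht
  have hE : mpsEn A (n + 1) x ≤ t * (x ⬝ᵥ x) := by
    have := main n x
    have h2 := hC x
    have := le_abs_self (x ⬝ᵥ Y *ᵥ x)
    rw [hxx] at *
    linarith
  have hN : ∑ j, ∑ σ : Cfg (n + 1), mpsPsi A (n + 1) x σ j * mpsPsi A (n + 1) x σ j = x ⬝ᵥ x := by
    rw [Finset.sum_comm]
    exact mps_iso A hA (n + 1) x x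
  have hex : ∃ j, (fun σ => mpsPsi A (n + 1) x σ j) ≠ 0 ∧ mpsQ (n + 1) (fun σ => mpsPsi A (n + 1) x σ j)
      ≤ t * ∑ σ : Cfg (n + 1), mpsPsi A (n + 1) x σ j * mpsPsi A (n + 1) x σ j := by
    by_contra hcon
    push Not at hcon
    have hne : ∃ j, (fun σ => mpsPsi A (n + 1) x σ j) ≠ 0 := by
      by_contra h0
      push Not at h0
      have : ∀ j σ, mpsPsi A (n + 1) x σ j = 0 := fun j σ => congrFun (h0 j) σ
      simp [this, hxx] at hN
    obtain ⟨j1, hj1⟩ := hne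
    have hlt : ∑ j, t * ∑ σ : Cfg (n + 1), mpsPsi A (n + 1) x σ j * mpsPsi A (n + 1) x σ j
        < mpsEn A (n + 1) x := by
      refine Finset.sum_lt_sum (fun j _ => ?_) ⟨j1, Finset.mem_univ _, hcon j1 hj1⟩
      by_cases h0 : (fun σ => mpsPsi A (n + 1) x σ j) = 0
      · have : ∀ σ, mpsPsi A (n + 1) x σ j = 0 := fun σ => congrFun h0 σ
        simp [mpsQ, this]
      · exact (hcon j h0).le
    rw [← Finset.mul_sum, hN] at hlt
    linarith
  obtain ⟨j, hj, hq⟩ := hex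
  have := mps_var_of_real n h1 h2 t _ hj hq
  have e1 : -e * n + (2 * C + (|h1| + |h2|)) = t + (|h1| + |h2|) := by rw [ht]; ring
  rw [e1]
  exact this

end MPS

end Crest.Agent.R347
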