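/-! Row 347: Gram recursion of a charge-graded integer matrix product state, computed modulo
`MM` and written with raw recursors for kernel evaluation. -/

set_option autoImplicit false

namespace Crest.Agent.R347.MO

/-- a row of six residues and the correction `t = -8192 ∑ x` -/
structure R where
  x0 : Nat
  x1 : Nat
  x2 : Nat
  x3 : Nat
  x4 : Nat
  x5 : Nat
  t : Nat

abbrev Mat := List R

/-- the three matrices (lists of packed rows) of one charge block of a site tensor -/
structure Tri where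
  a0 : List Nat
  a1 : List Nat
  a2 : List Nat

/-- norm, boundary spin, boundary hop and energy matrices (transposed) of one charge block -/
structure St where
  N : Mat
  Z : Mat
  W : Mat
  M : Mat

def zR : R := ⟨0, 0, 0, 0, 0, 0, 0⟩
def eT : Tri := ⟨[], [], []⟩
def eS : St := ⟨[], [], [], []⟩
def MM : Nat := Nat.pow 2 3200
def ng (c : Nat) : Nat := Nat.sub MM c

noncomputable section

def mp {α β : Type} (f : α → β) (l : List α) : List β :=
  List.rec (motive := fun _ => List β) [] (fun a _ ih => f a :: ih) l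

def hd {α : Type} (d : α) (l : List α) : α := List.rec (motive := fun _ => α) d (fun a _ _ => a) l

def tl {α : Type} (l : List α) : List α :=
  List.rec (motive := fun _ => List α) [] (fun _ l _ => l) l

/-! Forcing (each `f… x k` is `k x`). -/

def fN {α : Type} (n : Nat) (k : Nat → α) : α :=
  Nat.rec (motive := fun _ => α) (k 0) (fun m _ => k m) (Nat.add n 1)

def fR {α : Type} (x : R) (k : R → α) : α :=
  R.rec (motive := fun _ => α) (fun a b c d e f t => fN a fun a => fN b fun b => fN c fun c =>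
    fN d fun d => fN e fun e => fN f fun f => fN t fun t => k ⟨a, b, c, d, e, f, t⟩) x

def fL {α β : Type} (f : β → (β → α) → α) (l : List β) : (List β → α) → α :=
  List.rec (motive := fun _ => (List β → α) → α) (fun k => k [])
    (fun a _ ih k => f a fun a' => ih fun l' => k (a' :: l')) l

def fM {α : Type} (X : Mat) (k : Mat → α) : α := fL fR X k

def fT {α : Type} (a : Tri) (k : Tri → α) : α :=
  fL fN a.a0 fun x => fL fN a.a1 fun y => fL fN a.a2 fun z => k ⟨x, y, z⟩

def fS {α : Type} (s : St) (k : St → α) : α :=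
  fM s.N fun x => fM s.Z fun y => fM s.W fun z => fM s.M fun w => k ⟨x, y, z, w⟩

def cons6 (y : Nat) (v : R) : R :=
  R.rec (motive := fun _ => R) (fun a b c d e _ _ => ⟨y, a, b, c, d, e, 0⟩) v

def fin (v : R) : R :=
  R.rec (motive := fun _ => R) (fun a b c d e f _ => ⟨a, b, c, d, e, f, Nat.mod (Nat.mul (ng 8192)
    (Nat.add (Nat.add (Nat.add (Nat.add (Nat.add a b) c) d) e) f)) MM⟩) v

def rowD (a0 a1 a2 a3 a4 a5 : Nat) (Y : Mat) : R :=
  List.rec (motive := fun _ => R) zR (fun y _ ih => cons6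
    (R.rec (motive := fun _ => Nat) (fun b0 b1 b2 b3 b4 b5 t => Nat.mod (Nat.add (Nat.add (Nat.add
      (Nat.add (Nat.add (Nat.add t (Nat.mul a0 b0)) (Nat.mul a1 b1)) (Nat.mul a2 b2))
      (Nat.mul a3 b3)) (Nat.mul a4 b4)) (Nat.mul a5 b5)) MM) y) ih) Y

def dg (n j : Nat) : Nat := Nat.mod (Nat.shiftRight n (Nat.mul 14 j)) 16384

def rowT (n : Nat) (Y : Mat) : R :=
  fN (dg n 0) fun a0 => fN (dg n 1) fun a1 => fN (dg n 2) fun a2 => fN (dg n 3) fun a3 =>
    fN (dg n 4) fun a4 => fN (dg n 5) fun a5 => fin (rowD a0 a1 a2 a3 a4 a5 Y)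

/-- `A Yᵀ` -/
def mT (A : List Nat) (Y : Mat) : Mat := mp (fun n => rowT n Y) A

def lcR (c : Nat) (x y : R) : R :=
  R.rec (motive := fun _ => R) (fun a0 a1 a2 a3 a4 a5 s =>
    R.rec (motive := fun _ => R) (fun b0 b1 b2 b3 b4 b5 t => ⟨Nat.add (Nat.mul c a0) b0,
      Nat.add (Nat.mul c a1) b1, Nat.add (Nat.mul c a2) b2, Nat.add (Nat.mul c a3) b3,
      Nat.add (Nat.mul c a4) b4, Nat.add (Nat.mul c a5) b5, Nat.add (Nat.mul c s) t⟩) y) x

/-- `c • X + Y` -/
def lc (c : Nat) (X : Mat) : Mat → Mat :=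
  List.rec (motive := fun _ => Mat → Mat) (fun Y => Y)
    (fun x _ ih Y => List.rec (motive := fun _ => Mat) (lcR c x zR :: ih [])
      (fun y Y' _ => lcR c x y :: ih Y') Y) X

/-- one charge block of the recursion -/
def blk (a b : Tri) (s0 s1 s2 : St) : St :=
  fM (mT a.a1 s1.N) fun Y1 => fM (mT a.a2 s2.N) fun Y2 =>
  fM (mT a.a0 s0.N) fun Y0 => fM (mT a.a0 Y0) fun G0 => fM (mT a.a2 Y2) fun G2 =>
  fM (lc 1 s0.Z s0.M) fun U0 => fM (lc (ng 1) s2.Z s2.M) fun U2 =>
  fM (mT a.a0 U0) fun X0 => fM (lc 1 (mT a.a1 s1.M) (mT a.a0 s0.W)) fun X1 =>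
  fM (lc 1 (mT a.a2 U2) (mT a.a1 s1.W)) fun X2 =>
  ⟨lc 1 G0 (lc 1 (mT a.a1 Y1) G2), lc 5 G0 (lc (ng 5) G2 []),
    lc 10 (mT b.a0 Y1) (lc 10 (mT b.a1 Y2) []),
    lc 1 (mT a.a0 X0) (lc 1 (mT a.a1 X1) (mT a.a2 X2))⟩

def stepL (A : List Tri) : List St → List St :=
  List.rec (motive := fun _ => List St → List St) (fun _ => [])
    (fun a A' ih S => blk a (hd eT A') (hd eS S) (hd eS (tl S)) (hd eS (tl (tl S))) :: ih (tl S)) A

def S0 : List St :=
  [eS, eS, eS, ⟨[fin ⟨1, 0, 0, 0, 0, 0, 0⟩], [fin ⟨ng 3, 0, 0, 0, 0, 0, 0⟩], [], []⟩]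

/-- the state after `L` sites (read from the right end), passed to a continuation -/
def run {α : Type} (T : Nat → List Tri) (L : Nat) : (List St → α) → α :=
  Nat.rec (motive := fun _ => (List St → α) → α) (fun k => k S0)
    (fun l ih k => ih fun S => fL fT (T l) fun A => fL fS (eS :: stepL A S) k) L

def resN (s : St) : Nat := Nat.mod (hd zR s.N).x0 MM
def resE (s : St) : Nat :=
  Nat.mod (Nat.add (Nat.mul (ng 5) (hd zR s.M).x0) (Nat.mul (ng 3) (hd zR s.Z).x0)) MM

def ok (p q : Nat) (s : St) : Bool :=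
  Nat.blt 0 (resN s) && Nat.ble (resN s) (Nat.pow 2 3199) && Nat.ble (resE s) (Nat.pow 2 3199) &&
    Nat.ble (Nat.mul (Nat.mul 25 p) (resN s)) (Nat.mul q (resE s))

/-- `0 < N` and `25 p N ≤ q (-5 M - 3 Z)` -/
def check (T : Nat → List Tri) (p q : Nat) (L : Nat) : Bool :=
  run T L fun S => ok p q (hd eS (tl (tl (tl S))))

/-! Decoding of the packed data (nothing is proved about it). -/

def decRows (f : Nat) : Nat → List Nat :=
  Nat.rec (motive := fun _ => Nat → List Nat) (fun _ => [])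
    (fun _ ih n => Bool.rec (Nat.mod n (Nat.pow 2 84) :: ih (Nat.shiftRight n 84)) []
      (Nat.beq n 0)) f

def decS (f : Nat) : List Nat → List Tri :=
  Nat.rec (motive := fun _ => List Nat → List Tri) (fun _ => [])
    (fun _ ih l => ⟨decRows 6 (hd 0 l), decRows 6 (hd 0 (tl l)), decRows 6 (hd 0 (tl (tl l)))⟩ ::
      ih (tl (tl (tl l)))) f

def nth {α : Type} (d : α) (i : Nat) : List α → α :=
  Nat.rec (motive := fun _ => List α → α) (hd d) (fun _ ih l => ih (tl l)) i

def dec (data : List (List Nat)) (i : Nat) : List Tri := decS 6 (nth [] i data)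

end

end Crest.Agent.R347.MO
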