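import Crest.Agent.R347.MPSBase
import Crest.Agent.R347.MPSOpenAuxK

/-! Row 347: soundness of the Gram recursion of `MPSOpenAuxK`. -/

set_option autoImplicit false
open Crest.MathPhysics.SpinChain Matrix Finset

namespace Crest.Agent.R347.MO

/-! ### the kernel functions -/

theorem fN_eq {α : Type} (n : ℕ) (k : ℕ → α) : fN n k = k n := rfl

theorem fR_eq {α : Type} (x : R) (k : R → α) : fR x k = k x := rfl

theorem fL_eq {α β : Type} {f : β → (β → α) → α} (hf : ∀ x k, f x k = k x) (l : List β)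
    (k : List β → α) : fL f l k = k l := by
  induction l generalizing k with
  | nil => rfl
  | cons a l ih => exact (hf a _).trans (ih _)

theorem fM_eq {α : Type} (X : Mat) (k : Mat → α) : fM X k = k X := fL_eq fR_eq X k

theorem fT_eq {α : Type} (a : Tri) (k : Tri → α) : fT a k = k a := by
  simp only [fT, fL_eq fN_eq]

theorem fS_eq {α : Type} (s : St) (k : St → α) : fS s k = k s := by
  simp only [fS, fM_eq]

theorem hd_eq {α : Type} (d : α) (l : List α) : hd d l = l.getD 0 d := by cases l <;> rfl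

theorem getD_tl {α : Type} (d : α) (l : List α) (i : ℕ) : (tl l).getD i d = l.getD (i + 1) d := by
  cases l <;> rfl

/-- the entries of a row -/
def R.e (x : R) : ℕ → ℕ
  | 0 => x.x0
  | 1 => x.x1
  | 2 => x.x2
  | 3 => x.x3
  | 4 => x.x4
  | 5 => x.x5
  | _ => 0

/-- the dot product computed by `rowD` -/
def dt (a0 a1 a2 a3 a4 a5 : ℕ) (y : R) : ℕ :=
  (y.t + a0 * y.x0 + a1 * y.x1 + a2 * y.x2 + a3 * y.x3 + a4 * y.x4 + a5 * y.x5) % MM

theorem rowD_e (a0 a1 a2 a3 a4 a5 : ℕ) (Y : Mat) (j : ℕ) (hj : j < 6) :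
    (rowD a0 a1 a2 a3 a4 a5 Y).e j = dt a0 a1 a2 a3 a4 a5 (Y.getD j zR) := by
  induction Y generalizing j with
  | nil => interval_cases j <;> simp [rowD, dt, zR, R.e]
  | cons y Y ih =>
    interval_cases j
    · rfl
    · exact ih 0 (by norm_num)
    · exact ih 1 (by norm_num)
    · exact ih 2 (by norm_num)
    · exact ih 3 (by norm_num)
    · exact ih 4 (by norm_num)

theorem mp_eq {α β : Type} (f : α → β) (l : List α) : mp f l = l.map f := by
  induction l with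
  | nil => rfl
  | cons a l ih => exact congrArg (f a :: ·) ih

theorem rowT_eq (n : ℕ) (Y : Mat) :
    rowT n Y = fin (rowD (dg n 0) (dg n 1) (dg n 2) (dg n 3) (dg n 4) (dg n 5) Y) := rfl

theorem lcR_zero (c : ℕ) (y : R) : lcR c zR y = y := by
  cases y
  simp [lcR, zR]

theorem lc_getD (c : ℕ) (X Y : Mat) (i : ℕ) :
    (lc c X Y).getD i zR = lcR c (X.getD i zR) (Y.getD i zR) := by
  induction X generalizing Y i with
  | nil => exact (lcR_zero c _).symm
  | cons x X ih =>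
    cases Y with
    | nil =>
      cases i with
      | zero => rfl
      | succ i => exact ih [] i
    | cons y Y =>
      cases i with
      | zero => rfl
      | succ i => exact ih Y i

theorem blk_eq (a b : Tri) (s0 s1 s2 : St) : blk a b s0 s1 s2 =
    ⟨lc 1 (mT a.a0 (mT a.a0 s0.N)) (lc 1 (mT a.a1 (mT a.a1 s1.N)) (mT a.a2 (mT a.a2 s2.N))),
      lc 5 (mT a.a0 (mT a.a0 s0.N)) (lc (ng 5) (mT a.a2 (mT a.a2 s2.N)) []),
      lc 10 (mT b.a0 (mT a.a1 s1.N)) (lc 10 (mT b.a1 (mT a.a2 s2.N)) []),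
      lc 1 (mT a.a0 (mT a.a0 (lc 1 s0.Z s0.M)))
        (lc 1 (mT a.a1 (lc 1 (mT a.a1 s1.M) (mT a.a0 s0.W)))
          (mT a.a2 (lc 1 (mT a.a2 (lc (ng 1) s2.Z s2.M)) (mT a.a1 s1.W))))⟩ := by
  simp only [blk, fM_eq]

theorem stepL_getD (A : List Tri) (S : List St) (k : ℕ) :
    (stepL A S).getD k eS = blk (A.getD k eT) (A.getD (k + 1) eT) (S.getD k eS)
      (S.getD (k + 1) eS) (S.getD (k + 2) eS) ∨ ((stepL A S).getD k eS = eS ∧ A.getD k eT = eT) := by
  induction A generalizing S k with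
  | nil => exact Or.inr ⟨rfl, rfl⟩
  | cons a A ih =>
    cases k with
    | zero =>
      left
      show blk a (hd eT A) (hd eS S) (hd eS (tl S)) (hd eS (tl (tl S))) = _
      simp only [hd_eq, getD_tl]
      rfl
    | succ k =>
      have := ih (tl S) k
      simp only [getD_tl] at this
      exact this

/-- the state after `L` sites -/
noncomputable def stt (T : ℕ → List Tri) : ℕ → List St
  | 0 => S0
  | L + 1 => eS :: stepL (T L) (stt T L)

theorem run_eq {α : Type} (T : ℕ → List Tri) (L : ℕ) (k : List St → α) :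
    run T L k = k (stt T L) := by
  induction L generalizing k with
  | zero => rfl
  | succ L ih =>
    refine (ih _).trans ?_
    rw [fL_eq fT_eq, fL_eq fS_eq]
    rfl

/-! ### residues -/

theorem le_MM : 8192 ≤ MM := by decide +kernel

attribute [local irreducible] MM

/-- the integer entries of a packed matrix -/
def cA (A : List ℕ) (a j : ℕ) : ℤ :=
  match A[a]? with
  | some n => (dg n j : ℤ) - 8192
  | none => 0

theorem abs_cA (A : List ℕ) (a j : ℕ) : |cA A a j| ≤ 8192 := by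
  unfold cA
  split
  · rename_i n _
    have : dg n j < 16384 := Nat.mod_lt _ (by norm_num)
    rw [abs_le]
    omega
  · simp

/-- `A g` -/
def lin {V : Type} [AddCommGroup V] (A : List ℕ) (g : Fin 6 → V) (b : Fin 6) : V :=
  ∑ i : Fin 6, cA A b i • g i

section ring
variable (Z : Type) [CommRing Z]

def RepR (x : R) (f : Fin 6 → ℤ) : Prop :=
  (∀ j : Fin 6, ((x.e j : ℕ) : Z) = (f j : Z)) ∧ ((x.t : ℕ) : Z) = -8192 * ∑ j, (f j : Z)

def Rep (X : Mat) (F : Fin 6 → Fin 6 → ℤ) : Prop := ∀ i : Fin 6, RepR Z (X.getD i zR) (F i)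

variable {Z}

theorem repR_zero : RepR Z zR fun _ => 0 := by
  refine ⟨fun j => ?_, by simp [zR]⟩
  fin_cases j <;> simp [zR, R.e]

theorem rep_nil : Rep Z [] fun _ _ => 0 := fun _ => repR_zero

theorem Rep.congr {X : Mat} {F G : Fin 6 → Fin 6 → ℤ} (h : Rep Z X F) (e : ∀ i j, F i j = G i j) :
    Rep Z X G := by
  rw [← (funext₂ e : F = G)]
  exact h

theorem cast_mod (hM : ((MM : ℕ) : Z) = 0) (n : ℕ) : ((n % MM : ℕ) : Z) = n := by
  conv_rhs => rw [← Nat.mod_add_div n MM]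
  rw [Nat.cast_add, Nat.cast_mul, hM, zero_mul, add_zero]

theorem ng_cast (hM : ((MM : ℕ) : Z) = 0) {c : ℕ} (hc : c ≤ 8192) : ((ng c : ℕ) : Z) = -c := by
  rw [ng, Nat.sub_eq, Nat.cast_sub (hc.trans le_MM), hM, zero_sub]

theorem repR_fin (hM : ((MM : ℕ) : Z) = 0) (v : R) (f : Fin 6 → ℤ)
    (h : ∀ j : Fin 6, ((v.e j : ℕ) : Z) = f j) : RepR Z (fin v) f := by
  obtain ⟨a, b, c, d, e, g, t⟩ := v
  refine ⟨fun j => ?_, ?_⟩
  · have : (fin ⟨a, b, c, d, e, g, t⟩).e j = (⟨a, b, c, d, e, g, t⟩ : R).e j := by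
      fin_cases j <;> simp only [fin, R.e]
    rw [this, h j]
  · show (((ng 8192 * (a + b + c + d + e + g)) % MM : ℕ) : Z) = _
    rw [cast_mod hM, Nat.cast_mul, ng_cast hM le_rfl, Fin.sum_univ_six, ← h 0, ← h 1, ← h 2, ← h 3,
      ← h 4, ← h 5]
    push_cast
    rfl

theorem dt_cast (hM : ((MM : ℕ) : Z) = 0) (n : ℕ) {y : R} {f : Fin 6 → ℤ} (h : RepR Z y f) :
    ((dt (dg n 0) (dg n 1) (dg n 2) (dg n 3) (dg n 4) (dg n 5) y : ℕ) : Z)
      = ((∑ i : Fin 6, ((dg n i : ℤ) - 8192) * f i : ℤ) : Z) := by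
  have h0 : ((y.x0 : ℕ) : Z) = f 0 := h.1 0
  have h1 : ((y.x1 : ℕ) : Z) = f 1 := h.1 1
  have h2 : ((y.x2 : ℕ) : Z) = f 2 := h.1 2
  have h3 : ((y.x3 : ℕ) : Z) = f 3 := h.1 3
  have h4 : ((y.x4 : ℕ) : Z) = f 4 := h.1 4
  have h5 : ((y.x5 : ℕ) : Z) = f 5 := h.1 5
  have ht := h.2
  rw [Fin.sum_univ_six] at ht
  rw [dt, cast_mod hM, Fin.sum_univ_six]
  push_cast
  rw [h0, h1, h2, h3, h4, h5, ht]
  show _ = ((dg n 0 : Z) - 8192) * f 0 + ((dg n 1 : Z) - 8192) * f 1 + ((dg n 2 : Z) - 8192) * f 2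
    + ((dg n 3 : Z) - 8192) * f 3 + ((dg n 4 : Z) - 8192) * f 4 + ((dg n 5 : Z) - 8192) * f 5
  ring

theorem rep_mT0 (hM : ((MM : ℕ) : Z) = 0) (A : List ℕ) {Y : Mat} {F : Fin 6 → Fin 6 → ℤ}
    (h : Rep Z Y F) : Rep Z (mT A Y) fun b j => ∑ i : Fin 6, cA A b i * F j i := by
  intro b
  rw [mT, mp_eq, List.getD_eq_getElem?_getD, List.getElem?_map]
  simp only [cA]
  cases A[(b : ℕ)]? with
  | none => simpa using repR_zero (Z := Z)
  | some n =>
    rw [Option.map_some, Option.getD_some, rowT_eq]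
    refine repR_fin hM _ _ fun j => ?_
    rw [rowD_e _ _ _ _ _ _ _ _ j.2]
    exact dt_cast hM n (h j)

theorem rep_mT (hM : ((MM : ℕ) : Z) = 0) {V : Type} [AddCommGroup V] (A : List ℕ) {Y : Mat}
    (Φ : Fin 6 → V →ₗ[ℤ] ℤ) (g : Fin 6 → V) (h : Rep Z Y fun a j => Φ a (g j)) :
    Rep Z (mT A Y) fun b a => Φ a (lin A g b) :=
  (rep_mT0 hM A h).congr fun b a => by simp [lin]

theorem rep_lc {c : ℕ} (c' : ℤ) (hc : (c : Z) = c') {X Y : Mat} {F G : Fin 6 → Fin 6 → ℤ}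
    (hX : Rep Z X F) (hY : Rep Z Y G) : Rep Z (lc c X Y) fun i j => c' * F i j + G i j := by
  intro i
  rw [lc_getD]
  obtain ⟨h1, h2⟩ := hX i
  obtain ⟨h3, h4⟩ := hY i
  generalize X.getD i zR = x at h1 h2
  generalize Y.getD i zR = y at h3 h4
  refine ⟨fun j => ?_, ?_⟩
  · have : (lcR c x y).e j = c * x.e j + y.e j := by fin_cases j <;> rfl
    rw [this]
    push_cast
    rw [hc, h1, h3]
  · have : (lcR c x y).t = c * x.t + y.t := rfl
    rw [this]
    push_cast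
    rw [hc, h2, h4, Finset.sum_add_distrib, ← Finset.mul_sum]
    ring

end ring

/-! ### the bilinear forms -/

abbrev V (L : ℕ) := Cfg L → ℤ
abbrev BF (L : ℕ) := V L →ₗ[ℤ] V L →ₗ[ℤ] ℤ

/-- fix the first spin -/
def cp {L : ℕ} (s : Fin 3) : V (L + 1) →ₗ[ℤ] V L := 
  LinearMap.funLeft ℤ ℤ fun τ : Cfg L => (Fin.cons s τ : Cfg (L + 1))

theorem cp_apply {L : ℕ} (s : Fin 3) (x : V (L + 1)) (τ : Cfg L) : cp s x τ = x (Fin.cons s τ) := rfl

def up {L : ℕ} (B : BF L) (s t : Fin 3) : BF (L + 1) := B.compl₁₂ (cp s) (cp t)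

theorem up_apply {L : ℕ} (B : BF L) (s t : Fin 3) (x y : V (L + 1)) :
    up B s t x y = B (cp s x) (cp t y) := rfl

def ip : (L : ℕ) → BF L
  | 0 => (LinearMap.mul ℤ ℤ).compl₁₂ (LinearMap.proj Fin.elim0) (LinearMap.proj Fin.elim0)
  | L + 1 => up (ip L) 0 0 + (up (ip L) 1 1 + up (ip L) 2 2)

def zz : (L : ℕ) → BF L
  | 0 => (-3 : ℤ) • ip 0
  | L + 1 => (5 : ℤ) • up (ip L) 0 0 + (-5 : ℤ) • up (ip L) 2 2

def ww : (L : ℕ) → BF L
  | 0 => 0
  | L + 1 => (10 : ℤ) • up (ip L) 1 0 + (10 : ℤ) • up (ip L) 2 1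

def mm : (L : ℕ) → BF L
  | 0 => 0
  | L + 1 => up (zz L + mm L) 0 0 + ((up (mm L) 1 1 + up (ww L) 0 1)
      + (up (mm L - zz L) 2 2 + up (ww L) 1 2))

theorem ip_zero (x y : V 0) : ip 0 x y = x Fin.elim0 * y Fin.elim0 := rfl

theorem ip_succ {L : ℕ} (x y : V (L + 1)) : ip (L + 1) x y
    = ip L (cp 0 x) (cp 0 y) + ip L (cp 1 x) (cp 1 y) + ip L (cp 2 x) (cp 2 y) := by
  simp only [ip, LinearMap.add_apply, up_apply]
  ring

theorem zz_zero (x y : V 0) : zz 0 x y = -3 * ip 0 x y := rfl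

theorem zz_succ {L : ℕ} (x y : V (L + 1)) : zz (L + 1) x y
    = 5 * ip L (cp 0 x) (cp 0 y) - 5 * ip L (cp 2 x) (cp 2 y) := by
  simp only [zz, LinearMap.add_apply, LinearMap.smul_apply, up_apply, smul_eq_mul]
  ring

theorem ww_succ {L : ℕ} (x y : V (L + 1)) : ww (L + 1) x y
    = 10 * ip L (cp 1 x) (cp 0 y) + 10 * ip L (cp 2 x) (cp 1 y) := by
  simp only [ww, LinearMap.add_apply, LinearMap.smul_apply, up_apply, smul_eq_mul]

theorem mm_succ {L : ℕ} (x y : V (L + 1)) : mm (L + 1) x y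
    = zz L (cp 0 x) (cp 0 y) + mm L (cp 0 x) (cp 0 y) + mm L (cp 1 x) (cp 1 y)
      + ww L (cp 0 x) (cp 1 y) + mm L (cp 2 x) (cp 2 y) - zz L (cp 2 x) (cp 2 y)
      + ww L (cp 1 x) (cp 2 y) := by
  simp only [mm, LinearMap.add_apply, LinearMap.sub_apply, up_apply]
  ring

/-! ### the invariant -/

structure Inv (Z : Type) [CommRing Z] {L : ℕ} (s : St) (g h : Fin 6 → V L) : Prop where
  n : Rep Z s.N fun i j => ip L (g j) (g i)
  z : Rep Z s.Z fun i j => zz L (g j) (g i)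
  w : Rep Z s.W fun i j => ww L (g j) (h i)
  m : Rep Z s.M fun i j => mm L (g j) (g i)

section ring
variable {Z : Type} [CommRing Z]

theorem inv_eS {L : ℕ} {g : Fin 6 → V L} (hg : ∀ a, g a = 0) (h : Fin 6 → V L) : Inv Z eS g h :=
  ⟨rep_nil.congr fun _ _ => by simp [hg], rep_nil.congr fun _ _ => by simp [hg],
    rep_nil.congr fun _ _ => by simp [hg], rep_nil.congr fun _ _ => by simp [hg]⟩

/-- the first half of a sandwich -/
theorem rep_half (hM : ((MM : ℕ) : Z) = 0) {L : ℕ} (B : BF L) (A : List ℕ) {Y : Mat}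
    (g h : Fin 6 → V L) (hY : Rep Z Y fun i j => B (g j) (h i)) :
    Rep Z (mT A Y) fun b a => B (lin A g b) (h a) :=
  rep_mT hM A (fun a => B.flip (h a)) g hY

theorem inv_blk (hM : ((MM : ℕ) : Z) = 0) {L : ℕ} (a b : Tri) {s0 s1 s2 : St}
    {g0 g1 g2 g3 : Fin 6 → V L} (h0 : Inv Z s0 g0 g1) (h1 : Inv Z s1 g1 g2) (h2 : Inv Z s2 g2 g3)
    {x y : Fin 6 → V (L + 1)} (x0 : ∀ i, cp 0 (x i) = lin a.a0 g0 i)
    (x1 : ∀ i, cp 1 (x i) = lin a.a1 g1 i) (x2 : ∀ i, cp 2 (x i) = lin a.a2 g2 i)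
    (y0 : ∀ i, cp 0 (y i) = lin b.a0 g1 i) (y1 : ∀ i, cp 1 (y i) = lin b.a1 g2 i) :
    Inv Z (blk a b s0 s1 s2) x y := by
  have c1 : ((1 : ℕ) : Z) = ((1 : ℤ) : Z) := by simp
  have c5 : ((5 : ℕ) : Z) = ((5 : ℤ) : Z) := by simp
  have c10 : ((10 : ℕ) : Z) = ((10 : ℤ) : Z) := by simp
  have n1 : ((ng 1 : ℕ) : Z) = ((-1 : ℤ) : Z) := by rw [ng_cast hM (by norm_num)]; simp
  have n5 : ((ng 5 : ℕ) : Z) = ((-5 : ℤ) : Z) := by rw [ng_cast hM (by norm_num)]; simp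
  have Y0 := rep_half hM (ip L) a.a0 g0 g0 h0.n
  have Y1 := rep_half hM (ip L) a.a1 g1 g1 h1.n
  have Y2 := rep_half hM (ip L) a.a2 g2 g2 h2.n
  have G0 := rep_mT hM a.a0 (fun i => ip L (lin a.a0 g0 i)) g0 Y0
  have G1 := rep_mT hM a.a1 (fun i => ip L (lin a.a1 g1 i)) g1 Y1
  have G2 := rep_mT hM a.a2 (fun i => ip L (lin a.a2 g2 i)) g2 Y2
  have W1 := rep_mT hM b.a0 (fun i => ip L (lin a.a1 g1 i)) g1 Y1
  have W2 := rep_mT hM b.a1 (fun i => ip L (lin a.a2 g2 i)) g2 Y2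
  have X0 := rep_half hM (zz L + mm L) a.a0 g0 g0
    ((rep_lc 1 c1 h0.z h0.m).congr fun _ _ => by simp)
  have X2 := rep_half hM (mm L - zz L) a.a2 g2 g2
    ((rep_lc (-1) n1 h2.z h2.m).congr fun _ _ => by simp [sub_eq_neg_add])
  have M0 := rep_mT hM a.a0 (fun i => (zz L + mm L) (lin a.a0 g0 i)) g0 X0
  have M1 := rep_mT hM a.a1 (fun i => mm L (lin a.a1 g1 i) + ww L (lin a.a0 g0 i)) g1
    ((rep_lc 1 c1 (rep_half hM (mm L) a.a1 g1 g1 h1.m) (rep_half hM (ww L) a.a0 g0 g1 h0.w)).congr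
      fun _ _ => by simp)
  have M2 := rep_mT hM a.a2 (fun i => (mm L - zz L) (lin a.a2 g2 i) + ww L (lin a.a1 g1 i)) g2
    ((rep_lc 1 c1 X2 (rep_half hM (ww L) a.a1 g1 g2 h1.w)).congr fun _ _ => by simp)
  rw [blk_eq]
  refine ⟨(rep_lc 1 c1 G0 (rep_lc 1 c1 G1 G2)).congr fun i j => ?_,
    (rep_lc 5 c5 G0 (rep_lc (-5) n5 G2 rep_nil)).congr fun i j => ?_,
    (rep_lc 10 c10 W1 (rep_lc 10 c10 W2 rep_nil)).congr fun i j => ?_,
    (rep_lc 1 c1 M0 (rep_lc 1 c1 M1 M2)).congr fun i j => ?_⟩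
  · simp only [ip_succ, x0, x1, x2]
    ring
  · simp only [zz_succ, x0, x2]
    ring
  · simp only [ww_succ, x1, x2, y0, y1]
    ring
  · simp only [mm_succ, x0, x1, x2, LinearMap.add_apply, LinearMap.sub_apply]
    ring

end ring

def sel (a : Tri) : Fin 3 → List ℕ := ![a.a0, a.a1, a.a2]

/-- the right half states -/
def psi (T : ℕ → List Tri) : (L : ℕ) → ℕ → Fin 6 → V L
  | 0, k, a => fun _ => if k = 3 ∧ a = 0 then 1 else 0
  | _ + 1, 0, _ => 0
  | L + 1, k + 1, a => fun σ =>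
    lin (sel ((T L).getD k eT) (σ 0)) (psi T L (k + σ 0)) a (Fin.tail σ)

theorem cp_psi (T : ℕ → List Tri) (L k : ℕ) (s : Fin 3) (a : Fin 6) :
    cp s (psi T (L + 1) (k + 1) a) = lin (sel ((T L).getD k eT) s) (psi T L (k + s)) a := by
  funext τ
  simp only [cp_apply, psi, Fin.cons_zero, Fin.tail_cons]

theorem lin_nil {W : Type} [AddCommGroup W] (g : Fin 6 → W) (b : Fin 6) : lin [] g b = 0 := by
  simp [lin, cA]

theorem inv_stt {Z : Type} [CommRing Z] (hM : ((MM : ℕ) : Z) = 0) (T : ℕ → List Tri) (L k : ℕ) :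
    Inv Z ((stt T L).getD k eS) (psi T L k) (psi T L (k + 1)) := by
  induction L generalizing k with
  | zero =>
    by_cases hk : k = 3
    · subst hk
      have n3 : ((ng 3 : ℕ) : Z) = -3 := by rw [ng_cast hM (by norm_num)]; simp
      have e : (stt T 0).getD 3 eS
          = ⟨[fin ⟨1, 0, 0, 0, 0, 0, 0⟩], [fin ⟨ng 3, 0, 0, 0, 0, 0, 0⟩], [], []⟩ := rfl
      have e' : ∀ (x : R) (i : Fin 6), i ≠ 0 → [x].getD i zR = zR := by
        intro x i hi
        fin_cases i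
        · exact absurd rfl hi
        all_goals rfl
      rw [e]
      refine ⟨fun i => ?_, fun i => ?_, rep_nil.congr fun _ _ => rfl, rep_nil.congr fun _ _ => rfl⟩
      · by_cases hi : i = 0
        · subst hi
          refine repR_fin hM ⟨1, 0, 0, 0, 0, 0, 0⟩ _ fun j => ?_
          fin_cases j <;> simp [R.e, ip_zero, psi]
        · rw [e' _ i hi]
          simpa [ip_zero, psi, hi] using repR_zero (Z := Z)
      · by_cases hi : i = 0
        · subst hi
          refine repR_fin hM ⟨ng 3, 0, 0, 0, 0, 0, 0⟩ _ fun j => ?_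
          fin_cases j <;> simp [R.e, zz_zero, ip_zero, psi, n3]
        · rw [e' _ i hi]
          simpa [zz_zero, ip_zero, psi, hi] using repR_zero (Z := Z)
    · have : (stt T 0).getD k eS = eS := by
        rcases k with _ | _ | _ | _ | k
        · rfl
        · rfl
        · rfl
        · exact absurd rfl hk
        · rfl
      rw [this]
      exact inv_eS (fun a => by funext σ; simp [psi, hk]) _
  | succ L ih =>
    cases k with
    | zero => exact inv_eS (fun _ => rfl) _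
    | succ k =>
      show Inv Z ((stepL (T L) (stt T L)).getD k eS) _ _
      rcases stepL_getD (T L) (stt T L) k with h | ⟨h, h'⟩
      · rw [h]
        exact inv_blk hM _ _ (ih k) (ih (k + 1)) (ih (k + 2)) (cp_psi T L k 0) (cp_psi T L k 1)
          (cp_psi T L k 2) (cp_psi T L (k + 1) 0) (cp_psi T L (k + 1) 1)
      · rw [h]
        refine inv_eS (fun a => ?_) _
        funext σ
        have : sel eT (σ 0) = [] := by
          generalize σ 0 = s
          fin_cases s <;> rfl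
        simp only [psi, h', this, lin_nil]
        rfl

/-! ### a priori bounds -/

theorem abs_lin {L : ℕ} (A : List ℕ) (g : Fin 6 → V L) (b : Fin 6) (σ : Cfg L) {r : ℤ}
    (h : ∀ i, |g i σ| ≤ r) : |lin A g b σ| ≤ r * 65536 := by
  have hr : 0 ≤ r := (abs_nonneg _).trans (h 0)
  have : ∀ i : Fin 6, |cA A b i * g i σ| ≤ 8192 * r := fun i => by
    rw [abs_mul]
    exact mul_le_mul (abs_cA _ _ _) (h i) (abs_nonneg _) (by norm_num)
  simp only [lin, Finset.sum_apply, Pi.smul_apply, smul_eq_mul]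
  refine (Finset.abs_sum_le_sum_abs _ _).trans ((Finset.sum_le_sum fun i _ => this i).trans ?_)
  simp only [Finset.sum_const, Finset.card_univ, Fintype.card_fin, nsmul_eq_mul]
  push_cast
  linarith

theorem abs_psi (T : ℕ → List Tri) (L k : ℕ) (a : Fin 6) (σ : Cfg L) :
    |psi T L k a σ| ≤ 65536 ^ L := by
  induction L generalizing k a with
  | zero =>
    simp only [psi]
    split_ifs <;> simp
  | succ L ih =>
    cases k with
    | zero => simp [psi]
    | succ k =>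
      rw [pow_succ]
      exact abs_lin _ _ _ _ fun i => ih _ i _

theorem abs_forms (L : ℕ) (r : ℤ) (x y : V L) (hx : ∀ σ, |x σ| ≤ r) (hy : ∀ σ, |y σ| ≤ r) :
    |ip L x y| ≤ 4 ^ L * r ^ 2 ∧ |zz L x y| ≤ 10 * (4 ^ L * r ^ 2) ∧
      |ww L x y| ≤ 20 * (4 ^ L * r ^ 2) ∧ |mm L x y| ≤ 60 * (4 ^ L * r ^ 2) := by
  induction L with
  | zero =>
    have hr : 0 ≤ r := (abs_nonneg _).trans (hx Fin.elim0)
    have h1 : |ip 0 x y| ≤ r ^ 2 := by
      rw [ip_zero, abs_mul, sq]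
      exact mul_le_mul (hx _) (hy _) (abs_nonneg _) hr
    have h2 := sq_nonneg r
    simp only [pow_zero, one_mul, zz_zero, ww, mm, LinearMap.zero_apply, abs_zero]
    rw [abs_le] at h1
    refine ⟨abs_le.2 h1, abs_le.2 ⟨?_, ?_⟩, ?_, ?_⟩ <;> linarith [h1.1, h1.2]
  | succ L ih =>
    have key : ∀ s t : Fin 3, _ := fun s t =>
      ih (cp s x) (cp t y) (fun τ => hx _) (fun τ => hy _)
    simp only [abs_le] at key
    have hu : 0 ≤ 4 ^ L * r ^ 2 := by positivity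
    have e : (4 : ℤ) ^ (L + 1) * r ^ 2 = 4 * (4 ^ L * r ^ 2) := by ring
    rw [e, ip_succ, zz_succ, ww_succ, mm_succ]
    generalize (4 : ℤ) ^ L * r ^ 2 = u at key hu
    obtain ⟨⟨a1, a2⟩, ⟨a3, a4⟩, -, a5, a6⟩ := key 0 0
    obtain ⟨⟨b1, b2⟩, -, -, b5, b6⟩ := key 1 1
    obtain ⟨⟨c1, c2⟩, ⟨c3, c4⟩, -, c5, c6⟩ := key 2 2
    obtain ⟨⟨d1, d2⟩, -⟩ := key 1 0
    obtain ⟨⟨e1, e2⟩, -⟩ := key 2 1
    obtain ⟨-, -, ⟨f1, f2⟩, -⟩ := key 0 1
    obtain ⟨-, -, ⟨g1, g2⟩, -⟩ := key 1 2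
    refine ⟨abs_le.2 ⟨?_, ?_⟩, abs_le.2 ⟨?_, ?_⟩, abs_le.2 ⟨?_, ?_⟩, abs_le.2 ⟨?_, ?_⟩⟩ <;> linarith

theorem recover {m h r : ℕ} (hm : m = 2 * h) {x : ℤ} (e : (r : ZMod m) = (x : ZMod m))
    (hr : r ≤ h) (hx : |x| < h) : x = r := by
  have e' : ((r : ℤ) : ZMod m) = (x : ZMod m) := by rw [← e, Int.cast_natCast]
  rw [ZMod.intCast_eq_intCast_iff_dvd_sub] at e'
  have : x - r = 0 := by
    refine Int.eq_zero_of_abs_lt_dvd e' ?_
    rw [abs_lt] at hx ⊢
    omega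
  omega

/-! ### the forms as sums over configurations -/

theorem ip_sum (L : ℕ) (x y : V L) : (ip L x y : ℝ) = ∑ σ, (x σ : ℝ) * y σ := by
  induction L with
  | zero =>
    rw [ip_zero, Fintype.sum_subsingleton _ Fin.elim0]
    push_cast
    rfl
  | succ L ih =>
    rw [ip_succ, mps_sum_cons, Fin.sum_univ_three]
    push_cast
    rw [ih, ih, ih]
    rfl

theorem zz_sum (L : ℕ) (x : V (L + 1)) :
    (zz (L + 1) x x : ℝ) = 5 * ∑ σ, (magneticNumber (σ 0) : ℝ) * ((x σ : ℝ) * x σ) := by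
  have m0 : magneticNumber 0 = 1 := rfl
  have m1 : magneticNumber 1 = 0 := rfl
  have m2 : magneticNumber 2 = -1 := rfl
  rw [zz_succ, mps_sum_cons, Fin.sum_univ_three]
  push_cast
  simp only [ip_sum, cp_apply, Fin.cons_zero, m0, m1, m2]
  simp [mul_add, sub_eq_add_neg]

theorem mm_sum (L : ℕ) (x : V (L + 1)) :
    (mm (L + 1) x x : ℝ) = 5 * mpsQ (L + 1) (fun σ => (x σ : ℝ))
      - 3 * ∑ σ, (magneticNumber (σ (Fin.last L)) : ℝ) * ((x σ : ℝ) * x σ) := by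
  induction L with
  | zero =>
    have := zz_sum 0 x
    rw [zz_succ] at this
    rw [mpsQ_one, mm_succ]
    simp only [zz_zero, mm, ww, LinearMap.zero_apply]
    push_cast at this ⊢
    linarith
  | succ L ih =>
    rw [mm_succ, mpsQ_succ, mps_sum_cons (L := L + 1), Fin.sum_univ_three, Fin.sum_univ_three]
    push_cast
    rw [ih, ih, ih]
    simp only [zz_succ, ww_succ]
    push_cast
    have e : ∀ (s : Fin 3) (τ : Cfg (L + 1)),
        (Fin.cons s τ : Cfg (L + 1 + 1)) (Fin.last (L + 1)) = τ (Fin.last L) := fun s τ => by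
      rw [← Fin.succ_last, Fin.cons_succ]
    simp only [ip_sum, cp_apply, e, Finset.sum_add_distrib, Finset.sum_sub_distrib,
      ← Finset.mul_sum]
    ring

theorem var_of_real (n : ℕ) (h1 h2 t : ℝ) (v : Cfg (n + 1) → ℝ) (hv : v ≠ 0)
    (h : mpsQ (n + 1) v - ∑ σ, (h1 * magneticNumber (σ 0)
      + h2 * magneticNumber (σ (Fin.last n))) * (v σ * v σ) ≤ t * ∑ σ, v σ * v σ) :
    Var (Hfld n h1 h2) t := by
  refine ⟨fun σ => (v σ : ℂ), ?_, ?_⟩
  · intro h0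
    apply hv
    funext σ
    simpa using congrFun h0 σ
  · have e1 : (star (fun σ => (v σ : ℂ)) ⬝ᵥ Hfld n h1 h2 *ᵥ fun σ => (v σ : ℂ))
        = ((mpsQ (n + 1) v - ∑ σ, (h1 * magneticNumber (σ 0)
            + h2 * magneticNumber (σ (Fin.last n))) * (v σ * v σ) : ℝ) : ℂ) := by
      simp only [dotProduct, Hfld, Matrix.sub_mulVec, Matrix.add_mulVec, Matrix.smul_mulVec,
        Pi.sub_apply, Pi.add_apply, Pi.smul_apply, mps_Hopen_mulVec, mps_onSiteZ, mps_hopO_cast,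
        Pi.star_apply, smul_eq_mul, mpsQ]
      push_cast
      rw [← Finset.sum_sub_distrib]
      refine Finset.sum_congr rfl fun σ _ => ?_
      simp only [RCLike.star_def, Complex.conj_ofReal]
      ring
    have e2 : (star (fun σ => (v σ : ℂ)) ⬝ᵥ fun σ => (v σ : ℂ)) = ((∑ σ, v σ * v σ : ℝ) : ℂ) := by
      simp only [dotProduct, Pi.star_apply, RCLike.star_def, Complex.conj_ofReal]
      push_cast
      rfl
    rw [e1, e2, Complex.ofReal_re, Complex.ofReal_re]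
    exact h

theorem var_of_int (n : ℕ) (t : ℝ) (x : V (n + 1)) (hx : 0 < ip (n + 1) x x)
    (h : ((5 * mm (n + 1) x x + 3 * zz (n + 1) x x : ℤ) : ℝ) ≤ 25 * t * ip (n + 1) x x) :
    Var (Hfld n (-(3 / 5)) (3 / 5)) t := by
  refine var_of_real n _ _ t (fun σ => (x σ : ℝ)) ?_ ?_
  · intro h0
    have : x = 0 := by
      funext σ
      simpa using congrFun h0 σ
    simp [this] at hx
  · rw [← ip_sum]
    push_cast at h
    rw [mm_sum, zz_sum] at h
    simp only [add_mul, Finset.sum_add_distrib, mul_assoc, ← Finset.mul_sum]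
    linarith

theorem MM_eq : MM = 2 * Nat.pow 2 3199 := by decide +kernel

theorem bound_lt : 330 * (4 ^ 88 * (65536 ^ 88) ^ 2) < Nat.pow 2 3199 := by decide +kernel

/-- soundness of the checker -/
theorem var_of_check (T : ℕ → List Tri) (p q n : ℕ) (hn : n + 1 ≤ 88) (hq : 0 < q)
    (h : check T p q (n + 1) = true) : Var (Hfld n (-(3 / 5)) (3 / 5)) (-((p : ℝ) / q)) := by
  rw [check, run_eq, hd_eq, getD_tl, getD_tl, getD_tl] at h
  have hM : ((MM : ℕ) : ZMod MM) = 0 := ZMod.natCast_self MM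
  have I := inv_stt hM T (n + 1) 3
  have hb := bound_lt
  have hMM := MM_eq
  generalize (stt T (n + 1)).getD _ eS = s at h I
  simp only [ok, Bool.and_eq_true, Nat.blt_eq, Nat.ble_eq, Nat.mul_eq] at h
  generalize Nat.pow 2 3199 = H at h hb hMM
  obtain ⟨⟨⟨h1, h2⟩, h3⟩, h4⟩ := h
  set x := psi T (n + 1) 3 0 with hx
  have eN : ((resN s : ℕ) : ZMod MM) = ((ip (n + 1) x x : ℤ) : ZMod MM) := by
    rw [resN, hd_eq]
    exact (cast_mod hM _).trans ((I.n 0).1 0)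
  have eE : ((resE s : ℕ) : ZMod MM)
      = ((-(5 * mm (n + 1) x x + 3 * zz (n + 1) x x) : ℤ) : ZMod MM) := by
    have a1 : (((s.M.getD 0 zR).x0 : ℕ) : ZMod MM) = ((mm (n + 1) x x : ℤ) : ZMod MM) :=
      (I.m 0).1 0
    have a2 : (((s.Z.getD 0 zR).x0 : ℕ) : ZMod MM) = ((zz (n + 1) x x : ℤ) : ZMod MM) :=
      (I.z 0).1 0
    rw [resE, hd_eq, hd_eq]
    refine (cast_mod hM _).trans ?_
    simp only [Nat.add_eq, Nat.mul_eq, Nat.cast_add, Nat.cast_mul]
    rw [a1, a2, ng_cast hM (by norm_num), ng_cast hM (by norm_num)]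
    push_cast
    ring
  obtain ⟨b1, b2, -, b4⟩ := abs_forms (n + 1) (65536 ^ 88) x x
    (fun σ => (abs_psi T _ _ _ σ).trans (pow_le_pow_right₀ (by norm_num) hn))
    (fun σ => (abs_psi T _ _ _ σ).trans (pow_le_pow_right₀ (by norm_num) hn))
  have hb' : 330 * ((4 : ℤ) ^ 88 * (65536 ^ 88) ^ 2) < H := by exact_mod_cast hb
  have hu : (4 : ℤ) ^ (n + 1) * (65536 ^ 88) ^ 2 ≤ 4 ^ 88 * (65536 ^ 88) ^ 2 :=
    mul_le_mul_of_nonneg_right (pow_le_pow_right₀ (by norm_num) hn) (sq_nonneg _)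
  have hu0 : 0 ≤ (4 : ℤ) ^ (n + 1) * (65536 ^ 88) ^ 2 := by positivity
  generalize (4 : ℤ) ^ (n + 1) * (65536 ^ 88) ^ 2 = u at b1 b2 b4 hu hu0
  generalize (4 : ℤ) ^ 88 * (65536 ^ 88) ^ 2 = u' at hb' hu
  have rN := recover hMM eN h2 (by linarith)
  have rE := recover hMM eE h3 (by
    rw [abs_le] at b2 b4
    rw [abs_lt]
    constructor <;> linarith [b2.1, b2.2, b4.1, b4.2])
  refine var_of_int n _ x (by rw [rN]; exact_mod_cast h1) ?_
  have : 5 * mm (n + 1) x x + 3 * zz (n + 1) x x = -(resE s : ℤ) := by linarith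
  rw [this, rN]
  have h5 : (25 : ℝ) * p * resN s ≤ q * resE s := by exact_mod_cast h4
  have hq' : (0 : ℝ) < q := by exact_mod_cast hq
  push_cast
  have : 25 * -((p : ℝ) / q) * resN s = -(25 * p * resN s / q) := by ring
  rw [this, neg_le_neg_iff, div_le_iff₀ hq']
  linarith

end Crest.Agent.R347.MO
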