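import Crest.Agent.R347.Lim

/-! Row 347: from the seeds to the gap. -/

set_option autoImplicit false
open Crest.MathPhysics.SpinChain Matrix Filter Topology

namespace Crest.Agent.R347

theorem gap_mono {ι : Type} [Fintype ι] {H : Matrix ι ι ℂ} {c c' : ℝ} (h : c' ≤ c)
    (hg : HasSimpleGroundStateWithGap H c) : HasSimpleGroundStateWithGap H c' := by
  obtain ⟨E, ψ, h1, h2, h3⟩ := hg
  refine ⟨E, ψ, h1, h2, fun φ h4 h5 => lt_of_le_of_lt ?_ (h3 φ h4 h5)⟩
  refine mul_le_mul_of_nonneg_right (by linarith) ?_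
  simp only [dotProduct, Complex.re_sum, Pi.star_apply]
  refine Finset.sum_nonneg fun i _ => ?_
  rw [Complex.star_def, Complex.conj_mul']
  norm_cast
  positivity

theorem le_exp_of (x y : ℚ) (hy : |y| ≤ 64) (h : x ≤ expL y) : (x : ℝ) ≤ Real.exp y :=
  (Rat.cast_le.2 h).trans (expL_le_exp y hy)

theorem theta_ring : (964 / 1000 : ℝ) ≤ Real.exp (-(b0 * (Real.log 20 / 784))) := by
  have h1 := le_exp_of 20 3 (by norm_num [abs_le]) (by decide +kernel)
  have h2 := le_exp_of (964 / 1000) (-(57 / 1568)) (by norm_num [abs_le]) (by decide +kernel)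
  push_cast at h1 h2
  have h3 : Real.log 20 ≤ 3 := (Real.log_le_iff_le_exp (by norm_num)).2 h1
  refine h2.trans (Real.exp_le_exp.2 ?_)
  unfold b0
  linarith

theorem theta_open : (945 / 1000 : ℝ) ≤ Real.exp (-(b0 * (Real.log 10 / 392))) := by
  have h1 := le_exp_of 10 (231 / 100) (by norm_num [abs_le]) (by decide +kernel)
  have h2 := le_exp_of (945 / 1000) (-(4389 / 78400)) (by norm_num [abs_le]) (by decide +kernel)
  push_cast at h1 h2
  have h3 : Real.log 10 ≤ 231 / 100 := (Real.log_le_iff_le_exp (by norm_num)).2 h1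
  refine h2.trans (Real.exp_le_exp.2 ?_)
  unfold b0
  linarith

theorem theta_pow {θ c : ℝ} (h0 : 0 ≤ θ) (h : θ ≤ Real.exp (-(b0 * c))) (j : ℕ) :
    θ ^ j ≤ Real.exp (-((j : ℝ) * b0 * c)) := by
  refine (pow_le_pow_left₀ h0 h j).trans (le_of_eq ?_)
  rw [← Real.exp_nat_mul]; congr 1; ring

theorem gap_ring (H : Num) (L : ℕ) (hL : Even L) (h60 : 60 ≤ L) :
    HasSimpleGroundStateWithGap (heisenbergRing L) (Real.log 20 / 784) := by
  obtain ⟨k, κ, hκ, hS⟩ := rec_ring L hL h60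
  obtain ⟨n, rfl⟩ : ∃ n, L = n + 1 := ⟨L - 1, by omega⟩
  have hn : 1 ≤ n := by omega
  have hlim : zI 1 1 n (2 ^ k) ^ 2 ≤ κ * zI 1 1 n (2 * 2 ^ k) := by
    refine le_of_tendsto_of_tendsto ((lim_z 1 1 n hn (2 ^ k)).pow 2)
      ((lim_z 1 1 n hn (2 * 2 ^ k)).const_mul κ) ?_
    filter_upwards [ev_seeds H] with N hN
    have := hS (sys N) (mN N) hN
    rwa [sys_Z, sys_Z, ← mul_assoc] at this
  rw [ring_eq n hn]
  have hb : 0 < ((2 ^ k : ℕ) : ℝ) * b0 := mul_pos (by positivity) b0_pos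
  refine gap_of_purity _ (Htw_herm n hn 1) (((2 ^ k : ℕ) : ℝ) * b0) (e0 * (n + 1)) _ _ κ hb
    (div_nonneg (Real.log_nonneg (by norm_num)) (by norm_num)) (by positivity)
    (theta_pow (by norm_num) theta_ring (2 ^ k)) hκ ?_
  unfold zI at hlim
  rw [kAll_one, Matrix.one_mul, Matrix.one_mul] at hlim
  convert hlim using 4
  push_cast; ring

theorem gap_open (H : Num) (L : ℕ) (hL : 960 ≤ L) :
    HasSimpleGroundStateWithGap (openChainEndField (2 * L) (3 / 5)) (Real.log 10 / 392) := by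
  obtain ⟨k, κ, hκ, hS⟩ := rec_open L hL
  have hlim : wI (3 / 5) (3 / 5) (2 * L) (2 ^ k) ^ 2 ≤ κ * wI (3 / 5) (3 / 5) (2 * L) (2 * 2 ^ k) := by
    refine le_of_tendsto_of_tendsto ((lim_w _ _ (2 * L) (2 ^ k)).pow 2)
      ((lim_w _ _ (2 * L) (2 * 2 ^ k)).const_mul κ) ?_
    filter_upwards [ev_seeds H] with N hN
    have := hS (sys N) (mN N) hN
    rwa [sys_Wp, sys_Wp, ← mul_assoc] at this
  rw [open_eq]
  have hb : 0 < ((2 ^ k : ℕ) : ℝ) * b0 := mul_pos (by positivity) b0_pos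
  refine gap_of_purity _ (Hfld_herm _ _ _) (((2 ^ k : ℕ) : ℝ) * b0) (e0 * ((2 * L : ℕ) + 1)) _ _ κ hb
    (div_nonneg (Real.log_nonneg (by norm_num)) (by norm_num)) (by positivity)
    (theta_pow (by norm_num) theta_open (2 ^ k)) hκ ?_
  unfold wI at hlim
  convert hlim using 4
  push_cast; ring

theorem small_le : 4 / 105 * Real.log (80 / 79) ≤ Real.log 20 / 784 := by
  have h1 : Real.log (80 / 79) ≤ 80 / 79 - 1 := Real.log_le_sub_one_of_pos (by norm_num)
  have h2 : 1 - (20 : ℝ)⁻¹ ≤ Real.log 20 := Real.one_sub_inv_le_log_of_pos (by norm_num)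
  linarith

end Crest.Agent.R347
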