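import Crest.Agent.R347.Lim
import Crest.Agent.R347.BR6
import Crest.Agent.R347.BR7
import Crest.Agent.R347.BR8
import Crest.Agent.R347.BR9
import Crest.Agent.R347.BR10
import Crest.Agent.R347.BO4
import Crest.Agent.R347.BO5
import Crest.Agent.R347.BO6
import Crest.Agent.R347.BO7
import Crest.Agent.R347.BO8

/-! Row 347: the numerical facts. -/

set_option autoImplicit false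

namespace Crest.Agent.R347

theorem num : Num where
  one1 := by
    simp only [quad, gOne, Zl, Ol]
    norm_num only
    linarith [bd_Z0_6.1, bd_Z0_6.2, bd_Zp_6.1, bd_Zp_6.2, bd_Zw_6.1, bd_Zw_6.2, bd_Z0_7.1, bd_Z0_7.2, bd_Zp_7.1, bd_Zp_7.2, bd_Zw_7.1, bd_Zw_7.2, bd_Z0_8.1, bd_Z0_8.2, bd_Zp_8.1, bd_Zp_8.2, bd_Zw_8.1, bd_Zw_8.2, bd_Z0_9.1, bd_Z0_9.2, bd_Zp_9.1, bd_Zp_9.2, bd_Zw_9.1, bd_Zw_9.2, bd_Z0_10.1, bd_Z0_10.2, bd_Zp_10.1, bd_Zp_10.2, bd_Zw_10.1, bd_Zw_10.2]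
  one2 := by
    simp only [quad, gOne, Zl, Ol]
    norm_num only
    linarith [bd_Z0_6.1, bd_Z0_6.2, bd_Zp_6.1, bd_Zp_6.2, bd_Zw_6.1, bd_Zw_6.2, bd_Z0_7.1, bd_Z0_7.2, bd_Zp_7.1, bd_Zp_7.2, bd_Zw_7.1, bd_Zw_7.2, bd_Z0_8.1, bd_Z0_8.2, bd_Zp_8.1, bd_Zp_8.2, bd_Zw_8.1, bd_Zw_8.2, bd_Z0_9.1, bd_Z0_9.2, bd_Zp_9.1, bd_Zp_9.2, bd_Zw_9.1, bd_Zw_9.2, bd_Z0_10.1, bd_Z0_10.2, bd_Zp_10.1, bd_Zp_10.2, bd_Zw_10.1, bd_Zw_10.2]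
  one3 := by
    simp only [gOne, Zl, Ol]
    norm_num only
    linarith [bd_Z0_10.1, bd_Z0_10.2, bd_Zp_10.1, bd_Zp_10.2, bd_Zw_10.1, bd_Zw_10.2]
  z1 := by
    simp only [quad, gZ, Zl, Ol]
    norm_num only
    linarith [bd_Z0_6.1, bd_Z0_6.2, bd_Zp_6.1, bd_Zp_6.2, bd_Z0_7.1, bd_Z0_7.2, bd_Zp_7.1, bd_Zp_7.2, bd_Z0_8.1, bd_Z0_8.2, bd_Zp_8.1, bd_Zp_8.2, bd_Z0_9.1, bd_Z0_9.2, bd_Zp_9.1, bd_Zp_9.2, bd_Z0_10.1, bd_Z0_10.2, bd_Zp_10.1, bd_Zp_10.2]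
  z2 := by
    simp only [quad, gZ, Zl, Ol]
    norm_num only
    linarith [bd_Z0_6.1, bd_Z0_6.2, bd_Zp_6.1, bd_Zp_6.2, bd_Z0_7.1, bd_Z0_7.2, bd_Zp_7.1, bd_Zp_7.2, bd_Z0_8.1, bd_Z0_8.2, bd_Zp_8.1, bd_Zp_8.2, bd_Z0_9.1, bd_Z0_9.2, bd_Zp_9.1, bd_Zp_9.2, bd_Z0_10.1, bd_Z0_10.2, bd_Zp_10.1, bd_Zp_10.2]
  z3 := by
    simp only [gZ, Zl, Ol]
    norm_num only
    linarith [bd_Z0_10.1, bd_Z0_10.2, bd_Zp_10.1, bd_Zp_10.2]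
  a1 := by
    simp only [quad, gA, Zl, Ol]
    norm_num only
    linarith [bd_Y0_6.1, bd_Y0_6.2, bd_Yw_6.1, bd_Yw_6.2, bd_Yx_6.1, bd_Yx_6.2, bd_Y0_7.1, bd_Y0_7.2, bd_Yw_7.1, bd_Yw_7.2, bd_Yx_7.1, bd_Yx_7.2, bd_Y0_8.1, bd_Y0_8.2, bd_Yw_8.1, bd_Yw_8.2, bd_Yx_8.1, bd_Yx_8.2, bd_Y0_9.1, bd_Y0_9.2, bd_Yw_9.1, bd_Yw_9.2, bd_Yx_9.1, bd_Yx_9.2, bd_Y0_10.1, bd_Y0_10.2, bd_Yw_10.1, bd_Yw_10.2, bd_Yx_10.1, bd_Yx_10.2]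
  a2 := by
    simp only [quad, gA, Zl, Ol]
    norm_num only
    linarith [bd_Y0_6.1, bd_Y0_6.2, bd_Yw_6.1, bd_Yw_6.2, bd_Yx_6.1, bd_Yx_6.2, bd_Y0_7.1, bd_Y0_7.2, bd_Yw_7.1, bd_Yw_7.2, bd_Yx_7.1, bd_Yx_7.2, bd_Y0_8.1, bd_Y0_8.2, bd_Yw_8.1, bd_Yw_8.2, bd_Yx_8.1, bd_Yx_8.2, bd_Y0_9.1, bd_Y0_9.2, bd_Yw_9.1, bd_Yw_9.2, bd_Yx_9.1, bd_Yx_9.2, bd_Y0_10.1, bd_Y0_10.2, bd_Yw_10.1, bd_Yw_10.2, bd_Yx_10.1, bd_Yx_10.2]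
  a3 := by
    simp only [gA, Zl, Ol]
    norm_num only
    linarith [bd_Y0_10.1, bd_Y0_10.2, bd_Yw_10.1, bd_Yw_10.2, bd_Yx_10.1, bd_Yx_10.2]
  e3 := by
    simp only [gE, Zl, Ol]
    norm_num only
    linarith [bd_Z0_10.1, bd_Z0_10.2, bd_Zp_10.1, bd_Zp_10.2, bd_Zw_10.1, bd_Zw_10.2]
  b3 := by
    simp only [gB, Zl, Ol]
    norm_num only
    linarith [bd_Y0_10.1, bd_Y0_10.2, bd_Yw_10.1, bd_Yw_10.2, bd_Yx_10.1, bd_Yx_10.2]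
  c3 := by
    simp only [gC, Zl, Ol]
    norm_num only
    linarith [bd_Y0_10.1, bd_Y0_10.2, bd_Yw_10.1, bd_Yw_10.2]
  w8 := by
    simp only [Ol]
    norm_num only
    linarith [bd_Wm_8.1, bd_Wm_8.2]
  qo := by
    simp only [gS, Zl, Ol]
    norm_num only
    linarith [bd_Wm_4.1, bd_Wm_4.2, bd_Wp_4.1, bd_Wp_4.2, bd_Wm_5.1, bd_Wm_5.2, bd_Wp_5.1, bd_Wp_5.2, bd_Wm_6.1, bd_Wm_6.2, bd_Wp_6.1, bd_Wp_6.2, bd_Wm_7.1, bd_Wm_7.2, bd_Wp_7.1, bd_Wp_7.2, bd_Wm_8.1, bd_Wm_8.2, bd_Wp_8.1, bd_Wp_8.2]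

end Crest.Agent.R347
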