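import Crest.Agent.R347.Defs

/-! Row 347: the doubling recursion, part 1 (torus partition functions). -/

set_option autoImplicit false
set_option linter.unusedVariables false

namespace Crest.Agent.R347

/-- a convex quadratic is maximal at an end point -/
theorem rec_cvx (A B C lo hi x : ℝ) (hA : 0 ≤ A) (h1 : lo ≤ x) (h2 : x ≤ hi) :
    A * x ^ 2 + B * x + C ≤ A * lo ^ 2 + B * lo + C ∨
      A * x ^ 2 + B * x + C ≤ A * hi ^ 2 + B * hi + C := by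
  by_cases h : A * (x + lo) + B ≤ 0
  · left
    nlinarith [mul_nonneg (sub_nonneg.2 h1) (neg_nonneg.2 h)]
  · right
    push Not at h
    have h3 : 0 ≤ A * (hi + x) + B := by
      nlinarith [mul_nonneg hA (sub_nonneg.2 (h1.trans h2))]
    nlinarith [mul_nonneg (sub_nonneg.2 h2) h3]

theorem rec_comb {α q a t c : ℝ} (h0 : 0 ≤ α) (h1 : α ≤ a) (hq : 0 ≤ q) (ht : α + 3 * q ≤ t)
    (c1 : a ^ 2 + (t - a) ^ 2 / 3 ≤ c) (c2 : t ^ 2 / 3 ≤ c) : α ^ 2 + 3 * q ^ 2 ≤ c := by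
  have h3 : (3 * q) ^ 2 ≤ (t - α) ^ 2 := pow_le_pow_left₀ (by positivity) (by linarith) 2
  rcases rec_cvx (4 / 3) (-(2 / 3) * t) (t ^ 2 / 3) 0 a α (by norm_num) h0 h1 with h | h <;> nlinarith

theorem rec_mm {α q a t c : ℝ} (h0 : 0 ≤ α) (h1 : α ≤ a) (hq : 0 ≤ q) (ht : α + 3 * q ≤ t)
    (c1 : (1 + a) ^ 2 + (t - a) ^ 2 / 3 ≤ c) (c2 : 1 + t ^ 2 / 3 ≤ c) :
    (1 + α) ^ 2 + 3 * q ^ 2 ≤ c := by
  have h3 : (3 * q) ^ 2 ≤ (t - α) ^ 2 := pow_le_pow_left₀ (by positivity) (by linarith) 2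
  rcases rec_cvx (4 / 3) (2 - (2 / 3) * t) (1 + t ^ 2 / 3) 0 a α (by norm_num) h0 h1 with h | h <;>
    nlinarith

/-- normalised data -/
def RecD (Z Zp u a t : ℝ) : Prop := Z ≤ u * (1 + t) ∧ (Z + 3 * Zp) / 4 ≤ u * (1 + a)

theorem rec_nonneg0 {Z : ℕ → ℝ} {μ : ℝ} (h : Side0 Z μ) {n : ℕ} (hn : Even n) (h0 : 0 < n) :
    0 ≤ Z n := (pow_nonneg h.nonneg n).trans (h.top_le n hn h0)

theorem rec_sq0 {Z : ℕ → ℝ} {μ : ℝ} (h : Side0 Z μ) {n : ℕ} (hn : Even n) (h0 : 0 < n) :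
    Z (2 * n) ≤ Z n ^ 2 := by
  have h1 := h.sq n hn h0
  have h2 := h.top_le n hn h0
  have h3 := pow_nonneg h.nonneg n
  rw [pow_mul'] at h1
  nlinarith [mul_nonneg h3 (sub_nonneg.2 h2)]

theorem rec_norm {Z Zp : ℕ → ℝ} {μ : ℝ} (h : Side Z Zp μ) {n : ℕ} (hn : Even n) (h0 : 0 < n)
    (hμ : 0 < μ) {a t : ℝ} (hD : RecD (Z n) (Zp n) (μ ^ n) a t) (ht : t < 2) :
    Z n < 3 * μ ^ n ∧ ∃ α q : ℝ, 0 ≤ α ∧ α ≤ a ∧ 0 ≤ q ∧ α + 3 * q ≤ t ∧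
      (Z n + 3 * Zp n) / 4 = μ ^ n * (1 + α) ∧ (Z n - Zp n) / 4 = μ ^ n * q := by
  have hu : 0 < μ ^ n := pow_pos hμ n
  obtain ⟨d1, d2⟩ := hD
  have h3 : Z n < 3 * μ ^ n := by nlinarith
  have hP := h.Pge n hn h0 h3
  have hQ := h.Qnn n hn h0
  refine ⟨h3, (Z n + 3 * Zp n) / 4 / μ ^ n - 1, (Z n - Zp n) / 4 / μ ^ n, ?_, ?_, ?_, ?_, ?_, ?_⟩
  · rw [sub_nonneg, le_div_iff₀ hu]; linarith
  · rw [sub_le_iff_le_add, div_le_iff₀ hu]; linarith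
  · exact div_nonneg (by linarith) hu.le
  · have : (Z n + 3 * Zp n) / 4 / μ ^ n - 1 + 3 * ((Z n - Zp n) / 4 / μ ^ n) = Z n / μ ^ n - 1 := by
      field_simp; ring
    rw [this, sub_le_iff_le_add, div_le_iff₀ hu]; linarith
  · field_simp; ring
  · field_simp

theorem rec_sq {Z Zp : ℕ → ℝ} {μ : ℝ} (h : Side Z Zp μ) {n : ℕ} (hn : Even n) (h0 : 0 < n)
    (hμ : 0 < μ) {a t a' t' : ℝ} (hD : RecD (Z n) (Zp n) (μ ^ n) a t) (ht : t < 2)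
    (ha : a ^ 2 ≤ a') (c1 : a ^ 2 + (t - a) ^ 2 / 3 ≤ t') (c2 : t ^ 2 / 3 ≤ t') :
    RecD (Z (2 * n)) (Zp (2 * n)) (μ ^ (2 * n)) a' t' := by
  obtain ⟨h3, α, q, a0, a1, q0, hq, eP, eQ⟩ := rec_norm h hn h0 hμ hD ht
  have hZ := h.sqZ n hn h0 h3
  have hP := h.sqP n hn h0 h3
  rw [eP, eQ] at hZ
  rw [eP] at hP
  have hc := rec_comb a0 a1 q0 hq c1 c2
  have hα : α ^ 2 ≤ a' := (pow_le_pow_left₀ a0 a1 2).trans ha
  rw [pow_mul'] at hZ hP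
  unfold RecD
  rw [pow_mul']
  have hu : 0 ≤ (μ ^ n) ^ 2 := by positivity
  constructor
  · nlinarith [mul_le_mul_of_nonneg_left hc hu]
  · nlinarith [mul_le_mul_of_nonneg_left hα hu]

/-- the two-direction structure used for both orientations -/
structure RecPair (Z Zp : ℕ → ℕ → ℝ) (μ lam : ℕ → ℝ) : Prop where
  hT : ∀ m, Side (fun L => Z L m) (fun L => Zp L m) (μ m)
  hW : ∀ L, Side0 (Z L) (lam L)
  hS : ∀ L, Sq0 (Zp L)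

theorem rec_pairS (S : Sys) : RecPair S.Z S.Zs S.μ S.lam :=
  ⟨S.hT, fun L => (S.hW L).toSide0, S.hWs⟩

theorem rec_pairT (S : Sys) :
    RecPair (fun M L => S.Z L M) (fun M L => S.Zt L M) S.lam S.μ :=
  ⟨S.hW, fun m => (S.hT m).toSide0, S.hTt⟩

section pair
variable {Z Zp : ℕ → ℕ → ℝ} {μ lam : ℕ → ℝ}

theorem rec_db (P : RecPair Z Zp μ lam) {L M : ℕ} (hL : Even L) (L0 : 0 < L) (hM : Even M)
    (M0 : 0 < M) (hμ : 0 < μ M) {a t mm U Na Nt : ℝ}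
    (hD : RecD (Z L M) (Zp L M) (μ M ^ L) a t) (ht : t < 2)
    (m1 : (1 + a) ^ 2 + (t - a) ^ 2 / 3 ≤ mm) (m2 : 1 + t ^ 2 / 3 ≤ mm)
    (hU : μ M ^ (2 * L) ≤ U * μ (2 * M) ^ L) (na : U * mm ≤ 1 + Na)
    (nt : U * (1 + t) ^ 2 ≤ 1 + Nt) :
    RecD (Z L (2 * M)) (Zp L (2 * M)) (μ (2 * M) ^ L) Na Nt := by
  obtain ⟨h3, α, q, a0, a1, q0, hq, eP, eQ⟩ := rec_norm (P.hT M) hL L0 hμ hD ht
  have hZ := rec_sq0 (P.hW L) hM M0
  have hZ0 := rec_nonneg0 (P.hW L) hM M0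
  have hS := ((P.hS L) M hM M0).2
  have hc := rec_mm a0 a1 q0 hq m1 m2
  have hu' : 0 ≤ μ (2 * M) ^ L := pow_nonneg (P.hT (2 * M)).nonneg L
  rw [pow_mul'] at hU
  have hmm : 0 ≤ mm := le_trans (by positivity) m2
  constructor
  · have e1 : Z L M ^ 2 ≤ (μ M ^ L * (1 + t)) ^ 2 := pow_le_pow_left₀ hZ0 hD.1 2
    calc Z L (2 * M) ≤ (μ M ^ L) ^ 2 * (1 + t) ^ 2 := by rw [← mul_pow]; linarith
      _ ≤ U * μ (2 * M) ^ L * (1 + t) ^ 2 := by gcongr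
      _ = μ (2 * M) ^ L * (U * (1 + t) ^ 2) := by ring
      _ ≤ μ (2 * M) ^ L * (1 + Nt) := by gcongr
  · have e1 : Z L M = μ M ^ L * (1 + α + 3 * q) := by linarith
    have e2 : Zp L M = μ M ^ L * (1 + α - q) := by linarith
    calc (Z L (2 * M) + 3 * Zp L (2 * M)) / 4 ≤ (Z L M ^ 2 + 3 * Zp L M ^ 2) / 4 := by linarith
      _ = (μ M ^ L) ^ 2 * ((1 + α) ^ 2 + 3 * q ^ 2) := by rw [e1, e2]; ring
      _ ≤ (μ M ^ L) ^ 2 * mm := by gcongr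
      _ ≤ U * μ (2 * M) ^ L * mm := by gcongr
      _ = μ (2 * M) ^ L * (U * mm) := by ring
      _ ≤ μ (2 * M) ^ L * (1 + Na) := by gcongr

/-- lower bound of `Z (2L) (2M)` through the other direction -/
theorem rec_low (P : RecPair Z Zp μ lam) {L M : ℕ} (hL : Even L) (L0 : 0 < L) (hM : Even M)
    (M0 : 0 < M) {x : ℝ} (hx : Z (2 * L) M ≤ lam (2 * L) ^ M * (1 + x)) :
    (μ M ^ (2 * L)) ^ 2 ≤ (1 + x) ^ 2 * Z (2 * L) (2 * M) := by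
  have h1 : μ M ^ (2 * L) ≤ Z (2 * L) M :=
    (P.hT M).top_le (2 * L) (even_two_mul L) (by omega)
  have h2 := (P.hW (2 * L)).top_le (2 * M) (even_two_mul M) (by omega)
  rw [pow_mul'] at h2
  calc (μ M ^ (2 * L)) ^ 2 ≤ (lam (2 * L) ^ M * (1 + x)) ^ 2 :=
        pow_le_pow_left₀ (pow_nonneg (P.hT M).nonneg _) (h1.trans hx) 2
    _ = (1 + x) ^ 2 * (lam (2 * L) ^ M) ^ 2 := by ring
    _ ≤ (1 + x) ^ 2 * Z (2 * L) (2 * M) := by gcongr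

theorem rec_U0 (P : RecPair Z Zp μ lam) {L M : ℕ} (hL : Even L) (L0 : 0 < L) (hM : Even M)
    (M0 : 0 < M) (hμ : 0 < μ M) {t x : ℝ} (hD : Z L M ≤ μ M ^ L * (1 + t))
    (hx : Z (2 * L) M ≤ lam (2 * L) ^ M * (1 + x)) :
    μ M ^ (2 * L) ≤ (1 + x) ^ 2 * (1 + t) ^ 2 * μ (2 * M) ^ L := by
  have h1 := rec_low P hL L0 hM M0 hx
  have h2 : Z (L + L) (2 * M) ≤ μ (2 * M) ^ L * Z L (2 * M) := (P.hT (2 * M)).mono L L hL L0 hL
  rw [← two_mul] at h2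
  have hZ := rec_sq0 (P.hW L) hM M0
  have hZ0 := rec_nonneg0 (P.hW L) hM M0
  have e1 : Z L M ^ 2 ≤ (μ M ^ L * (1 + t)) ^ 2 := pow_le_pow_left₀ hZ0 hD 2
  have hu' : 0 ≤ μ (2 * M) ^ L := pow_nonneg (P.hT (2 * M)).nonneg L
  have hu : 0 < μ M ^ (2 * L) := pow_pos hμ _
  have h3 : Z (2 * L) (2 * M) ≤ μ (2 * M) ^ L * (μ M ^ (2 * L) * (1 + t) ^ 2) := by
    refine h2.trans (mul_le_mul_of_nonneg_left ?_ hu')
    rw [pow_mul', ← mul_pow]; linarith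
  have h4 : μ M ^ (2 * L) * μ M ^ (2 * L) ≤
      ((1 + x) ^ 2 * (1 + t) ^ 2 * μ (2 * M) ^ L) * μ M ^ (2 * L) := by
    calc μ M ^ (2 * L) * μ M ^ (2 * L) = (μ M ^ (2 * L)) ^ 2 := by ring
      _ ≤ (1 + x) ^ 2 * Z (2 * L) (2 * M) := h1
      _ ≤ (1 + x) ^ 2 * (μ (2 * M) ^ L * (μ M ^ (2 * L) * (1 + t) ^ 2)) := by gcongr
      _ = _ := by ring
  exact le_of_mul_le_mul_right h4 hu

/-- certificate for one doubling of the second index -/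
structure DblOK (a t x mm U0 U Na Nt : ℝ) : Prop where
  t2 : t < 2
  m1 : (1 + a) ^ 2 + (t - a) ^ 2 / 3 ≤ mm
  m2 : 1 + t ^ 2 / 3 ≤ mm
  u0 : (1 + x) ^ 2 * (1 + t) ^ 2 ≤ U0
  ref : U0 ≤ U ∨ (0 < U ∧ U0 * (1 + t) ^ 2 < 3 ∧
    (1 + x) ^ 2 * (1 + (U * mm - 1) ^ 2 + (U * ((1 + t) ^ 2 - mm)) ^ 2 / 3) < U ^ 2 ∧
    (1 + x) ^ 2 * (1 + (U0 * mm - 1) ^ 2 + (U0 * ((1 + t) ^ 2 - mm)) ^ 2 / 3) < U0 ^ 2 ∧
    (1 + x) ^ 2 * (1 + (U * (1 + t) ^ 2 - 1) ^ 2 / 3) < U ^ 2 ∧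
    (1 + x) ^ 2 * (1 + (U0 * (1 + t) ^ 2 - 1) ^ 2 / 3) < U0 ^ 2)
  na : U * mm ≤ 1 + Na
  nt : U * (1 + t) ^ 2 ≤ 1 + Nt

/-- a quadratic with nonnegative constant term, negative at two positive points, is negative
between them -/
theorem rec_quad_neg {A B C u1 u2 u : ℝ} (hA : 0 ≤ A) (h0 : 0 < u1) (h1 : u1 ≤ u) (h2 : u ≤ u2)
    (f1 : A + B * u1 + C * u1 ^ 2 < 0) (f2 : A + B * u2 + C * u2 ^ 2 < 0) :
    A + B * u + C * u ^ 2 < 0 := by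
  have hu : 0 < u := h0.trans_le h1
  have hu2 : 0 < u2 := hu.trans_le h2
  have key : ∀ v : ℝ, 0 < v → A * (v⁻¹) ^ 2 + B * v⁻¹ + C = (A + B * v + C * v ^ 2) / v ^ 2 := by
    intro v hv; field_simp
  have := rec_cvx A B C u2⁻¹ u1⁻¹ u⁻¹ hA (inv_anti₀ hu h2) (inv_anti₀ h0 h1)
  rw [key u hu, key u2 hu2, key u1 h0] at this
  have g1 : (A + B * u1 + C * u1 ^ 2) / u1 ^ 2 < 0 := div_neg_of_neg_of_pos f1 (by positivity)
  have g2 : (A + B * u2 + C * u2 ^ 2) / u2 ^ 2 < 0 := div_neg_of_neg_of_pos f2 (by positivity)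
  have g : (A + B * u + C * u ^ 2) / u ^ 2 < 0 := by rcases this with h | h <;> linarith
  by_contra hc
  push Not at hc
  exact absurd g (not_lt.2 (div_nonneg hc (by positivity)))

theorem rec_dbl (P : RecPair Z Zp μ lam) {L M : ℕ} (hL : Even L) (L0 : 0 < L) (hM : Even M)
    (M0 : 0 < M) (hμ : 0 < μ M) {a t x mm U0 U Na Nt : ℝ}
    (hD : RecD (Z L M) (Zp L M) (μ M ^ L) a t)
    (hx : Z (2 * L) M ≤ lam (2 * L) ^ M * (1 + x)) (C : DblOK a t x mm U0 U Na Nt) :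
    0 < μ (2 * M) ∧ μ M ^ (2 * L) ≤ U * μ (2 * M) ^ L ∧
      RecD (Z L (2 * M)) (Zp L (2 * M)) (μ (2 * M) ^ L) Na Nt := by
  have h0 := rec_U0 P hL L0 hM M0 hμ hD.1 hx
  have hu : 0 < μ M ^ (2 * L) := pow_pos hμ _
  have hnn := (P.hT (2 * M)).nonneg
  have hμ' : 0 < μ (2 * M) := by
    rcases hnn.eq_or_lt with h | h
    · rw [← h, zero_pow L0.ne', mul_zero] at h0; linarith
    · exact h
  have hu' : 0 < μ (2 * M) ^ L := pow_pos hμ' _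
  have h1 : μ M ^ (2 * L) ≤ U0 * μ (2 * M) ^ L := h0.trans (by have := C.u0; gcongr)
  have hU : μ M ^ (2 * L) ≤ U * μ (2 * M) ^ L := by
    rcases C.ref with h | ⟨r0, r1, r2, r3, r4, r5⟩
    · exact h1.trans (by gcongr)
    · by_contra hc
      push Not at hc
      set u := μ M ^ (2 * L) / μ (2 * M) ^ L with hudef
      have eu : μ M ^ (2 * L) = u * μ (2 * M) ^ L := by rw [hudef]; field_simp
      have u1 : U ≤ u := by rw [hudef, le_div_iff₀ hu']; exact hc.le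
      have u2 : u ≤ U0 := by rw [hudef, div_le_iff₀ hu']; exact h1
      have hN : RecD (Z L (2 * M)) (Zp L (2 * M)) (μ (2 * M) ^ L) (u * mm - 1)
          (u * (1 + t) ^ 2 - 1) :=
        rec_db P hL L0 hM M0 hμ hD C.t2 C.m1 C.m2 eu.le (by linarith) (by linarith)
      have ht' : u * (1 + t) ^ 2 - 1 < 2 := by
        have : u * (1 + t) ^ 2 ≤ U0 * (1 + t) ^ 2 := by gcongr
        linarith
      have hsq := rec_sq (P.hT (2 * M)) hL L0 hμ' hN ht' le_rfl (le_max_left _ _) (le_max_right _ _)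
      have hlow := rec_low P hL L0 hM M0 hx
      have h5 : u ^ 2 ≤ (1 + x) ^ 2 * (1 + max ((u * mm - 1) ^ 2 +
          (u * (1 + t) ^ 2 - 1 - (u * mm - 1)) ^ 2 / 3) ((u * (1 + t) ^ 2 - 1) ^ 2 / 3)) := by
        have h6 := hsq.1
        rw [pow_mul'] at h6
        rw [eu, mul_pow] at hlow
        have h7 := hlow.trans (mul_le_mul_of_nonneg_left h6 (by positivity))
        have h8 : 0 < (μ (2 * M) ^ L) ^ 2 := by positivity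
        refine le_of_mul_le_mul_right (h7.trans (le_of_eq ?_)) h8
        ring
      rcases le_total ((u * mm - 1) ^ 2 + (u * (1 + t) ^ 2 - 1 - (u * mm - 1)) ^ 2 / 3)
        ((u * (1 + t) ^ 2 - 1) ^ 2 / 3) with hm | hm
      · rw [max_eq_right hm] at h5
        have := rec_quad_neg (A := (1 + x) ^ 2 * (4 / 3)) (B := -(1 + x) ^ 2 * (2 / 3) * (1 + t) ^ 2)
          (C := (1 + x) ^ 2 * ((1 + t) ^ 2) ^ 2 / 3 - 1) (by positivity) r0 u1 u2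
          (by linarith) (by linarith)
        linarith
      · rw [max_eq_left hm] at h5
        have := rec_quad_neg (A := (1 + x) ^ 2 * 2) (B := -(1 + x) ^ 2 * 2 * mm)
          (C := (1 + x) ^ 2 * (mm ^ 2 + ((1 + t) ^ 2 - mm) ^ 2 / 3) - 1) (by positivity) r0 u1 u2
          (by linarith) (by linarith)
        linarith
  exact ⟨hμ', hU, rec_db P hL L0 hM M0 hμ hD C.t2 C.m1 C.m2 hU C.na C.nt⟩

theorem rec_mu2 (P : RecPair Z Zp μ lam) {M : ℕ} (hM : Even M) (M0 : 0 < M) (hμ : 0 < μ M) :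
    μ (2 * M) ≤ μ M ^ 2 := by
  by_contra hc
  push Not at hc
  have h2 : 0 < μ M ^ 2 := by positivity
  have hμ' : 0 < μ (2 * M) := h2.trans hc
  have hr : 1 < μ (2 * M) / μ M ^ 2 := by rw [lt_div_iff₀ h2]; linarith
  obtain ⟨j, hj⟩ := pow_unbounded_of_one_lt (Z 2 M ^ 2 / μ (2 * M) ^ 2) hr
  have e : Even (2 + 2 * j) := ⟨1 + j, by ring⟩
  have h3 : μ (2 * M) ^ (2 + 2 * j) ≤ Z (2 + 2 * j) (2 * M) :=
    (P.hT (2 * M)).top_le _ e (by omega)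
  have h4 := rec_sq0 (P.hW (2 + 2 * j)) hM M0
  have h5 : Z (2 + 2 * j) M ≤ μ M ^ (2 * j) * Z 2 M :=
    (P.hT M).mono 2 (2 * j) even_two (by norm_num) (even_two_mul j)
  have h6 := pow_le_pow_left₀ (rec_nonneg0 (P.hW (2 + 2 * j)) hM M0) h5 2
  have h7 : (μ (2 * M) / μ M ^ 2) ^ j ≤ (μ (2 * M) / μ M ^ 2) ^ (2 * j) :=
    pow_le_pow_right₀ hr.le (by omega)
  have h8 : (μ (2 * M) / μ M ^ 2) ^ (2 * j) ≤ Z 2 M ^ 2 / μ (2 * M) ^ 2 := by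
    rw [div_pow, div_le_div_iff₀ (by positivity) (by positivity)]
    calc μ (2 * M) ^ (2 * j) * μ (2 * M) ^ 2 = μ (2 * M) ^ (2 + 2 * j) := by ring
      _ ≤ (μ M ^ (2 * j) * Z 2 M) ^ 2 := by linarith
      _ = Z 2 M ^ 2 * (μ M ^ 2) ^ (2 * j) := by ring
  linarith

end pair

theorem rec_ratio {μ μ' U : ℝ} {L j p : ℕ} (hμ' : 0 < μ') (h2 : μ' ≤ μ ^ 2)
    (hU : μ ^ (2 * L) ≤ U * μ' ^ L) (hj : j ≤ L * p) : μ ^ (2 * j) ≤ U ^ p * μ' ^ j := by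
  have hr : 1 ≤ μ ^ 2 / μ' := by rw [le_div_iff₀ hμ']; linarith
  have h1 : (μ ^ 2 / μ') ^ L ≤ U := by
    rw [div_pow, div_le_iff₀ (by positivity), ← pow_mul]; exact hU
  have h3 : (μ ^ 2 / μ') ^ j ≤ U ^ p := by
    calc (μ ^ 2 / μ') ^ j ≤ (μ ^ 2 / μ') ^ (L * p) := pow_le_pow_right₀ hr hj
      _ = ((μ ^ 2 / μ') ^ L) ^ p := pow_mul _ _ _
      _ ≤ U ^ p := pow_le_pow_left₀ (by positivity) h1 p
  rw [div_pow, div_le_iff₀ (by positivity), ← pow_mul] at h3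
  exact h3

end Crest.Agent.R347
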