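import Crest.Agent.R347.RecAux1

/-! Row 347: the doubling recursion, part 2 (open chain, the invariant and one step). -/

set_option autoImplicit false
set_option linter.unusedVariables false

namespace Crest.Agent.R347

/-- remainder of the open-chain partition function -/
noncomputable def RecR (S : Sys) (M n : ℕ) : ℝ := S.Wm n M - S.c0 M * S.μ M ^ n

def RecDec (S : Sys) (l M : ℕ) (η : ℝ) : Prop :=
  ∀ n, Even n → RecR S M (n + l) ≤ η * S.μ M ^ l * RecR S M n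

theorem recR_nonneg (S : Sys) (M : ℕ) {n : ℕ} (hn : Even n) : 0 ≤ RecR S M n :=
  sub_nonneg.2 ((S.hV M).R_nonneg n hn)

theorem recR_mono (S : Sys) (M : ℕ) {n k : ℕ} (hn : Even n) (hk : Even k) :
    RecR S M (n + k) ≤ S.μ M ^ k * RecR S M n := (S.hV M).R_mono n k hn hk

theorem rec_dec_of_D (S : Sys) {l M : ℕ} (hl : Even l) (l0 : 0 < l) (hμ : 0 < S.μ M)
    {a t η : ℝ} (hD : RecD (S.Z l M) (S.Zs l M) (S.μ M ^ l) a t) (ht : t < 2) (h1 : a ≤ η)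
    (h2 : t / 3 ≤ η) : RecDec S l M η := by
  intro n hn
  obtain ⟨h3, α, q, a0, a1, q0, hq, eP, eQ⟩ := rec_norm (S.hT M) hl l0 hμ hD ht
  have hu : 0 < S.μ M ^ l := pow_pos hμ l
  refine (S.hV M).decay l n (η * S.μ M ^ l) hl l0 hn h3 ?_ ?_
  · rw [eP]; nlinarith
  · rw [eQ]; nlinarith

theorem RecDec.mono {S : Sys} {l M : ℕ} {η η' : ℝ} (h : RecDec S l M η) (hη : η ≤ η') :
    RecDec S l M η' := by
  intro n hn
  refine (h n hn).trans ?_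
  have := recR_nonneg S M hn
  have := pow_nonneg (S.hT M).nonneg l
  gcongr

theorem RecDec.iter {S : Sys} {l M : ℕ} {η : ℝ} (h : RecDec S l M η) (hl : Even l) (h0 : 0 ≤ η)
    {n : ℕ} (hn : Even n) (j : ℕ) :
    RecR S M (n + j * l) ≤ η ^ j * S.μ M ^ (j * l) * RecR S M n := by
  induction j with
  | zero => simp
  | succ j ih =>
    have e : n + (j + 1) * l = n + j * l + l := by ring
    rw [e]
    have h1 := h (n + j * l) (hn.add (hl.mul_left j))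
    have := pow_nonneg (S.hT M).nonneg l
    calc RecR S M (n + j * l + l) ≤ η * S.μ M ^ l * RecR S M (n + j * l) := h1
      _ ≤ η * S.μ M ^ l * (η ^ j * S.μ M ^ (j * l) * RecR S M n) := by gcongr
      _ = η ^ (j + 1) * S.μ M ^ ((j + 1) * l) * RecR S M n := by ring

/-- solving `A + R ≤ K (A + η R)` for `R` -/
theorem rec_solve {A R K η RR : ℝ} (hA : 0 ≤ A) (h : A + R ≤ K * (A + η * R)) (h1 : K * η < 1)
    (h2 : K - 1 ≤ RR * (1 - K * η)) : R ≤ RR * A := by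
  have h3 : R * (1 - K * η) ≤ RR * A * (1 - K * η) := by nlinarith
  exact le_of_mul_le_mul_right h3 (by linarith)

/-- purity bootstrap in the slice direction -/
theorem rec_pur {Z : ℕ → ℝ} {y : ℝ} (h : Side0 Z y) {M : ℕ} (hM : Even M) (M0 : 0 < M)
    {e xx ξ : ℝ} (he : Z M ^ 2 ≤ e * Z (2 * M)) (e2 : e < 2) (e0 : 0 ≤ e)
    (hx : e * (1 + xx ^ 2) ≤ (1 + xx) ^ 2) (x0 : 0 ≤ xx) (x1 : xx ≤ 1) (hξ : xx ^ 2 ≤ ξ) :
    Z (2 * M) ≤ y ^ (2 * M) * (1 + ξ) := by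
  have h1 := h.sq M hM M0
  have h2 := h.top_le M hM M0
  have h3 := h.mono M M hM M0 hM
  rw [← two_mul] at h3
  have h4 := pow_nonneg h.nonneg M
  rw [pow_mul'] at h1 ⊢
  set u := y ^ M
  set w := Z M
  set w2 := Z (2 * M)
  have key : w - u ≤ xx * u := by
    rcases h4.eq_or_lt with hu | hu
    · have : w ^ 2 ≤ 0 := by
        rw [← hu] at h3
        nlinarith
      have hw : w = 0 := by nlinarith [sq_nonneg w]
      rw [hw, ← hu]; simp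
    · by_contra hc
      push Not at hc
      have hw : 0 < w := hu.trans_le h2
      have h5 : w ≤ e * u := by
        have : w * w ≤ (e * u) * w := by nlinarith
        exact le_of_mul_le_mul_right this hw
      set x := w / u - 1 with hxdef
      have ew : w = u * (1 + x) := by rw [hxdef]; field_simp; ring
      have x2 : xx < x := by
        by_contra h6
        push Not at h6
        nlinarith
      have x3 : x < 1 := by
        by_contra h6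
        push Not at h6
        nlinarith
      have h6 : (1 + x) ^ 2 ≤ e * (1 + x ^ 2) := by
        have h7 : u ^ 2 * (1 + x) ^ 2 ≤ u ^ 2 * (e * (1 + x ^ 2)) := by
          have h8 : w2 ≤ u ^ 2 * (1 + x ^ 2) := by rw [ew] at h1; nlinarith
          calc u ^ 2 * (1 + x) ^ 2 = w ^ 2 := by rw [ew]; ring
            _ ≤ e * w2 := he
            _ ≤ e * (u ^ 2 * (1 + x ^ 2)) := by gcongr
            _ = _ := by ring
        exact le_of_mul_le_mul_left h7 (by positivity)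
      have h9 : (1 + x) ^ 2 * (1 + xx ^ 2) ≤ (1 + xx) ^ 2 * (1 + x ^ 2) := by
        calc (1 + x) ^ 2 * (1 + xx ^ 2) ≤ e * (1 + x ^ 2) * (1 + xx ^ 2) := by gcongr
          _ = e * (1 + xx ^ 2) * (1 + x ^ 2) := by ring
          _ ≤ (1 + xx) ^ 2 * (1 + x ^ 2) := by gcongr
      have h10 : 0 < (x - xx) * (1 - x * xx) := by
        apply mul_pos (by linarith)
        nlinarith
      nlinarith
  have h5 : (w - u) ^ 2 ≤ (xx * u) ^ 2 := pow_le_pow_left₀ (by linarith) key 2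
  nlinarith [mul_le_mul_of_nonneg_left hξ (sq_nonneg u)]

/-- the invariant at level `l = 10·2^k`, `M = M_{k-1}` -/
structure RecInv (S : Sys) (l M : ℕ) (ya yt xa xt η ρ ξ : ℝ) : Prop where
  mu : 0 < S.μ (2 * M)
  lam : 0 < S.lam (4 * l)
  Y : RecD (S.Z (2 * l) (2 * M)) (S.Zs (2 * l) (2 * M)) (S.μ (2 * M) ^ (2 * l)) ya yt
  X : RecD (S.Z (4 * l) M) (S.Zt (4 * l) M) (S.lam (4 * l) ^ M) xa xt
  dec : RecDec S l (2 * M) η
  rho : RecR S (2 * M) (8 + 2 * l) ≤ ρ * (S.c0 (2 * M) * S.μ (2 * M) ^ (8 + 2 * l))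
  xi : S.Wm (8 + 4 * l) (2 * M) ≤ S.lo (8 + 4 * l) ^ (2 * M) * (1 + ξ)

/-- certificate for a squaring -/
structure SqOK (a t a' t' : ℝ) : Prop where
  t2 : t < 2
  ha : a ^ 2 ≤ a'
  c1 : a ^ 2 + (t - a) ^ 2 / 3 ≤ t'
  c2 : t ^ 2 / 3 ≤ t'

/-- certificate for the open-chain part of a step -/
structure VOK (η ρ ξ U Na Nt K RR eB xx η1 η' ρ' ξ' : ℝ) : Prop where
  e0 : 0 ≤ η
  e1 : Na ≤ η1
  e2 : Nt / 3 ≤ η1
  e3 : 0 ≤ η1
  e4 : η1 ≤ η'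
  hK : (1 + ρ) ^ 2 * (1 + ξ) ^ 2 ≤ K
  hK1 : K * η1 < 1
  hR : K - 1 ≤ RR * (1 - K * η1)
  hρ : RR * η1 ≤ ρ'
  r0 : 0 ≤ ρ'
  r1 : ρ' ≤ 1
  hB : (1 + ξ) ^ 2 * (1 + ρ') * U ^ 2 * (1 + ρ * η ^ 6) ^ 2 ≤ eB
  B2 : eB < 2
  B0 : 0 ≤ eB
  hx : eB * (1 + xx ^ 2) ≤ (1 + xx) ^ 2
  x0 : 0 ≤ xx
  x1 : xx ≤ 1
  hξ : xx ^ 2 ≤ ξ'

def RingOut (S : Sys) (l M : ℕ) (κ : ℝ) : Prop :=
  ∀ L, Even L → 4 * l ≤ L → L ≤ 8 * l → S.Z L M ^ 2 ≤ κ * S.Z L (2 * M)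

def OpenOut (S : Sys) (l M : ℕ) (κ1 κ2 : ℝ) : Prop :=
  ∀ n, Even n → 8 + 4 * l ≤ n → n + 1 ≤ 8 + 8 * l →
    κ2 * S.Wp (n + 1) M ^ 2 ≤ κ1 * S.Wp (n + 1) (2 * M)

/-- the time-direction recursion -/
theorem rec_stepX (S : Sys) {l M : ℕ} (hl : Even l) (l0 : 0 < l) (hM : Even M) (M0 : 0 < M)
    {ya yt xa xt η ρ ξ : ℝ} (I : RecInv S l M ya yt xa xt η ρ ξ)
    {y1 y2 mm U0 U Na Nt xa' xt' : ℝ} (cy : SqOK ya yt y1 y2)
    (cd : DblOK xa xt y2 mm U0 U Na Nt) (cx : SqOK Na Nt xa' xt') :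
    0 < S.lam (4 * (2 * l)) ∧ RecD (S.Z (4 * (2 * l)) (2 * M)) (S.Zt (4 * (2 * l)) (2 * M))
      (S.lam (4 * (2 * l)) ^ (2 * M)) xa' xt' := by
  have hY := rec_sq (S.hT (2 * M)) (even_two_mul l) (by omega) I.mu I.Y cy.t2 cy.ha cy.c1 cy.c2
  have e1 : 2 * (2 * l) = 4 * l := by ring
  have e2 : 4 * (2 * l) = 2 * (4 * l) := by ring
  rw [e1] at hY
  rw [e2]
  obtain ⟨h1, -, h3⟩ := rec_dbl (rec_pairT S) hM M0 (hl.mul_left 4) (by omega) I.lam I.X hY.1 cd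
  exact ⟨h1, rec_sq (S.hW (2 * (4 * l))) hM M0 h1 h3 cx.t2 cx.ha cx.c1 cx.c2⟩

theorem rec_step (S : Sys) {l M : ℕ} (hl : Even l) (l0 : 0 < l) (hM : Even M) (M0 : 0 < M)
    {ya yt xa xt η ρ ξ : ℝ} (I : RecInv S l M ya yt xa xt η ρ ξ)
    {x1 x2 y1 y2 mm U0 U Na Nt K RR eB xx η1 ya' yt' xa' xt' η' ρ' ξ' : ℝ}
    (cx : SqOK xa xt x1 x2) (cy : SqOK ya yt y1 y2)
    (cd : DblOK ya yt x2 mm U0 U Na Nt) (cn : SqOK Na Nt ya' yt')
    (cv : VOK η ρ ξ U Na Nt K RR eB xx η1 η' ρ' ξ')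
    (hX : 0 < S.lam (4 * (2 * l)) ∧ RecD (S.Z (4 * (2 * l)) (2 * M)) (S.Zt (4 * (2 * l)) (2 * M))
      (S.lam (4 * (2 * l)) ^ (2 * M)) xa' xt') :
    RecInv S (2 * l) (2 * M) ya' yt' xa' xt' η' ρ' ξ' ∧
      RingOut S l (2 * M) (U ^ 4 * (1 + y2) ^ 2) ∧
      OpenOut S l (2 * M) ((1 + ξ) ^ 2 * (1 + ρ') * U ^ 2 * (1 + ρ * η ^ 2) ^ 2) (1 - ρ') := by
  have hl2 : Even (2 * l) := even_two_mul l
  have hM2 : Even (2 * M) := even_two_mul M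
  have l2 : 0 < 2 * l := by omega
  have M2 : 0 < 2 * M := by omega
  have e1 : 2 * (2 * l) = 4 * l := by ring
  have hX2 := rec_sq (S.hW (4 * l)) hM M0 I.lam I.X cx.t2 cx.ha cx.c1 cx.c2
  have hY2 := rec_sq (S.hT (2 * M)) hl2 l2 I.mu I.Y cy.t2 cy.ha cy.c1 cy.c2
  obtain ⟨hμ', hU, hN⟩ := rec_dbl (rec_pairS S) hl2 l2 hM2 M2 I.mu I.Y
    (by rw [e1]; exact hX2.1) cd
  have hmu2 := rec_mu2 (rec_pairS S) hM2 M2 I.mu
  have hY' := rec_sq (S.hT (2 * (2 * M))) hl2 l2 hμ' hN cn.t2 cn.ha cn.c1 cn.c2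
  have hdec := rec_dec_of_D S hl2 l2 hμ' hN cn.t2 cv.e1 cv.e2
  have hμ := I.mu
  have hc := (S.hV (2 * M)).c0_nonneg
  have hc' := (S.hV (2 * (2 * M))).c0_nonneg
  have hrho := I.rho
  have hxi := I.xi
  have hem : Even (8 + 2 * l) := ⟨4 + l, by ring⟩
  have hen : Even (8 + 4 * l) := ⟨4 + 2 * l, by ring⟩
  set μ := S.μ (2 * M) with hμdef
  set μ' := S.μ (2 * (2 * M)) with hμ'def
  set c := S.c0 (2 * M) with hcdef
  set c' := S.c0 (2 * (2 * M)) with hc'def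
  -- lower bound of `Wm n (2M)`
  have low : (c * μ ^ (8 + 4 * l)) ^ 2 ≤ (1 + ξ) ^ 2 * S.Wm (8 + 4 * l) (2 * (2 * M)) := by
    have h1 : c * μ ^ (8 + 4 * l) ≤ S.Wm (8 + 4 * l) (2 * M) := (S.hV (2 * M)).R_nonneg _ hen
    have h2 := (S.hWm (8 + 4 * l)).top_le (2 * (2 * M)) (even_two_mul _) (by omega)
    rw [pow_mul'] at h2
    calc (c * μ ^ (8 + 4 * l)) ^ 2 ≤ (S.lo (8 + 4 * l) ^ (2 * M) * (1 + ξ)) ^ 2 :=
          pow_le_pow_left₀ (by positivity) (h1.trans hxi) 2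
      _ = (1 + ξ) ^ 2 * (S.lo (8 + 4 * l) ^ (2 * M)) ^ 2 := by ring
      _ ≤ _ := by gcongr
  have hA' : 0 ≤ c' * μ' ^ (8 + 2 * l) := by positivity
  have e2 : 8 + 2 * l + 2 * l = 8 + 4 * l := by ring
  have hd1 := hdec (8 + 2 * l) hem
  rw [e2] at hd1
  have hRR : RecR S (2 * (2 * M)) (8 + 2 * l) ≤ RR * (c' * μ' ^ (8 + 2 * l)) := by
    refine rec_solve hA' ?_ cv.hK1 cv.hR
    have h1 : S.Wm (8 + 2 * l) (2 * (2 * M)) ≤ S.Wm (8 + 2 * l) (2 * M) ^ 2 :=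
      rec_sq0 (S.hWm (8 + 2 * l)) hM2 M2
    have h2 : S.Wm (8 + 2 * l) (2 * M) ≤ c * μ ^ (8 + 2 * l) * (1 + ρ) := by
      unfold RecR at hrho; linarith
    have h3 := pow_le_pow_left₀ (rec_nonneg0 (S.hWm (8 + 2 * l)) hM2 M2) h2 2
    have h4 : μ' ^ (2 * l) ≤ (μ ^ 2) ^ (2 * l) := pow_le_pow_left₀ hμ'.le hmu2 _
    have h5 : 0 ≤ S.Wm (8 + 2 * l) (2 * (2 * M)) :=
      rec_nonneg0 (S.hWm (8 + 2 * l)) (even_two_mul _) (by omega)
    have h6 : 0 ≤ S.Wm (8 + 4 * l) (2 * (2 * M)) :=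
      rec_nonneg0 (S.hWm (8 + 4 * l)) (even_two_mul _) (by omega)
    have hK0 : 0 ≤ K := le_trans (by positivity) cv.hK
    have h7 : S.Wm (8 + 4 * l) (2 * (2 * M)) ≤ μ' ^ (2 * l) *
        (c' * μ' ^ (8 + 2 * l) + η1 * RecR S (2 * (2 * M)) (8 + 2 * l)) := by
      have : S.Wm (8 + 4 * l) (2 * (2 * M)) =
          c' * μ' ^ (8 + 4 * l) + RecR S (2 * (2 * M)) (8 + 4 * l) := by
        unfold RecR; ring
      rw [this, ← e2, pow_add μ' (8 + 2 * l), e2]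
      linarith
    have h8 : S.Wm (8 + 2 * l) (2 * (2 * M)) * μ' ^ (2 * l) ≤ (K *
        (c' * μ' ^ (8 + 2 * l) + η1 * RecR S (2 * (2 * M)) (8 + 2 * l))) * μ' ^ (2 * l) := by
      calc S.Wm (8 + 2 * l) (2 * (2 * M)) * μ' ^ (2 * l)
          ≤ (c * μ ^ (8 + 2 * l) * (1 + ρ)) ^ 2 * (μ ^ 2) ^ (2 * l) := by
            gcongr; linarith
        _ = (1 + ρ) ^ 2 * (c * μ ^ (8 + 4 * l)) ^ 2 := by ring
        _ ≤ (1 + ρ) ^ 2 * ((1 + ξ) ^ 2 * S.Wm (8 + 4 * l) (2 * (2 * M))) := by gcongr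
        _ = (1 + ρ) ^ 2 * (1 + ξ) ^ 2 * S.Wm (8 + 4 * l) (2 * (2 * M)) := by ring
        _ ≤ K * S.Wm (8 + 4 * l) (2 * (2 * M)) := by have := cv.hK; gcongr
        _ ≤ K * (μ' ^ (2 * l) *
            (c' * μ' ^ (8 + 2 * l) + η1 * RecR S (2 * (2 * M)) (8 + 2 * l))) := by gcongr
        _ = _ := by ring
    have h9 := le_of_mul_le_mul_right h8 (by positivity)
    refine le_trans (le_of_eq ?_) h9
    unfold RecR; ring
  have hrho' : RecR S (2 * (2 * M)) (8 + 4 * l) ≤ ρ' * (c' * μ' ^ (8 + 4 * l)) := by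
    have := cv.e3
    calc RecR S (2 * (2 * M)) (8 + 4 * l)
        ≤ η1 * μ' ^ (2 * l) * RecR S (2 * (2 * M)) (8 + 2 * l) := hd1
      _ ≤ η1 * μ' ^ (2 * l) * (RR * (c' * μ' ^ (8 + 2 * l))) := by gcongr
      _ = RR * η1 * (c' * μ' ^ (8 + 4 * l)) := by ring
      _ ≤ _ := by have := cv.hρ; gcongr
  have key : (c * μ ^ (8 + 4 * l)) ^ 2 ≤ (1 + ξ) ^ 2 * (1 + ρ') * (c' * μ' ^ (8 + 4 * l)) := by
    refine low.trans ?_
    rw [mul_assoc]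
    refine mul_le_mul_of_nonneg_left ?_ (by positivity)
    unfold RecR at hrho'; linarith
  have key0 : 0 ≤ (1 + ξ) ^ 2 * (1 + ρ') * (c' * μ' ^ (8 + 4 * l)) := le_trans (by positivity) key
  -- transfer to longer chains
  have key2 : ∀ j, j ≤ 4 * l → (c * μ ^ (8 + 4 * l + j)) ^ 2 ≤
      (1 + ξ) ^ 2 * (1 + ρ') * U ^ 2 * (c' * μ' ^ (8 + 4 * l + j)) := by
    intro j hj
    have h1 := rec_ratio (p := 2) hμ' hmu2 hU (show j ≤ 2 * l * 2 by omega)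
    calc (c * μ ^ (8 + 4 * l + j)) ^ 2 = (c * μ ^ (8 + 4 * l)) ^ 2 * μ ^ (2 * j) := by ring
      _ ≤ (1 + ξ) ^ 2 * (1 + ρ') * (c' * μ' ^ (8 + 4 * l)) * (U ^ 2 * μ' ^ j) := by gcongr
      _ = _ := by ring
  have hdecay : ∀ j : ℕ, RecR S (2 * M) (8 + 2 * l + j * l) ≤
      ρ * η ^ j * (c * μ ^ (8 + 2 * l + j * l)) := by
    intro j
    have := cv.e0
    calc RecR S (2 * M) (8 + 2 * l + j * l)
        ≤ η ^ j * μ ^ (j * l) * RecR S (2 * M) (8 + 2 * l) := I.dec.iter hl cv.e0 hem j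
      _ ≤ η ^ j * μ ^ (j * l) * (ρ * (c * μ ^ (8 + 2 * l))) := by gcongr
      _ = _ := by ring
  refine ⟨⟨hμ', hX.1, hY', hX.2, hdec.mono cv.e4, ?_, ?_⟩, ?_, ?_⟩
  · rw [e1]; exact hrho'
  · have e3 : 8 + 4 * (2 * l) = 8 + 4 * l + 4 * l := by ring
    have e4 : 8 + 2 * l + 6 * l = 8 + 4 * l + 4 * l := by ring
    rw [e3]
    have hen' : Even (8 + 4 * l + 4 * l) := ⟨4 + 4 * l, by ring⟩
    refine rec_pur (S.hWm _) hM2 M2 ?_ cv.B2 cv.B0 cv.hx cv.x0 cv.x1 cv.hξ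
    have h1 := hdecay 6
    rw [e4] at h1
    have h2 : S.Wm (8 + 4 * l + 4 * l) (2 * M) ≤ c * μ ^ (8 + 4 * l + 4 * l) * (1 + ρ * η ^ 6) := by
      unfold RecR at h1; linarith
    have h3 := pow_le_pow_left₀ (rec_nonneg0 (S.hWm _) hM2 M2) h2 2
    have h4 := key2 (4 * l) le_rfl
    have h5 : c' * μ' ^ (8 + 4 * l + 4 * l) ≤ S.Wm (8 + 4 * l + 4 * l) (2 * (2 * M)) :=
      (S.hV (2 * (2 * M))).R_nonneg _ hen'
    have := cv.B0
    calc S.Wm (8 + 4 * l + 4 * l) (2 * M) ^ 2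
        ≤ (c * μ ^ (8 + 4 * l + 4 * l)) ^ 2 * (1 + ρ * η ^ 6) ^ 2 := by rw [← mul_pow]; exact h3
      _ ≤ (1 + ξ) ^ 2 * (1 + ρ') * U ^ 2 * (c' * μ' ^ (8 + 4 * l + 4 * l)) *
            (1 + ρ * η ^ 6) ^ 2 := by gcongr
      _ = (1 + ξ) ^ 2 * (1 + ρ') * U ^ 2 * (1 + ρ * η ^ 6) ^ 2 *
            (c' * μ' ^ (8 + 4 * l + 4 * l)) := by ring
      _ ≤ eB * (c' * μ' ^ (8 + 4 * l + 4 * l)) := by have := cv.hB; gcongr
      _ ≤ eB * S.Wm (8 + 4 * l + 4 * l) (2 * (2 * M)) := by gcongr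
  · intro L hL h1 h2
    obtain ⟨j, rfl⟩ := Nat.exists_eq_add_of_le h1
    have hj : Even j := by
      rcases hL with ⟨a, ha⟩
      exact ⟨a - 2 * l, by omega⟩
    have h3 : S.Z (4 * l + j) (2 * M) ≤ μ ^ j * S.Z (4 * l) (2 * M) :=
      (S.hT (2 * M)).mono (4 * l) j (hl.mul_left 4) (by omega) hj
    have h4 := hY2.1
    rw [e1] at h4
    have h5 : S.Z (4 * l + j) (2 * M) ≤ μ ^ (4 * l + j) * (1 + y2) := by
      calc S.Z (4 * l + j) (2 * M) ≤ μ ^ j * (μ ^ (4 * l) * (1 + y2)) :=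
            h3.trans (mul_le_mul_of_nonneg_left h4 (by positivity))
        _ = _ := by ring
    have h6 := pow_le_pow_left₀ (rec_nonneg0 (S.hW _).toSide0 hM2 M2) h5 2
    have h7 := rec_ratio (p := 4) hμ' hmu2 hU (show 4 * l + j ≤ 2 * l * 4 by omega)
    have h8 : μ' ^ (4 * l + j) ≤ S.Z (4 * l + j) (2 * (2 * M)) :=
      (S.hT (2 * (2 * M))).top_le _ hL (by omega)
    calc S.Z (4 * l + j) (2 * M) ^ 2 ≤ μ ^ (2 * (4 * l + j)) * (1 + y2) ^ 2 := by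
          rw [pow_mul', ← mul_pow]; exact h6
      _ ≤ U ^ 4 * μ' ^ (4 * l + j) * (1 + y2) ^ 2 := by gcongr
      _ ≤ U ^ 4 * S.Z (4 * l + j) (2 * (2 * M)) * (1 + y2) ^ 2 := by gcongr
      _ = _ := by ring
  · intro n hn h1 h2
    obtain ⟨j, rfl⟩ := Nat.exists_eq_add_of_le h1
    have hj : Even j := by
      rcases hn with ⟨a, ha⟩
      exact ⟨a - (4 + 2 * l), by omega⟩
    have e4 : 8 + 2 * l + 2 * l = 8 + 4 * l := by ring
    have h3 := hdecay 2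
    rw [e4] at h3
    have h4 := recR_mono S (2 * M) hen hj
    have h5 := recR_mono S (2 * (2 * M)) hen hj
    have up : S.Wp (8 + 4 * l + j + 1) (2 * M) ≤ c * μ ^ (8 + 4 * l + j + 1) +
        μ * RecR S (2 * M) (8 + 4 * l + j) := (S.hV (2 * M)).odd_up _ hn
    have lo : c' * μ' ^ (8 + 4 * l + j + 1) - μ' * RecR S (2 * (2 * M)) (8 + 4 * l + j) ≤
        |S.Wp (8 + 4 * l + j + 1) (2 * (2 * M))| := (S.hV (2 * (2 * M))).odd_lo _ hn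
    have p1 := ((S.hWp (8 + 4 * l + j + 1)) (2 * M) hM2 M2).1
    have p2 := ((S.hWp (8 + 4 * l + j + 1)) (2 * (2 * M)) (even_two_mul _) (by omega)).1
    rw [abs_of_nonneg p2] at lo
    have up2 : S.Wp (8 + 4 * l + j + 1) (2 * M) ≤ c * μ ^ (8 + 4 * l + (j + 1)) * (1 + ρ * η ^ 2) := by
      have : μ * RecR S (2 * M) (8 + 4 * l + j) ≤ μ * (μ ^ j * (ρ * η ^ 2 * (c * μ ^ (8 + 4 * l)))) :=
        mul_le_mul_of_nonneg_left (h4.trans (mul_le_mul_of_nonneg_left h3 (by positivity))) hμ.le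
      refine (up.trans (add_le_add le_rfl this)).trans (le_of_eq ?_)
      ring
    have lo2 : (1 - ρ') * (c' * μ' ^ (8 + 4 * l + (j + 1))) ≤
        S.Wp (8 + 4 * l + j + 1) (2 * (2 * M)) := by
      have : μ' * RecR S (2 * (2 * M)) (8 + 4 * l + j) ≤
          μ' * (μ' ^ j * (ρ' * (c' * μ' ^ (8 + 4 * l)))) :=
        mul_le_mul_of_nonneg_left (h5.trans (mul_le_mul_of_nonneg_left hrho' (by positivity))) hμ'.le
      refine le_trans (le_of_eq ?_) ((sub_le_sub_left this _).trans lo)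
      ring
    have h6 := pow_le_pow_left₀ p1 up2 2
    have h7 := key2 (j + 1) (by omega)
    have r0 := cv.r0
    have r1 : 0 ≤ 1 - ρ' := sub_nonneg.2 cv.r1
    calc (1 - ρ') * S.Wp (8 + 4 * l + j + 1) (2 * M) ^ 2
        ≤ (1 - ρ') * ((c * μ ^ (8 + 4 * l + (j + 1))) ^ 2 * (1 + ρ * η ^ 2) ^ 2) := by
          rw [← mul_pow]; gcongr
      _ ≤ (1 - ρ') * ((1 + ξ) ^ 2 * (1 + ρ') * U ^ 2 * (c' * μ' ^ (8 + 4 * l + (j + 1))) *
            (1 + ρ * η ^ 2) ^ 2) := by gcongr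
      _ = (1 + ξ) ^ 2 * (1 + ρ') * U ^ 2 * (1 + ρ * η ^ 2) ^ 2 *
            ((1 - ρ') * (c' * μ' ^ (8 + 4 * l + (j + 1)))) := by ring
      _ ≤ _ := by gcongr

end Crest.Agent.R347
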