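import Crest.Agent.R347.RecAux2

/-! Row 347: the doubling recursion, part 3 (the seeds). -/

set_option autoImplicit false
set_option linter.unusedVariables false

namespace Crest.Agent.R347

theorem rec_abs {Z Zp u a t : ℝ} (hu : 1 ≤ u) (h0 : 0 ≤ Z) (h0' : 0 ≤ Zp) (h1 : Z ≤ 1 + t)
    (h2 : (Z + 3 * Zp) / 4 ≤ 1 + a) : RecD Z Zp u a t := by
  constructor
  · nlinarith
  · nlinarith

theorem rec_pos_of_pow {x : ℝ} {m : ℕ} (h0 : 0 ≤ x) (hm : 0 < m) (h : 1 ≤ x ^ m) : 0 < x := by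
  rcases h0.eq_or_lt with h1 | h1
  · rw [← h1, zero_pow hm.ne'] at h; linarith
  · exact h1

/-- certificate for the start of the recursion -/
structure StartOK (d : SD) (Na Nt xa xt η ρ ξ η0 u20 W28 W88 v40 K0 r s : ℝ) : Prop where
  z3 : (d.p20 : ℝ) + 3 * d.q20 < 3
  na : (d.p20 : ℝ) ^ 2 + 3 * d.q20 ^ 2 ≤ 1 + Na
  nt : ((d.p20 : ℝ) + 3 * d.q20) ^ 2 ≤ 1 + Nt
  nt2 : Nt < 2
  e1 : Na ≤ η
  e2 : Nt / 3 ≤ η
  e3 : 0 ≤ η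
  hxa : ((d.z80 : ℝ) + 3 * d.t80) / 4 ≤ 1 + xa
  hxt : (d.z80 : ℝ) ≤ 1 + xt
  xt2 : xt < 2
  f1 : 1 ≤ (d.f0 : ℝ) + d.f1 + d.f2
  f2 : (d.f1 : ℝ) ≤ 0
  f3 : 0 ≤ (d.f1 : ℝ) + 2 * (d.f2 - 1)
  h1 : (d.p20 : ℝ) - 1 ≤ η0
  h2 : (d.q20 : ℝ) ≤ η0
  h3 : 0 ≤ η0
  h4 : η0 ≤ 1
  u0 : 0 ≤ u20
  u1 : (d.z80 : ℝ) ≤ u20 ^ 4
  w28 : (d.qo : ℝ) * (u20 - η0) + η0 * d.w8 ≤ W28
  w88 : (d.qo : ℝ) * (d.z80 - η0 ^ 4) + η0 ^ 4 * d.w8 ≤ W88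
  v0 : 0 ≤ v40
  v1 : (1 + xa) ^ 2 + (xt - xa) ^ 2 / 3 ≤ v40 ^ 2
  v2 : 1 + xt ^ 2 / 3 ≤ v40 ^ 2
  g0 : 0 ≤ (d.g68 : ℝ)
  k0 : 0 ≤ K0
  k1 : W28 ^ 2 * v40 ≤ K0 * d.g68 ^ 2
  k2 : K0 * η ^ 2 < 1
  k3 : K0 - 1 ≤ r * (1 - K0 * η ^ 2)
  k4 : r * η ≤ ρ
  s0 : 0 ≤ s
  s1 : W88 ≤ d.g88 * (1 + s)
  s2 : s ^ 2 ≤ ξ

theorem rec_start (S : Sys) (m : ℕ) (d : SD) (hs : Seeds S m d)
    {Na Nt ya yt xa xt η ρ ξ η0 u20 W28 W88 v40 K0 r s : ℝ}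
    (C : StartOK d Na Nt xa xt η ρ ξ η0 u20 W28 W88 v40 K0 r s) (cn : SqOK Na Nt ya yt) :
    RecInv S 20 m ya yt xa xt η ρ ξ := by
  have hm := hs.even
  have m0 := hs.pos
  have hm2 : Even (2 * m) := even_two_mul m
  have m2 : 0 < 2 * m := by omega
  have e20 : Even 20 := by decide
  have e80 : Even 80 := by decide
  have hμ1 := hs.mu1
  have hμ2 := hs.mu2
  have hμ' : 0 < S.μ (2 * m) := by linarith
  have hp := hs.p20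
  have hq := hs.q20
  have hZ0 : 0 ≤ S.Z 20 m := rec_nonneg0 (S.hW 20).toSide0 hm m0
  have hZs0 : 0 ≤ S.Zs 20 m := (S.hWs 20 m hm m0).1
  have hQ0 : S.Zs 20 m ≤ S.Z 20 m := (S.hT m).Qnn 20 e20 (by norm_num)
  have hN : RecD (S.Z 20 (2 * m)) (S.Zs 20 (2 * m)) (S.μ (2 * m) ^ 20) Na Nt := by
    have h1 : S.Z 20 (2 * m) ≤ S.Z 20 m ^ 2 := rec_sq0 (S.hW 20).toSide0 hm m0
    have h2 : S.Zs 20 (2 * m) ≤ S.Zs 20 m ^ 2 := (S.hWs 20 m hm m0).2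
    refine rec_abs (one_le_pow₀ hμ2) (rec_nonneg0 (S.hW 20).toSide0 hm2 m2)
      (S.hWs 20 _ hm2 m2).1 ?_ ?_
    · have : S.Z 20 m ^ 2 ≤ ((d.p20 : ℝ) + 3 * d.q20) ^ 2 := pow_le_pow_left₀ hZ0 (by linarith) 2
      linarith [C.nt]
    · have h3 : ((S.Z 20 m + 3 * S.Zs 20 m) / 4) ^ 2 ≤ (d.p20 : ℝ) ^ 2 :=
        pow_le_pow_left₀ (by positivity) hp 2
      have h4 : ((S.Z 20 m - S.Zs 20 m) / 4) ^ 2 ≤ (d.q20 : ℝ) ^ 2 :=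
        pow_le_pow_left₀ (by linarith) hq 2
      nlinarith [C.na]
  have hdec := rec_dec_of_D S e20 (by norm_num) hμ' hN C.nt2 C.e1 C.e2
  have hl80 : 0 < S.lam 80 := rec_pos_of_pow (S.hW 80).nonneg m0 hs.lam80
  have hZ80 : 0 ≤ S.Z 80 m := rec_nonneg0 (S.hW 80).toSide0 hm m0
  have hZt80 : 0 ≤ S.Zt 80 m := (S.hTt m 80 e80 (by norm_num)).1
  have hz80 := hs.z80
  have ht80 := hs.t80
  -- the weight of the top eigenvector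
  have hμ20 : 1 ≤ S.μ m ^ 20 := one_le_pow₀ hμ1
  have h3 : S.Z 20 m < 3 * S.μ m ^ 20 := by linarith [C.z3]
  have hc := (S.hV m).c0_nonneg
  have hkap : S.c0 m * S.μ m ^ 8 ≤ d.qo := by
    obtain ⟨σ, hσ, h⟩ := (S.hV m).filt 20 e20 (by norm_num) h3
    have h4 := (h d.f0 d.f1 d.f2).trans hs.qo
    have h5 : S.μ m ^ 2 ≤ d.f0 + d.f1 * S.μ m + d.f2 * S.μ m ^ 2 := by
      obtain ⟨x, hx⟩ : ∃ x, S.μ m = 1 + x := ⟨S.μ m - 1, by ring⟩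
      have x0 : 0 ≤ x := by linarith
      have f4 : 0 ≤ (d.f2 : ℝ) - 1 := by linarith [C.f2, C.f3]
      rw [hx]
      nlinarith [mul_nonneg C.f3 x0, mul_nonneg f4 (sq_nonneg x), C.f1]
    have h6 : S.μ m ^ 2 ≤ d.f0 + d.f1 * σ + d.f2 * σ ^ 2 := by
      rcases hσ with rfl | rfl
      · exact h5
      · nlinarith [mul_nonneg (neg_nonneg.2 C.f2) (S.hT m).nonneg]
    have h7 : σ ^ 4 = S.μ m ^ 4 := by rcases hσ with rfl | rfl <;> ring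
    have h8 := pow_le_pow_left₀ (by positivity) h6 2
    rw [h7] at h4
    calc S.c0 m * S.μ m ^ 8 = S.c0 m * S.μ m ^ 4 * (S.μ m ^ 2) ^ 2 := by ring
      _ ≤ S.c0 m * S.μ m ^ 4 * (d.f0 + d.f1 * σ + d.f2 * σ ^ 2) ^ 2 := by gcongr
      _ ≤ _ := h4
  have hd0 : ∀ n, Even n → RecR S m (n + 20) ≤ η0 * RecR S m n := fun n hn =>
    (S.hV m).decay 20 n η0 e20 (by norm_num) hn h3 (by linarith [C.h1]) (by linarith [C.h2])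
  have hη0 := C.h3
  have hd28 : RecR S m 28 ≤ η0 * RecR S m 8 := hd0 8 (by decide)
  have hd88 : RecR S m 88 ≤ η0 ^ 4 * RecR S m 8 := by
    have a1 : RecR S m 48 ≤ η0 * RecR S m 28 := hd0 28 (by decide)
    have a2 : RecR S m 68 ≤ η0 * RecR S m 48 := hd0 48 (by decide)
    have a3 : RecR S m 88 ≤ η0 * RecR S m 68 := hd0 68 (by decide)
    calc RecR S m 88 ≤ η0 * (η0 * (η0 * (η0 * RecR S m 8))) := by
          refine a3.trans ?_; gcongr; refine a2.trans ?_; gcongr; refine a1.trans ?_; gcongr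
      _ = _ := by ring
  have hμ80 : S.μ m ^ 80 ≤ d.z80 := ((S.hT m).top_le 80 e80 (by norm_num)).trans hz80
  have hu20 : S.μ m ^ 20 ≤ u20 := by
    refine le_of_pow_le_pow_left₀ (n := 4) (by norm_num) C.u0 ?_
    rw [← pow_mul]; exact hμ80.trans C.u1
  have hcμ : 0 ≤ S.c0 m * S.μ m ^ 8 := by positivity
  have hw8 := hs.w8
  have hW28 : S.Wm 28 m ≤ W28 := by
    have a1 : S.c0 m * S.μ m ^ 8 * (S.μ m ^ 20 - η0) ≤ d.qo * (u20 - η0) :=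
      mul_le_mul hkap (by linarith) (by linarith [C.h4]) (hcμ.trans hkap)
    have a2 : η0 * S.Wm 8 m ≤ η0 * d.w8 := by gcongr
    unfold RecR at hd28
    have a3 : S.c0 m * S.μ m ^ 28 = S.c0 m * S.μ m ^ 8 * S.μ m ^ 20 := by ring
    linarith [C.w28]
  have hW88 : S.Wm 88 m ≤ W88 := by
    have a0 : η0 ^ 4 ≤ 1 := pow_le_one₀ hη0 C.h4
    have a4 : 1 ≤ S.μ m ^ 80 := one_le_pow₀ hμ1
    have a1 : S.c0 m * S.μ m ^ 8 * (S.μ m ^ 80 - η0 ^ 4) ≤ d.qo * (d.z80 - η0 ^ 4) :=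
      mul_le_mul hkap (by linarith) (by linarith) (hcμ.trans hkap)
    have a2 : η0 ^ 4 * S.Wm 8 m ≤ η0 ^ 4 * d.w8 := by gcongr
    unfold RecR at hd88
    have a3 : S.c0 m * S.μ m ^ 88 = S.c0 m * S.μ m ^ 8 * S.μ m ^ 80 := by ring
    linarith [C.w88]
  have hv40 : S.μ (2 * m) ^ 40 ≤ v40 := by
    refine le_of_pow_le_pow_left₀ (n := 2) (by norm_num) C.v0 ?_
    rw [← pow_mul]
    refine ((S.hT (2 * m)).top_le 80 e80 (by norm_num)).trans ?_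
    have a0 := hs.lam80
    have a1 : S.Z 80 m < 3 * S.lam 80 ^ m := by linarith [C.hxt, C.xt2]
    have a2 := (S.hW 80).sqZ m hm m0 a1
    have a3 := (S.hW 80).Pge m hm m0 a1
    have a4 := (S.hW 80).Qnn m hm m0
    have a5 := rec_mm (α := (S.Z 80 m + 3 * S.Zt 80 m) / 4 - 1) (q := (S.Z 80 m - S.Zt 80 m) / 4)
      (a := xa) (t := xt) (by linarith) (by linarith [C.hxa]) (by linarith) (by linarith [C.hxt])
      C.v1 C.v2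
    rw [pow_mul'] at a2
    nlinarith [mul_nonneg (zero_le_one.trans a0) (sub_nonneg.2 a3)]
  have hc' := (S.hV (2 * m)).c0_nonneg
  have hr : RecR S (2 * m) 28 ≤ r * (S.c0 (2 * m) * S.μ (2 * m) ^ 28) := by
    refine rec_solve (by positivity) ?_ C.k2 C.k3
    have a1 : S.Wm 28 (2 * m) ≤ S.Wm 28 m ^ 2 := rec_sq0 (S.hWm 28) hm m0
    have a2 := pow_le_pow_left₀ (rec_nonneg0 (S.hWm 28) hm m0) hW28 2
    have a3 := (S.hWm 68).top_le (2 * m) hm2 m2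
    rw [pow_mul'] at a3
    have a4 := pow_le_pow_left₀ C.g0 hs.g68 2
    have a5 : RecR S (2 * m) 68 ≤ η ^ 2 * S.μ (2 * m) ^ 40 * RecR S (2 * m) 28 :=
      hdec.iter e20 C.e3 (n := 28) (by decide) 2
    have a6 : S.Wm 68 (2 * m) ≤ (S.c0 (2 * m) * S.μ (2 * m) ^ 28 + η ^ 2 * RecR S (2 * m) 28) *
        S.μ (2 * m) ^ 40 := by
      have : S.Wm 68 (2 * m) = S.c0 (2 * m) * S.μ (2 * m) ^ 68 + RecR S (2 * m) 68 := by
        unfold RecR; ring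
      rw [this]
      linarith
    have := C.k0
    have a7 : S.Wm 28 (2 * m) * S.μ (2 * m) ^ 40 ≤ (K0 * (S.c0 (2 * m) * S.μ (2 * m) ^ 28 +
        η ^ 2 * RecR S (2 * m) 28)) * S.μ (2 * m) ^ 40 := by
      calc S.Wm 28 (2 * m) * S.μ (2 * m) ^ 40 ≤ W28 ^ 2 * v40 := by gcongr; linarith
        _ ≤ K0 * d.g68 ^ 2 := C.k1
        _ ≤ K0 * S.Wm 68 (2 * m) := by gcongr; linarith
        _ ≤ K0 * ((S.c0 (2 * m) * S.μ (2 * m) ^ 28 + η ^ 2 * RecR S (2 * m) 28) *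
            S.μ (2 * m) ^ 40) := by gcongr
        _ = _ := by ring
    refine le_trans (le_of_eq ?_) (le_of_mul_le_mul_right a7 (by positivity))
    unfold RecR; ring
  refine ⟨hμ', hl80, rec_sq (S.hT (2 * m)) e20 (by norm_num) hμ' hN cn.t2 cn.ha cn.c1 cn.c2,
    rec_abs hs.lam80 hZ80 hZt80 (by linarith [C.hxt]) (by linarith [C.hxa]), hdec, ?_, ?_⟩
  · show RecR S (2 * m) 48 ≤ ρ * (S.c0 (2 * m) * S.μ (2 * m) ^ 48)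
    have a1 : RecR S (2 * m) 48 ≤ η * S.μ (2 * m) ^ 20 * RecR S (2 * m) 28 := hdec 28 (by decide)
    have := C.e3
    calc RecR S (2 * m) 48 ≤ η * S.μ (2 * m) ^ 20 * (r * (S.c0 (2 * m) * S.μ (2 * m) ^ 28)) := by
          refine a1.trans ?_; gcongr
      _ = r * η * (S.c0 (2 * m) * S.μ (2 * m) ^ 48) := by ring
      _ ≤ _ := by have := C.k4; gcongr
  · show S.Wm 88 (2 * m) ≤ S.lo 88 ^ (2 * m) * (1 + ξ)
    have a1 := (S.hWm 88).sq m hm m0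
    have a2 := (S.hWm 88).top_le m hm m0
    have a3 := hs.g88
    have a4 := C.s0
    have a5 : S.Wm 88 m - S.lo 88 ^ m ≤ s * S.lo 88 ^ m := by
      have : (d.g88 : ℝ) * (1 + s) ≤ S.lo 88 ^ m * (1 + s) := by gcongr
      linarith [C.s1]
    have a6 := pow_le_pow_left₀ (by linarith) a5 2
    rw [pow_mul'] at a1 ⊢
    nlinarith [mul_le_mul_of_nonneg_left C.s2 (sq_nonneg (S.lo 88 ^ m))]

theorem rec_start160 (S : Sys) (m : ℕ) (d : SD) (hs : Seeds S m d) {a t xa xt : ℝ}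
    (h1 : ((d.z160 : ℝ) + 3 * d.t160) / 4 ≤ 1 + a) (h2 : (d.z160 : ℝ) ≤ 1 + t)
    (c : SqOK a t xa xt) :
    0 < S.lam (4 * (2 * 20)) ∧ RecD (S.Z (4 * (2 * 20)) (2 * m)) (S.Zt (4 * (2 * 20)) (2 * m))
      (S.lam (4 * (2 * 20)) ^ (2 * m)) xa xt := by
  show 0 < S.lam 160 ∧ RecD (S.Z 160 (2 * m)) (S.Zt 160 (2 * m)) (S.lam 160 ^ (2 * m)) xa xt
  have hm := hs.even
  have m0 := hs.pos
  have hl : 0 < S.lam 160 := rec_pos_of_pow (S.hW 160).nonneg m0 hs.lam160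
  have hZ : 0 ≤ S.Z 160 m := rec_nonneg0 (S.hW 160).toSide0 hm m0
  have hZt : 0 ≤ S.Zt 160 m := (S.hTt m 160 (by decide) (by norm_num)).1
  have hD : RecD (S.Z 160 m) (S.Zt 160 m) (S.lam 160 ^ m) a t :=
    rec_abs hs.lam160 hZ hZt (by linarith [hs.z160]) (by linarith [hs.z160, hs.t160])
  exact ⟨hl, rec_sq (S.hW 160) hm m0 hl hD c.t2 c.ha c.c1 c.c2⟩

theorem rec_ring0 (S : Sys) (m : ℕ) (d : SD) (hs : Seeds S m d)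
    (z3 : (d.p20 : ℝ) + 3 * d.q20 < 3) (L : ℕ) (hL : Even L) (h1 : 40 ≤ L) (h2 : L ≤ 80) :
    S.Z L m ^ 2 ≤ (d.z160 * (1 + (d.p20 - 1) ^ 2 + 3 * d.q20 ^ 2) ^ 2) * S.Z L (2 * m) := by
  have hm := hs.even
  have m0 := hs.pos
  have e20 : Even 20 := by decide
  have hμ1 := hs.mu1
  have hp := hs.p20
  have hq := hs.q20
  have hμ20 : 1 ≤ S.μ m ^ 20 := one_le_pow₀ hμ1
  have hμ40 : 1 ≤ S.μ m ^ 40 := one_le_pow₀ hμ1
  have h3 : S.Z 20 m < 3 * S.μ m ^ 20 := by linarith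
  have a1 : S.Z 40 m ≤ S.μ m ^ 40 + ((S.Z 20 m + 3 * S.Zs 20 m) / 4 - S.μ m ^ 20) ^ 2 +
      3 * ((S.Z 20 m - S.Zs 20 m) / 4) ^ 2 := (S.hT m).sqZ 20 e20 (by norm_num) h3
  have a2 : S.μ m ^ 20 ≤ (S.Z 20 m + 3 * S.Zs 20 m) / 4 := (S.hT m).Pge 20 e20 (by norm_num) h3
  have a3 : S.Zs 20 m ≤ S.Z 20 m := (S.hT m).Qnn 20 e20 (by norm_num)
  have a4 : ((S.Z 20 m + 3 * S.Zs 20 m) / 4 - S.μ m ^ 20) ^ 2 ≤ ((d.p20 : ℝ) - 1) ^ 2 :=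
    pow_le_pow_left₀ (by linarith) (by linarith) 2
  have a5 : ((S.Z 20 m - S.Zs 20 m) / 4) ^ 2 ≤ (d.q20 : ℝ) ^ 2 :=
    pow_le_pow_left₀ (by linarith) hq 2
  have a6 : S.Z 40 m ≤ S.μ m ^ 40 * (1 + (d.p20 - 1) ^ 2 + 3 * d.q20 ^ 2) := by
    have : 0 ≤ ((d.p20 : ℝ) - 1) ^ 2 + 3 * d.q20 ^ 2 := by positivity
    nlinarith [mul_nonneg (sub_nonneg.2 hμ40) this]
  obtain ⟨j, rfl⟩ := Nat.exists_eq_add_of_le h1
  have hj : Even j := by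
    rcases hL with ⟨a, ha⟩
    exact ⟨a - 20, by omega⟩
  have a7 : S.Z (40 + j) m ≤ S.μ m ^ j * S.Z 40 m :=
    (S.hT m).mono 40 j (by decide) (by norm_num) hj
  have a8 : S.Z (40 + j) m ≤ S.μ m ^ (40 + j) * (1 + (d.p20 - 1) ^ 2 + 3 * d.q20 ^ 2) := by
    refine (a7.trans (mul_le_mul_of_nonneg_left a6 (by positivity))).trans (le_of_eq ?_)
    ring
  have a9 := pow_le_pow_left₀ (rec_nonneg0 (S.hW _).toSide0 hm m0) a8 2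
  have b1 : (S.μ m ^ (40 + j)) ^ 2 ≤ d.z160 := by
    rw [← pow_mul]
    exact (pow_le_pow_right₀ hμ1 (by omega)).trans
      (((S.hT m).top_le 160 (by decide) (by norm_num)).trans hs.z160)
  have b2 : 1 ≤ S.Z (40 + j) (2 * m) :=
    (one_le_pow₀ hs.mu2).trans ((S.hT (2 * m)).top_le _ hL (by omega))
  have b3 : 0 ≤ (d.z160 : ℝ) := le_trans (by positivity) b1
  rw [mul_pow] at a9
  calc _ ≤ _ := a9
    _ ≤ (d.z160 : ℝ) * (1 + ((d.p20 : ℝ) - 1) ^ 2 + 3 * (d.q20 : ℝ) ^ 2) ^ 2 * 1 := by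
        rw [mul_one]; gcongr
    _ ≤ _ := by gcongr

end Crest.Agent.R347
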