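import Crest.Agent.R347.Defs

/-! Row 347: matrix-side auxiliary lemmas for `Spec.lean`. -/

set_option autoImplicit false
open Crest.MathPhysics.SpinChain Matrix

namespace Crest.Agent.R347

variable {ι : Type} [Fintype ι] [DecidableEq ι]

theorem spa_bound (A : Matrix ι ι ℂ) :
    ∃ c : ℝ, 0 < c ∧ ∀ (w : ι → ℂ) (t : ℝ), A *ᵥ w = (t : ℂ) • w → c ≤ |t| → w = 0 := by
  let L := LinearMap.toContinuousLinearMap (Matrix.toLin' A)
  refine ⟨‖L‖ + 1, by positivity, fun w t h ht => ?_⟩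
  have h1 : ‖L w‖ ≤ ‖L‖ * ‖w‖ := L.le_opNorm w
  have h2 : L w = (t : ℂ) • w := by simpa [L] using h
  rw [h2, norm_smul, Complex.norm_real, Real.norm_eq_abs] at h1
  have h3 : ‖w‖ ≤ 0 := by nlinarith [norm_nonneg w]
  exact norm_le_zero_iff.mp h3

theorem spa_step (A X : Matrix ι ι ℂ) (hXX : X * X = 1) (hAX : A * X = X * A) :
    ∃ c : ℝ, ∀ (v : ι → ℂ) (t : ℝ), (A + (c : ℂ) • X) *ᵥ v = (t : ℂ) • v →
      ∃ s ν : ℝ, (s = 1 ∨ s = -1) ∧ X *ᵥ v = (s : ℂ) • v ∧ A *ᵥ v = (ν : ℂ) • v := by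
  obtain ⟨c, hc, hb⟩ := spa_bound A
  refine ⟨c, fun v t h => ?_⟩
  have key : ∀ s : ℝ, s * s = 1 → c ≤ |t + c * s| → X *ᵥ v = (s : ℂ) • v := by
    intro s hs hle
    have hs' : (s : ℂ) * s = 1 := by exact_mod_cast hs
    have hAv : A *ᵥ v = (t : ℂ) • v - (c : ℂ) • (X *ᵥ v) := by
      rw [add_mulVec, smul_mulVec] at h
      rw [← h]; abel
    have hXXv : X *ᵥ (X *ᵥ v) = v := by rw [mulVec_mulVec, hXX, one_mulVec]
    have hAXv : A *ᵥ (X *ᵥ v) = (t : ℂ) • (X *ᵥ v) - (c : ℂ) • v := by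
      rw [mulVec_mulVec, hAX, ← mulVec_mulVec, hAv, mulVec_sub, mulVec_smul, mulVec_smul, hXXv]
    have hw : A *ᵥ (X *ᵥ v - (s : ℂ) • v) = ((t + c * s : ℝ) : ℂ) • (X *ᵥ v - (s : ℂ) • v) := by
      rw [mulVec_sub, mulVec_smul, hAXv, hAv]
      ext i
      simp only [Pi.sub_apply, Pi.smul_apply, smul_eq_mul]
      push_cast
      linear_combination (c * v i) * hs'
    exact sub_eq_zero.mp (hb _ _ hw hle)
  have fin : ∀ s : ℝ, X *ᵥ v = (s : ℂ) • v → A *ᵥ v = ((t - c * s : ℝ) : ℂ) • v := by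
    intro s hs
    rw [add_mulVec, smul_mulVec, hs] at h
    ext i
    have := congrFun h i
    simp only [Pi.add_apply, Pi.smul_apply, smul_eq_mul] at this ⊢
    push_cast
    linear_combination this
  rcases le_total 0 t with ht | ht
  · have := key 1 (by norm_num) (by rw [abs_of_nonneg (by linarith)]; linarith)
    exact ⟨1, _, Or.inl rfl, this, fin _ this⟩
  · have := key (-1) (by norm_num) (by rw [abs_of_nonpos (by linarith)]; linarith)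
    exact ⟨-1, _, Or.inr rfl, this, fin _ this⟩

theorem spa_diag_of_cols (U M : Matrix ι ι ℂ) (d : ι → ℂ) (h2 : U * Uᴴ = 1)
    (h : ∀ j, M *ᵥ (fun i => U i j) = d j • fun i => U i j) : M = U * diagonal d * Uᴴ := by
  have : M * U = U * diagonal d := by
    ext i j
    have := congrFun (h j) i
    simp only [mulVec, dotProduct, Pi.smul_apply, smul_eq_mul] at this
    rw [mul_diagonal, mul_apply, this, mul_comm]
  rw [← this, Matrix.mul_assoc, h2, Matrix.mul_one]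

theorem spa_joint (A X Z : Matrix ι ι ℂ) (hA : A.IsHermitian) (hX : X.IsHermitian)
    (hZ : Z.IsHermitian) (hXX : X * X = 1) (hZZ : Z * Z = 1) (hAX : A * X = X * A)
    (hAZ : A * Z = Z * A) (hXZ : X * Z = Z * X) :
    ∃ (U : Matrix ι ι ℂ) (ν x z : ι → ℝ), Uᴴ * U = 1 ∧ U * Uᴴ = 1 ∧ (∀ i, x i = 1 ∨ x i = -1) ∧
      (∀ i, z i = 1 ∨ z i = -1) ∧ A = U * diagonal (fun i => (ν i : ℂ)) * Uᴴ ∧
      X = U * diagonal (fun i => (x i : ℂ)) * Uᴴ ∧ Z = U * diagonal (fun i => (z i : ℂ)) * Uᴴ := by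
  obtain ⟨c, hc⟩ := spa_step A X hXX hAX
  have hBZ : (A + (c : ℂ) • X) * Z = Z * (A + (c : ℂ) • X) := by
    rw [Matrix.add_mul, Matrix.mul_add, Matrix.smul_mul, Matrix.mul_smul, hAZ, hXZ]
  obtain ⟨c', hc'⟩ := spa_step (A + (c : ℂ) • X) Z hZZ hBZ
  have hB : (A + (c : ℂ) • X + (c' : ℂ) • Z).IsHermitian := by
    unfold Matrix.IsHermitian at *
    simp only [conjTranspose_add, conjTranspose_smul, hA, hX, hZ, Complex.star_def,
      Complex.conj_ofReal]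
  let U : Matrix ι ι ℂ := hB.eigenvectorUnitary
  have h1 : Uᴴ * U = 1 := by
    have := hB.eigenvectorUnitary.2.1
    rwa [star_eq_conjTranspose] at this
  have h2 : U * Uᴴ = 1 := by
    have := hB.eigenvectorUnitary.2.2
    rwa [star_eq_conjTranspose] at this
  have key : ∀ j, ∃ ν x z : ℝ, (x = 1 ∨ x = -1) ∧ (z = 1 ∨ z = -1) ∧
      A *ᵥ (fun i => U i j) = (ν : ℂ) • (fun i => U i j) ∧
      X *ᵥ (fun i => U i j) = (x : ℂ) • (fun i => U i j) ∧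
      Z *ᵥ (fun i => U i j) = (z : ℂ) • (fun i => U i j) := by
    intro j
    have h0 : (A + (c : ℂ) • X + (c' : ℂ) • Z) *ᵥ (fun i => U i j)
        = ((hB.eigenvalues j : ℝ) : ℂ) • (fun i => U i j) := by
      have := hB.mulVec_eigenvectorBasis j
      rw [RCLike.real_smul_eq_coe_smul (K := ℂ)] at this
      exact this
    obtain ⟨z, t, hz, hZv, hBv⟩ := hc' _ _ h0
    obtain ⟨x, ν, hx, hXv, hAv⟩ := hc _ _ hBv
    exact ⟨ν, x, z, hx, hz, hAv, hXv, hZv⟩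
  choose ν x z hx hz hAv hXv hZv using key
  exact ⟨U, ν, x, z, h1, h2, hx, hz, spa_diag_of_cols U A _ h2 hAv, spa_diag_of_cols U X _ h2 hXv,
    spa_diag_of_cols U Z _ h2 hZv⟩

theorem spa_diag (A : Matrix ι ι ℂ) (hA : A.IsHermitian) :
    ∃ (U : Matrix ι ι ℂ) (ν : ι → ℝ), Uᴴ * U = 1 ∧ U * Uᴴ = 1 ∧
      A = U * diagonal (fun i => (ν i : ℂ)) * Uᴴ := by
  obtain ⟨U, ν, -, -, h1, h2, -, -, h, -, -⟩ := spa_joint A 1 1 hA isHermitian_one isHermitian_one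
    (by simp) (by simp) (by simp) (by simp) rfl
  exact ⟨U, ν, h1, h2, h⟩

theorem spa_mul (U : Matrix ι ι ℂ) (h1 : Uᴴ * U = 1) (a b : ι → ℝ) :
    (U * diagonal (fun i => (a i : ℂ)) * Uᴴ) * (U * diagonal (fun i => (b i : ℂ)) * Uᴴ)
      = U * diagonal (fun i => ((a i * b i : ℝ) : ℂ)) * Uᴴ := by
  have : (U * diagonal (fun i => (a i : ℂ)) * Uᴴ) * (U * diagonal (fun i => (b i : ℂ)) * Uᴴ)
      = U * (diagonal (fun i => (a i : ℂ)) * (Uᴴ * U) * diagonal (fun i => (b i : ℂ))) * Uᴴ := by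
    simp only [Matrix.mul_assoc]
  rw [this, h1, Matrix.mul_one, diagonal_mul_diagonal]
  simp

theorem spa_pow (U : Matrix ι ι ℂ) (h1 : Uᴴ * U = 1) (h2 : U * Uᴴ = 1) (a : ι → ℝ) (n : ℕ) :
    (U * diagonal (fun i => (a i : ℂ)) * Uᴴ) ^ n
      = U * diagonal (fun i => ((a i ^ n : ℝ) : ℂ)) * Uᴴ := by
  induction n with
  | zero => simp [h2]
  | succ n ih => rw [pow_succ, ih, spa_mul U h1]; simp [pow_succ]

theorem spa_rtr (U : Matrix ι ι ℂ) (h1 : Uᴴ * U = 1) (a : ι → ℝ) :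
    rtr (U * diagonal (fun i => (a i : ℂ)) * Uᴴ) = ∑ i, a i := by
  unfold rtr
  rw [trace_mul_comm, ← Matrix.mul_assoc, h1, Matrix.one_mul, trace_diagonal]
  simp

theorem spa_quad (U : Matrix ι ι ℂ) (a : ι → ℝ) (V : ι → ℂ) :
    (star V ⬝ᵥ (U * diagonal (fun i => (a i : ℂ)) * Uᴴ) *ᵥ V).re
      = ∑ i, Complex.normSq ((Uᴴ *ᵥ V) i) * a i := by
  rw [← mulVec_mulVec, ← mulVec_mulVec, dotProduct_mulVec]
  have : star V ᵥ* U = star (Uᴴ *ᵥ V) := by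
    rw [star_mulVec, conjTranspose_conjTranspose]
  rw [this]
  simp only [dotProduct, mulVec_diagonal, Pi.star_apply, Complex.re_sum]
  refine Finset.sum_congr rfl fun i _ => ?_
  generalize (Uᴴ *ᵥ V) i = y
  simp [Complex.normSq_apply]
  ring

theorem spa_norm (U : Matrix ι ι ℂ) (h2 : U * Uᴴ = 1) (V : ι → ℂ) :
    (star V ⬝ᵥ V).re = ∑ i, Complex.normSq ((Uᴴ *ᵥ V) i) := by
  have := spa_quad U (fun _ => 1) V
  simpa [h2] using this

theorem spa_ex (U : Matrix ι ι ℂ) (ν : ι → ℝ) (h1 : Uᴴ * U = 1) (h2 : U * Uᴴ = 1) (β E : ℝ) :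
    ex β E (U * diagonal (fun i => (ν i : ℂ)) * Uᴴ)
      = U * diagonal (fun i => ((Real.exp (-(β * (ν i + E))) : ℝ) : ℂ)) * Uᴴ := by
  unfold ex
  let u : (Matrix ι ι ℂ)ˣ := ⟨U, Uᴴ, h2, h1⟩
  have e : (-(β : ℂ)) • (U * diagonal (fun i => (ν i : ℂ)) * Uᴴ + (E : ℂ) • (1 : Matrix ι ι ℂ))
      = (u : Matrix ι ι ℂ) * diagonal (fun i => ((-(β * (ν i + E)) : ℝ) : ℂ))
        * (u⁻¹ : (Matrix ι ι ℂ)ˣ) := by
    change _ = U * _ * Uᴴ
    have e2 : diagonal (fun i => ((-(β * (ν i + E)) : ℝ) : ℂ))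
        = (-(β : ℂ)) • (diagonal (fun i => (ν i : ℂ)) + (E : ℂ) • (1 : Matrix ι ι ℂ)) := by
      ext i j
      by_cases h : i = j
      · subst h; simp
      · simp [h]
    rw [e2, Matrix.mul_smul, Matrix.smul_mul, Matrix.mul_add, Matrix.add_mul, Matrix.mul_smul,
      Matrix.smul_mul, Matrix.mul_one, h2]
  rw [e, Matrix.exp_units_conj, Matrix.exp_diagonal]
  change U * _ * Uᴴ = _
  congr 3
  ext i
  rw [Pi.coe_exp, ← Complex.exp_eq_exp_ℂ, Complex.ofReal_exp]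

end Crest.Agent.R347
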