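import Crest.Agent.R347.Defs

/-! Row 347: inequalities for finite families of reals, used in `Spec.lean`. -/

set_option autoImplicit false
open Finset

namespace Crest.Agent.R347

variable {ι : Type} [Fintype ι] [DecidableEq ι]

theorem spb_pow_le {a μ : ℝ} (h : |a| ≤ μ) {k : ℕ} (hk : Even k) : a ^ k ≤ μ ^ k := by
  rw [← hk.pow_abs a]
  exact pow_le_pow_left₀ (abs_nonneg a) h k

theorem spb_split (f : ι → ℝ) (i0 : ι) : ∑ i, f i = f i0 + ∑ i ∈ univ.erase i0, f i :=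
  (Finset.add_sum_erase univ f (mem_univ i0)).symm

theorem spb_side0 (ν : ι → ℝ) (i0 : ι) (h0 : ∀ i, |ν i| ≤ |ν i0|) :
    Side0 (fun n => ∑ i, ν i ^ n) |ν i0| := by
  refine ⟨abs_nonneg _, fun n hn _ => ?_, fun n k hn _ hk => ?_, fun n hn _ => ?_⟩
  · rw [hn.pow_abs]
    exact single_le_sum (f := fun i => ν i ^ n) (fun i _ => hn.pow_nonneg _) (mem_univ i0)
  · rw [mul_sum]
    refine sum_le_sum fun i _ => ?_
    rw [pow_add, mul_comm]
    exact mul_le_mul_of_nonneg_right (spb_pow_le (h0 i) hk) (hn.pow_nonneg _)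
  · have h2 : Even (2 * n) := even_two_mul n
    rw [hn.pow_abs, h2.pow_abs, spb_split (fun i => ν i ^ (2 * n)) i0,
      spb_split (fun i => ν i ^ n) i0, add_sub_cancel_left]
    have := sum_sq_le_sq_sum_of_nonneg (s := univ.erase i0) (f := fun i => ν i ^ n)
      (fun i _ => hn.pow_nonneg _)
    simp only [← pow_mul, mul_comm n 2] at this
    linarith

omit [DecidableEq ι] in
theorem spb_sq0 (ν : ι → ℝ) : Sq0 (fun n => ∑ i, ν i ^ n) := by
  intro n hn _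
  refine ⟨sum_nonneg fun i _ => hn.pow_nonneg _, ?_⟩
  have := sum_sq_le_sq_sum_of_nonneg (s := univ) (f := fun i => ν i ^ n)
      (fun i _ => hn.pow_nonneg _)
  simp only [← pow_mul, mul_comm n 2] at this
  exact this

/-- the sector `x = s`, `z = t` -/
noncomputable def spbSec (x z : ι → ℝ) (s t : ℝ) : Finset ι :=
  univ.filter fun i => x i = s ∧ z i = t

omit [DecidableEq ι] in
theorem spb_sec_sum (x z : ι → ℝ) (hx : ∀ i, x i = 1 ∨ x i = -1) (hz : ∀ i, z i = 1 ∨ z i = -1)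
    (s t : ℝ) (hs : s = 1 ∨ s = -1) (ht : t = 1 ∨ t = -1) (a : ι → ℝ) :
    ∑ i ∈ spbSec x z s t, a i
      = (∑ i, a i + s * ∑ i, x i * a i + t * ∑ i, z i * a i + s * t * ∑ i, x i * z i * a i) / 4 := by
  unfold spbSec
  rw [sum_filter, mul_sum, mul_sum, mul_sum, ← sum_add_distrib, ← sum_add_distrib,
    ← sum_add_distrib, sum_div]
  refine sum_congr rfl fun i _ => ?_
  rcases hx i with h | h <;> rcases hz i with h' | h' <;> rcases hs with rfl | rfl <;>
    rcases ht with rfl | rfl <;> rw [h, h'] <;> norm_num <;> ring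

section sectors
variable (ν x z : ι → ℝ) (hx : ∀ i, x i = 1 ∨ x i = -1) (hz : ∀ i, z i = 1 ∨ z i = -1)
  (h1 : ∀ n : ℕ, ∑ i, x i * ν i ^ n = ∑ i, z i * ν i ^ n)
  (h2 : ∀ n : ℕ, ∑ i, x i * z i * ν i ^ n = ∑ i, z i * ν i ^ n)
include hx hz h1 h2

omit [DecidableEq ι] in
theorem spb_P (n : ℕ) :
    ∑ i ∈ spbSec x z 1 1, ν i ^ n = (∑ i, ν i ^ n + 3 * ∑ i, z i * ν i ^ n) / 4 := by
  rw [spb_sec_sum x z hx hz 1 1 (Or.inl rfl) (Or.inl rfl), h1, h2]; ring

omit [DecidableEq ι] in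
theorem spb_Q (n : ℕ) (s t : ℝ) (hs : s = 1 ∨ s = -1) (ht : t = 1 ∨ t = -1)
    (hst : ¬ (s = 1 ∧ t = 1)) :
    ∑ i ∈ spbSec x z s t, ν i ^ n = (∑ i, ν i ^ n - ∑ i, z i * ν i ^ n) / 4 := by
  rw [spb_sec_sum x z hx hz s t hs ht, h1, h2]
  rcases hs with rfl | rfl <;> rcases ht with rfl | rfl
  · exact absurd ⟨rfl, rfl⟩ hst
  all_goals ring

omit [DecidableEq ι] in
theorem spb_le_Q (n : ℕ) (hn : Even n) (j : ι) (hj : ¬ (x j = 1 ∧ z j = 1)) :
    ν j ^ n ≤ (∑ i, ν i ^ n - ∑ i, z i * ν i ^ n) / 4 := by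
  rw [← spb_Q ν x z hx hz h1 h2 n (x j) (z j) (hx j) (hz j) hj]
  exact single_le_sum (f := fun i => ν i ^ n) (fun i _ => hn.pow_nonneg _) (by simp [spbSec])

omit [DecidableEq ι] in
theorem spb_top (i0 : ι) (n : ℕ) (hn : Even n) (h : ∑ i, ν i ^ n < 3 * |ν i0| ^ n) :
    x i0 = 1 ∧ z i0 = 1 := by
  by_contra hj
  have hQ := spb_le_Q ν x z hx hz h1 h2 n hn i0 hj
  have hP : 0 ≤ ∑ i ∈ spbSec x z 1 1, ν i ^ n := sum_nonneg fun i _ => hn.pow_nonneg _
  rw [spb_P ν x z hx hz h1 h2] at hP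
  rw [hn.pow_abs] at h
  linarith

theorem spb_P_erase (i0 : ι) (hi : x i0 = 1 ∧ z i0 = 1) (n : ℕ) (hn : Even n) :
    ∑ i ∈ (spbSec x z 1 1).erase i0, ν i ^ n
      = (∑ i, ν i ^ n + 3 * ∑ i, z i * ν i ^ n) / 4 - |ν i0| ^ n := by
  rw [← spb_P ν x z hx hz h1 h2, hn.pow_abs,
    ← Finset.add_sum_erase (spbSec x z 1 1) (fun i => ν i ^ n) (a := i0) (by simpa [spbSec] using hi)]
  ring

theorem spb_side (i0 : ι) (h0 : ∀ i, |ν i| ≤ |ν i0|) :
    Side (fun n => ∑ i, ν i ^ n) (fun n => ∑ i, z i * ν i ^ n) |ν i0| := by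
  have sqP : ∀ n, Even n → ∑ i, ν i ^ n < 3 * |ν i0| ^ n →
      (∑ i, ν i ^ (2 * n) + 3 * ∑ i, z i * ν i ^ (2 * n)) / 4
        ≤ |ν i0| ^ (2 * n) + ((∑ i, ν i ^ n + 3 * ∑ i, z i * ν i ^ n) / 4 - |ν i0| ^ n) ^ 2 := by
    intro n hn h
    have hi := spb_top ν x z hx hz h1 h2 i0 n hn h
    have e1 := spb_P_erase ν x z hx hz h1 h2 i0 hi n hn
    have e2 := spb_P_erase ν x z hx hz h1 h2 i0 hi (2 * n) (even_two_mul n)
    have := sum_sq_le_sq_sum_of_nonneg (s := (spbSec x z 1 1).erase i0) (f := fun i => ν i ^ n)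
      (fun i _ => hn.pow_nonneg _)
    simp only [← pow_mul, mul_comm n 2] at this
    rw [e1, e2] at this
    linarith
  refine ⟨spb_side0 ν i0 h0, fun n hn _ => ?_, fun n hn _ h => ?_, fun n hn _ h => ?_,
    fun n hn _ h => sqP n hn h⟩
  · refine sum_le_sum fun i _ => ?_
    have := hn.pow_nonneg (ν i)
    rcases hz i with h | h <;> rw [h] <;> linarith
  · have hi := spb_top ν x z hx hz h1 h2 i0 n hn h
    have e1 := spb_P_erase ν x z hx hz h1 h2 i0 hi n hn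
    have : 0 ≤ ∑ i ∈ (spbSec x z 1 1).erase i0, ν i ^ n := sum_nonneg fun i _ => hn.pow_nonneg _
    linarith
  · have hP := sqP n hn h
    have e1 := spb_Q ν x z hx hz h1 h2 n 1 (-1) (Or.inl rfl) (Or.inr rfl) (by norm_num)
    have e2 := spb_Q ν x z hx hz h1 h2 (2 * n) 1 (-1) (Or.inl rfl) (Or.inr rfl) (by norm_num)
    have := sum_sq_le_sq_sum_of_nonneg (s := spbSec x z 1 (-1)) (f := fun i => ν i ^ n)
      (fun i _ => hn.pow_nonneg _)
    simp only [← pow_mul, mul_comm n 2] at this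
    rw [e1, e2] at this
    linarith

theorem spb_vside (i0 : ι) (h0 : ∀ i, |ν i| ≤ |ν i0|) (w : ι → ℝ) (hw : ∀ i, 0 ≤ w i) :
    VSide (fun n => ∑ i, ν i ^ n) (fun n => ∑ i, z i * ν i ^ n) (fun n => ∑ i, w i * ν i ^ n)
      (fun n => ∑ i, w i * (x i * ν i ^ n)) |ν i0| (w i0) := by
  have hR : ∀ n, Even n →
      ∑ i, w i * ν i ^ n - w i0 * |ν i0| ^ n = ∑ i ∈ univ.erase i0, w i * ν i ^ n := by
    intro n hn
    rw [hn.pow_abs, spb_split (fun i => w i * ν i ^ n) i0, add_sub_cancel_left]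
  have hodd : ∀ n, Even n → ∀ i, |w i * (x i * ν i ^ (n + 1))| ≤ |ν i0| * (w i * ν i ^ n) := by
    intro n hn i
    have hxi : |x i| = 1 := by rcases hx i with h | h <;> rw [h] <;> simp
    rw [abs_mul, abs_mul, hxi, one_mul, abs_of_nonneg (hw i), pow_succ, abs_mul,
      abs_of_nonneg (hn.pow_nonneg _)]
    have := mul_nonneg (hw i) (hn.pow_nonneg (ν i))
    nlinarith [h0 i]
  have hodd' : ∀ n, Even n → |∑ i ∈ univ.erase i0, w i * (x i * ν i ^ (n + 1))|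
      ≤ |ν i0| * (∑ i, w i * ν i ^ n - w i0 * |ν i0| ^ n) := by
    intro n hn
    rw [hR n hn, mul_sum]
    exact (abs_sum_le_sum_abs _ _).trans (sum_le_sum fun i _ => hodd n hn i)
  have htop : ∀ n, |w i0 * (x i0 * ν i0 ^ (n + 1))| = w i0 * |ν i0| ^ (n + 1) := by
    intro n
    have hxi : |x i0| = 1 := by rcases hx i0 with h | h <;> rw [h] <;> simp
    rw [abs_mul, abs_mul, hxi, one_mul, abs_of_nonneg (hw i0), abs_pow]
  refine ⟨hw i0, fun n hn => ?_, fun n k hn hk => ?_, fun l n η hl _ hn h hP hQ => ?_,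
    fun n hn => ?_, fun n hn => ?_, fun l hl _ h => ?_⟩
  · have : 0 ≤ ∑ i ∈ univ.erase i0, w i * ν i ^ n :=
      sum_nonneg fun i _ => mul_nonneg (hw i) (hn.pow_nonneg _)
    have := hR n hn
    linarith
  · rw [hR n hn, hR (n + k) (hn.add hk), mul_sum]
    refine sum_le_sum fun i _ => ?_
    have := mul_nonneg (hw i) (hn.pow_nonneg (ν i))
    rw [pow_add]
    nlinarith [spb_pow_le (h0 i) hk]
  · have hi := spb_top ν x z hx hz h1 h2 i0 l hl h
    rw [hR n hn, hR (n + l) (hn.add hl), mul_sum]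
    refine sum_le_sum fun i hi0 => ?_
    have hη : ν i ^ l ≤ η := by
      by_cases hj : x i = 1 ∧ z i = 1
      · refine le_trans ?_ hP
        rw [← spb_P_erase ν x z hx hz h1 h2 i0 hi l hl]
        exact single_le_sum (f := fun i => ν i ^ l) (fun i _ => hl.pow_nonneg _)
          (by simpa [spbSec, hj] using hi0)
      · exact (spb_le_Q ν x z hx hz h1 h2 l hl i hj).trans hQ
    have := mul_nonneg (hw i) (hn.pow_nonneg (ν i))
    rw [pow_add]
    nlinarith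
  · rw [spb_split (fun i => w i * (x i * ν i ^ (n + 1))) i0]
    have a1 := le_abs_self (w i0 * (x i0 * ν i0 ^ (n + 1)))
    have a2 := le_abs_self (∑ i ∈ univ.erase i0, w i * (x i * ν i ^ (n + 1)))
    have := htop n
    have := hodd' n hn
    linarith
  · rw [spb_split (fun i => w i * (x i * ν i ^ (n + 1))) i0]
    have a1 := abs_sub (w i0 * (x i0 * ν i0 ^ (n + 1)) +
      ∑ i ∈ univ.erase i0, w i * (x i * ν i ^ (n + 1)))
      (∑ i ∈ univ.erase i0, w i * (x i * ν i ^ (n + 1)))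
    rw [add_sub_cancel_right] at a1
    have := htop n
    have := hodd' n hn
    linarith
  · have hi := spb_top ν x z hx hz h1 h2 i0 l hl h
    refine ⟨ν i0, ?_, fun p0 p1 p2 => ?_⟩
    · rcases le_total 0 (ν i0) with h | h
      · left; rw [abs_of_nonneg h]
      · right; rw [abs_of_nonpos h, neg_neg]
    · have e : ∀ n : ℕ, (∑ i, w i * ν i ^ n + ∑ i, w i * (x i * ν i ^ n)) / 2
          = ∑ i, w i * ((1 + x i) / 2) * ν i ^ n := by
        intro n
        rw [← sum_add_distrib, sum_div]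
        exact sum_congr rfl fun i _ => by ring
      simp only [e]
      simp only [mul_sum, ← sum_add_distrib]
      have hnn : ∀ i, 0 ≤ w i * ((1 + x i) / 2) * (ν i ^ 4 * (p0 + p1 * ν i + p2 * ν i ^ 2) ^ 2) := by
        intro i
        have : 0 ≤ (1 + x i) / 2 := by rcases hx i with h | h <;> rw [h] <;> norm_num
        have := hw i
        positivity
      have := single_le_sum (f := fun i =>
        w i * ((1 + x i) / 2) * (ν i ^ 4 * (p0 + p1 * ν i + p2 * ν i ^ 2) ^ 2))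
        (fun i _ => hnn i) (mem_univ i0)
      simp only [hi.1] at this
      refine le_trans (le_of_eq (by ring)) (this.trans (le_of_eq ?_))
      exact sum_congr rfl fun i _ => by ring

end sectors

theorem spb_conv {u y d : ℝ} (hu : 0 ≤ u) (huy : u ≤ y) (hd : 0 ≤ d) (ρ : ℕ) :
    (u + d) ^ ρ - u ^ ρ ≤ (y + d) ^ ρ - y ^ ρ := by
  induction ρ with
  | zero => simp
  | succ n ih =>
    have e : ∀ t : ℝ, (t + d) ^ (n + 1) - t ^ (n + 1)
        = (t + d) * ((t + d) ^ n - t ^ n) + d * t ^ n := fun t => by ring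
    rw [e, e]
    have a1 : 0 ≤ (u + d) ^ n - u ^ n := sub_nonneg.mpr (pow_le_pow_left₀ hu (by linarith) n)
    have a2 : u ^ n ≤ y ^ n := pow_le_pow_left₀ hu huy n
    have a3 : (u + d) * ((u + d) ^ n - u ^ n) ≤ (y + d) * ((y + d) ^ n - y ^ n) :=
      mul_le_mul (by linarith) ih a1 (by linarith)
    have a4 := mul_le_mul_of_nonneg_left a2 hd
    linarith

omit [Fintype ι] in
theorem spb_major (s : Finset ι) (a : ι → ℝ) {A : ℝ} (hA0 : 0 ≤ A) (h0 : ∀ i, 0 ≤ a i)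
    (hA : ∀ i, a i ≤ A) (ρ : ℕ) (hρ : 0 < ρ) :
    ∑ i ∈ s, a i ^ ρ ≤ (∑ i ∈ s, a i) ^ ρ ∧
    (A ≤ ∑ i ∈ s, a i → ∑ i ∈ s, a i ^ ρ ≤ A ^ ρ + (∑ i ∈ s, a i - A) ^ ρ) := by
  induction s using Finset.induction_on with
  | empty =>
    simp only [sum_empty]
    refine ⟨by positivity, fun h => ?_⟩
    have : A = 0 := le_antisymm h hA0
    subst this
    simp [hρ.ne']
  | insert j s hj ih =>
    rw [sum_insert hj, sum_insert hj]
    have hT : 0 ≤ ∑ i ∈ s, a i := sum_nonneg fun i _ => h0 i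
    generalize ∑ i ∈ s, a i = T at *
    generalize ∑ i ∈ s, a i ^ ρ = F at *
    obtain ⟨ih1, ih2⟩ := ih
    refine ⟨?_, fun h => ?_⟩
    · have := pow_add_pow_le (h0 j) hT hρ.ne'
      linarith
    · rcases le_total A T with hAT | hAT
      · have := pow_add_pow_le (h0 j) (sub_nonneg.mpr hAT) hρ.ne'
        have e : a j + T - A = a j + (T - A) := by ring
        have := ih2 hAT
        rw [e]
        linarith
      · have := spb_conv (u := a j + T - A) (y := T) (d := A - T) (by linarith)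
          (by linarith [hA j]) (by linarith) ρ
        have e1 : a j + T - A + (A - T) = a j := by ring
        have e2 : T + (A - T) = A := by ring
        rw [e1, e2] at this
        linarith

omit [DecidableEq ι] in
theorem spb_filt (a : ι → ℝ) {ν p0 p1 p2 : ℝ} (hν : 0 < ν)
    (hp2 : 0 ≤ p2) (hp1 : 0 ≤ p1 + 2 * p2 * ν) (hp0 : 0 < p0 + p1 * ν + p2 * ν ^ 2)
    (hp : ∑ i, a i ^ 6 * (p0 + p1 * a i + p2 * a i ^ 2) ^ 2
      < ν ^ 6 * (p0 + p1 * ν + p2 * ν ^ 2) ^ 2) (j : ι) : a j ≤ ν := by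
  by_contra hj
  push Not at hj
  have h1 := single_le_sum (f := fun i => a i ^ 6 * (p0 + p1 * a i + p2 * a i ^ 2) ^ 2)
    (fun i _ => by positivity) (mem_univ j)
  have h2 : p0 + p1 * ν + p2 * ν ^ 2 ≤ p0 + p1 * a j + p2 * a j ^ 2 := by
    have : 0 ≤ (a j - ν) * (p1 + 2 * p2 * ν + p2 * (a j - ν)) := by
      have := sub_pos.mpr hj
      positivity
    nlinarith
  have h3 : ν ^ 6 * (p0 + p1 * ν + p2 * ν ^ 2) ^ 2
      ≤ a j ^ 6 * (p0 + p1 * a j + p2 * a j ^ 2) ^ 2 := by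
    have := hν.le
    have := hp0.le
    gcongr
  linarith

theorem spb_purity (e : ι → ℝ) (i0 j : ι) (hj : j ≠ i0) (hpos : ∀ i, 0 < e i)
    (hmax : ∀ i, e i ≤ e i0) {t κ : ℝ} (ht0 : 0 ≤ t) (ht1 : t ≤ 1) (htj : t * e i0 ≤ e j)
    (hκ : κ * (1 + t ^ 2) < (1 + t) ^ 2) (h : (∑ i, e i) ^ 2 ≤ κ * ∑ i, e i ^ 2) : False := by
  rw [spb_split e i0, spb_split (fun i => e i ^ 2) i0] at h
  have a1 := sum_sq_le_sq_sum_of_nonneg (s := univ.erase i0) (f := e) (fun i _ => (hpos i).le)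
  have a2 : ∑ i ∈ univ.erase i0, e i ^ 2 ≤ e i0 * ∑ i ∈ univ.erase i0, e i := by
    rw [mul_sum]
    refine sum_le_sum fun i _ => ?_
    nlinarith [hpos i, hmax i]
  have a3 : e j ≤ ∑ i ∈ univ.erase i0, e i :=
    single_le_sum (f := e) (fun i _ => (hpos i).le) (by simpa using hj)
  have a4 : 0 ≤ ∑ i ∈ univ.erase i0, e i ^ 2 := sum_nonneg fun i _ => by positivity
  have h0 := hpos i0
  generalize ∑ i ∈ univ.erase i0, e i = R at *
  generalize ∑ i ∈ univ.erase i0, e i ^ 2 = Q at *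
  generalize e i0 = e0 at *
  have hR : t * e0 ≤ R := htj.trans a3
  have hR0 : 0 ≤ R := le_trans (by positivity) hR
  have b1 : (e0 + R) ^ 2 * (1 + t ^ 2) < (1 + t) ^ 2 * (e0 ^ 2 + Q) := by
    have c1 : (e0 + R) ^ 2 * (1 + t ^ 2) ≤ κ * (e0 ^ 2 + Q) * (1 + t ^ 2) :=
      mul_le_mul_of_nonneg_right h (by positivity)
    have c2 : κ * (1 + t ^ 2) * (e0 ^ 2 + Q) < (1 + t) ^ 2 * (e0 ^ 2 + Q) :=
      mul_lt_mul_of_pos_right hκ (by positivity)
    linarith
  rcases le_total R e0 with hRe | hRe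
  · have c1 : (1 + t) ^ 2 * (e0 ^ 2 + Q) ≤ (1 + t) ^ 2 * (e0 ^ 2 + R ^ 2) := by gcongr
    have c2 : 0 ≤ (R - t * e0) * (e0 - t * R) := by
      apply mul_nonneg (by linarith)
      nlinarith
    nlinarith
  · have c1 : (1 + t) ^ 2 * (e0 ^ 2 + Q) ≤ (2 * (1 + t ^ 2)) * (e0 ^ 2 + e0 * R) := by
      apply mul_le_mul _ (by linarith) (by positivity) (by positivity)
      nlinarith [sq_nonneg (1 - t)]
    have c2 : 0 ≤ (1 + t ^ 2) * ((e0 + R) * (R - e0)) := by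
      have := sub_nonneg.mpr hRe
      positivity
    nlinarith

end Crest.Agent.R347
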