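import Crest.Agent.R347.Defs
import Crest.Agent.R347.SpecAux1
import Crest.Agent.R347.SpecAux2

/-! Row 347: spectral lemmas. -/

set_option autoImplicit false
open Crest.MathPhysics.SpinChain Matrix

namespace Crest.Agent.R347

variable {ι : Type} [Fintype ι] [DecidableEq ι]

/-- joint diagonalisation of a Hermitian matrix and two commuting Hermitian involutions -/
theorem exists_joint (A X Z : Matrix ι ι ℂ) (hA : A.IsHermitian) (hX : X.IsHermitian)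
    (hZ : Z.IsHermitian) (hXX : X * X = 1) (hZZ : Z * Z = 1) (hAX : A * X = X * A)
    (hAZ : A * Z = Z * A) (hXZ : X * Z = Z * X) :
    ∃ (U : Matrix ι ι ℂ) (ν x z : ι → ℝ), Uᴴ * U = 1 ∧ U * Uᴴ = 1 ∧ (∀ i, x i = 1 ∨ x i = -1) ∧
      (∀ i, z i = 1 ∨ z i = -1) ∧ A = U * diagonal (fun i => (ν i : ℂ)) * Uᴴ ∧
      X = U * diagonal (fun i => (x i : ℂ)) * Uᴴ ∧ Z = U * diagonal (fun i => (z i : ℂ)) * Uᴴ := by
  exact spa_joint A X Z hA hX hZ hXX hZZ hAX hAZ hXZ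

theorem ex_conj (U : Matrix ι ι ℂ) (ν : ι → ℝ) (h1 : Uᴴ * U = 1) (h2 : U * Uᴴ = 1) (β E : ℝ) :
    ex β E (U * diagonal (fun i => (ν i : ℂ)) * Uᴴ)
      = U * diagonal (fun i => ((Real.exp (-(β * (ν i + E))) : ℝ) : ℂ)) * Uᴴ := by
  exact spa_ex U ν h1 h2 β E

theorem side0_of_herm [Nonempty ι] (A : Matrix ι ι ℂ) (hA : A.IsHermitian) :
    ∃ μ, Side0 (fun n => rtr (A ^ n)) μ := by
  obtain ⟨U, ν, h1, h2, rfl⟩ := spa_diag A hA
  obtain ⟨i0, h0⟩ := Finite.exists_max (fun i => |ν i|)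
  simp only [spa_pow U h1 h2, spa_rtr U h1]
  exact ⟨_, spb_side0 ν i0 h0⟩

theorem sq0_of_herm (A : Matrix ι ι ℂ) (hA : A.IsHermitian) : Sq0 (fun n => rtr (A ^ n)) := by
  obtain ⟨U, ν, h1, h2, rfl⟩ := spa_diag A hA
  simp only [spa_pow U h1 h2, spa_rtr U h1]
  exact spb_sq0 ν

theorem side_of_herm [Nonempty ι] (A X Z : Matrix ι ι ℂ) (hA : A.IsHermitian) (hX : X.IsHermitian)
    (hZ : Z.IsHermitian) (hXX : X * X = 1) (hZZ : Z * Z = 1) (hAX : A * X = X * A)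
    (hAZ : A * Z = Z * A) (hXZ : X * Z = Z * X)
    (h1 : ∀ n, rtr (X * A ^ n) = rtr (Z * A ^ n)) (h2 : ∀ n, rtr (X * Z * A ^ n) = rtr (Z * A ^ n))
    (V : ι → ℂ) :
    ∃ μ c0, Side (fun n => rtr (A ^ n)) (fun n => rtr (Z * A ^ n)) μ ∧
      VSide (fun n => rtr (A ^ n)) (fun n => rtr (Z * A ^ n))
        (fun n => (star V ⬝ᵥ (A ^ n) *ᵥ V).re) (fun n => (star V ⬝ᵥ (X * A ^ n) *ᵥ V).re) μ c0 := by
  obtain ⟨U, ν, x, z, u1, u2, hx, hz, rfl, rfl, rfl⟩ :=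
    spa_joint A X Z hA hX hZ hXX hZZ hAX hAZ hXZ
  obtain ⟨i0, h0⟩ := Finite.exists_max (fun i => |ν i|)
  simp only [spa_pow U u1 u2, spa_mul U u1, spa_rtr U u1, spa_quad] at h1 h2 ⊢
  exact ⟨_, _, spb_side ν x z hx hz h1 h2 i0 h0,
    spb_vside ν x z hx hz h1 h2 i0 h0 _ fun i => Complex.normSq_nonneg _⟩

theorem patoms_of_proj (A P : Matrix ι ι ℂ) (hA : A.IsHermitian) (hP : P.IsHermitian)
    (hPP : P * P = P) (hPA : P * A = A * P) : PAtoms (fun n => rtr (P * A ^ n)) := by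
  have hX : ((2 : ℂ) • P - 1).IsHermitian := by
    unfold Matrix.IsHermitian at *
    simp [conjTranspose_sub, conjTranspose_smul, hP]
  have hXX : ((2 : ℂ) • P - 1) * ((2 : ℂ) • P - 1) = 1 := by
    simp only [Matrix.sub_mul, Matrix.mul_sub, Matrix.smul_mul, Matrix.mul_smul, hPP,
      Matrix.mul_one, Matrix.one_mul]
    module
  have hAX : A * ((2 : ℂ) • P - 1) = ((2 : ℂ) • P - 1) * A := by
    simp only [Matrix.sub_mul, Matrix.mul_sub, Matrix.smul_mul, Matrix.mul_smul, hPA,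
      Matrix.mul_one, Matrix.one_mul]
  obtain ⟨U, ν, x, -, u1, u2, hx, -, hA', hX', -⟩ :=
    spa_joint A ((2 : ℂ) • P - 1) 1 hA hX isHermitian_one hXX (by simp) hAX (by simp) (by simp)
  have hP' : P = U * diagonal (fun i => (((1 + x i) / 2 : ℝ) : ℂ)) * Uᴴ := by
    have e : diagonal (fun i => (((1 + x i) / 2 : ℝ) : ℂ))
        = (1 / 2 : ℂ) • (1 + diagonal (fun i => (x i : ℂ))) := by
      ext i j
      by_cases h : i = j
      · subst h; simp; ring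
      · simp [h]
    rw [e, Matrix.mul_smul, Matrix.smul_mul, Matrix.mul_add, Matrix.add_mul, Matrix.mul_one, u2,
      ← hX']
    module
  refine ⟨ι, inferInstance, fun i => (1 + x i) / 2 * ν i, fun n hn => ?_⟩
  rw [hP', hA']
  simp only [spa_pow U u1 u2, spa_mul U u1, spa_rtr U u1]
  refine Finset.sum_congr rfl fun i _ => ?_
  rcases hx i with h | h <;> rw [h] <;> simp [hn.ne']

theorem PAtoms.pow_le {f : ℕ → ℝ} (hf : PAtoms f) {S : ℝ} (hS : f 10 ≤ S) (ρ : ℕ) (hρ : 0 < ρ) :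
    f (10 * ρ) ≤ S ^ ρ := by
  classical
  obtain ⟨κ, _, a, ha⟩ := hf
  rw [ha 10 (by norm_num)] at hS
  rw [ha _ (by positivity)]
  simp only [pow_mul]
  have h0 : ∀ i, 0 ≤ a i ^ 10 := fun i => by positivity
  have hT : 0 ≤ ∑ i, a i ^ 10 := Finset.sum_nonneg fun i _ => h0 i
  refine (spb_major Finset.univ (fun i => a i ^ 10) hT h0 (fun i => ?_) ρ hρ).1.trans
    (pow_le_pow_left₀ hT hS ρ)
  exact Finset.single_le_sum (f := fun i => a i ^ 10) (fun i _ => h0 i) (Finset.mem_univ i)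

theorem PAtoms.filter {f : ℕ → ℝ} (hf : PAtoms f) {ν p0 p1 p2 q0 q1 q2 A S : ℝ} (hν : 0 < ν)
    (hp2 : 0 ≤ p2) (hp1 : 0 ≤ p1 + 2 * p2 * ν) (hp0 : 0 < p0 + p1 * ν + p2 * ν ^ 2)
    (hp : quad p0 p1 p2 f < ν ^ 6 * (p0 + p1 * ν + p2 * ν ^ 2) ^ 2)
    (hq2 : 0 ≤ q2) (hq1 : 0 ≤ -q1 + 2 * q2 * ν) (hq0 : 0 < q0 - q1 * ν + q2 * ν ^ 2)
    (hq : quad q0 q1 q2 f < ν ^ 6 * (q0 - q1 * ν + q2 * ν ^ 2) ^ 2)
    (hA : ν ^ 10 ≤ A) (hS : f 10 ≤ S) (hAS : A ≤ S) (hSA : S ≤ 2 * A) (ρ : ℕ) (hρ : 0 < ρ) :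
    f (10 * ρ) ≤ A ^ ρ + (S - A) ^ ρ := by
  classical
  obtain ⟨κ, _, a, ha⟩ := hf
  have hquad : ∀ r0 r1 r2 : ℝ,
      quad r0 r1 r2 f = ∑ i, a i ^ 6 * (r0 + r1 * a i + r2 * a i ^ 2) ^ 2 := by
    intro r0 r1 r2
    unfold quad
    rw [ha 6 (by norm_num), ha 7 (by norm_num), ha 8 (by norm_num), ha 9 (by norm_num),
      ha 10 (by norm_num)]
    simp only [Finset.mul_sum, ← Finset.sum_add_distrib]
    exact Finset.sum_congr rfl fun i _ => by ring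
  rw [hquad] at hp hq
  have up : ∀ j, a j ≤ ν := spb_filt a hν hp2 hp1 hp0 hp
  have dn : ∀ j, -a j ≤ ν := by
    refine spb_filt (fun i => -a i) (p0 := q0) (p1 := -q1) (p2 := q2) hν hq2 hq1
      (by linarith) ?_
    refine lt_of_eq_of_lt ?_ (hq.trans_eq (by ring))
    exact Finset.sum_congr rfl fun i _ => by ring
  have h0 : ∀ i, 0 ≤ a i ^ 10 := fun i => by positivity
  have hA' : ∀ i, a i ^ 10 ≤ A := fun i =>
    (spb_pow_le (abs_le.mpr ⟨by linarith [dn i], up i⟩) (by decide)).trans hA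
  have hA0 : 0 ≤ A := le_trans (by positivity) hA
  rw [ha 10 (by norm_num)] at hS
  rw [ha _ (by positivity)]
  simp only [pow_mul]
  have hT : 0 ≤ ∑ i, a i ^ 10 := Finset.sum_nonneg fun i _ => h0 i
  obtain ⟨m1, m2⟩ := spb_major Finset.univ (fun i => a i ^ 10) hA0 h0 hA' ρ hρ
  rcases le_total A (∑ i, a i ^ 10) with h | h
  · have := pow_le_pow_left₀ (sub_nonneg.mpr h) (sub_le_sub_right hS A) ρ
    linarith [m2 h]
  · have := pow_le_pow_left₀ hT h ρ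
    have := pow_nonneg (sub_nonneg.mpr hAS) ρ
    linarith

theorem gap_of_purity [Nonempty ι] (H : Matrix ι ι ℂ) (hH : H.IsHermitian) (β E c t κ : ℝ)
    (hβ : 0 < β) (hc : 0 ≤ c) (ht0 : 0 ≤ t) (ht : t ≤ Real.exp (-(β * c)))
    (hκ : κ * (1 + t ^ 2) < (1 + t) ^ 2)
    (h : rtr (ex β E H) ^ 2 ≤ κ * rtr (ex (2 * β) E H)) : HasSimpleGroundStateWithGap H c := by
  obtain ⟨U, ν, h1, h2, rfl⟩ := spa_diag H hH
  obtain ⟨i0, h0⟩ := Finite.exists_min ν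
  rw [spa_ex U ν h1 h2, spa_ex U ν h1 h2, spa_rtr U h1, spa_rtr U h1] at h
  have hgap : ∀ j, j ≠ i0 → ν i0 + c < ν j := by
    intro j hj
    by_contra hle
    push Not at hle
    refine spb_purity (fun i => Real.exp (-(β * (ν i + E)))) i0 j hj (fun i => Real.exp_pos _)
      (fun i => Real.exp_le_exp.mpr (by nlinarith [h0 i])) ht0
      (ht.trans (Real.exp_le_one_iff.mpr (by nlinarith))) ?_ hκ ?_
    · refine (mul_le_mul_of_nonneg_right ht (Real.exp_pos _).le).trans ?_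
      rw [← Real.exp_add]
      exact Real.exp_le_exp.mpr (by nlinarith)
    · refine h.trans_eq ?_
      congr 1
      refine Finset.sum_congr rfl fun i _ => ?_
      rw [← Real.exp_nat_mul]
      congr 1
      push_cast
      ring
  have hcol : Uᴴ *ᵥ (U *ᵥ Pi.single i0 1) = Pi.single i0 1 := by
    rw [mulVec_mulVec, h1, one_mulVec]
  refine ⟨ν i0, U *ᵥ Pi.single i0 1, fun h => ?_, ?_, fun ψ hψ horth => ?_⟩
  · rw [h, mulVec_zero] at hcol
    have := congrFun hcol i0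
    simp at this
  · rw [← mulVec_mulVec, hcol, ← mulVec_mulVec, diagonal_mulVec_single, ← mulVec_smul]
    congr 1
    rw [← Pi.single_smul']
    simp
  · have hw0 : (Uᴴ *ᵥ ψ) i0 = 0 := by
      rw [star_mulVec, ← dotProduct_mulVec] at horth
      simpa [dotProduct, Pi.single_apply] using horth
    have hne : Uᴴ *ᵥ ψ ≠ 0 := by
      intro h
      apply hψ
      have : U *ᵥ (Uᴴ *ᵥ ψ) = ψ := by rw [mulVec_mulVec, h2, one_mulVec]
      rw [← this, h, mulVec_zero]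
    obtain ⟨j, hj⟩ := Function.ne_iff.mp hne
    have hji : j ≠ i0 := by
      rintro rfl
      exact hj hw0
    rw [spa_quad, spa_norm U h2, Finset.mul_sum]
    refine Finset.sum_lt_sum (fun i _ => ?_) ⟨j, Finset.mem_univ j, ?_⟩
    · by_cases hi : i = i0
      · subst hi; simp [hw0]
      · have := Complex.normSq_nonneg ((Uᴴ *ᵥ ψ) i)
        nlinarith [hgap i hi]
    · have := Complex.normSq_pos.mpr hj
      nlinarith [hgap j hji]

theorem exp_le_rtr_of_var (H : Matrix ι ι ℂ) (hH : H.IsHermitian) (β E x : ℝ) (hβ : 0 ≤ β)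
    (h : Var H x) : Real.exp (-(β * (x + E))) ≤ rtr (ex β E H) := by
  obtain ⟨U, ν, h1, h2, rfl⟩ := spa_diag H hH
  obtain ⟨ψ, hψ, h⟩ := h
  rw [spa_quad, spa_norm U h2, Finset.mul_sum] at h
  have hne : Uᴴ *ᵥ ψ ≠ 0 := by
    intro h
    apply hψ
    have : U *ᵥ (Uᴴ *ᵥ ψ) = ψ := by rw [mulVec_mulVec, h2, one_mulVec]
    rw [← this, h, mulVec_zero]
  obtain ⟨j, hj⟩ := Function.ne_iff.mp hne
  have hex : ∃ i, ν i ≤ x := by
    by_contra hall
    push Not at hall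
    refine absurd h (not_le.mpr (Finset.sum_lt_sum (fun i _ => ?_) ⟨j, Finset.mem_univ j, ?_⟩))
    · have := Complex.normSq_nonneg ((Uᴴ *ᵥ ψ) i)
      nlinarith [hall i]
    · have := Complex.normSq_pos.mpr hj
      nlinarith [hall j]
  obtain ⟨i, hi⟩ := hex
  rw [spa_ex U ν h1 h2, spa_rtr U h1]
  refine le_trans (Real.exp_le_exp.mpr (by nlinarith)) (Finset.single_le_sum
    (f := fun i => Real.exp (-(β * (ν i + E)))) (fun i _ => (Real.exp_pos _).le)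
    (Finset.mem_univ i))

end Crest.Agent.R347
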