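import Crest.Agent.R347.TDefs

/-! Row 347: indices, tree construction, folds, orbit covers. -/

set_option autoImplicit false
open Crest.MathPhysics.SpinChain Matrix

namespace Crest.Agent.R347

theorem tb_idx_succ (L : ℕ) (σ : Cfg (L + 1)) :
    idx (L + 1) σ = (σ 0 : ℕ) * 3 ^ L + idx L (Fin.tail σ) := rfl

theorem tb_idx_zero (σ : Cfg 0) : idx 0 σ = 0 := rfl

theorem tb_cfg_succ (L i : ℕ) : cfg (L + 1) i =
    Fin.cons ⟨i / 3 ^ L % 3, Nat.mod_lt _ (by norm_num)⟩ (cfg L (i % 3 ^ L)) := rfl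

theorem idx_lt (L : ℕ) (σ : Cfg L) : idx L σ < 3 ^ L := by
  induction L with
  | zero => simp [tb_idx_zero]
  | succ L ih =>
    have h1 := ih (Fin.tail σ)
    have h2 : (σ 0 : ℕ) ≤ 2 := Nat.lt_succ_iff.1 (σ 0).2
    have h3 := Nat.mul_le_mul_right (3 ^ L) h2
    rw [tb_idx_succ, pow_succ]
    omega

theorem tb_idx_div (L : ℕ) (σ : Cfg (L + 1)) : idx (L + 1) σ / 3 ^ L = (σ 0 : ℕ) := by
  rw [tb_idx_succ, add_comm, Nat.add_mul_div_right _ _ (by positivity),
    Nat.div_eq_of_lt (idx_lt L _), zero_add]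

theorem tb_idx_mod (L : ℕ) (σ : Cfg (L + 1)) : idx (L + 1) σ % 3 ^ L = idx L (Fin.tail σ) := by
  rw [tb_idx_succ, add_comm, Nat.add_mul_mod_self_right, Nat.mod_eq_of_lt (idx_lt L _)]

theorem cfg_idx (L : ℕ) (σ : Cfg L) : cfg L (idx L σ) = σ := by
  induction L with
  | zero => exact Subsingleton.elim _ _
  | succ L ih =>
    rw [tb_cfg_succ, tb_idx_mod, ih]
    conv_rhs => rw [← Fin.cons_self_tail σ]
    congr 1
    exact Fin.ext (by simp only [tb_idx_div]; exact Nat.mod_eq_of_lt (σ 0).2)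

theorem idx_cfg (L i : ℕ) (hi : i < 3 ^ L) : idx L (cfg L i) = i := by
  induction L generalizing i with
  | zero => simp at hi; simp [tb_idx_zero, hi]
  | succ L ih =>
    have h3 : 0 < 3 ^ L := by positivity
    have h1 : i / 3 ^ L < 3 := by
      rw [Nat.div_lt_iff_lt_mul h3, mul_comm, ← pow_succ]; exact hi
    rw [tb_idx_succ, tb_cfg_succ, Fin.cons_zero, Fin.tail_cons, ih _ (Nat.mod_lt _ h3)]
    simp only [Nat.mod_eq_of_lt h1]
    exact Nat.div_add_mod' _ _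

theorem chg_eq (L : ℕ) (σ : Cfg L) : chg σ = (L : ℤ) - dsm σ := by
  simp [chg, dsm, magneticNumber, Finset.sum_sub_distrib]

theorem Pd_eq (L lo hi : ℕ) :
    Pd L lo hi = diagonal fun σ => if lo ≤ dsm σ ∧ dsm σ ≤ hi then (1 : ℂ) else 0 := by
  rw [Pd, Pj]
  congr 1
  funext σ
  refine if_congr ?_ rfl rfl
  rw [chg_eq]
  omega

theorem tb_get_succ (L : ℕ) (t : T) (σ : Cfg (L + 1)) :
    get (L + 1) t σ = get L (t.ch (σ 0)) (Fin.tail σ) := rfl

theorem tb_ch_nil (a : Fin 3) : T.nil.ch a = T.nil := by fin_cases a <;> rfl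

theorem tb_ch_leaf (x : ℕ) (a : Fin 3) : (T.leaf x).ch a = T.nil := by fin_cases a <;> rfl

theorem tb_get_nil (L : ℕ) (σ : Cfg L) : get L T.nil σ = 0 := by
  induction L with
  | zero => rfl
  | succ L ih => rw [tb_get_succ, tb_ch_nil, ih]

theorem tb_get_zero (t : T) (σ : Cfg 0) : get 0 t σ = t.val := by cases t <;> rfl

theorem tb_fin3 (a : Fin 3) : a = 0 ∨ a = 1 ∨ a = 2 := by fin_cases a <;> simp

theorem getN_idx (L : ℕ) (t : T) (σ : Cfg L) : getN L t (idx L σ) = get L t σ := by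
  induction L generalizing t with
  | zero => rw [tb_get_zero]; rfl
  | succ L ih =>
    rw [tb_get_succ]
    cases t with
    | nil => rw [tb_ch_nil, tb_get_nil]; rfl
    | leaf x => rw [tb_ch_leaf, tb_get_nil]; rfl
    | node a b c =>
      have e : ∀ i, getN (L + 1) (T.node a b c) i =
          Bool.rec (Bool.rec (getN L c (i % 3 ^ L)) (getN L b (i % 3 ^ L)) (Nat.beq (i / 3 ^ L) 1))
            (getN L a (i % 3 ^ L)) (Nat.beq (i / 3 ^ L) 0) := fun _ => rfl
      rw [e, tb_idx_div, tb_idx_mod, ih, ih, ih]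
      rcases tb_fin3 (σ 0) with h | h | h <;> rw [h] <;> rfl

theorem tb_rec_ble {α : Type} (x y : α) (a b : ℕ) :
    (Bool.rec x y (Nat.ble a b) : α) = if a ≤ b then y else x := by
  split_ifs with h
  · rw [Nat.ble_eq_true_of_le h]
  · have : Nat.ble a b = false := by
      rw [← Bool.not_eq_true, Nat.ble_eq]; exact h
    rw [this]

theorem tb_rec_beq {α : Type} (x y : α) (a b : ℕ) :
    (Bool.rec x y (Nat.beq a b) : α) = if a = b then y else x := by
  split_ifs with h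
  · rw [h, Nat.beq_refl]
  · have : Nat.beq a b = false := by
      rw [← Bool.not_eq_true, Nat.beq_eq]; exact h
    rw [this]

theorem tb_buildT_zero (f : ℕ → ℕ) (lo hi s i : ℕ) :
    buildT f lo hi 0 s i = if lo ≤ s then if s ≤ hi then T.leaf (f i) else T.nil else T.nil := by
  rw [← tb_rec_ble, ← tb_rec_ble]; rfl

theorem tb_buildT_succ (f : ℕ → ℕ) (lo hi d s i : ℕ) :
    buildT f lo hi (d + 1) s i = if lo ≤ s + 2 * (d + 1) then if s ≤ hi then
      T.node (buildT f lo hi d s (3 * i)) (buildT f lo hi d (s + 1) (3 * i + 1))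
        (buildT f lo hi d (s + 2) (3 * i + 2)) else T.nil else T.nil := by
  rw [← tb_rec_ble, ← tb_rec_ble]; rfl

theorem tb_dep_nil (L : ℕ) : Dep L T.nil := by cases L <;> trivial

theorem tb_dep_buildT (f : ℕ → ℕ) (lo hi d s i : ℕ) : Dep d (buildT f lo hi d s i) := by
  induction d generalizing s i with
  | zero => rw [tb_buildT_zero]; split_ifs <;> trivial
  | succ d ih =>
    rw [tb_buildT_succ]
    split_ifs
    · exact ⟨ih _ _, ih _ _, ih _ _⟩
    · trivial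
    · trivial

theorem dep_buildR (L lo hi : ℕ) (f : ℕ → ℕ) : Dep L (buildR L lo hi f) :=
  tb_dep_buildT f lo hi L 0 0

theorem tb_dsm_succ {L : ℕ} (σ : Cfg (L + 1)) : dsm σ = (σ 0 : ℕ) + dsm (L := L) (Fin.tail σ) :=
  Fin.sum_univ_succ _

theorem tb_dsm_succ' {L : ℕ} (σ : Cfg (L + 1)) :
    dsm σ = dsm (L := L) (Fin.init σ) + (σ (Fin.last L) : ℕ) :=
  Fin.sum_univ_castSucc _

theorem tb_dsm_le {L : ℕ} (σ : Cfg L) : dsm σ ≤ 2 * L := by
  induction L with
  | zero => simp [dsm]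
  | succ L ih =>
    have h1 := ih (Fin.tail σ)
    have h2 := (σ 0).2
    rw [tb_dsm_succ]
    omega

theorem tb_get_buildT (f : ℕ → ℕ) (lo hi d s i : ℕ) (σ : Cfg d) :
    get d (buildT f lo hi d s i) σ =
      if lo ≤ s + dsm σ ∧ s + dsm σ ≤ hi then f (3 ^ d * i + idx d σ) else 0 := by
  induction d generalizing s i with
  | zero =>
    rw [tb_buildT_zero, tb_get_zero]
    simp only [dsm, Finset.univ_eq_empty, Finset.sum_empty, add_zero, pow_zero, one_mul,
      tb_idx_zero]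
    by_cases h1 : lo ≤ s <;> by_cases h2 : s ≤ hi <;> simp [h1, h2] <;> rfl
  | succ d ih =>
    have hle := tb_dsm_le σ
    rw [tb_buildT_succ]
    by_cases h1 : lo ≤ s + 2 * (d + 1)
    · by_cases h2 : s ≤ hi
      · have e : ∀ a : Fin 3, (T.node (buildT f lo hi d s (3 * i))
            (buildT f lo hi d (s + 1) (3 * i + 1)) (buildT f lo hi d (s + 2) (3 * i + 2))).ch a =
            buildT f lo hi d (s + a) (3 * i + a) := fun a => by fin_cases a <;> rfl
        rw [if_pos h1, if_pos h2, tb_get_succ, e, ih, tb_dsm_succ σ, tb_idx_succ, add_assoc]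
        congr 2
        ring
      · rw [if_pos h1, if_neg h2, tb_get_nil, if_neg (by omega)]
    · rw [if_neg h1, tb_get_nil, if_neg (by omega)]

theorem get_buildR (L lo hi : ℕ) (f : ℕ → ℕ) (σ : Cfg L) :
    get L (buildR L lo hi f) σ = if lo ≤ dsm σ ∧ dsm σ ≤ hi then f (idx L σ) else 0 := by
  simpa [buildR] using tb_get_buildT f lo hi L 0 0 σ

theorem tb_bd_buildT (f : ℕ → ℕ) (lo hi B d s i : ℕ) (hf : ∀ j, j < 3 ^ d → f (3 ^ d * i + j) ≤ B) :
    Bd B (buildT f lo hi d s i) := by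
  induction d generalizing s i with
  | zero =>
    rw [tb_buildT_zero]
    split_ifs
    · change f i ≤ B
      simpa using hf 0 (by simp)
    · trivial
    · trivial
  | succ d ih =>
    have key : ∀ a ≤ 2, ∀ j, j < 3 ^ d → f (3 ^ d * (3 * i + a) + j) ≤ B := fun a ha j hj => by
      have h3 := Nat.mul_le_mul_left (3 ^ d) ha
      have := hf (3 ^ d * a + j) (by rw [pow_succ]; omega)
      rwa [show 3 ^ (d + 1) * i + (3 ^ d * a + j) = 3 ^ d * (3 * i + a) + j by ring] at this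
    rw [tb_buildT_succ]
    split_ifs
    · exact ⟨ih _ _ (key 0 (by omega)), ih _ _ (key 1 (by omega)), ih _ _ (key 2 le_rfl)⟩
    · trivial
    · trivial

theorem bd_buildR (L lo hi B : ℕ) (f : ℕ → ℕ) (hf : ∀ i, i < 3 ^ L → f i ≤ B) :
    Bd B (buildR L lo hi f) :=
  tb_bd_buildT f lo hi B L 0 0 fun j hj => by simpa using hf j hj

theorem allLe_iff (B : ℕ) (t : T) : allLe B t = true ↔ Bd B t := by
  induction t with
  | nil => exact ⟨fun _ => trivial, fun _ => rfl⟩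
  | leaf a => exact (Nat.ble_eq (x := a) (y := B)).to_iff
  | node a b c iha ihb ihc =>
    have e : allLe B (T.node a b c) =
        Bool.rec false (Bool.rec false (allLe B c) (allLe B b)) (allLe B a) := rfl
    change _ ↔ Bd B a ∧ Bd B b ∧ Bd B c
    rw [e, ← iha, ← ihb, ← ihc]
    cases allLe B a <;> cases allLe B b <;> simp

theorem get_le_of_bd (L B : ℕ) (t : T) (h : Bd B t) (σ : Cfg L) : get L t σ ≤ B := by
  induction L generalizing t with
  | zero =>
    cases t with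
    | nil => exact Nat.zero_le _
    | leaf a => exact h
    | node a b c => exact Nat.zero_le _
  | succ L ih =>
    rw [tb_get_succ]
    refine ih _ ?_ _
    cases t with
    | nil => rw [tb_ch_nil]; trivial
    | leaf a => rw [tb_ch_leaf]; trivial
    | node a b c =>
      rcases tb_fin3 (σ 0) with h0 | h0 | h0 <;> rw [h0]
      exacts [h.1, h.2.1, h.2.2]

theorem tb_sum_succ {M : Type} [AddCommMonoid M] (L : ℕ) (F : Fin 3 → Cfg L → M) :
    ∑ σ : Cfg (L + 1), F (σ 0) (Fin.tail σ) = ∑ τ, F 0 τ + ∑ τ, F 1 τ + ∑ τ, F 2 τ := by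
  rw [← Fin.sum_univ_three (fun a => ∑ τ, F a τ), ← Fintype.sum_prod_type']
  exact (Fintype.sum_equiv (Fin.consEquiv fun _ : Fin (L + 1) => Fin 3) _ _ fun p => rfl).symm

theorem fold2_eq (f : ℕ → ℕ → ℤ) (hf : f 0 0 = 0) (L : ℕ) (x y : T) (hx : Dep L x) (hy : Dep L y) :
    fold2 f L x y = ∑ σ : Cfg L, f (get L x σ) (get L y σ) := by
  induction L generalizing x y with
  | zero =>
    simp only [tb_get_zero, Finset.sum_const, Finset.card_univ, Fintype.card_unique, one_smul]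
    rfl
  | succ L ih =>
    simp only [tb_get_succ]
    rw [tb_sum_succ L fun a τ => f (get L (x.ch a) τ) (get L (y.ch a) τ)]
    have hn := tb_dep_nil L
    cases x with
    | leaf a => exact hx.elim
    | nil =>
      cases y with
      | leaf b => exact hy.elim
      | nil =>
        simp only [tb_ch_nil, tb_get_nil, hf, Finset.sum_const_zero, add_zero]
        rfl
      | node a b c =>
        have e : fold2 f (L + 1) T.nil (T.node a b c) =
          fold2 f L T.nil a + fold2 f L T.nil b + fold2 f L T.nil c := rfl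
        rw [e, ih _ _ hn hy.1, ih _ _ hn hy.2.1, ih _ _ hn hy.2.2]
        rfl
    | node a b c =>
      cases y with
      | leaf b => exact hy.elim
      | nil =>
        have e : fold2 f (L + 1) (T.node a b c) T.nil =
          fold2 f L a T.nil + fold2 f L b T.nil + fold2 f L c T.nil := rfl
        rw [e, ih _ _ hx.1 hn, ih _ _ hx.2.1 hn, ih _ _ hx.2.2 hn]
        rfl
      | node a' b' c' =>
        have e : fold2 f (L + 1) (T.node a b c) (T.node a' b' c') =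
          fold2 f L a a' + fold2 f L b b' + fold2 f L c c' := rfl
        rw [e, ih _ _ hx.1 hy.1, ih _ _ hx.2.1 hy.2.1, ih _ _ hx.2.2 hy.2.2]
        rfl

theorem dep_flip (L : ℕ) (t : T) (h : Dep L t) : Dep L t.flip := by
  induction L generalizing t with
  | zero =>
    cases t with
    | nil => exact h
    | leaf a => exact h
    | node a b c => exact h.elim
  | succ L ih =>
    cases t with
    | nil => exact h
    | leaf a => exact h
    | node a b c => exact ⟨ih _ h.2.2, ih _ h.2.1, ih _ h.1⟩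

theorem tb_ch_flip (t : T) (a : Fin 3) : t.flip.ch a = (t.ch a.rev).flip := by
  cases t <;> fin_cases a <;> rfl

theorem get_flip (L : ℕ) (t : T) (σ : Cfg L) : get L t.flip σ = get L t (flipC σ) := by
  induction L generalizing t with
  | zero => cases t <;> rfl
  | succ L ih => rw [tb_get_succ, tb_get_succ, tb_ch_flip, ih]; rfl

/-! ### index arithmetic of the symmetries -/

theorem tb_idx_snoc (L : ℕ) (σ : Cfg (L + 1)) :
    idx (L + 1) σ = 3 * idx L (Fin.init σ) + (σ (Fin.last L) : ℕ) := by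
  induction L with
  | zero => rw [tb_idx_succ]; simp [tb_idx_zero]
  | succ L ih =>
    rw [tb_idx_succ, ih, tb_idx_succ L (Fin.init σ)]
    change (σ 0 : ℕ) * 3 ^ (L + 1) + (3 * idx L (Fin.tail (Fin.init σ)) + (σ (Fin.last (L + 1)) : ℕ)) =
      3 * ((σ 0 : ℕ) * 3 ^ L + idx L (Fin.tail (Fin.init σ))) + (σ (Fin.last (L + 1)) : ℕ)
    ring

theorem tb_idx_div3 (L : ℕ) (σ : Cfg (L + 1)) : idx (L + 1) σ / 3 = idx L (Fin.init σ) := by
  have := (σ (Fin.last L)).2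
  rw [tb_idx_snoc]; omega

theorem tb_idx_mod3 (L : ℕ) (σ : Cfg (L + 1)) : idx (L + 1) σ % 3 = (σ (Fin.last L) : ℕ) := by
  have := (σ (Fin.last L)).2
  rw [tb_idx_snoc]; omega

theorem tb_dsum (L : ℕ) (σ : Cfg L) : dsum L (idx L σ) = dsm σ := by
  induction L with
  | zero => rfl
  | succ L ih =>
    have e : ∀ i, dsum (L + 1) i = i % 3 + dsum L (i / 3) := fun _ => rfl
    rw [e, tb_idx_div3, tb_idx_mod3, ih, tb_dsm_succ' σ, add_comm]

theorem tb_rotN (n : ℕ) (σ : Cfg (n + 1)) : rotN n (idx (n + 1) σ) = idx (n + 1) (rotC σ) := by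
  have e : ∀ i, rotN n i = i % 3 ^ n * 3 + i / 3 ^ n := fun _ => rfl
  rw [e, tb_idx_mod, tb_idx_div, tb_idx_snoc n (rotC σ), rotC, Fin.init_snoc, Fin.snoc_last,
    mul_comm]

theorem tb_revN_aux (L : ℕ) (σ : Cfg L) (a : ℕ) :
    revN L (idx L σ) a = a * 3 ^ L + idx L (revC σ) := by
  induction L generalizing a with
  | zero => simp [tb_idx_zero]; rfl
  | succ L ih =>
    have e : ∀ i, revN (L + 1) i a = revN L (i / 3) (a * 3 + i % 3) := fun _ => rfl
    have h1 : Fin.tail (revC σ) = revC (Fin.init σ : Cfg L) := by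
      funext j
      simp only [Fin.tail, revC, Fin.init, Fin.rev_succ]
    have h2 : revC σ 0 = σ (Fin.last L) := by simp [revC]
    rw [e, tb_idx_div3, tb_idx_mod3, ih, tb_idx_succ L (revC σ), h1, h2]
    ring

theorem tb_revN (L : ℕ) (σ : Cfg L) : revN L (idx L σ) 0 = idx L (revC σ) := by
  rw [tb_revN_aux, zero_mul, zero_add]

theorem tb_val_rev (a : Fin 3) : (a.rev : ℕ) + a = 2 := by fin_cases a <;> rfl

theorem tb_idx_flip (L : ℕ) (σ : Cfg L) : idx L (flipC σ) + idx L σ + 1 = 3 ^ L := by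
  induction L with
  | zero => rfl
  | succ L ih =>
    have h1 := ih (Fin.tail σ)
    have h2 := congrArg (· * 3 ^ L) (tb_val_rev (σ 0))
    rw [tb_idx_succ, tb_idx_succ, pow_succ]
    change ((σ 0).rev : ℕ) * 3 ^ L + idx L (flipC (Fin.tail σ)) + _ + 1 = _
    simp only [add_mul] at h2
    omega

theorem tb_flipN (L : ℕ) (σ : Cfg L) : flipN L (idx L σ) = idx L (flipC σ) := by
  have e : ∀ i, flipN L i = 3 ^ L - 1 - i := fun _ => rfl
  have := tb_idx_flip L σ
  rw [e]; omega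

theorem tb_dsm_rot {n : ℕ} (σ : Cfg (n + 1)) : dsm (rotC σ) = dsm σ := by
  rw [tb_dsm_succ' (rotC σ), tb_dsm_succ σ, rotC, Fin.init_snoc, Fin.snoc_last, add_comm]

theorem tb_dsm_rev {L : ℕ} (σ : Cfg L) : dsm (revC σ) = dsm σ :=
  Equiv.sum_comp Fin.revPerm fun j => (σ j : ℕ)

theorem tb_dsm_flip {L : ℕ} (σ : Cfg L) : dsm (flipC σ) + dsm σ = 2 * L := by
  simp only [dsm, flipC, ← Finset.sum_add_distrib, tb_val_rev]
  simp [mul_comm]

/-! ### bit masks -/

theorem tb_bit (m i : ℕ) : Nat.land (Nat.shiftRight m i) 1 = if m.testBit i then 1 else 0 := by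
  change (m >>> i) &&& 1 = _
  rw [Nat.and_one_is_mod, Nat.shiftRight_eq_div_pow, Nat.testBit_eq_decide_div_mod_eq]
  have := Nat.mod_two_eq_zero_or_one (m / 2 ^ i)
  rcases this with h | h <;> simp [h]

theorem tb_testBit_set (m i j : ℕ) :
    (Nat.lor m (Nat.shiftLeft 1 i)).testBit j = (m.testBit j || decide (i = j)) := by
  change (m ||| (1 <<< i)).testBit j = _
  rw [Nat.testBit_or, Nat.one_shiftLeft, Nat.testBit_two_pow]

theorem tb_mark_cons (i : ℕ) (o : List ℕ) (m k : ℕ) :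
    mark (i :: o) m k = if m.testBit i then mark o m k
      else mark o (Nat.lor m (Nat.shiftLeft 1 i)) (k + 1) := by
  have e : mark (i :: o) m k = Bool.rec (mark o m k) (mark o (Nat.lor m (Nat.shiftLeft 1 i)) (k + 1))
    (Nat.beq (Nat.land (Nat.shiftRight m i) 1) 0) := rfl
  rw [e, tb_bit]
  cases m.testBit i <;> rfl

/-- sum of `g` over the marked configurations -/
noncomputable def tbS (L : ℕ) (g : Cfg L → ℝ) (m : ℕ) : ℝ :=
  ∑ σ : Cfg L, if m.testBit (idx L σ) then g σ else 0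

theorem tb_idx_inj (L : ℕ) : Function.Injective (idx L) := fun σ τ h => by
  rw [← cfg_idx L σ, h, cfg_idx]

theorem tbS_set (L : ℕ) (g : Cfg L → ℝ) (m : ℕ) (τ : Cfg L) (h : ¬ m.testBit (idx L τ) = true) :
    tbS L g (Nat.lor m (Nat.shiftLeft 1 (idx L τ))) = tbS L g m + g τ := by
  have e : g τ = ∑ σ : Cfg L, if τ = σ then g σ else 0 := by simp
  rw [e, tbS, tbS, ← Finset.sum_add_distrib]
  refine Finset.sum_congr rfl fun σ _ => ?_
  rw [tb_testBit_set]
  by_cases h1 : τ = σ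
  · subst h1; simp [h]
  · have : idx L τ ≠ idx L σ := fun e => h1 (tb_idx_inj L e)
    simp [h1, this]

theorem tb_mark (L : ℕ) (g : Cfg L → ℝ) (P : Cfg L → Prop) (c : ℝ) (o : List ℕ)
    (ho : ∀ i ∈ o, ∃ τ, idx L τ = i ∧ P τ ∧ g τ = c) (m k : ℕ)
    (hm : ∀ σ, m.testBit (idx L σ) = true → P σ) :
    (∀ σ, (mark o m k).1.testBit (idx L σ) = true → P σ) ∧
      tbS L g (mark o m k).1 + k * c = tbS L g m + (mark o m k).2 * c := by
  induction o generalizing m k with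
  | nil => exact ⟨hm, rfl⟩
  | cons i o ih =>
    have ho' : ∀ i ∈ o, ∃ τ, idx L τ = i ∧ P τ ∧ g τ = c := fun j hj =>
      ho j (List.mem_cons_of_mem _ hj)
    rw [tb_mark_cons]
    split_ifs with h
    · exact ih ho' m k hm
    · obtain ⟨τ, rfl, hP, hg⟩ := ho i List.mem_cons_self
      obtain ⟨h1, h2⟩ := ih ho' (Nat.lor m (Nat.shiftLeft 1 (idx L τ))) (k + 1) fun σ hσ => by
        rw [tb_testBit_set, Bool.or_eq_true, decide_eq_true_eq] at hσ
        rcases hσ with hσ | hσ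
        · exact hm σ hσ
        · exact tb_idx_inj L hσ ▸ hP
      refine ⟨h1, ?_⟩
      rw [tbS_set L g m τ h, hg] at h2
      push_cast at h2
      linarith

theorem tb_cover_cons (L lo hi : ℕ) (orb : ℕ → List ℕ) (q : ℕ × ℕ) (l : List (ℕ × ℕ)) (m : ℕ)
    (h : cover L lo hi orb (q :: l) m = true) :
    q.1 < 3 ^ L ∧ lo ≤ dsum L q.1 ∧ dsum L q.1 ≤ hi ∧ (mark (orb q.1) m 0).2 = q.2 ∧
      cover L lo hi orb l (mark (orb q.1) m 0).1 = true := by
  have e : cover L lo hi orb (q :: l) m = Bool.rec false (Bool.rec false (Bool.rec false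
    (Bool.rec false (cover L lo hi orb l (mark (orb q.1) m 0).1) (Nat.beq (mark (orb q.1) m 0).2 q.2))
    (Nat.ble (dsum L q.1) hi)) (Nat.ble lo (dsum L q.1))) (Nat.ble (q.1 + 1) (3 ^ L)) := rfl
  rw [e, tb_rec_ble, tb_rec_ble, tb_rec_ble, tb_rec_beq] at h
  split_ifs at h with h1 h2 h3 h4
  exact ⟨h1, h2, h3, h4, h⟩

theorem tb_cover (L lo hi : ℕ) (orb : ℕ → List ℕ) (g : Cfg L → ℝ)
    (horb : ∀ σ : Cfg L, lo ≤ dsm σ ∧ dsm σ ≤ hi → ∀ i ∈ orb (idx L σ),
      ∃ τ, idx L τ = i ∧ (lo ≤ dsm τ ∧ dsm τ ≤ hi) ∧ g τ = g σ)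
    (l : List (ℕ × ℕ)) (m : ℕ) (hm : ∀ σ, m.testBit (idx L σ) = true → lo ≤ dsm σ ∧ dsm σ ≤ hi)
    (h : cover L lo hi orb l m = true) :
    (∀ q ∈ l, q.1 < 3 ^ L ∧ lo ≤ dsm (cfg L q.1) ∧ dsm (cfg L q.1) ≤ hi) ∧
    ∑ σ : Cfg L, (if lo ≤ dsm σ ∧ dsm σ ≤ hi then g σ else 0)
      = tbS L g m + (l.map fun q => (q.2 : ℝ) * g (cfg L q.1)).sum := by
  induction l generalizing m with
  | nil =>
    refine ⟨by simp, ?_⟩
    have h1 : Bd 0 (buildR L lo hi fun i => 1 - Nat.land (Nat.shiftRight m i) 1) :=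
      (allLe_iff _ _).1 h
    rw [List.map_nil, List.sum_nil, add_zero, tbS]
    refine Finset.sum_congr rfl fun σ _ => if_congr ⟨fun hσ => ?_, hm σ⟩ rfl rfl
    have h2 := get_le_of_bd L 0 _ h1 σ
    rw [get_buildR, if_pos hσ, tb_bit] at h2
    by_contra h3
    rw [if_neg h3] at h2
    omega
  | cons q l ih =>
    obtain ⟨h1, h2, h3, h4, h5⟩ := tb_cover_cons L lo hi orb q l m h
    have e := idx_cfg L q.1 h1
    have hd : dsum L q.1 = dsm (cfg L q.1) := by rw [← tb_dsum, e]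
    rw [hd] at h2 h3
    have h6 := horb _ ⟨h2, h3⟩
    rw [e] at h6
    obtain ⟨h7, h8⟩ := tb_mark L g (fun σ => lo ≤ dsm σ ∧ dsm σ ≤ hi) _ _ h6 m 0 hm
    obtain ⟨h9, h10⟩ := ih _ h7 h5
    refine ⟨fun q' hq' => ?_, ?_⟩
    · rcases List.mem_cons.1 hq' with rfl | hq'
      · exact ⟨h1, h2, h3⟩
      · exact h9 q' hq'
    · rw [h4] at h8
      rw [h10, List.map_cons, List.sum_cons]
      push_cast at h8
      linarith

theorem tb_covers (L lo hi : ℕ) (orb : ℕ → List ℕ) (g : Cfg L → ℝ)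
    (horb : ∀ σ : Cfg L, lo ≤ dsm σ ∧ dsm σ ≤ hi → ∀ i ∈ orb (idx L σ),
      ∃ τ, idx L τ = i ∧ (lo ≤ dsm τ ∧ dsm τ ≤ hi) ∧ g τ = g σ)
    (l : List (ℕ × ℕ)) (h : cover L lo hi orb l 0 = true) : Covers L lo hi l g := by
  obtain ⟨h1, h2⟩ := tb_cover L lo hi orb g horb l 0 (by simp) h
  refine ⟨h1, ?_⟩
  rw [h2]
  simp [tbS]

theorem tb_rots (n : ℕ) (P : Cfg (n + 1) → Prop) (hP : ∀ σ, P σ → P (rotC σ)) (k : ℕ)
    (σ : Cfg (n + 1)) (hσ : P σ) (r : List ℕ) (hr : ∀ i ∈ r, ∃ τ, idx (n + 1) τ = i ∧ P τ) :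
    ∀ i ∈ rots n k (idx (n + 1) σ) r, ∃ τ, idx (n + 1) τ = i ∧ P τ := by
  induction k generalizing σ with
  | zero => exact hr
  | succ k ih =>
    have e : ∀ i, rots n (k + 1) i r = i :: rots n k (rotN n i) r := fun _ => rfl
    intro i hi
    rw [e, tb_rotN] at hi
    rcases List.mem_cons.1 hi with rfl | hi
    · exact ⟨σ, rfl, hσ⟩
    · exact ih _ (hP σ hσ) i hi

theorem covers_A (n lo hi : ℕ) (l : List (ℕ × ℕ)) (h : cover (n + 1) lo hi (orbA n) l 0 = true)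
    (g : Cfg (n + 1) → ℝ) (h1 : ∀ σ, g (rotC σ) = g σ) (h2 : ∀ σ, g (revC σ) = g σ) :
    Covers (n + 1) lo hi l g := by
  refine tb_covers _ lo hi _ g (fun σ hσ => ?_) l h
  have hP : ∀ τ : Cfg (n + 1), (lo ≤ dsm τ ∧ dsm τ ≤ hi) ∧ g τ = g σ →
      (lo ≤ dsm (rotC τ) ∧ dsm (rotC τ) ≤ hi) ∧ g (rotC τ) = g σ := fun τ hτ => by
    rwa [tb_dsm_rot, h1]
  rw [orbA, tb_revN]
  exact tb_rots n _ hP _ σ ⟨hσ, rfl⟩ _
    (tb_rots n _ hP _ _ ⟨by rwa [tb_dsm_rev], h2 σ⟩ _ (by simp))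

theorem covers_B (n lo hi : ℕ) (hs : lo + hi = 2 * (n + 1)) (l : List (ℕ × ℕ))
    (h : cover (n + 1) lo hi (orbB n) l 0 = true)
    (g : Cfg (n + 1) → ℝ) (h1 : ∀ σ, g (rotC σ) = g σ) (h2 : ∀ σ, g (revC σ) = g σ)
    (h3 : ∀ σ, g (flipC σ) = g σ) : Covers (n + 1) lo hi l g := by
  refine tb_covers _ lo hi _ g (fun σ hσ => ?_) l h
  have hP : ∀ τ : Cfg (n + 1), (lo ≤ dsm τ ∧ dsm τ ≤ hi) ∧ g τ = g σ →
      (lo ≤ dsm (rotC τ) ∧ dsm (rotC τ) ≤ hi) ∧ g (rotC τ) = g σ := fun τ hτ => by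
    rwa [tb_dsm_rot, h1]
  have hf : lo ≤ dsm (flipC σ) ∧ dsm (flipC σ) ≤ hi := by
    have := tb_dsm_flip σ
    omega
  rw [orbB, tb_flipN, tb_revN, tb_revN]
  exact tb_rots n _ hP _ σ ⟨hσ, rfl⟩ _
    (tb_rots n _ hP _ _ ⟨by rwa [tb_dsm_rev], h2 σ⟩ _
      (tb_rots n _ hP _ _ ⟨hf, h3 σ⟩ _
        (tb_rots n _ hP _ _ ⟨by rwa [tb_dsm_rev], (h2 _).trans (h3 σ)⟩ _ (by simp))))

theorem covers_C (n lo hi : ℕ) (l : List (ℕ × ℕ)) (h : cover (n + 1) lo hi (orbC n) l 0 = true)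
    (g : Cfg (n + 1) → ℝ) (h2 : ∀ σ, g (revC σ) = g σ) : Covers (n + 1) lo hi l g := by
  refine tb_covers _ lo hi _ g (fun σ hσ i hi => ?_) l h
  rw [orbC, tb_revN, List.mem_cons, List.mem_singleton] at hi
  rcases hi with rfl | rfl
  · exact ⟨σ, rfl, hσ, rfl⟩
  · exact ⟨_, rfl, by rwa [tb_dsm_rev], h2 σ⟩

theorem covers_D (n lo hi : ℕ) (hs : lo + hi = 2 * (n + 1)) (l : List (ℕ × ℕ))
    (h : cover (n + 1) lo hi (orbD n) l 0 = true)
    (g : Cfg (n + 1) → ℝ) (h2 : ∀ σ, g (revC (flipC σ)) = g σ) : Covers (n + 1) lo hi l g := by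
  refine tb_covers _ lo hi _ g (fun σ hσ i hi => ?_) l h
  rw [orbD, tb_flipN, tb_revN, List.mem_cons, List.mem_singleton] at hi
  rcases hi with rfl | rfl
  · exact ⟨σ, rfl, hσ, rfl⟩
  · refine ⟨_, rfl, ?_, h2 σ⟩
    have := tb_dsm_flip σ
    rw [tb_dsm_rev]
    omega

theorem covers_E (n lo hi : ℕ) (l : List (ℕ × ℕ)) (h : cover (n + 1) lo hi (orbE n) l 0 = true)
    (g : Cfg (n + 1) → ℝ) : Covers (n + 1) lo hi l g := by
  refine tb_covers _ lo hi _ g (fun σ hσ i hi => ?_) l h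
  rw [orbE, List.mem_singleton] at hi
  exact ⟨σ, hi.symm, hσ, rfl⟩

end Crest.Agent.R347
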