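
/-! Row 347: ternary trees of packed naturals, written with raw recursors for fast kernel
evaluation.  All functions are only ever run by the kernel. -/

set_option autoImplicit false

namespace Crest.Agent.R347

inductive T where
  | nil : T
  | leaf : Nat → T
  | node : T → T → T → T

noncomputable section

def T.add (x : T) : T → T :=
  T.rec (motive := fun _ => T → T) (fun y => y)
    (fun a y => T.rec (motive := fun _ => T) (T.leaf a) (fun b => T.leaf (Nat.add a b))
      (fun _ _ _ _ _ _ => T.leaf a) y)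
    (fun a b c fa fb fc y => T.rec (motive := fun _ => T) (T.node a b c) (fun _ => T.node a b c)
       (fun a' b' c' _ _ _ => T.node (fa a') (fb b') (fc c')) y) x

/-- `node`, collapsing three `nil`s -/
def T.mk (a b c : T) : T :=
  T.rec (motive := fun _ => T)
    (T.rec (motive := fun _ => T)
      (T.rec (motive := fun _ => T) T.nil (fun _ => T.node a b c) (fun _ _ _ _ _ _ => T.node a b c) c)
      (fun _ => T.node a b c) (fun _ _ _ _ _ _ => T.node a b c) b)
    (fun _ => T.node a b c) (fun _ _ _ _ _ _ => T.node a b c) a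

def T.c0 (x : T) : T := T.rec (motive := fun _ => T) T.nil (fun _ => T.nil) (fun a _ _ _ _ _ => a) x
def T.c1 (x : T) : T := T.rec (motive := fun _ => T) T.nil (fun _ => T.nil) (fun _ a _ _ _ _ => a) x
def T.c2 (x : T) : T := T.rec (motive := fun _ => T) T.nil (fun _ => T.nil) (fun _ _ a _ _ _ => a) x
def T.val (x : T) : Nat := T.rec (motive := fun _ => Nat) 0 (fun a => a) (fun _ _ _ _ _ _ => 0) x

def T.map (f : Nat → Nat) (x : T) : T :=
  T.rec (motive := fun _ => T) T.nil (fun a => T.leaf (f a)) (fun _ _ _ a b c => T.node a b c) x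

/-- `K + (p - m) x` -/
def dleaf (K p m x : Nat) : Nat :=
  Bool.rec (Nat.sub K (Nat.mul (Nat.sub m p) x))
    (Bool.rec (Nat.add K (Nat.mul (Nat.sub p m) x)) K (Nat.ble p m)) (Nat.ble m p)

/-- diagonal part.  `s` = index of the previous spin, `p - m` = coefficient accumulated so far,
`g` = bond coupling; at a leaf `s` is the last spin and `p0 - m0` (if `s = 0`) or `p2 - m2`
(if `s = 2`) is added. -/
def T.diag (K g p0 m0 p2 m2 : Nat) (t : T) : Nat → Nat → Nat → T :=
  T.rec (motive := fun _ => Nat → Nat → Nat → T) (fun _ _ _ => T.nil)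
    (fun x s p m => T.leaf (dleaf K
        (Nat.add p (Bool.rec (Bool.rec 0 p2 (Nat.beq s 2)) p0 (Nat.beq s 0)))
        (Nat.add m (Bool.rec (Bool.rec 0 m2 (Nat.beq s 2)) m0 (Nat.beq s 0))) x))
    (fun _ _ _ fa fb fc s p m =>
       T.node (fa 0 (Bool.rec p (Nat.add p g) (Nat.beq s 0)) (Bool.rec m (Nat.add m g) (Nat.beq s 2)))
              (fb 1 p m)
              (fc 2 (Bool.rec p (Nat.add p g) (Nat.beq s 2)) (Bool.rec m (Nat.add m g) (Nat.beq s 0)))) t

/-- on a tree of depth `d+1`: new value at last index `j` = old value at last index `j-1` -/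
def T.up (d : Nat) : T → T :=
  Nat.rec (motive := fun _ => T → T)
    (fun t => T.rec (motive := fun _ => T) T.nil (fun _ => T.nil) (fun a b _ _ _ _ => T.mk T.nil a b) t)
    (fun _ f t => T.rec (motive := fun _ => T) T.nil (fun _ => T.nil)
      (fun a b c _ _ _ => T.mk (f a) (f b) (f c)) t) d

/-- on a tree of depth `d+1`: new value at last index `j` = old value at last index `j+1` -/
def T.dn (d : Nat) : T → T :=
  Nat.rec (motive := fun _ => T → T)
    (fun t => T.rec (motive := fun _ => T) T.nil (fun _ => T.nil) (fun _ b c _ _ _ => T.mk b c T.nil) t)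
    (fun _ f t => T.rec (motive := fun _ => T) T.nil (fun _ => T.nil)
      (fun a b c _ _ _ => T.mk (f a) (f b) (f c)) t) d

/-- on trees of depth `d+1`: `acc + hopO t` -/
def hop (d : Nat) : T → T → T :=
  Nat.rec (motive := fun _ => T → T → T)
    (fun _ acc => acc)
    (fun _ f t acc => T.rec (motive := fun _ => T) acc (fun _ => acc)
        (fun a b c _ _ _ => T.mk
              (f a (T.mk acc.c0.c0 (acc.c0.c1.add b.c0) (acc.c0.c2.add b.c1)))
              (f b (T.mk (acc.c1.c0.add a.c1) ((acc.c1.c1.add a.c2).add c.c0) (acc.c1.c2.add c.c1)))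
              (f c (T.mk (acc.c2.c0.add b.c1) (acc.c2.c1.add b.c2) acc.c2.c2))) t) d

/-- depth `d+2`; diagonal part and open hops of the ring -/
def baseR (d K : Nat) (t : T) : T :=
  hop (Nat.succ d) t (T.mk (T.diag K 1 1 0 0 1 t.c0 0 0 0) (T.diag K 1 0 0 0 0 t.c1 1 0 0)
    (T.diag K 1 0 1 1 0 t.c2 2 0 0))

def PA (d : Nat) (t : T) : T := T.mk (T.up d t.c1) (T.up d t.c2) T.nil
def PB (d : Nat) (t : T) : T := T.mk T.nil (T.dn d t.c0) (T.dn d t.c1)
def T.neg (K : Nat) (t : T) : T := T.map (fun x => Nat.sub K x) t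

/-- untwisted ring of `d+2` sites -/
def step0 (d K : Nat) (t : T) : T := ((baseR d K t).add (PA d t)).add (PB d t)
/-- π-twisted ring of `d+2` sites -/
def stepP (d K : Nat) (t : T) : T := ((baseR d K t).add ((PA d t).neg K)).add ((PB d t).neg K)
/-- `2π/3`-twisted ring; `t = node A B nil` stands for `A + om B` -/
def stepW (d K : Nat) (t : T) : T :=
  T.node ((((baseR d K t.c0).add ((PA d t.c1).neg K)).add (PB d t.c1)).add ((PB d t.c0).neg K))
    ((((baseR d K t.c1).add (PA d t.c0)).add ((PA d t.c1).neg K)).add ((PB d t.c0).neg K)) T.nil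
/-- `actO (d+1) (ap - am) (bp - bm)` -/
def stepO (d ap am bp bm K : Nat) (t : T) : T :=
  (T.mk (T.diag K 5 bm bp bp bm t.c0 0 am ap) (T.diag K 5 bm bp bp bm t.c1 1 0 0)
    (T.diag K 5 bm bp bp bm t.c2 2 ap am)).add (T.map (fun x => Nat.mul 5 x) (hop (Nat.succ d) t T.nil))

/-- value at the configuration with index `i` of a tree of depth `d` -/
def getN (d : Nat) : T → Nat → Nat :=
  Nat.rec (motive := fun _ => T → Nat → Nat)
   (fun t _ => t.val)
   (fun d g t i => T.rec (motive := fun _ => Nat) 0 (fun _ => 0) (fun a b c _ _ _ =>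
       Bool.rec (Bool.rec (g c (Nat.mod i (Nat.pow 3 d))) (g b (Nat.mod i (Nat.pow 3 d)))
          (Nat.beq (Nat.div i (Nat.pow 3 d)) 1))
        (g a (Nat.mod i (Nat.pow 3 d))) (Nat.beq (Nat.div i (Nat.pow 3 d)) 0)) t) d

/-- Tree of depth `d` with a leaf `f (3^d i + idx σ)` at each `σ` whose digit sum `∑ σ j` lies in
`[lo - s, hi - s]`.  (`chg σ = L - ∑ σ j`.) -/
def buildT (f : Nat → Nat) (lo hi : Nat) (d : Nat) : Nat → Nat → T :=
  Nat.rec (motive := fun _ => Nat → Nat → T)
    (fun s i => Bool.rec T.nil (Bool.rec T.nil (T.leaf (f i)) (Nat.ble s hi)) (Nat.ble lo s))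
    (fun d g s i => Bool.rec T.nil (Bool.rec T.nil
        (T.node (g s (Nat.mul 3 i)) (g (Nat.add s 1) (Nat.add (Nat.mul 3 i) 1))
          (g (Nat.add s 2) (Nat.add (Nat.mul 3 i) 2)))
        (Nat.ble s hi)) (Nat.ble lo (Nat.add s (Nat.mul 2 (Nat.add d 1))))) d

def buildR (L lo hi : Nat) (f : Nat → Nat) : T := buildT f lo hi L 0 0
def buildC (L lo hi : Nat) (f : Nat → Nat) : T :=
  T.node (buildT (fun i => f (Nat.mul 2 i)) lo hi L 0 0)
    (buildT (fun i => f (Nat.add (Nat.mul 2 i) 1)) lo hi L 0 0) T.nil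

/-- `node (leaf (ψ t₀)) (node (leaf (ψ t₁)) … ) nil`, `t_{k+1} = step (2^(e+10k+8)) t_k` -/
def run (step : Nat → T → T) (ψ : T → Nat) (n : Nat) : Nat → T → T :=
  Nat.rec (motive := fun _ => Nat → T → T) (fun _ t => T.node (T.leaf (ψ t)) T.nil T.nil)
    (fun _ g e t => T.node (T.leaf (ψ t))
      (g (Nat.add e 10) (step (Nat.shiftLeft 1 (Nat.add e 8)) t)) T.nil) n

/-- accelerated version of `run` -/
def chain {A : Type} (tr : (T → T) → A) (F : (T → T → T) → Nat → A → A) (ψ : T → Nat) (n : Nat) : Nat → A :=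
  Nat.rec (motive := fun _ => Nat → A) (fun _ => tr (fun t => T.node (T.leaf (ψ t)) T.nil T.nil))
    (fun _ g e => F (fun t r => T.node (T.leaf (ψ t)) r T.nil) (Nat.shiftLeft 1 (Nat.add e 8))
      (g (Nat.add e 10))) n

def ofL (l : List Nat) : T :=
  List.rec (motive := fun _ => T) T.nil (fun a _ r => T.node (T.leaf a) r T.nil) l

/-- The accelerator of a step function on one sector. -/
structure Acc (step : Nat → T → T) (bld : (Nat → Nat) → T) where
  A : Type
  tr : (T → T) → A
  F : (T → T → T) → Nat → A → A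
  app : (Nat → Nat) → A → T
  hF : (fun (cmb : T → T → T) (φ : T → T) (K : Nat) => tr (fun t => cmb t (φ (step K t))))
    = fun cmb φ K => F cmb K (tr φ)
  happ : (fun (f : Nat → Nat) (φ : T → T) => app f (tr φ)) = fun f φ => φ (bld f)

/-- biased field number `c` of width `w` -/
def ext (w N c : Nat) : Nat :=
  Nat.mod (Nat.add (Nat.shiftRight (Nat.add N (Nat.shiftLeft 1 (Nat.sub (Nat.mul w c) 1))) (Nat.mul w c))
    (Nat.shiftLeft 1 (Nat.sub w 1))) (Nat.shiftLeft 1 w)

/-- `∑_c wt_c * ext w (g p_c) (c₀ + c)` over the list of `(p_c, wt_c)` -/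
def extSum (w : Nat) (g : Nat → Nat) (l : List (Nat × Nat)) : Nat → Nat :=
  List.rec (motive := fun _ => Nat → Nat) (fun _ => 0)
    (fun q _ r c => Nat.add (Nat.mul q.2 (ext w (g q.1) c)) (r (Nat.add c 1))) l

def colMask (l : List (Nat × Nat)) : Nat :=
  List.rec (motive := fun _ => Nat) 0 (fun q _ r => Nat.lor (Nat.shiftLeft 1 q.1) r) l

def colFind (w i : Nat) (l : List (Nat × Nat)) : Nat → Nat :=
  List.rec (motive := fun _ => Nat → Nat) (fun _ => 0)
    (fun q _ r c => Bool.rec (r (Nat.add c 1))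
      (Nat.add (Nat.shiftLeft 1 (Nat.mul w c)) (r (Nat.add c 1))) (Nat.beq i q.1)) l

/-- initial vector: a dummy column (hashing) plus the unit vectors of the block -/
def ini (w mask : Nat) (l : List (Nat × Nat)) (i : Nat) : Nat :=
  Nat.add (Nat.mul i 40503)
    (Bool.rec (colFind w i l 2) 0 (Nat.beq (Nat.land (Nat.shiftRight mask i) 1) 0))

/-- same, two components (the unit vectors sit in the first component) -/
def iniC (w mask : Nat) (l : List (Nat × Nat)) (i : Nat) : Nat :=
  Bool.rec (Nat.mul i 40503) (ini w mask l (Nat.div i 2)) (Nat.beq (Nat.mod i 2) 0)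

def blockR {step : Nat → T → T} {bld : (Nat → Nat) → T} (a : Acc step bld) (L w J : Nat)
    (l : List (Nat × Nat)) : T :=
  a.app (ini w (colMask l) l)
    (chain a.tr a.F (fun t => extSum w (getN L t) l 2) J (Nat.mul w (Nat.add l.length 2)))

def blockC {step : Nat → T → T} {bld : (Nat → Nat) → T} (a : Acc step bld) (L w J : Nat)
    (l : List (Nat × Nat)) : T :=
  a.app (iniC w (colMask l) l)
    (chain a.tr a.F (fun t => extSum w (getN L t.c0) l 2) J (Nat.mul w (Nat.add l.length 2)))

/-! orbit covers -/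

def rotN (n i : Nat) : Nat := Nat.add (Nat.mul (Nat.mod i (Nat.pow 3 n)) 3) (Nat.div i (Nat.pow 3 n))
def flipN (L i : Nat) : Nat := Nat.sub (Nat.sub (Nat.pow 3 L) 1) i
def revN (L : Nat) : Nat → Nat → Nat :=
  Nat.rec (motive := fun _ => Nat → Nat → Nat) (fun _ a => a)
    (fun _ g i a => g (Nat.div i 3) (Nat.add (Nat.mul a 3) (Nat.mod i 3))) L
def dsum (L : Nat) : Nat → Nat :=
  Nat.rec (motive := fun _ => Nat → Nat) (fun _ => 0)
    (fun _ g i => Nat.add (Nat.mod i 3) (g (Nat.div i 3))) L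

/-- `i, rot i, …, rot^(k-1) i` prepended to `r` -/
def rots (n k : Nat) : Nat → List Nat → List Nat :=
  Nat.rec (motive := fun _ => Nat → List Nat → List Nat) (fun _ r => r)
    (fun _ g i r => i :: g (rotN n i) r) k

/-- orbit lists (with repetitions), `L = n+1` sites -/
def orbA (n i : Nat) : List Nat :=
  rots n (n + 1) i (rots n (n + 1) (revN (n + 1) i 0) [])
def orbB (n i : Nat) : List Nat :=
  rots n (n + 1) i (rots n (n + 1) (revN (n + 1) i 0)
    (rots n (n + 1) (flipN (n + 1) i) (rots n (n + 1) (revN (n + 1) (flipN (n + 1) i) 0) [])))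
def orbC (n i : Nat) : List Nat := [i, revN (n + 1) i 0]
def orbD (n i : Nat) : List Nat := [i, revN (n + 1) (flipN (n + 1) i) 0]
def orbE (_n i : Nat) : List Nat := [i]

/-- mark the elements of `o` in the bit mask; returns (new mask, number of new elements) -/
def mark (o : List Nat) : Nat → Nat → Nat × Nat :=
  List.rec (motive := fun _ => Nat → Nat → Nat × Nat) (fun m k => (m, k))
    (fun i _ r m k => Bool.rec (r m k) (r (Nat.lor m (Nat.shiftLeft 1 i)) (Nat.add k 1))
      (Nat.beq (Nat.land (Nat.shiftRight m i) 1) 0)) o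

def allLe (B : Nat) (t : T) : Bool :=
  T.rec (motive := fun _ => Bool) true (fun a => Nat.ble a B)
    (fun _ _ _ a b c => Bool.rec false (Bool.rec false c b) a) t

/-- every `(p, wt)` has `p < 3^L`, digit sum in `[lo,hi]`, `wt` = number of new orbit points, and
at the end every configuration of the sector is marked -/
def cover (L lo hi : Nat) (orb : Nat → List Nat) (l : List (Nat × Nat)) : Nat → Bool :=
  List.rec (motive := fun _ => Nat → Bool)
    (fun m => allLe 0 (buildR L lo hi (fun i => Nat.sub 1 (Nat.land (Nat.shiftRight m i) 1))))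
    (fun q _ r m => Bool.rec false (Bool.rec false (Bool.rec false (Bool.rec false
        (r (mark (orb q.1) m 0).1) (Nat.beq (mark (orb q.1) m 0).2 q.2))
        (Nat.ble (dsum L q.1) hi)) (Nat.ble lo (dsum L q.1))) (Nat.ble (Nat.succ q.1) (Nat.pow 3 L))) l

/-! eigenvector certificates -/

/-- signed value of a residue mod `2^64` -/
def dec (N : Nat) : Int :=
  Int.subNatNat (Nat.mod (Nat.add N 9223372036854775808) 18446744073709551616) 9223372036854775808

/-- `∑_σ f (x σ) (y σ)` for trees of depth `d` (needs `f 0 0 = 0`) -/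
def fold2 (f : Nat → Nat → Int) (d : Nat) : T → T → Int :=
  Nat.rec (motive := fun _ => T → T → Int) (fun x y => f x.val y.val)
    (fun _ g x y => T.rec (motive := fun _ => Int)
      (T.rec (motive := fun _ => Int) 0 (fun _ => 0)
        (fun a b c _ _ _ => Int.add (Int.add (g T.nil a) (g T.nil b)) (g T.nil c)) y)
      (fun _ => 0)
      (fun a b c _ _ _ => Int.add (Int.add (g a y.c0) (g b y.c1)) (g c y.c2)) x) d

def T.flip (x : T) : T :=
  T.rec (motive := fun _ => T) T.nil (fun a => T.leaf a) (fun _ _ _ a b c => T.node c b a) x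

def b2t (b : Bool) : T := Bool.rec T.nil (T.leaf 1) b

def isq (x : Int) : Int := Int.mul x x

/-- real case: `0 < ‖v‖²`, entries `< 2^32`, `r ‖D Hv - ρ v‖² sd² ≤ sn² D² ‖v‖²` -/
def certR (L r D sn sd : Nat) (ρ : Int) (t u : T) : Bool :=
  (decide (0 < fold2 (fun a _ => isq (dec a)) L t t))
  && allLe 8589934592 (T.map (fun a => Nat.mod (Nat.add a 4294967296) 18446744073709551616) t)
  && decide ((r : Int) * (sd : Int) ^ 2 * fold2 (fun a b => isq (Int.sub (Int.mul D (dec b)) (Int.mul ρ (dec a)))) L t u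
      ≤ (sn : Int) ^ 2 * (D : Int) ^ 2 * fold2 (fun a _ => isq (dec a)) L t t)

/-- the tree of `D u - ρ t` (mod `2^64`, biased so that `dec` reads it), `ρ = ρp - ρm` -/
def resT (D ρp ρm : Nat) (t u : T) : T :=
  (T.map (fun b => Nat.mul D (Nat.mod b 18446744073709551616)) u).add
    (T.map (fun a => Nat.mul a (Nat.sub (Nat.add 18446744073709551616 ρm) ρp)) t)

def nrmC (L : Nat) (a b : T) : Int :=
  fold2 (fun x y => Int.sub (Int.add (isq (dec x)) (isq (dec y))) (Int.mul (dec x) (dec y))) L a b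

/-- complex case, `v = t.c0 + om t.c1`; needs `D ≤ 2^20`, `ρp, ρm ≤ 2^25` -/
def certC (L r D sn sd ρp ρm : Nat) (t u : T) : Bool :=
  (decide (0 < nrmC L t.c0 t.c1))
  && allLe 8589934592 (T.map (fun a => Nat.mod (Nat.add a 4294967296) 18446744073709551616) t)
  && decide ((r : Int) * (sd : Int) ^ 2 * nrmC L (resT D ρp ρm t.c0 u.c0) (resT D ρp ρm t.c1 u.c1)
      ≤ (sn : Int) ^ 2 * (D : Int) ^ 2 * nrmC L t.c0 t.c1)

def orthR (L : Nat) (t t' : T) : Bool :=
  decide (fold2 (fun a b => Int.mul (dec a) (dec b)) L t t' = 0)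

def orthC (L : Nat) (t t' : T) : Bool :=
  decide (fold2 (fun a b => Int.mul (dec a) (dec b)) L t.c0 t'.c0
      + fold2 (fun a b => Int.mul (dec a) (dec b)) L t.c1 t'.c1
      - fold2 (fun a b => Int.mul (dec a) (dec b)) L t.c1 t'.c0 = 0)
  && decide (fold2 (fun a b => Int.mul (dec a) (dec b)) L t.c0 t'.c1
      - fold2 (fun a b => Int.mul (dec a) (dec b)) L t.c1 t'.c0 = 0)

/-- `v (flipC σ) = ε v σ` -/
def parR (L : Nat) (ε : Int) (t : T) : Bool :=
  decide (fold2 (fun a b => isq (Int.sub (dec b) (Int.mul ε (dec a)))) L t t.flip = 0)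

/-- one accelerated step: `chk t (step K t)` with `t = bld f` -/
def oneStep {step : Nat → T → T} {bld : (Nat → Nat) → T} (a : Acc step bld) (chk : T → T → Bool)
    (f : Nat → Nat) : T :=
  a.app f (a.F (fun t u => b2t (chk t u)) 1208925819614629174706176 (a.tr (fun u => u)))

/-- certificate data: entry `i` is the 28-bit biased field `(i % 729) / 3` of chunk `i / 729`,
reduced mod `2^64` -/
def vdat (dd : Nat) (c : T) (i : Nat) : Nat :=
  Nat.mod (Nat.add (Nat.land (Nat.shiftRight (getN dd c (Nat.div i 729))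
      (Nat.mul 28 (Nat.div (Nat.mod i 729) 3))) 268435455) 18446744073575333888) 18446744073709551616

def vdatC (dd : Nat) (c c' : T) (i : Nat) : Nat :=
  Bool.rec (vdat dd c' (Nat.div i 2)) (vdat dd c (Nat.div i 2)) (Nat.beq (Nat.mod i 2) 0)

end

end Crest.Agent.R347
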