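import Crest.Agent.R347.Defs
import Crest.Agent.R347.TK

/-! Row 347: semantics of the trees of `TK.lean` and the interface structures. -/

set_option autoImplicit false
open Matrix

namespace Crest.Agent.R347

/-! ### semantics -/

def T.ch (t : T) (a : Fin 3) : T :=
  match t, a with
  | T.node x _ _, 0 => x
  | T.node _ y _, 1 => y
  | T.node _ _ z, 2 => z
  | _, _ => T.nil

def get : (L : ℕ) → T → Cfg L → ℕ
  | 0, T.leaf a, _ => a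
  | 0, _, _ => 0
  | L + 1, t, σ => get L (t.ch (σ 0)) (Fin.tail σ)

/-- all leaves are at depth `L` -/
def Dep : ℕ → T → Prop
  | _, T.nil => True
  | 0, T.leaf _ => True
  | _ + 1, T.leaf _ => False
  | 0, T.node _ _ _ => False
  | L + 1, T.node a b c => Dep L a ∧ Dep L b ∧ Dep L c

/-- all leaves are `≤ B` -/
def Bd (B : ℕ) : T → Prop
  | T.nil => True
  | T.leaf a => a ≤ B
  | T.node a b c => Bd B a ∧ Bd B b ∧ Bd B c

/-- digit sum; `chg σ = L - dsm σ` -/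
def dsm {L : ℕ} (σ : Cfg L) : ℕ := ∑ j, (σ j : ℕ)

/-- the two-component integer form of `actR n om (om^2)` -/
def actW {R : Type} [CommRing R] (n : ℕ) (x : (Cfg (n + 1) → R) × (Cfg (n + 1) → R)) :
    (Cfg (n + 1) → R) × (Cfg (n + 1) → R) :=
  (fun σ => actR n 0 0 x.1 σ - perA n x.2 σ + perB n x.2 σ - perB n x.1 σ,
   fun σ => actR n 0 0 x.2 σ + perA n x.1 σ - perA n x.2 σ - perB n x.1 σ)

/-- `step` computes the integer matrix `H` modulo any divisor of `K` -/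
def RealKind (L : ℕ) (step : ℕ → T → T) (H : Op L) (G : ℕ) : Prop :=
  ∃ M : Matrix (Cfg L) (Cfg L) ℤ, H = M.map (fun z => (z : ℂ)) ∧ (∀ σ, ∑ τ, |M σ τ| ≤ G) ∧
    ∀ (K B N : ℕ) (t : T), Dep L t → Bd B t → 256 * B ≤ K → N ∣ K →
      Dep L (step K t) ∧ Bd (4 * K) (step K t) ∧
      ∀ σ, ((get L (step K t) σ : ℕ) : ZMod N) = ∑ τ, (M σ τ : ZMod N) * ((get L t τ : ℕ) : ZMod N)

/-- `step` computes the Hermitian matrix `H` with entries in `ℤ[om]` on pairs `c0 + om c1` -/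
def CplxKind (L : ℕ) (step : ℕ → T → T) (H : Op L) (G : ℕ) : Prop :=
  H.IsHermitian ∧ ∃ M11 M12 M21 M22 : Matrix (Cfg L) (Cfg L) ℤ,
    (∀ a b : Cfg L → ℤ, H *ᵥ (fun τ => (a τ : ℂ) + om * (b τ : ℂ)) =
      fun σ => (((M11 *ᵥ a + M12 *ᵥ b) σ : ℤ) : ℂ) + om * (((M21 *ᵥ a + M22 *ᵥ b) σ : ℤ) : ℂ)) ∧
    (∀ σ, ∑ τ, (|M11 σ τ| + |M12 σ τ|) ≤ G) ∧ (∀ σ, ∑ τ, (|M21 σ τ| + |M22 σ τ|) ≤ G) ∧
    ∀ (K B N : ℕ) (t : T), Dep L t.c0 → Dep L t.c1 → Bd B t.c0 → Bd B t.c1 → 256 * B ≤ K → N ∣ K →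
      Dep L (step K t).c0 ∧ Dep L (step K t).c1 ∧ Bd (4 * K) (step K t).c0 ∧
      Bd (4 * K) (step K t).c1 ∧
      (∀ σ, ((get L (step K t).c0 σ : ℕ) : ZMod N) =
        ∑ τ, ((M11 σ τ : ZMod N) * ((get L t.c0 τ : ℕ) : ZMod N)
          + (M12 σ τ : ZMod N) * ((get L t.c1 τ : ℕ) : ZMod N))) ∧
      (∀ σ, ((get L (step K t).c1 σ : ℕ) : ZMod N) =
        ∑ τ, ((M21 σ τ : ZMod N) * ((get L t.c0 τ : ℕ) : ZMod N)
          + (M22 σ τ : ZMod N) * ((get L t.c1 τ : ℕ) : ZMod N)))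

/-- the projector on digit sums in `[lo, hi]` -/
noncomputable def Pd (L lo hi : ℕ) : Op L := Pj L ((L : ℤ) - hi) ((L : ℤ) - lo)

/-- `∑_{σ in the sector} g σ = ∑_{(p, wt)} wt * g (cfg p)` for the functions `g` in `S` -/
def Covers (L lo hi : ℕ) (l : List (ℕ × ℕ)) (g : Cfg L → ℝ) : Prop :=
  (∀ q ∈ l, q.1 < 3 ^ L ∧ lo ≤ dsm (cfg L q.1) ∧ dsm (cfg L q.1) ≤ hi) ∧
  ∑ σ : Cfg L, (if lo ≤ dsm σ ∧ dsm σ ≤ hi then g σ else 0)
    = (l.map fun q => (q.2 : ℝ) * g (cfg L q.1)).sum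

/-- moments from the block outputs -/
def momOf (w J : ℕ) (bl : List (List (ℕ × ℕ) × List ℕ)) : List ℚ :=
  (List.range (J + 1)).map fun j =>
    (bl.map fun b => ((b.2.getD j 0 : ℤ) - ((b.1.map Prod.snd).sum : ℕ) * 2 ^ (w - 1) : ℤ)).sum

end Crest.Agent.R347
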