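import Crest.Agent.R347.TDefs
import Crest.Agent.R347.TK2

/-! Row 347: the `Nat`-only certificate checks agree with those of `TK.lean`. -/

set_option autoImplicit false

namespace Crest.Agent.R347

theorem tf_fold (f : ℕ → ℕ → ℤ) (g : ℕ → ℕ → ℕ) (c : ℤ) (h : ∀ a b, c * f a b = g a b) (d : ℕ) :
    ∀ x y : T, c * fold2 f d x y = (sumN g d x y : ℤ) := by
  induction d with
  | zero => intro x y; exact h _ _
  | succ d ih =>
    intro x y
    cases x with
    | nil =>
      cases y with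
      | nil => exact mul_zero c
      | leaf _ => exact mul_zero c
      | node a b e =>
        change c * (fold2 f d T.nil a + fold2 f d T.nil b + fold2 f d T.nil e)
          = ((sumN g d T.nil a + sumN g d T.nil b + sumN g d T.nil e : ℕ) : ℤ)
        rw [mul_add, mul_add, ih, ih, ih]; push_cast; ring
    | leaf _ => exact mul_zero c
    | node a b e =>
      change c * (fold2 f d a y.c0 + fold2 f d b y.c1 + fold2 f d e y.c2)
        = ((sumN g d a y.c0 + sumN g d b y.c1 + sumN g d e y.c2 : ℕ) : ℤ)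
      rw [mul_add, mul_add, ih, ih, ih]; push_cast; ring

theorem tf_sqd2 (p q : ℕ) : ((sqd2 p q : ℕ) : ℤ) = ((p : ℤ) - q) ^ 2 := by
  change (((p - q + (q - p)) * (p - q + (q - p)) : ℕ) : ℤ) = _
  rcases le_total p q with h | h
  · rw [Nat.sub_eq_zero_of_le h, zero_add]; push_cast [h]; ring
  · rw [Nat.sub_eq_zero_of_le h, add_zero]; push_cast [h]; ring

theorem tf_dec (N : ℕ) : dec N = (bia N : ℤ) - 9223372036854775808 := by
  unfold dec bia
  rw [Int.subNatNat_eq_coe]; rfl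

theorem tf_isq (x : ℤ) : isq x = x * x := rfl
theorem tf_sub (x y : ℤ) : Int.sub x y = x - y := rfl
theorem tf_add (x y : ℤ) : Int.add x y = x + y := rfl
theorem tf_mul (x y : ℤ) : Int.mul x y = x * y := rfl

theorem tf_sq (L : ℕ) (t u : T) : fold2 (fun a _ => isq (dec a)) L t u = (sumN fSq L t u : ℤ) := by
  rw [← tf_fold _ fSq 1 _ L t u, one_mul]
  intro a b
  rw [fSq, tf_sqd2, tf_isq, tf_dec]; push_cast; ring

theorem tf_res (L D ρp ρm : ℕ) (t u : T) :
    fold2 (fun a b => isq (Int.sub (Int.mul D (dec b)) (Int.mul ((ρp : ℤ) - ρm) (dec a)))) L t u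
      = (sumN (fRes D ρp ρm (Nat.mul ρp 9223372036854775808)
        (Nat.mul (Nat.add D ρm) 9223372036854775808)) L t u : ℤ) := by
  rw [← tf_fold _ _ 1 _ L t u, one_mul]
  intro a b
  rw [fRes, tf_sqd2, tf_isq, tf_dec, tf_dec]
  simp only [Nat.add_eq, Nat.mul_eq]
  change 1 * (((D : ℤ) * _ - ((ρp : ℤ) - ρm) * _) * ((D : ℤ) * _ - ((ρp : ℤ) - ρm) * _)) = _
  push_cast; ring

theorem tf_n4 (L : ℕ) (t u : T) : 4 * nrmC L t u = (sumN fN4 L t u : ℤ) := by
  unfold nrmC
  refine tf_fold _ _ 4 ?_ L t u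
  intro a b
  rw [fN4]
  simp only [Nat.add_eq, Nat.mul_eq]
  rw [Nat.cast_add, Nat.cast_mul, tf_sqd2, tf_sqd2, tf_isq, tf_isq, tf_dec, tf_dec]
  simp only [tf_sub, tf_add, tf_mul]
  push_cast; ring

theorem certRN_eq (L r D sn sd ρp ρm : ℕ) :
    certRN L r D sn sd ρp ρm = certR L r D sn sd ((ρp : ℤ) - ρm) := by
  funext t u
  unfold certRN certR smallT
  rw [tf_sq, tf_res]
  congr 1
  · congr 1
    rw [Bool.eq_iff_iff, Nat.ble_eq, decide_eq_true_iff]; omega
  · rw [Bool.eq_iff_iff, Nat.ble_eq, decide_eq_true_iff]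
    simp only [Nat.mul_eq, sqn]
    rw [← Nat.cast_le (α := ℤ)]; push_cast
    rw [sq, sq, sq]

theorem certCN_eq (L r D sn sd ρp ρm : ℕ) :
    certCN L r D sn sd ρp ρm = certC L r D sn sd ρp ρm := by
  funext t u
  unfold certCN certC smallT
  have h1 := tf_n4 L t.c0 t.c1
  have h2 := tf_n4 L (resT D ρp ρm t.c0 u.c0) (resT D ρp ρm t.c1 u.c1)
  congr 1
  · congr 1
    rw [Bool.eq_iff_iff, Nat.ble_eq, decide_eq_true_iff]; omega
  · rw [Bool.eq_iff_iff, Nat.ble_eq, decide_eq_true_iff]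
    simp only [Nat.mul_eq, sqn]
    rw [← Nat.cast_le (α := ℤ)]; push_cast
    rw [← h1, ← h2, sq, sq, sq]
    constructor <;> intro h <;> nlinarith

theorem parP_imp (L : ℕ) (t : T) (h : parP L t = true) : parR L 1 t = true := by
  unfold parP at h
  unfold parR
  rw [Nat.beq_eq] at h
  rw [decide_eq_true_iff, ← one_mul (fold2 _ _ _ _), tf_fold _ fPlus 1 _ L t t.flip, h]; · rfl
  intro a b
  rw [fPlus, tf_sqd2, tf_isq, tf_dec, tf_dec]
  simp only [tf_sub, tf_mul]
  ring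

theorem parM_imp (L : ℕ) (t : T) (h : parM L t = true) : parR L (-1) t = true := by
  unfold parM at h
  unfold parR
  rw [Nat.beq_eq] at h
  rw [decide_eq_true_iff, ← one_mul (fold2 _ _ _ _), tf_fold _ fMinus 1 _ L t t.flip, h]; · rfl
  intro a b
  rw [fMinus, tf_sqd2, tf_isq, tf_dec, tf_dec]
  simp only [Nat.add_eq]
  simp only [tf_sub, tf_mul]
  push_cast; ring

theorem vd1_lt (B i : ℕ) : vd1 B i < 2 ^ 64 :=
  Nat.mod_lt _ (by norm_num)

theorem vd2_lt (B B' i : ℕ) : vd2 B B' i < 2 ^ 64 := by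
  unfold vd2
  cases Nat.beq (Nat.mod i 2) 0 <;> exact vd1_lt _ _

end Crest.Agent.R347
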