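import Crest.Agent.R347.TDefs

/-! Row 347: semantics of the elementary tree operations. -/

set_option autoImplicit false
open Crest.MathPhysics.SpinChain Matrix

namespace Crest.Agent.R347.TS

/-! ### equation lemmas -/

theorem add_nil_left (y : T) : T.nil.add y = y := rfl
theorem add_nil_right (x : T) : x.add T.nil = x := by cases x <;> rfl
theorem add_leaf (a b : ℕ) : (T.leaf a).add (T.leaf b) = T.leaf (a + b) := rfl
theorem add_leaf_node (a : ℕ) (x y z : T) : (T.leaf a).add (T.node x y z) = T.leaf a := rfl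
theorem add_node_leaf (a : ℕ) (x y z : T) : (T.node x y z).add (T.leaf a) = T.node x y z := rfl
theorem add_node (a b c a' b' c' : T) :
    (T.node a b c).add (T.node a' b' c') = T.node (a.add a') (b.add b') (c.add c') := rfl

theorem mk_cases (a b c : T) :
    T.mk a b c = T.node a b c ∨ (a = T.nil ∧ b = T.nil ∧ c = T.nil ∧ T.mk a b c = T.nil) := by
  cases a <;> cases b <;> cases c <;> first | exact Or.inl rfl | exact Or.inr ⟨rfl, rfl, rfl, rfl⟩

theorem c0_eq (t : T) : t.c0 = t.ch 0 := by cases t <;> rfl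
theorem c1_eq (t : T) : t.c1 = t.ch 1 := by cases t <;> rfl
theorem c2_eq (t : T) : t.c2 = t.ch 2 := by cases t <;> rfl

theorem ch_node0 (a b c : T) : (T.node a b c).ch 0 = a := rfl
theorem ch_node1 (a b c : T) : (T.node a b c).ch 1 = b := rfl
theorem ch_node2 (a b c : T) : (T.node a b c).ch 2 = c := rfl
theorem ch_nil (i : Fin 3) : T.nil.ch i = T.nil := rfl
theorem ch_leaf (a : ℕ) (i : Fin 3) : (T.leaf a).ch i = T.nil := rfl

theorem fin3 (i : Fin 3) : i = 0 ∨ i = 1 ∨ i = 2 := by revert i; decide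

theorem ch_mk (a b c : T) (i : Fin 3) : (T.mk a b c).ch i = (T.node a b c).ch i := by
  rcases mk_cases a b c with h | ⟨rfl, rfl, rfl, h⟩
  · rw [h]
  · rcases fin3 i with rfl | rfl | rfl <;> rfl

theorem get_succ (L : ℕ) (t : T) (σ : Cfg (L + 1)) :
    get (L + 1) t σ = get L (t.ch (σ 0)) (Fin.tail σ) := by cases t <;> rfl

theorem get_cons (L : ℕ) (t : T) (i : Fin 3) (ρ : Cfg L) :
    get (L + 1) t (Fin.cons i ρ) = get L (t.ch i) ρ := by
  rw [get_succ, Fin.cons_zero, Fin.tail_cons]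

theorem get_nil : ∀ (L : ℕ) (σ : Cfg L), get L T.nil σ = 0
  | 0, _ => rfl
  | L + 1, σ => by rw [get_succ, ch_nil, get_nil L]

theorem dep_nil (L : ℕ) : Dep L T.nil := by cases L <;> trivial

theorem dep_node {L : ℕ} {a b c : T} : Dep (L + 1) (T.node a b c) ↔ Dep L a ∧ Dep L b ∧ Dep L c :=
  Iff.rfl

theorem dep_mk {L : ℕ} {a b c : T} (ha : Dep L a) (hb : Dep L b) (hc : Dep L c) :
    Dep (L + 1) (T.mk a b c) := by
  rcases mk_cases a b c with h | ⟨-, -, -, h⟩ <;> rw [h]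
  exacts [⟨ha, hb, hc⟩, dep_nil _]

theorem bd_mk {B : ℕ} {a b c : T} (ha : Bd B a) (hb : Bd B b) (hc : Bd B c) :
    Bd B (T.mk a b c) := by
  rcases mk_cases a b c with h | ⟨-, -, -, h⟩ <;> rw [h]
  exacts [⟨ha, hb, hc⟩, trivial]

theorem dep_ch {L : ℕ} {t : T} (h : Dep (L + 1) t) (i : Fin 3) : Dep L (t.ch i) := by
  cases t with
  | nil => exact dep_nil L
  | leaf a => exact dep_nil L
  | node a b c =>
    rcases fin3 i with rfl | rfl | rfl
    exacts [h.1, h.2.1, h.2.2]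

theorem bd_ch {B : ℕ} {t : T} (h : Bd B t) (i : Fin 3) : Bd B (t.ch i) := by
  cases t with
  | nil => trivial
  | leaf a => trivial
  | node a b c =>
    rcases fin3 i with rfl | rfl | rfl
    exacts [h.1, h.2.1, h.2.2]

theorem bd_mono {B B' : ℕ} (hB : B ≤ B') : ∀ {t : T}, Bd B t → Bd B' t
  | T.nil, _ => trivial
  | T.leaf _, h => le_trans h hB
  | T.node _ _ _, h => ⟨bd_mono hB h.1, bd_mono hB h.2.1, bd_mono hB h.2.2⟩

/-! ### `add` -/

theorem dep_add : ∀ {L : ℕ} {x y : T}, Dep L x → Dep L y → Dep L (x.add y)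
  | _, T.nil, _, _, h => h
  | _, T.leaf _, T.nil, h, _ => h
  | _, T.node _ _ _, T.nil, h, _ => h
  | 0, T.leaf _, T.leaf _, _, _ => trivial
  | _ + 1, T.leaf _, T.leaf _, h, _ => h.elim
  | _, T.leaf _, T.node _ _ _, h, _ => h
  | _, T.node _ _ _, T.leaf _, h, _ => h
  | 0, T.node _ _ _, T.node _ _ _, h, _ => h.elim
  | _ + 1, T.node _ _ _, T.node _ _ _, h, h' =>
    ⟨dep_add h.1 h'.1, dep_add h.2.1 h'.2.1, dep_add h.2.2 h'.2.2⟩

theorem bd_add {A B : ℕ} : ∀ {x y : T}, Bd A x → Bd B y → Bd (A + B) (x.add y)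
  | T.nil, _, _, h => bd_mono (Nat.le_add_left _ _) h
  | T.leaf a, T.nil, h, _ => bd_mono (t := T.leaf a) (Nat.le_add_right _ _) h
  | T.node a b c, T.nil, h, _ => bd_mono (t := T.node a b c) (Nat.le_add_right _ _) h
  | T.leaf _, T.leaf _, h, h' => Nat.add_le_add h h'
  | T.leaf a, T.node _ _ _, h, _ => bd_mono (t := T.leaf a) (Nat.le_add_right _ _) h
  | T.node a b c, T.leaf _, h, _ => bd_mono (t := T.node a b c) (Nat.le_add_right _ _) h
  | T.node _ _ _, T.node _ _ _, h, h' =>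
    ⟨bd_add h.1 h'.1, bd_add h.2.1 h'.2.1, bd_add h.2.2 h'.2.2⟩

theorem get_add : ∀ {L : ℕ} {x y : T}, Dep L x → Dep L y → ∀ σ : Cfg L,
    get L (x.add y) σ = get L x σ + get L y σ
  | _, T.nil, _, _, _, σ => by rw [add_nil_left, get_nil, Nat.zero_add]
  | _, T.leaf _, T.nil, _, _, σ => by rw [add_nil_right, get_nil, Nat.add_zero]
  | _, T.node _ _ _, T.nil, _, _, σ => by rw [add_nil_right, get_nil, Nat.add_zero]
  | 0, T.leaf _, T.leaf _, _, _, _ => rfl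
  | _ + 1, T.leaf _, T.leaf _, h, _, _ => h.elim
  | 0, T.leaf _, T.node _ _ _, _, h, _ => h.elim
  | _ + 1, T.leaf _, T.node _ _ _, h, _, _ => h.elim
  | 0, T.node _ _ _, T.leaf _, h, _, _ => h.elim
  | _ + 1, T.node _ _ _, T.leaf _, _, h, _ => h.elim
  | 0, T.node _ _ _, T.node _ _ _, h, _, _ => h.elim
  | _ + 1, T.node _ _ _, T.node _ _ _, h, h', σ => by
    rw [add_node, get_succ, get_succ, get_succ]
    rcases fin3 (σ 0) with e | e | e <;> rw [e]
    exacts [get_add h.1 h'.1 _, get_add h.2.1 h'.2.1 _, get_add h.2.2 h'.2.2 _]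

/-! ### `map` -/

theorem dep_map (f : ℕ → ℕ) : ∀ {L : ℕ} {t : T}, Dep L t → Dep L (t.map f)
  | _, T.nil, h => h
  | 0, T.leaf _, _ => trivial
  | _ + 1, T.leaf _, h => h.elim
  | 0, T.node _ _ _, h => h.elim
  | _ + 1, T.node _ _ _, h => ⟨dep_map f h.1, dep_map f h.2.1, dep_map f h.2.2⟩

theorem bd_map {f : ℕ → ℕ} {B C : ℕ} (hf : ∀ x ≤ B, f x ≤ C) : ∀ {t : T}, Bd B t → Bd C (t.map f)
  | T.nil, _ => trivial
  | T.leaf a, h => hf a h
  | T.node _ _ _, h => ⟨bd_map hf h.1, bd_map hf h.2.1, bd_map hf h.2.2⟩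

theorem get_map {R : Type} [CommRing R] {f : ℕ → ℕ} {B : ℕ} {c : R}
    (hf : ∀ x ≤ B, (f x : R) = c * x) :
    ∀ (L : ℕ) {t : T}, Bd B t → ∀ σ : Cfg L, (get L (t.map f) σ : R) = c * get L t σ
  | L, T.nil, _, σ => by
    change (get L T.nil σ : R) = _
    simp [get_nil]
  | 0, T.leaf a, h, _ => hf a h
  | L + 1, T.leaf a, _, σ => by
    change (get (L + 1) (T.leaf (f a)) σ : R) = _
    simp [get_succ, ch_leaf, get_nil]
  | 0, T.node _ _ _, _, _ => by
    change ((0 : ℕ) : R) = c * ((0 : ℕ) : R)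
    simp
  | L + 1, T.node a b c, h, σ => by
    change (get (L + 1) (T.node (a.map f) (b.map f) (c.map f)) σ : R) = _
    rw [get_succ, get_succ]
    rcases fin3 (σ 0) with e | e | e <;> rw [e]
    exacts [get_map hf L h.1 _, get_map hf L h.2.1 _, get_map hf L h.2.2 _]

theorem get_neg {K B N L : ℕ} (hK : B ≤ K) (hN : N ∣ K) {t : T} (h : Bd B t) (σ : Cfg L) :
    (get L (t.neg K) σ : ZMod N) = -(get L t σ : ZMod N) := by
  rw [← neg_one_mul]
  refine get_map (fun x hx => ?_) L h σ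
  change ((K - x : ℕ) : ZMod N) = _
  rw [Nat.cast_sub (hx.trans hK), (ZMod.natCast_eq_zero_iff K N).2 hN]
  ring

theorem bd_neg {K B : ℕ} {t : T} (h : Bd B t) : Bd K (t.neg K) :=
  bd_map (fun x _ => Nat.sub_le K x) h

/-! ### `diag` -/

theorem dleaf_le (K p m x : ℕ) : dleaf K p m x ≤ K + p * x := by
  unfold dleaf
  cases Nat.ble m p
  · exact (Nat.sub_le _ _).trans (Nat.le_add_right _ _)
  · cases Nat.ble p m
    · exact Nat.add_le_add_left (Nat.mul_le_mul_right x (Nat.sub_le p m)) K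
    · exact Nat.le_add_right _ _

theorem dleaf_cast {K N p m x : ℕ} (hN : N ∣ K) (h : m * x ≤ K) :
    (dleaf K p m x : ZMod N) = ((p : ZMod N) - m) * x := by
  have hK := (ZMod.natCast_eq_zero_iff K N).2 hN
  unfold dleaf
  cases h1 : Nat.ble m p
  · have h2 : p ≤ m := by
      have := Nat.not_le_of_not_ble_eq_true (by rw [h1]; exact Bool.false_ne_true)
      omega
    change ((K - (m - p) * x : ℕ) : ZMod N) = _
    rw [Nat.cast_sub ((Nat.mul_le_mul_right x (Nat.sub_le m p)).trans h), hK, Nat.cast_mul,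
      Nat.cast_sub h2]
    ring
  · have h2 : m ≤ p := Nat.le_of_ble_eq_true h1
    cases h3 : Nat.ble p m
    · change ((K + (p - m) * x : ℕ) : ZMod N) = _
      rw [Nat.cast_add, hK, Nat.cast_mul, Nat.cast_sub h2, zero_add]
    · have h4 : p = m := le_antisymm (Nat.le_of_ble_eq_true h3) h2
      change ((K : ℕ) : ZMod N) = _
      rw [hK, h4, sub_self, zero_mul]

section diag
variable (K g p0 m0 p2 m2 : ℕ)

theorem diag_leaf (x s p m : ℕ) : T.diag K g p0 m0 p2 m2 (T.leaf x) s p m = T.leaf (dleaf K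
    (p + if s = 0 then p0 else if s = 2 then p2 else 0)
    (m + if s = 0 then m0 else if s = 2 then m2 else 0) x) := by
  rcases s with _ | _ | _ | s <;> rfl

theorem diag_node (a b c : T) (s p m : ℕ) : T.diag K g p0 m0 p2 m2 (T.node a b c) s p m =
    T.node (T.diag K g p0 m0 p2 m2 a 0 (if s = 0 then p + g else p) (if s = 2 then m + g else m))
      (T.diag K g p0 m0 p2 m2 b 1 p m)
      (T.diag K g p0 m0 p2 m2 c 2 (if s = 2 then p + g else p) (if s = 0 then m + g else m)) := by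
  rcases s with _ | _ | _ | s <;> rfl

theorem dep_diag : ∀ {L : ℕ} {t : T} (s p m : ℕ), Dep L t → Dep L (T.diag K g p0 m0 p2 m2 t s p m)
  | _, T.nil, _, _, _, h => h
  | 0, T.leaf _, _, _, _, _ => trivial
  | _ + 1, T.leaf _, _, _, _, h => h.elim
  | 0, T.node _ _ _, _, _, _, h => h.elim
  | _ + 1, T.node _ _ _, _, _, _, h => ⟨dep_diag _ _ _ h.1, dep_diag _ _ _ h.2.1, dep_diag _ _ _ h.2.2⟩

theorem bd_diag {B C : ℕ} : ∀ {L : ℕ} {t : T} (s p m : ℕ), Dep L t → Bd B t →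
    p + g * L + p0 + p2 ≤ C → Bd (K + C * B) (T.diag K g p0 m0 p2 m2 t s p m)
  | _, T.nil, _, _, _, _, _, _ => trivial
  | 0, T.leaf x, s, p, m, _, h, hC => by
    rw [diag_leaf]
    refine (dleaf_le _ _ _ _).trans (Nat.add_le_add_left (Nat.mul_le_mul ?_ h) K)
    split_ifs <;> omega
  | _ + 1, T.leaf _, _, _, _, h, _, _ => h.elim
  | 0, T.node _ _ _, _, _, _, h, _, _ => h.elim
  | L + 1, T.node _ _ _, s, p, m, h, h', hC => by
    rw [diag_node]
    rw [Nat.mul_succ] at hC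
    refine ⟨bd_diag _ _ _ h.1 h'.1 ?_, bd_diag _ _ _ h.2.1 h'.2.1 (by omega),
      bd_diag _ _ _ h.2.2 h'.2.2 ?_⟩ <;> split_ifs <;> omega

/-- the term added at a leaf -/
def endT (a : Fin 3) : ℤ :=
  if a = 0 then (p0 : ℤ) - m0 else if a = 2 then (p2 : ℤ) - m2 else 0

theorem dOpen_cons (L : ℕ) (s i : Fin 3) (ρ : Cfg L) :
    dOpen (L + 2) (Fin.cons s (Fin.cons i ρ)) =
      magneticNumber s * magneticNumber i + dOpen (L + 1) (Fin.cons i ρ) := rfl

theorem get_diag {B N : ℕ} (hK : 256 * B ≤ K) (hN : N ∣ K) :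
    ∀ {L : ℕ} {t : T} (s : Fin 3) (p m : ℕ), Dep L t → Bd B t → m + g * L + m0 + m2 ≤ 256 →
      ∀ σ : Cfg L, (get L (T.diag K g p0 m0 p2 m2 t s p m) σ : ZMod N) =
        (((p : ℤ) - m + g * dOpen (L + 1) (Fin.cons s σ) +
          endT p0 m0 p2 m2 ((Fin.cons s σ : Cfg (L + 1)) (Fin.last L)) : ℤ) : ZMod N) * get L t σ
  | L, T.nil, _, _, _, _, _, _, σ => by
    change (get L T.nil σ : ZMod N) = _
    simp [get_nil]
  | 0, T.leaf x, s, p, m, _, h, hC, σ => by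
    rw [diag_leaf]
    change (dleaf _ _ _ _ : ZMod N) =
      (((p : ℤ) - m + g * 0 + endT p0 m0 p2 m2 s : ℤ) : ZMod N) * (x : ZMod N)
    rw [dleaf_cast hN ((Nat.mul_le_mul (by split_ifs <;> omega) h).trans hK)]
    rcases fin3 s with rfl | rfl | rfl <;> simp [endT] <;> ring
  | _ + 1, T.leaf _, _, _, _, h, _, _, _ => h.elim
  | 0, T.node _ _ _, _, _, _, h, _, _, _ => h.elim
  | L + 1, T.node a b c, s, p, m, h, h', hC, σ => by
    obtain ⟨i, ρ, rfl⟩ : ∃ i ρ, σ = Fin.cons i ρ := ⟨_, _, (Fin.cons_self_tail σ).symm⟩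
    rw [diag_node, get_cons, get_cons, dOpen_cons, ← Fin.succ_last, Fin.cons_succ]
    rw [Nat.mul_succ] at hC
    rcases fin3 i with rfl | rfl | rfl
    · refine (get_diag hK hN 0 _ _ h.1 h'.1 (by split_ifs <;> omega) ρ).trans ?_
      rcases fin3 s with rfl | rfl | rfl <;> simp [magneticNumber, ch_node0] <;> ring
    · refine (get_diag hK hN 1 _ _ h.2.1 h'.2.1 (by omega) ρ).trans ?_
      simp [magneticNumber, ch_node1]
    · refine (get_diag hK hN 2 _ _ h.2.2 h'.2.2 (by split_ifs <;> omega) ρ).trans ?_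
      rcases fin3 s with rfl | rfl | rfl <;> simp [magneticNumber, ch_node2] <;> ring

end diag

/-! ### `up`, `dn` -/

theorem up_zero (t : T) : T.up 0 t = T.mk T.nil (t.ch 0) (t.ch 1) := by cases t <;> rfl
theorem dn_zero (t : T) : T.dn 0 t = T.mk (t.ch 1) (t.ch 2) T.nil := by cases t <;> rfl
theorem up_nil (d : ℕ) : T.up d T.nil = T.nil := by cases d <;> rfl
theorem dn_nil (d : ℕ) : T.dn d T.nil = T.nil := by cases d <;> rfl

theorem up_succ (d : ℕ) (t : T) :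
    T.up (d + 1) t = T.mk (T.up d (t.ch 0)) (T.up d (t.ch 1)) (T.up d (t.ch 2)) := by
  cases t
  · simp only [ch_nil, up_nil]; rfl
  · simp only [ch_leaf, up_nil]; rfl
  · rfl

theorem dn_succ (d : ℕ) (t : T) :
    T.dn (d + 1) t = T.mk (T.dn d (t.ch 0)) (T.dn d (t.ch 1)) (T.dn d (t.ch 2)) := by
  cases t
  · simp only [ch_nil, dn_nil]; rfl
  · simp only [ch_leaf, dn_nil]; rfl
  · rfl

theorem dep_up : ∀ {d : ℕ} {t : T}, Dep (d + 1) t → Dep (d + 1) (T.up d t)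
  | 0, _, h => by rw [up_zero]; exact dep_mk (dep_nil _) (dep_ch h _) (dep_ch h _)
  | _ + 1, _, h => by
    rw [up_succ]; exact dep_mk (dep_up (dep_ch h _)) (dep_up (dep_ch h _)) (dep_up (dep_ch h _))

theorem dep_dn : ∀ {d : ℕ} {t : T}, Dep (d + 1) t → Dep (d + 1) (T.dn d t)
  | 0, _, h => by rw [dn_zero]; exact dep_mk (dep_ch h _) (dep_ch h _) (dep_nil _)
  | _ + 1, _, h => by
    rw [dn_succ]; exact dep_mk (dep_dn (dep_ch h _)) (dep_dn (dep_ch h _)) (dep_dn (dep_ch h _))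

theorem bd_up {B : ℕ} : ∀ (d : ℕ) {t : T}, Bd B t → Bd B (T.up d t)
  | 0, _, h => by rw [up_zero]; exact bd_mk trivial (bd_ch h _) (bd_ch h _)
  | d + 1, _, h => by
    rw [up_succ]; exact bd_mk (bd_up d (bd_ch h _)) (bd_up d (bd_ch h _)) (bd_up d (bd_ch h _))

theorem bd_dn {B : ℕ} : ∀ (d : ℕ) {t : T}, Bd B t → Bd B (T.dn d t)
  | 0, _, h => by rw [dn_zero]; exact bd_mk (bd_ch h _) (bd_ch h _) trivial
  | d + 1, _, h => by
    rw [dn_succ]; exact bd_mk (bd_dn d (bd_ch h _)) (bd_dn d (bd_ch h _)) (bd_dn d (bd_ch h _))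

theorem get_up : ∀ (d : ℕ) (t : T) (σ : Cfg (d + 1)), get (d + 1) (T.up d t) σ =
    if σ (Fin.last d) ≠ 0 then
      get (d + 1) t (Function.update σ (Fin.last d) (dn3 (σ (Fin.last d)))) else 0
  | 0, t, σ => by
    obtain ⟨i, ρ, rfl⟩ : ∃ i ρ, σ = Fin.cons i ρ := ⟨_, _, (Fin.cons_self_tail σ).symm⟩
    rw [up_zero, get_cons, ch_mk, Fin.last_zero, Fin.cons_zero, Fin.update_cons_zero, get_cons]
    rcases fin3 i with rfl | rfl | rfl <;> rfl
  | d + 1, t, σ => by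
    obtain ⟨i, ρ, rfl⟩ : ∃ i ρ, σ = Fin.cons i ρ := ⟨_, _, (Fin.cons_self_tail σ).symm⟩
    rw [up_succ, get_cons, ch_mk, ← Fin.succ_last, Fin.cons_succ, ← Fin.cons_update, get_cons]
    rcases fin3 i with rfl | rfl | rfl <;> exact get_up d _ ρ

theorem get_dn : ∀ (d : ℕ) (t : T) (σ : Cfg (d + 1)), get (d + 1) (T.dn d t) σ =
    if σ (Fin.last d) ≠ 2 then
      get (d + 1) t (Function.update σ (Fin.last d) (up3 (σ (Fin.last d)))) else 0
  | 0, t, σ => by
    obtain ⟨i, ρ, rfl⟩ : ∃ i ρ, σ = Fin.cons i ρ := ⟨_, _, (Fin.cons_self_tail σ).symm⟩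
    rw [dn_zero, get_cons, ch_mk, Fin.last_zero, Fin.cons_zero, Fin.update_cons_zero, get_cons]
    rcases fin3 i with rfl | rfl | rfl <;> rfl
  | d + 1, t, σ => by
    obtain ⟨i, ρ, rfl⟩ : ∃ i ρ, σ = Fin.cons i ρ := ⟨_, _, (Fin.cons_self_tail σ).symm⟩
    rw [dn_succ, get_cons, ch_mk, ← Fin.succ_last, Fin.cons_succ, ← Fin.cons_update, get_cons]
    rcases fin3 i with rfl | rfl | rfl <;> exact get_dn d _ ρ

theorem dep_PA {d : ℕ} {t : T} (h : Dep (d + 2) t) : Dep (d + 2) (PA d t) := by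
  rw [PA, c1_eq, c2_eq]
  exact dep_mk (dep_up (dep_ch h _)) (dep_up (dep_ch h _)) (dep_nil _)

theorem dep_PB {d : ℕ} {t : T} (h : Dep (d + 2) t) : Dep (d + 2) (PB d t) := by
  rw [PB, c0_eq, c1_eq]
  exact dep_mk (dep_nil _) (dep_dn (dep_ch h _)) (dep_dn (dep_ch h _))

theorem bd_PA {B : ℕ} (d : ℕ) {t : T} (h : Bd B t) : Bd B (PA d t) := by
  rw [PA, c1_eq, c2_eq]
  exact bd_mk (bd_up d (bd_ch h _)) (bd_up d (bd_ch h _)) trivial

theorem bd_PB {B : ℕ} (d : ℕ) {t : T} (h : Bd B t) : Bd B (PB d t) := by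
  rw [PB, c0_eq, c1_eq]
  exact bd_mk trivial (bd_dn d (bd_ch h _)) (bd_dn d (bd_ch h _))

theorem get_PA (d : ℕ) (t : T) (σ : Cfg (d + 2)) :
    get (d + 2) (PA d t) σ = perA (d + 1) (get (d + 2) t) σ := by
  obtain ⟨i, ρ, rfl⟩ : ∃ i ρ, σ = Fin.cons i ρ := ⟨_, _, (Fin.cons_self_tail σ).symm⟩
  rw [PA, c1_eq, c2_eq, get_cons, ch_mk, perA, ← Fin.succ_last, Fin.cons_succ, Fin.cons_zero,
    Fin.update_cons_zero, ← Fin.cons_update, get_cons]
  rcases fin3 i with rfl | rfl | rfl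
  · rw [ch_node0, get_up]; simp [up3]
  · rw [ch_node1, get_up]; simp [up3]
  · rw [ch_node2, get_nil]; simp

theorem get_PB (d : ℕ) (t : T) (σ : Cfg (d + 2)) :
    get (d + 2) (PB d t) σ = perB (d + 1) (get (d + 2) t) σ := by
  obtain ⟨i, ρ, rfl⟩ : ∃ i ρ, σ = Fin.cons i ρ := ⟨_, _, (Fin.cons_self_tail σ).symm⟩
  rw [PB, c0_eq, c1_eq, get_cons, ch_mk, perB, ← Fin.succ_last, Fin.cons_succ, Fin.cons_zero,
    Fin.update_cons_zero, ← Fin.cons_update, get_cons]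
  rcases fin3 i with rfl | rfl | rfl
  · rw [ch_node0, get_nil]; simp
  · rw [ch_node1, get_dn]; simp [dn3]
  · rw [ch_node2, get_dn]; simp [dn3]

/-! ### `hop` -/

theorem hopO_cons {R : Type} [AddCommMonoid R] (L : ℕ) (x : Cfg (L + 2) → R) (i j : Fin 3)
    (ρ : Cfg L) : hopO (L + 2) x (Fin.cons i (Fin.cons j ρ)) =
      (if i ≠ 2 ∧ j ≠ 0 then x (Fin.cons (up3 i) (Fin.cons (dn3 j) ρ)) else 0) +
      (if i ≠ 0 ∧ j ≠ 2 then x (Fin.cons (dn3 i) (Fin.cons (up3 j) ρ)) else 0) +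
      hopO (L + 1) (fun τ => x (Fin.cons i τ)) (Fin.cons j ρ) := rfl

theorem exists_cons2 {L : ℕ} (σ : Cfg (L + 2)) :
    ∃ (i j : Fin 3) (ρ : Cfg L), σ = Fin.cons i (Fin.cons j ρ) :=
  ⟨σ 0, Fin.tail σ 0, Fin.tail (Fin.tail σ), by rw [Fin.cons_self_tail, Fin.cons_self_tail]⟩

theorem map_hopO {R S : Type} [AddCommMonoid R] [AddCommMonoid S] (f : R →+ S) :
    ∀ (L : ℕ) (x : Cfg L → R) (σ : Cfg L), f (hopO L x σ) = hopO L (fun τ => f (x τ)) σ
  | 0, _, _ => map_zero f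
  | 1, _, _ => map_zero f
  | L + 2, x, σ => by
    obtain ⟨i, j, ρ, rfl⟩ := exists_cons2 σ
    rw [hopO_cons, hopO_cons, map_add, map_add, map_hopO f (L + 1), apply_ite f, apply_ite f,
      map_zero]

theorem hop_succ (d : ℕ) (a b c acc : T) : hop (d + 1) (T.node a b c) acc = T.mk
    (hop d a (T.mk acc.c0.c0 (acc.c0.c1.add b.c0) (acc.c0.c2.add b.c1)))
    (hop d b (T.mk (acc.c1.c0.add a.c1) ((acc.c1.c1.add a.c2).add c.c0) (acc.c1.c2.add c.c1)))
    (hop d c (T.mk (acc.c2.c0.add b.c1) (acc.c2.c1.add b.c2) acc.c2.c2)) := rfl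

theorem hop_spec : ∀ (d : ℕ) {t acc : T}, Dep (d + 1) t → Dep (d + 1) acc →
    Dep (d + 1) (hop d t acc) ∧ ∀ σ, get (d + 1) (hop d t acc) σ =
      get (d + 1) acc σ + hopO (d + 1) (get (d + 1) t) σ
  | 0, _, _, _, h => ⟨h, fun _ => rfl⟩
  | d + 1, T.nil, acc, _, h => ⟨h, fun σ => by
      have h1 := map_hopO (0 : ℕ →+ ℕ) (d + 2) (fun _ => 0) σ
      have h2 : get (d + 2) T.nil = fun _ => 0 := funext (get_nil _)
      rw [h2]
      exact congrArg (get (d + 2) acc σ + ·) h1⟩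
  | _ + 1, T.leaf _, _, h, _ => h.elim
  | d + 1, T.node a b c, acc, ⟨ha, hb, hc⟩, h => by
    have A : ∀ i j, Dep d ((acc.ch i).ch j) := fun i j => dep_ch (dep_ch h i) j
    rw [hop_succ]
    simp only [c0_eq, c1_eq, c2_eq]
    have h0 := hop_spec d ha (dep_mk (A 0 0) (dep_add (A 0 1) (dep_ch hb 0))
      (dep_add (A 0 2) (dep_ch hb 1)))
    have h1 := hop_spec d hb (dep_mk (dep_add (A 1 0) (dep_ch ha 1))
      (dep_add (dep_add (A 1 1) (dep_ch ha 2)) (dep_ch hc 0)) (dep_add (A 1 2) (dep_ch hc 1)))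
    have h2 := hop_spec d hc (dep_mk (dep_add (A 2 0) (dep_ch hb 1))
      (dep_add (A 2 1) (dep_ch hb 2)) (A 2 2))
    refine ⟨dep_mk h0.1 h1.1 h2.1, fun σ => ?_⟩
    obtain ⟨i, j, ρ, rfl⟩ := exists_cons2 σ
    rw [hopO_cons, get_cons, ch_mk]
    rcases fin3 i with rfl | rfl | rfl
    · rw [ch_node0, h0.2, get_cons, ch_mk]
      simp only [get_cons]
      rcases fin3 j with rfl | rfl | rfl <;>
        simp [ch_node0, ch_node1, ch_node2, up3, dn3, get_add (A _ _) (dep_ch hb _), add_assoc]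
    · rw [ch_node1, h1.2, get_cons, ch_mk]
      simp only [get_cons]
      rcases fin3 j with rfl | rfl | rfl <;>
        simp [ch_node0, ch_node1, ch_node2, up3, dn3, get_add (A _ _) (dep_ch ha _),
          get_add (A _ _) (dep_ch hc _), get_add (dep_add (A 1 1) (dep_ch ha 2)) (dep_ch hc 0),
          add_assoc, add_left_comm]
    · rw [ch_node2, h2.2, get_cons, ch_mk]
      simp only [get_cons]
      rcases fin3 j with rfl | rfl | rfl <;>
        simp [ch_node0, ch_node1, ch_node2, up3, dn3, get_add (A _ _) (dep_ch hb _), add_assoc]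

theorem bd_hop {B : ℕ} : ∀ (d : ℕ) {A : ℕ} {t acc : T}, Bd B t → Bd A acc →
    Bd (A + 2 * d * B) (hop d t acc)
  | 0, _, _, _, _, h => bd_mono (Nat.le_add_right _ _) h
  | _ + 1, _, T.nil, _, _, h => bd_mono (Nat.le_add_right _ _) h
  | _ + 1, _, T.leaf _, _, _, h => bd_mono (Nat.le_add_right _ _) h
  | d + 1, A, T.node a b c, acc, ⟨ha, hb, hc⟩, h => by
    have H : ∀ i j, Bd A ((acc.ch i).ch j) := fun i j => bd_ch (bd_ch h i) j
    have H0 : ∀ i j, Bd (A + B + B) ((acc.ch i).ch j) := fun i j => bd_mono (by omega) (H i j)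
    have H1 : ∀ i j k {x : T}, Bd B x → Bd (A + B + B) (((acc.ch i).ch j).add (x.ch k)) :=
      fun i j k x hx => bd_mono (by omega) (bd_add (H i j) (bd_ch hx k))
    rw [hop_succ, show A + 2 * (d + 1) * B = A + B + B + 2 * d * B by ring]
    simp only [c0_eq, c1_eq, c2_eq]
    exact bd_mk (bd_hop d ha (bd_mk (H0 _ _) (H1 _ _ _ hb) (H1 _ _ _ hb)))
      (bd_hop d hb (bd_mk (H1 _ _ _ ha) (bd_add (bd_add (H _ _) (bd_ch ha _)) (bd_ch hc _))
        (H1 _ _ _ hc)))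
      (bd_hop d hc (bd_mk (H1 _ _ _ hb) (H1 _ _ _ hb) (H0 _ _)))

end Crest.Agent.R347.TS
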